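/-
Row 269, P1 Section 5: interface 4|5 and shared definitions.  Owner: captain helper264.

* `SliceMero`   joint meromorphy in the only form Section 5 uses: locally `F = g/k`, `g,k` analytic,
                `k` not identically zero on the horizontal slice through the point;
* `Sec4 G`      EVERYTHING Section 5 (and, through `Shape`, Sections 6-11) gets from Section 4;
* `BaseLift G`  a zero-mean impact lift on a thin strip about the real axis (mean normalisation (5.23));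
* `Sec4.Γ, Zc, Wc, a2, fm, am`   the curve and the meromorphic normal of (5.2);
* `Lifted G`    the output of Theorem 5.4 (= `Shape` without the potential `q`).

Plan of the section: origin/helper264:notes269/S5-architecture.md.
-/
import Claimed.Agent.R269.Shape

set_option autoImplicit false

namespace Claimed.Agent.R269

open Complex ComplexConjugate Filter Topology MeasureTheory
open scoped ENNReal Real

/-- Near every point of `W` the function is a quotient `g/k` of analytic functions whose denominator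
does not vanish identically on the horizontal slice (`t` fixed) through the point.  Values of `F` on
`k = 0` are junk. -/
def SliceMero (F : ℂ × ℂ → ℂ) (W : Set (ℂ × ℂ)) : Prop :=
  ∀ z ∈ W, ∃ g k : ℂ × ℂ → ℂ, AnalyticAt ℂ g z ∧ AnalyticAt ℂ k z ∧
    (¬ ∀ᶠ y in 𝓝 z.1, k (y, z.2) = 0) ∧ ∀ᶠ w in 𝓝 z, k w ≠ 0 → F w = g w / k w

namespace Glance

/-- the joint tube of the line field. -/
def tubeL (G : Glance) (ρ : ℝ) : Set (ℂ × ℂ) :=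
  {z | z.2 ∈ Metric.ball (0 : ℂ) ρ ∧ ENNReal.ofReal z.1.im < G.hL z.2 ∧
    ENNReal.ofReal (-z.1.im) < G.hL (conj z.2)}

end Glance

/-- The output of Section 4 for the glancing context `G`. -/
structure Sec4 (G : Glance) where
  ρ : ℝ
  ρ_pos : 0 < ρ
  ρ_le : ρ ≤ G.r₁
  width_rel : ∀ t ∈ Metric.ball (0 : ℂ) ρ, G.hL t = G.hX t + ENNReal.ofReal (|t.im| / 2)
  lsc_X : LowerSemicontinuousOn G.hX (Metric.ball 0 ρ)
  lsc_L : LowerSemicontinuousOn G.hL (Metric.ball 0 ρ)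
  supermean_X : SuperMeanOn G.hX ρ
  supermean_L : SuperMeanOn G.hL ρ
  no_patch_X : ∀ t₀ : ℝ, |t₀| < ρ → ∀ y₁ : ℂ, ENNReal.ofReal y₁.im = G.hX t₀ →
    ¬ G.JointPatchAt G.X0 y₁ t₀
  no_patch_L : ∀ t₀ : ℝ, |t₀| < ρ → ∀ y₁ : ℂ, ENNReal.ofReal y₁.im = G.hL t₀ →
    ¬ G.JointPatchAt G.L0 y₁ t₀
  /-- the maximal primary extension of the impact map -/
  X : ℂ × ℂ → ℂ × ℂ
  X_mero₁ : SliceMero (fun z => (X z).1) (G.tube ρ)
  X_mero₂ : SliceMero (fun z => (X z).2) (G.tube ρ)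
  X_base : ∀ z ∈ hstrip (G.s / 2) ×ˢ Metric.ball (0 : ℂ) ρ, X z = G.X0 z
  /-- the maximal primary extension of the line map (chart `(exp 2iΘ, p exp iΘ)`) -/
  L : ℂ × ℂ → ℂ × ℂ
  L_mero₁ : SliceMero (fun z => (L z).1) (G.tubeL ρ)
  L_mero₂ : SliceMero (fun z => (L z).2) (G.tubeL ρ)
  L_base : ∀ z ∈ hstrip (G.s / 2) ×ˢ Metric.ball (0 : ℂ) ρ, L z = G.L0 z
  /-- Corollary 4.9 for the zero slice of `X` -/
  nat_bdry : ∀ s₀ : ℂ, ENNReal.ofReal |s₀.im| = G.Hs →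
    ¬ ∃ (ε : ℝ) (P : ℂ → ℂ × ℂ), 0 < ε ∧ MeromorphicOn (fun s => (P s).1) (Metric.ball s₀ ε) ∧
      MeromorphicOn (fun s => (P s).2) (Metric.ball s₀ ε) ∧
      ∀ s ∈ Metric.ball s₀ ε ∩ estrip G.Hs, P =ᶠ[𝓝[≠] s] fun s' => X (s', 0)

/-- A zero-mean impact lift on a thin strip about the real axis. -/
structure BaseLift (G : Glance) where
  w : ℝ
  w_pos : 0 < w
  w_le : w ≤ G.s / 4
  ρ₀ : ℝ
  ρ₀_pos : 0 < ρ₀
  ρ₀_le : ρ₀ ≤ G.r₁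
  ℓ : ℂ × ℂ → ℂ
  diff : DifferentiableOn ℂ ℓ (hstrip w ×ˢ Metric.ball (0 : ℂ) ρ₀)
  mem : ∀ z ∈ hstrip w ×ˢ Metric.ball (0 : ℂ) ρ₀, ℓ z ∈ hstrip (G.s / 2)
  eq : ∀ z ∈ hstrip w ×ˢ Metric.ball (0 : ℂ) ρ₀, G.X0 z = G.Γ0 (ℓ z)
  zero : ∀ y ∈ hstrip w, ℓ (y, 0) = y
  per : ∀ z ∈ hstrip w ×ˢ Metric.ball (0 : ℂ) ρ₀, ℓ (z.1 + 2 * π, z.2) = ℓ z + 2 * π
  even : ∀ z ∈ hstrip w ×ˢ Metric.ball (0 : ℂ) ρ₀, ℓ (z.1, -z.2) = ℓ z
  real : ∀ z ∈ hstrip w ×ˢ Metric.ball (0 : ℂ) ρ₀, ℓ (conj z.1, conj z.2) = conj (ℓ z)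
  mean : ∀ t ∈ Metric.ball (0 : ℂ) ρ₀, ∫ x in (0 : ℝ)..(2 * π), (ℓ ((x : ℂ), t) - x) = 0

namespace Sec4

variable {G : Glance} (S : Sec4 G)

/-- the curve `Γ(s) = X(s,0)` on the shape strip (junk at isolated points). -/
def Γ (s : ℂ) : ℂ × ℂ := S.X (s, 0)

/-- isotropic coordinate `Z = x₁ + i x₂`. -/
noncomputable def Zc (s : ℂ) : ℂ := (S.Γ s).1 + I * (S.Γ s).2

/-- isotropic coordinate `W = x₁ - i x₂`. -/
noncomputable def Wc (s : ℂ) : ℂ := (S.Γ s).1 - I * (S.Γ s).2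

/-- `a² = -Z'/W'`. -/
noncomputable def a2 (s : ℂ) : ℂ := - deriv S.Zc s / deriv S.Wc s

/-- `f = (a²)'/(2 i a²)`. -/
noncomputable def fm (s : ℂ) : ℂ := deriv S.a2 s / (2 * I * S.a2 s)

/-- `a = f² Z'/(i c)`. -/
noncomputable def am (s : ℂ) : ℂ := S.fm s ^ 2 * deriv S.Zc s / (I * G.c)

/-- an isotropic centre: a zero or a pole of `a` in the shape strip. -/
def IsCenter (p : ℂ) : Prop := p ∈ estrip G.Hs ∧ meromorphicOrderAt S.am p ≠ 0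

end Sec4

/-- The output of Theorem 5.4 and of the normalisation (5.23)-(5.24): a `Shape` without `q`. -/
structure Lifted (G : Glance) where
  ρ : ℝ
  ρ_pos : 0 < ρ
  ρ_le : ρ ≤ G.r₁
  φ : ℂ → ℂ
  Γ : ℂ → ℂ × ℂ
  lift : ℂ × ℂ → ℂ
  width_rel : ∀ t ∈ Metric.ball (0 : ℂ) ρ, G.hL t = G.hX t + ENNReal.ofReal (|t.im| / 2)
  lsc_X : LowerSemicontinuousOn G.hX (Metric.ball 0 ρ)
  lsc_L : LowerSemicontinuousOn G.hL (Metric.ball 0 ρ)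
  supermean_X : SuperMeanOn G.hX ρ
  supermean_L : SuperMeanOn G.hL ρ
  no_patch_X : ∀ t₀ : ℝ, |t₀| < ρ → ∀ y₁ : ℂ, ENNReal.ofReal y₁.im = G.hX t₀ →
    ¬ G.JointPatchAt G.X0 y₁ t₀
  no_patch_L : ∀ t₀ : ℝ, |t₀| < ρ → ∀ y₁ : ℂ, ENNReal.ofReal y₁.im = G.hL t₀ →
    ¬ G.JointPatchAt G.L0 y₁ t₀
  φ_diff : DifferentiableOn ℂ φ (estrip G.Hs)
  φ_base : ∀ y ∈ hstrip (G.s / 2), φ y = G.Θ y 0
  φ_per : ∀ s ∈ estrip G.Hs, φ (s + 2 * π) = φ s + 2 * π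
  φ_conj : ∀ s ∈ estrip G.Hs, φ (conj s) = conj (φ s)
  noncircular : ¬ ∃ c₁ : ℂ, ∀ s ∈ estrip G.Hs, deriv φ s = c₁
  Γ_mero : MeromorphicOn (fun s => (Γ s).1) (estrip G.Hs) ∧
    MeromorphicOn (fun s => (Γ s).2) (estrip G.Hs)
  Γ_base : ∀ y ∈ hstrip (G.s / 2), Γ y = G.Γ0 y
  Γ_deriv : ∀ s ∈ estrip G.Hs, deriv φ s ≠ 0 →
    HasDerivAt Γ ((G.c / deriv φ s ^ 2 : ℂ) • (-Complex.sin (φ s), Complex.cos (φ s))) s
  nat_bdry : ∀ s₀ : ℂ, ENNReal.ofReal |s₀.im| = G.Hs →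
    ¬ ∃ (ε : ℝ) (P : ℂ → ℂ × ℂ), 0 < ε ∧ MeromorphicOn (fun s => (P s).1) (Metric.ball s₀ ε) ∧
      MeromorphicOn (fun s => (P s).2) (Metric.ball s₀ ε) ∧
      ∀ s ∈ Metric.ball s₀ ε ∩ estrip G.Hs, P =ᶠ[𝓝[≠] s] Γ
  lift_diff : DifferentiableOn ℂ lift (G.tube ρ)
  lift_mem : ∀ z ∈ G.tube ρ, lift z ∈ estrip G.Hs
  lift_zero : ∀ y ∈ estrip G.Hs, lift (y, 0) = y
  lift_per : ∀ z ∈ G.tube ρ, lift (z.1 + 2 * π, z.2) = lift z + 2 * π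
  lift_even : ∀ z ∈ G.tube ρ, lift (z.1, -z.2) = lift z
  lift_conj : ∀ z ∈ G.tube ρ, lift (conj z.1, conj z.2) = conj (lift z)
  lift_base : ∀ z ∈ hstrip (G.s / 4) ×ˢ Metric.ball (0 : ℂ) ρ,
    lift z ∈ hstrip (G.s / 2) ∧ G.X0 z = G.Γ0 (lift z)
  lift_mean : ∀ t ∈ Metric.ball (0 : ℂ) ρ, ∫ x in (0 : ℝ)..(2 * π), (lift ((x : ℂ), t) - x) = 0
  lift_mono : ∀ t : ℝ, |t| < ρ → ∀ x : ℝ, 0 < (deriv (fun y => lift (y, (t : ℂ))) x).re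
  hX_le : ∀ t ∈ Metric.ball (0 : ℂ) ρ, G.hX t ≤ G.Hs
  /-- the line field, kept for Lemma 5.5 -/
  L : ℂ × ℂ → ℂ × ℂ
  L_mero₁ : SliceMero (fun z => (L z).1) (G.tubeL ρ)
  L_mero₂ : SliceMero (fun z => (L z).2) (G.tubeL ρ)
  L_base : ∀ z ∈ hstrip (G.s / 2) ×ˢ Metric.ball (0 : ℂ) ρ, L z = G.L0 z

/-- `Lifted` + the holomorphic potential = `Shape`. -/
def Lifted.toShape {G : Glance} (T : Lifted G) (q : ℂ → ℂ)
    (q_diff : DifferentiableOn ℂ q (estrip G.Hs))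
    (q_eq : ∀ s ∈ estrip G.Hs, deriv (deriv (deriv T.φ)) s = q s * deriv T.φ s) : Shape where
  G := G
  ρ := T.ρ
  ρ_pos := T.ρ_pos
  ρ_le := T.ρ_le
  φ := T.φ
  q := q
  Γ := T.Γ
  lift := T.lift
  width_rel := T.width_rel
  lsc_X := T.lsc_X
  lsc_L := T.lsc_L
  supermean_X := T.supermean_X
  supermean_L := T.supermean_L
  no_patch_X := T.no_patch_X
  no_patch_L := T.no_patch_L
  φ_diff := T.φ_diff
  φ_base := T.φ_base
  φ_per := T.φ_per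
  φ_conj := T.φ_conj
  q_diff := q_diff
  q_eq := q_eq
  noncircular := T.noncircular
  Γ_mero := T.Γ_mero
  Γ_base := T.Γ_base
  Γ_deriv := T.Γ_deriv
  nat_bdry := T.nat_bdry
  lift_diff := T.lift_diff
  lift_mem := T.lift_mem
  lift_zero := T.lift_zero
  lift_per := T.lift_per
  lift_even := T.lift_even
  lift_conj := T.lift_conj
  lift_base := T.lift_base
  lift_mean := T.lift_mean
  lift_mono := T.lift_mono
  hX_le := T.hX_le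

end Claimed.Agent.R269
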