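/-
Row 269, P1 Theorem 5.4 (global shape lift), SLICE method: definitions.  Owner: helper264.
Plan: origin/helper264:notes269/S5-architecture.md, part D.

For fixed `t` the slice of the tube is a horizontal strip `G.slice t`; `S.xs t = X(·,t)` is meromorphic
there; `S.Good t` is the (open, co-discrete, connected) set of its regular points; a *lift germ* at `y`
is an analytic `lam` with `Γ ∘ lam = X(·,t)` near `y`.
-/
import Claimed.Agent.R269.S5.Pre

set_option autoImplicit false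

namespace Claimed.Agent.R269

open Complex ComplexConjugate Filter Topology MeasureTheory
open scoped ENNReal Real

/-- bilinear Euclidean product on `ℂ × ℂ`. -/
def bdot (u v : ℂ × ℂ) : ℂ := u.1 * v.1 + u.2 * v.2

/-- determinant of two vectors of `ℂ × ℂ`. -/
def bdet (u v : ℂ × ℂ) : ℂ := u.1 * v.2 - u.2 * v.1

namespace Glance

/-- the slice `{y : (y,t) ∈ tube}`: the strip `-h_X(conj t) < Im y < h_X(t)`. -/
def slice (G : Glance) (t : ℂ) : Set ℂ :=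
  {y | ENNReal.ofReal y.im < G.hX t ∧ ENNReal.ofReal (-y.im) < G.hX (conj t)}

end Glance

/-- the curve data in the nonisotropic case (block S5a): holomorphic normal angle, curve in normal
form. -/
structure Curve {G : Glance} (S : Sec4 G) where
  φ : ℂ → ℂ
  Γ : ℂ → ℂ × ℂ
  φ_diff : DifferentiableOn ℂ φ (estrip G.Hs)
  φ_base : ∀ y ∈ hstrip (G.s / 2), φ y = G.Θ y 0
  φ_per : ∀ s ∈ estrip G.Hs, φ (s + 2 * π) = φ s + 2 * π
  φ_conj : ∀ s ∈ estrip G.Hs, φ (conj s) = conj (φ s)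
  Γ_mero : MeromorphicOn (fun s => (Γ s).1) (estrip G.Hs) ∧
    MeromorphicOn (fun s => (Γ s).2) (estrip G.Hs)
  Γ_base : ∀ y ∈ hstrip (G.s / 2), Γ y = G.Γ0 y
  Γ_deriv : ∀ s ∈ estrip G.Hs, deriv φ s ≠ 0 →
    HasDerivAt Γ ((G.c / deriv φ s ^ 2 : ℂ) • (-Complex.sin (φ s), Complex.cos (φ s))) s
  Γ_pole : ∀ s ∈ estrip G.Hs, deriv φ s = 0 → Tendsto (fun s' => ‖Γ s'‖) (𝓝[≠] s) atTop
  Γ_eq : ∀ s ∈ estrip G.Hs, Γ =ᶠ[𝓝[≠] s] S.Γ
  Γ_per : ∀ s ∈ estrip G.Hs, deriv φ s ≠ 0 → Γ (s + 2 * π) = Γ s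
  Γ_conj : ∀ s ∈ estrip G.Hs, deriv φ s ≠ 0 → Γ (conj s) = (conj (Γ s).1, conj (Γ s).2)

namespace Sec4

variable {G : Glance} (S : Sec4 G)

/-- the slice function `X(·,t)`. -/
def xs (t : ℂ) (y : ℂ) : ℂ × ℂ := S.X (y, t)

/-- regular points of the slice: `X` jointly analytic, `X_y·X_y ≠ 0`, `det(X_y,X_yy) ≠ 0`. -/
def Good (t : ℂ) : Set ℂ :=
  {y | y ∈ G.slice t ∧ AnalyticAt ℂ S.X (y, t) ∧
    bdot (deriv (S.xs t) y) (deriv (S.xs t) y) ≠ 0 ∧
    bdet (deriv (S.xs t) y) (deriv (deriv (S.xs t)) y) ≠ 0}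

/-- `det(x',x'')⁴ / (c² (x'·x')³)`, the sixth power of the derivative of every lift, (5.18). -/
noncomputable def rsix (t : ℂ) (y : ℂ) : ℂ :=
  bdet (deriv (S.xs t) y) (deriv (deriv (S.xs t)) y) ^ 4 /
    ((G.c : ℂ) ^ 2 * bdot (deriv (S.xs t) y) (deriv (S.xs t) y) ^ 3)

end Sec4

namespace Curve

variable {G : Glance} {S : Sec4 G} (C : Curve S)

/-- `lam` is a lift germ of the slice `X(·,t)` at `y`. -/
def IsLiftAt (t : ℂ) (lam : ℂ → ℂ) (y : ℂ) : Prop :=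
  AnalyticAt ℂ lam y ∧ lam y ∈ estrip G.Hs ∧ ∀ᶠ y' in 𝓝[≠] y, C.Γ (lam y') = S.X (y', t)

end Curve

/-- The context of the slice method: Section 4 data, a zero-mean base lift, the curve data, and a radius `r` such
that the real point `0` is a regular point of every slice `t ∈ ball 0 r`. -/
structure LiftCtx (G : Glance) where
  S : Sec4 G
  B : BaseLift G
  C : Curve S
  nonconst : ¬ ∃ c₁ : ℂ, ∀ x : ℝ, deriv G.φ₀ x = c₁
  r : ℝ
  r_pos : 0 < r
  r_le : r ≤ S.ρ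
  r_le' : r ≤ B.ρ₀
  good0 : ∀ t ∈ Metric.ball (0 : ℂ) r, (0 : ℂ) ∈ S.Good t

end Claimed.Agent.R269
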