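/-
Row 269, Theorem 5.4, package LF-S5d-basic (elementary) and LF-S5d-width.  Statements: helper264.
Proofs: helper255.  SORRY-FREE.
Strips, slices, the tube.  `le_hX`, `hX_neg` (package LF-S5d-width) unfold `Glance.width` / `ExtendsTo` /
`IsPrimaryExt` (R269/Cplx.lean) and use `analyticOnNhd_of_differentiableOn₂` (R269/Lib/SCV.lean):
* `le_hX`: `F := G.X0` itself is a primary extension to height `G.s` on `V := ball 0 r₁` (for `|Im y| < s`, `|t| < r₁ < s`
  the points `y ± t/2` lie in `hstrip (2 s)`, the mean of the two angles lies in the convex strip `hstrip σ`);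
* `hX_neg`: `(V,F) ↦ (-V, F(y,-t))`, using `Θ_even`.
-/
import Claimed.Agent.R269.S5.LiftDefs

set_option autoImplicit false

namespace Claimed.Agent.R269

open Complex ComplexConjugate Filter Topology MeasureTheory
open scoped ENNReal Real

/-! ### LF-S5d-basic -/

theorem isOpen_estrip (H : ℝ≥0∞) : IsOpen (estrip H) := by
  have hc : Continuous fun s : ℂ => ENNReal.ofReal |s.im| :=
    ENNReal.continuous_ofReal.comp (continuous_abs.comp Complex.continuous_im)
  exact isOpen_lt hc continuous_const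

/-- a half plane `{ofReal (ε Im y) < H}` is convex (`ε = ±1` is what is used). -/
theorem s5lb_convex_half (ε : ℝ) (H : ℝ≥0∞) :
    Convex ℝ {y : ℂ | ENNReal.ofReal (ε * y.im) < H} := by
  intro x hx y hy a b ha hb hab
  simp only [Set.mem_ofPred_eq] at hx hy ⊢
  have him : (a • x + b • y).im = a * x.im + b * y.im := by
    simp [Complex.add_im, Complex.real_smul]
  rw [him]
  have hle : ε * (a * x.im + b * y.im) ≤ max (ε * x.im) (ε * y.im) := by
    have h1 : ε * x.im ≤ max (ε * x.im) (ε * y.im) := le_max_left _ _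
    have h2 : ε * y.im ≤ max (ε * x.im) (ε * y.im) := le_max_right _ _
    calc ε * (a * x.im + b * y.im) = a * (ε * x.im) + b * (ε * y.im) := by ring
      _ ≤ a * max (ε * x.im) (ε * y.im) + b * max (ε * x.im) (ε * y.im) :=
          add_le_add (mul_le_mul_of_nonneg_left h1 ha) (mul_le_mul_of_nonneg_left h2 hb)
      _ = max (ε * x.im) (ε * y.im) := by rw [← add_mul, hab, one_mul]
  refine lt_of_le_of_lt (ENNReal.ofReal_le_ofReal hle) ?_
  rcases le_total (ε * x.im) (ε * y.im) with h | h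
  · rwa [max_eq_right h]
  · rwa [max_eq_left h]

theorem s5lb_ofReal_abs_lt {x : ℝ} {H : ℝ≥0∞} :
    ENNReal.ofReal |x| < H ↔ ENNReal.ofReal x < H ∧ ENNReal.ofReal (-x) < H := by
  rcases le_total 0 x with h | h
  · rw [abs_of_nonneg h]
    refine ⟨fun h1 => ⟨h1, ?_⟩, fun h1 => h1.1⟩
    rw [ENNReal.ofReal_of_nonpos (by linarith)]
    exact lt_of_le_of_lt zero_le h1
  · rw [abs_of_nonpos h]
    refine ⟨fun h1 => ⟨?_, h1⟩, fun h1 => h1.2⟩
    rw [ENNReal.ofReal_of_nonpos h]
    exact lt_of_le_of_lt zero_le h1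

theorem convex_estrip (H : ℝ≥0∞) : Convex ℝ (estrip H) := by
  have h : estrip H = {y : ℂ | ENNReal.ofReal (1 * y.im) < H} ∩
      {y : ℂ | ENNReal.ofReal ((-1) * y.im) < H} := by
    ext y
    simp only [estrip, Set.mem_ofPred_eq, Set.mem_inter_iff, one_mul, neg_mul]
    exact s5lb_ofReal_abs_lt
  rw [h]
  exact (s5lb_convex_half 1 H).inter (s5lb_convex_half (-1) H)

theorem estrip_add_real {H : ℝ≥0∞} {s : ℂ} (hs : s ∈ estrip H) (x : ℝ) : s + x ∈ estrip H := by
  simpa [estrip] using hs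

theorem estrip_conj {H : ℝ≥0∞} {s : ℂ} (hs : s ∈ estrip H) : conj s ∈ estrip H := by
  simpa [estrip] using hs

/-- a point of the closure of the strip which is not in the strip lies on an edge. -/
theorem estrip_frontier {H : ℝ≥0∞} {s : ℂ} (hs : s ∈ closure (estrip H)) (hn : s ∉ estrip H) :
    ENNReal.ofReal |s.im| = H := by
  have hc : Continuous fun s : ℂ => ENNReal.ofReal |s.im| :=
    ENNReal.continuous_ofReal.comp (continuous_abs.comp Complex.continuous_im)
  have hcl : IsClosed {s : ℂ | ENNReal.ofReal |s.im| ≤ H} := isClosed_le hc continuous_const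
  have hsub : estrip H ⊆ {s : ℂ | ENNReal.ofReal |s.im| ≤ H} := fun z hz => by
    have hz' : ENNReal.ofReal |z.im| < H := hz
    exact le_of_lt hz'
  have h1 : ENNReal.ofReal |s.im| ≤ H := closure_minimal hsub hcl hs
  have h2 : H ≤ ENNReal.ofReal |s.im| := not_lt.1 hn
  exact le_antisymm h1 h2

namespace Glance

variable (G : Glance)

theorem isOpen_slice (t : ℂ) : IsOpen (G.slice t) := by
  have hc1 : Continuous fun s : ℂ => ENNReal.ofReal s.im :=
    ENNReal.continuous_ofReal.comp Complex.continuous_im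
  have hc2 : Continuous fun s : ℂ => ENNReal.ofReal (-s.im) :=
    ENNReal.continuous_ofReal.comp Complex.continuous_im.neg
  exact (isOpen_lt hc1 continuous_const).inter (isOpen_lt hc2 continuous_const)

theorem convex_slice (t : ℂ) : Convex ℝ (G.slice t) := by
  have h : G.slice t = {y : ℂ | ENNReal.ofReal (1 * y.im) < G.hX t} ∩
      {y : ℂ | ENNReal.ofReal ((-1) * y.im) < G.hX (conj t)} := by
    ext y
    simp only [slice, Set.mem_ofPred_eq, Set.mem_inter_iff, one_mul, neg_mul]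
  rw [h]
  exact (s5lb_convex_half 1 _).inter (s5lb_convex_half (-1) _)

theorem slice_add_real {t y : ℂ} (hy : y ∈ G.slice t) (x : ℝ) : y + x ∈ G.slice t := by
  simpa [slice] using hy

theorem slice_conj {t y : ℂ} (hy : y ∈ G.slice t) : conj y ∈ G.slice (conj t) := by
  obtain ⟨h1, h2⟩ := hy
  refine ⟨?_, ?_⟩
  · simpa using h2
  · simpa using h1

theorem slice_zero : G.slice 0 = estrip G.Hs := by
  ext y
  simp only [slice, estrip, Set.mem_ofPred_eq, map_zero, Hs]
  exact s5lb_ofReal_abs_lt.symm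

theorem mem_tube_iff {ρ : ℝ} {z : ℂ × ℂ} :
    z ∈ G.tube ρ ↔ z.2 ∈ Metric.ball (0 : ℂ) ρ ∧ z.1 ∈ G.slice z.2 := Iff.rfl

/-- one side of the tube. -/
theorem s5lb_isOpen_side {ρ : ℝ} (h : LowerSemicontinuousOn G.hX (Metric.ball 0 ρ))
    (u : ℂ × ℂ → ℝ) (hu : Continuous u) (v : ℂ × ℂ → ℂ) (hv : Continuous v) :
    IsOpen {z : ℂ × ℂ | v z ∈ Metric.ball (0 : ℂ) ρ ∧ ENNReal.ofReal (u z) < G.hX (v z)} := by
  rw [isOpen_iff_mem_nhds]
  rintro z ⟨hz1, hz2⟩
  obtain ⟨c, hc1, hc2⟩ := exists_between hz2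
  have h1 : ∀ᶠ t in 𝓝 (v z), c < G.hX t := by
    have := h (v z) hz1 c hc2
    rwa [Metric.isOpen_ball.nhdsWithin_eq hz1] at this
  have h2 : ∀ᶠ w in 𝓝 z, c < G.hX (v w) := hv.continuousAt.eventually h1
  have h3 : ∀ᶠ w in 𝓝 z, ENNReal.ofReal (u w) < c :=
    (ENNReal.continuous_ofReal.comp hu).continuousAt.eventually (gt_mem_nhds hc1)
  have h4 : ∀ᶠ w in 𝓝 z, v w ∈ Metric.ball (0 : ℂ) ρ :=
    hv.continuousAt.eventually (Metric.isOpen_ball.mem_nhds hz1)
  filter_upwards [h2, h3, h4] with w hw2 hw3 hw4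
  exact ⟨hw4, hw3.trans hw2⟩

theorem isOpen_tube {ρ : ℝ} (h : LowerSemicontinuousOn G.hX (Metric.ball 0 ρ)) :
    IsOpen (G.tube ρ) := by
  have h1 := G.s5lb_isOpen_side h (fun z => z.1.im) (Complex.continuous_im.comp continuous_fst)
    (fun z => z.2) continuous_snd
  have h2 := G.s5lb_isOpen_side h (fun z => -z.1.im) (Complex.continuous_im.comp continuous_fst).neg
    (fun z => conj z.2) (Complex.continuous_conj.comp continuous_snd)
  have he : G.tube ρ = {z : ℂ × ℂ | z.2 ∈ Metric.ball (0 : ℂ) ρ ∧ ENNReal.ofReal z.1.im < G.hX z.2} ∩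
      {z : ℂ × ℂ | conj z.2 ∈ Metric.ball (0 : ℂ) ρ ∧ ENNReal.ofReal (-z.1.im) < G.hX (conj z.2)} := by
    ext z
    simp only [tube, Set.mem_ofPred_eq, Set.mem_inter_iff, Metric.mem_ball, dist_zero_right,
      RCLike.norm_conj]
    tauto
  rw [he]
  exact h1.inter h2

end Glance

end Claimed.Agent.R269
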