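/-
Row 269, Theorem 5.4, package LF-S5d-width.  Statements: helper264.  Proofs: helper255.  SORRY-FREE.
Everything is read off the (sorry-free) general theory of widths `S4/WidthBasic.lean` for the base `G.s4c_X0_base`:
* `le_hX`: `IsBase.le_width` (height `3 s / 2 ≥ s`);
* `hX_neg`: `s4c_width_neg`;
* `X0_analytic`: `IsBase.an₁`, `IsBase.an₂` on `G.ini ⊇ hstrip s ×ˢ ball 0 r₁`.
-/
import Claimed.Agent.R269.S5.LiftBasic
import Claimed.Agent.R269.Lib.SCV
import Claimed.Agent.R269.S4.WidthBasic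

set_option autoImplicit false

namespace Claimed.Agent.R269

open Complex ComplexConjugate Filter Topology MeasureTheory
open scoped ENNReal Real

namespace Glance

variable (G : Glance)

/-! ### LF-S5d-width -/

theorem le_hX {t : ℂ} (ht : t ∈ Metric.ball (0 : ℂ) G.r₁) : ENNReal.ofReal G.s ≤ G.hX t := by
  have hs : 0 < G.s := G.r₁_pos.trans G.r₁_lt
  exact (ENNReal.ofReal_le_ofReal (by linarith)).trans (G.s4c_X0_base.le_width ht)

theorem hX_neg {t : ℂ} (ht : t ∈ Metric.ball (0 : ℂ) G.r₁) : G.hX (-t) = G.hX t :=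
  s4c_width_neg G.s4c_X0_base t

theorem hstrip_subset_slice {t : ℂ} (ht : t ∈ Metric.ball (0 : ℂ) G.r₁) :
    hstrip G.s ⊆ G.slice t := by
  intro y hy
  have hy' : |y.im| < G.s := hy
  have hs : 0 < G.s := G.r₁_pos.trans G.r₁_lt
  have ht' : conj t ∈ Metric.ball (0 : ℂ) G.r₁ := by
    simpa [Metric.mem_ball, dist_zero_right] using ht
  obtain ⟨h1, h2⟩ := abs_lt.1 hy'
  refine ⟨lt_of_lt_of_le ?_ (G.le_hX ht), lt_of_lt_of_le ?_ (G.le_hX ht')⟩
  · exact (ENNReal.ofReal_lt_ofReal_iff hs).2 h2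
  · exact (ENNReal.ofReal_lt_ofReal_iff hs).2 (by linarith)

theorem slice_neg {t : ℂ} (ht : t ∈ Metric.ball (0 : ℂ) G.r₁) : G.slice (-t) = G.slice t := by
  have ht' : conj t ∈ Metric.ball (0 : ℂ) G.r₁ := by
    simpa [Metric.mem_ball, dist_zero_right] using ht
  unfold slice
  rw [map_neg, G.hX_neg ht, G.hX_neg ht']

/-- `X0` is analytic on the initial domain. -/
theorem X0_analytic : AnalyticOnNhd ℂ G.X0 (hstrip G.s ×ˢ Metric.ball (0 : ℂ) G.r₁) := by
  intro z hz
  have hs : 0 < G.s := G.r₁_pos.trans G.r₁_lt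
  have hz' : z ∈ G.ini := by
    refine ⟨?_, hz.2⟩
    have h1 : |z.1.im| < G.s := hz.1
    show |z.1.im| < 3 * G.s / 2
    linarith
  have h1 : AnalyticAt ℂ (fun z => (G.X0 z).1) z := G.s4c_X0_base.an₁ z hz'
  have h2 : AnalyticAt ℂ (fun z => (G.X0 z).2) z := G.s4c_X0_base.an₂ z hz'
  exact h1.prod h2

end Glance

end Claimed.Agent.R269
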