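/-
Row 269, P1 Lemma 5.5 (`q = f''/f` is holomorphic) and Proposition 5.6 / (5.24) (`V' = (W - ⟨W⟩)/120`).      Blueprint + glue: helper264.
FOUR LEAVES IN ONE FILE (fill in place, statements verbatim):   LF-S5e-V (§1)   LF-S5e-rec (§2)   LF-S5e-loc (§3)   LF-S5e-glob (§4).       §5 = glue (proved).

ROUTE (NOT the paper's: no analysis of the zeros of `f`, no line field).    `V(y) = ∂_t² lift(y,0)/2` is holomorphic on the WHOLE shape strip `D = estrip Hs`, because the lift is holomorphic on the tube.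
Near `0` (`f ≠ 0` there, `q₀ := f''/f`) the exact recurrence and a Taylor expansion (`chord_exp`, Lib/ChordExp.lean) give `V'' = (f² + 8 q₀)'/120`, so `8 q₀ = 120 V' - f² - κ` near `0`, i.e.
      8 f'' = (120 V' - f² - κ) f          near `0`, hence on `D` (identity theorem).
So `q := (120 V' - f² - κ)/8` is the holomorphic potential (Lemma 5.5), and `W = f² + 8 q = 120 V' - κ`, `⟨W⟩ = -κ` since `V` is periodic (Prop 5.6).

`BaseCtx` = the common part of `Lifted G` (before `q` exists) and `Shape`.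

PLANS.
§1 (`zero_mem`) `Glance.le_hX` (S5/LiftWidth.lean) at `t = 0`: `ofReal s ≤ Hs`, `0 < r₁ < s`.     (`mem_tube`) unfold `Glance.tube`, `estrip`, `Glance.Hs`; `conj 0 = 0`; `ofReal (± im y) ≤ ofReal |im y|`.
   (`lift_analyticAt`) `Glance.isOpen_tube B.lsc_X` + `analyticOnNhd_of_differentiableOn₂` (Lib/SCV.lean).     (`V_diff`) `liftV_analyticAt` (Lib/ChordExp.lean) at every `y ∈ D`.
   (`V_per`) for `t` near `0`: `(y,t) ∈ tube` (open), `lift (y + 2π, t) = lift (y,t) + 2π`; so the two functions of `t` differ by a constant near `0`: `Filter.EventuallyEq.deriv` twice, `deriv_add_const`.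
   (`f_zero_ne`) `φ = Θ(·,0)` on the open set `hstrip (s/2) ∋ 0` (`φ_base`), so `deriv φ 0 = deriv (Θ(·,0)) 0`, whose real part is positive (`G.φ'_pos 0`).
§2 (`rec_local`)  = plan (ch_formula_local) + (ch_rec_local) of helper146 in the header of Lib/ChordHost.lean, with `IsChord.formula` (Lib/ChordExp.lean) on `U = ball 0 ε`.  Everything near `(y,t) = (0,0)`:
   0. `ε`: `f 0 ≠ 0`, `f = deriv φ` continuous at `0`, `D` open: `f ≠ 0` on `ball 0 ε ⊆ D`.  (`ε` does not depend on `q, c, …`.)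
   1. `ψ(y,t) := (Θ(y-t/2,t) + Θ(y+t/2,t))/2`, `X0 (y,t) = suppPt hc ψ` (rfl).   `lift_base`, `Γ_base`, `φ_base`:  `X0 (y,t) = Γ0 (lift (y,t)) = suppPt hc (φ (lift (y,t)))`   (`Γ0 s = X0 (s,0) = suppPt hc (Θ s 0)`).
   2. `ψ = φ ∘ lift` near `(0,0)`: both continuous, both `= φ 0` at `(0,0)`, and `suppPt hc` is injective near `φ 0`:  `ψ ↦ ⟨suppPt hc ψ, e_{φ 0}⟩` has derivative `(hc + hc'')(φ 0) ≠ 0` at `φ 0`
      (`rad_pos`; `φ 0 = Θ 0 0` is real by `Θ_conj`), `HasStrictDerivAt.localInverse`/`HasStrictDerivAt.injOn`-type statement.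
   3. `refl_in`, `refl_out` (at `y' ∓ t/2`):  `⟨X0 (y',t), n_{Θ(y' ± t/2,t)}⟩ = p(y' ± t/2, t)`, `⟨(a,b), n_θ⟩ = a cos θ + b sin θ`.    Hence with `δ = (Θ(y+t/2,t) - Θ(y-t/2,t))/2`:
      `⟨X0 (y+t,t) - X0 (y,t), n_{ψ+δ}⟩ = 0`,  `⟨X0 (y-t,t) - X0 (y,t), n_{ψ-δ}⟩ = 0`.
   4. `IsChord.formula` with `s = lift (y,t)`, `v = lift (y ± t,t)` (all three in `ball 0 ε` near `(0,0)`, by continuity and `lift (0,0) = 0`), `φ s = ψ`:
      `d₊ sin δ = f s c₊ cos δ`,  `d₋ sin δ = - f s c₋ cos δ`   (the factor `c_G/(f s f s±) ≠ 0` cancels; `⟨e_ψ, n_{ψ±δ}⟩ = ± sin δ`, `⟨n_ψ, n_{ψ±δ}⟩ = cos δ`).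
      If `sin δ ≠ 0`: `(d₊ c₋ + d₋ c₊) sin δ = 0`.   If `sin δ = 0`: `cos δ ≠ 0`, so `c₊ = c₋ = 0`.   In both cases `d₊ c₋ + d₋ c₊ = 0`.
§3 (`V_local`)  take `ε` of `rec_local`, `U = ball 0 ε`, `q₀ = f''/f` (differentiable on `U`), `isChord_exists` on `U`; `rec_local` gives `∀ᶠ z in 𝓝 (0,0), REC z = 0`, hence (`Filter.Eventually.curry_nhds` / `eventually_nhds_iff` with a product
   of balls) `∃ ε' ≤ ε, ∀ y₀ ∈ ball 0 ε', ∀ᶠ t in 𝓝 0, REC (y₀,t) = 0`.    Apply `chord_exp` at every `y₀ ∈ ball 0 ε'` (`hS`: `lift_analyticAt`; `h0`: `lift_zero` on the open set `D`; `hev`: `lift_even` on the open tube).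
§4 (`exists_kappa`)  `g := 120 V' - f² - 8 q₀` has derivative `0` on `ball 0 ε` (`V_local`; `(f²)' = 2 f f'`), so `g = κ := g 0` there (convex).  So `F := 8 f'' - (120 V' - f² - κ) f` vanishes on `ball 0 ε`; `F` is differentiable, hence analytic, on the
   open preconnected (convex) set `D`: `AnalyticOnNhd.eqOn_zero_of_preconnected_of_eventuallyEq_zero`.
-/
import Claimed.Agent.R269.S5.Pre
import Claimed.Agent.R269.S5.LiftWidth
import Claimed.Agent.R269.Lib.ChordExp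

set_option autoImplicit false

namespace Claimed.Agent.R269

open Complex ComplexConjugate Filter Topology MeasureTheory
open scoped ENNReal Real

theorem zr_isOpen_hstrip (c : ℝ) : IsOpen (hstrip c) :=
  isOpen_lt (continuous_abs.comp Complex.continuous_im) continuous_const

theorem zr_supp_in (h : ℂ → ℂ) (θ θ' : ℂ) :
    (suppPt h ((θ + θ') / 2)).1 * Complex.cos θ + (suppPt h ((θ + θ') / 2)).2 * Complex.sin θ
      = pInC h θ θ' := by
  have e : (θ' - θ) / 2 = (θ + θ') / 2 - θ := by ring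
  simp only [suppPt, pInC]
  rw [e, Complex.cos_sub, Complex.sin_sub]
  ring

theorem zr_supp_out (h : ℂ → ℂ) (θ θ' : ℂ) :
    (suppPt h ((θ + θ') / 2)).1 * Complex.cos θ' + (suppPt h ((θ + θ') / 2)).2 * Complex.sin θ'
      = pOutC h θ θ' := by
  have e : (θ' - θ) / 2 = θ' - (θ + θ') / 2 := by ring
  simp only [suppPt, pOutC]
  rw [e, Complex.cos_sub, Complex.sin_sub]
  ring

/-- `suppPt hc` has a left inverse near every real angle. -/
theorem zr_supp_inj (G : Glance) (x : ℝ) :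
    ∃ mu : ℂ × ℂ → ℂ, ∀ᶠ ψ in 𝓝 (x : ℂ), mu (suppPt G.hc ψ) = ψ := by
  have hx : (x : ℂ) ∈ hstrip G.σ := by simp [hstrip, G.σ_pos]
  have hop := zr_isOpen_hstrip G.σ
  have h0 : AnalyticAt ℂ G.hc x := G.hc_diff.analyticAt (hop.mem_nhds hx)
  have h1 : AnalyticAt ℂ (deriv G.hc) x := h0.deriv
  set F : ℂ → ℂ := fun ψ => -Complex.sin x * (suppPt G.hc ψ).1 + Complex.cos x * (suppPt G.hc ψ).2
    with hF
  have hFa : AnalyticAt ℂ F x := by
    simp only [hF, suppPt]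
    have hs : AnalyticAt ℂ Complex.sin (x : ℂ) := Complex.analyticAt_sin
    have hc : AnalyticAt ℂ Complex.cos (x : ℂ) := Complex.analyticAt_cos
    exact (analyticAt_const.mul ((h0.mul hc).sub (h1.mul hs))).add
      (analyticAt_const.mul ((h0.mul hs).add (h1.mul hc)))
  have hFd : HasDerivAt F (G.hc x + deriv (deriv G.hc) x) x := by
    have d0 := h0.differentiableAt.hasDerivAt
    have d1 := h1.differentiableAt.hasDerivAt
    have ds := Complex.hasDerivAt_sin (x : ℂ)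
    have dc := Complex.hasDerivAt_cos (x : ℂ)
    have := (((d0.mul dc).sub (d1.mul ds)).const_mul (-Complex.sin x)).add
      (((d0.mul ds).add (d1.mul dc)).const_mul (Complex.cos x))
    refine HasDerivAt.congr_deriv (f := F) this ?_
    linear_combination (G.hc x + deriv (deriv G.hc) x) * Complex.sin_sq_add_cos_sq (x : ℂ)
  have hne : deriv F x ≠ 0 := by
    rw [hFd.deriv]
    intro h
    have := G.rad_pos x
    rw [h] at this
    simp at this
  obtain ⟨mu, -, -, hmu, -⟩ := ca_exists_local_inverse hFa hne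
  exact ⟨fun P => mu (-Complex.sin x * P.1 + Complex.cos x * P.2), hmu⟩

/-- the common part of `Lifted G` and `Shape` used by Lemma 5.5 and Proposition 5.6. -/
structure BaseCtx where
  G : Glance
  ρ : ℝ
  ρ_pos : 0 < ρ
  ρ_le : ρ ≤ G.r₁
  φ : ℂ → ℂ
  Γ : ℂ → ℂ × ℂ
  lift : ℂ × ℂ → ℂ
  lsc_X : LowerSemicontinuousOn G.hX (Metric.ball 0 ρ)
  φ_diff : DifferentiableOn ℂ φ (estrip G.Hs)
  φ_base : ∀ y ∈ hstrip (G.s / 2), φ y = G.Θ y 0
  Γ_base : ∀ y ∈ hstrip (G.s / 2), Γ y = G.Γ0 y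
  Γ_deriv : ∀ s ∈ estrip G.Hs, deriv φ s ≠ 0 →
    HasDerivAt Γ ((G.c / deriv φ s ^ 2 : ℂ) • (-Complex.sin (φ s), Complex.cos (φ s))) s
  lift_diff : DifferentiableOn ℂ lift (G.tube ρ)
  lift_mem : ∀ z ∈ G.tube ρ, lift z ∈ estrip G.Hs
  lift_zero : ∀ y ∈ estrip G.Hs, lift (y, 0) = y
  lift_per : ∀ z ∈ G.tube ρ, lift (z.1 + 2 * π, z.2) = lift z + 2 * π
  lift_even : ∀ z ∈ G.tube ρ, lift (z.1, -z.2) = lift z
  lift_base : ∀ z ∈ hstrip (G.s / 4) ×ˢ Metric.ball (0 : ℂ) ρ,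
    lift z ∈ hstrip (G.s / 2) ∧ G.X0 z = G.Γ0 (lift z)

/-- the base context of a `Lifted`. -/
def Lifted.toBase {G : Glance} (T : Lifted G) : BaseCtx :=
  { G := G, ρ := T.ρ, ρ_pos := T.ρ_pos, ρ_le := T.ρ_le, φ := T.φ, Γ := T.Γ, lift := T.lift,
    lsc_X := T.lsc_X, φ_diff := T.φ_diff, φ_base := T.φ_base, Γ_base := T.Γ_base,
    Γ_deriv := T.Γ_deriv, lift_diff := T.lift_diff, lift_mem := T.lift_mem,
    lift_zero := T.lift_zero, lift_per := T.lift_per, lift_even := T.lift_even,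
    lift_base := T.lift_base }

/-- the base context of a `Shape`. -/
def Shape.toBase (Sh : Shape) : BaseCtx :=
  { G := Sh.G, ρ := Sh.ρ, ρ_pos := Sh.ρ_pos, ρ_le := Sh.ρ_le, φ := Sh.φ, Γ := Sh.Γ, lift := Sh.lift,
    lsc_X := Sh.lsc_X, φ_diff := Sh.φ_diff, φ_base := Sh.φ_base, Γ_base := Sh.Γ_base,
    Γ_deriv := Sh.Γ_deriv, lift_diff := Sh.lift_diff, lift_mem := Sh.lift_mem,
    lift_zero := Sh.lift_zero, lift_per := Sh.lift_per, lift_even := Sh.lift_even,
    lift_base := Sh.lift_base }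

namespace BaseCtx

variable (B : BaseCtx)

/-- the shape strip. -/
def D : Set ℂ := estrip B.G.Hs

/-- `f = φ'`. -/
noncomputable def f (s : ℂ) : ℂ := deriv B.φ s

/-- the first displacement coefficient `V(y) = ∂_t² lift(y,0)/2`. -/
noncomputable def V : ℂ → ℂ := liftV B.lift

/-! ## §1  LF-S5e-V -/

theorem zero_mem : (0 : ℂ) ∈ B.D := by
  have hs : 0 < B.G.s := B.G.r₁_pos.trans B.G.r₁_lt
  have h1 : ENNReal.ofReal B.G.s ≤ B.G.hX 0 := B.G.le_hX (by simpa using B.G.r₁_pos)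
  have h2 : ENNReal.ofReal |(0 : ℂ).im| < ENNReal.ofReal B.G.s := by simpa using hs
  exact h2.trans_le h1

theorem mem_tube {y : ℂ} (hy : y ∈ B.D) : (y, (0 : ℂ)) ∈ B.G.tube B.ρ := by
  have hy' : ENNReal.ofReal |y.im| < B.G.hX 0 := hy
  refine ⟨by simpa using B.ρ_pos, ?_, ?_⟩
  · exact (ENNReal.ofReal_le_ofReal (le_abs_self _)).trans_lt hy'
  · simp only [map_zero]
    exact (ENNReal.ofReal_le_ofReal (neg_le_abs _)).trans_lt hy'

theorem lift_analyticAt {z : ℂ × ℂ} (hz : z ∈ B.G.tube B.ρ) : AnalyticAt ℂ B.lift z :=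
  analyticOnNhd_of_differentiableOn₂ (B.G.isOpen_tube B.lsc_X) B.lift_diff z hz

theorem V_diff : DifferentiableOn ℂ B.V B.D := fun _ hy =>
  (liftV_analyticAt (B.lift_analyticAt (B.mem_tube hy))).differentiableAt.differentiableWithinAt

theorem V_per : ∀ y ∈ B.D, B.V (y + 2 * π) = B.V y := by
  intro y hy
  have hop := B.G.isOpen_tube B.lsc_X
  have hcont : Continuous fun t : ℂ => (y, t) := by fun_prop
  have hev : ∀ᶠ t in 𝓝 (0 : ℂ), (y, t) ∈ B.G.tube B.ρ :=
    hcont.continuousAt.eventually (hop.mem_nhds (B.mem_tube hy))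
  have h1 : (fun t : ℂ => B.lift (y + 2 * π, t)) =ᶠ[𝓝 0] fun t => B.lift (y, t) + 2 * π := by
    filter_upwards [hev] with t ht using B.lift_per (y, t) ht
  have h2 : deriv (fun t : ℂ => B.lift (y + 2 * π, t)) =ᶠ[𝓝 0] deriv fun t => B.lift (y, t) := by
    have := h1.deriv
    refine this.trans (Eventually.of_forall fun t => ?_)
    simp only [deriv_add_const]
  simp only [V, liftV]
  rw [h2.deriv_eq]

theorem f_zero_ne : B.f 0 ≠ 0 := by
  have hs : 0 < B.G.s := B.G.r₁_pos.trans B.G.r₁_lt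
  have hev : B.φ =ᶠ[𝓝 (0 : ℂ)] fun y => B.G.Θ y 0 := by
    filter_upwards [(zr_isOpen_hstrip (B.G.s / 2)).mem_nhds
      (show (0 : ℂ) ∈ hstrip (B.G.s / 2) by simp [hstrip]; positivity)] with y hy
      using B.φ_base y hy
  have h1 : B.f 0 = deriv (fun y => B.G.Θ y 0) 0 := hev.deriv_eq
  have h2 := B.G.φ'_pos 0
  intro h0
  rw [h1] at h0
  simp only [ofReal_zero] at h2
  rw [h0] at h2
  simp at h2

/-! ## §2  LF-S5e-rec -/

/-- pure algebra at the end of `rec_local`. -/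
theorem zr_alg {dp dm cp cm fs sδ cδ : ℂ} (hfs : fs ≠ 0) (h1 : sδ ^ 2 + cδ ^ 2 = 1)
    (hp : dp * sδ - fs * cp * cδ = 0) (hm : dm * (-sδ) - fs * cm * cδ = 0) :
    dp * cm + dm * cp = 0 := by
  by_cases hs : sδ = 0
  · have hc : cδ ≠ 0 := by
      intro hc
      rw [hs, hc] at h1
      norm_num at h1
    rw [hs] at hp hm
    have e1 : cp = 0 := by
      have : fs * cδ * cp = 0 := by linear_combination -hp
      rcases mul_eq_zero.1 this with h | h
      · exact absurd h (mul_ne_zero hfs hc)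
      · exact h
    have e2 : cm = 0 := by
      have : fs * cδ * cm = 0 := by linear_combination -hm
      rcases mul_eq_zero.1 this with h | h
      · exact absurd h (mul_ne_zero hfs hc)
      · exact h
    rw [e1, e2]; ring
  · have : sδ * (dp * cm + dm * cp) = 0 := by linear_combination cm * hp - cp * hm
    rcases mul_eq_zero.1 this with h | h
    · exact absurd h hs
    · exact h

/-- a chord `k (d e_ψ - f c n_ψ)` orthogonal to `n_θ`. -/
theorem zr_chord_perp {P : ℂ × ℂ} {k dd fc ψ θ : ℂ} (hk : k ≠ 0)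
    (hP : P = k • (dd • ((-Complex.sin ψ, Complex.cos ψ) : ℂ × ℂ)
      - fc • ((Complex.cos ψ, Complex.sin ψ) : ℂ × ℂ)))
    (h0 : P.1 * Complex.cos θ + P.2 * Complex.sin θ = 0) :
    dd * Complex.sin (θ - ψ) - fc * Complex.cos (θ - ψ) = 0 := by
  rw [hP] at h0
  simp only [Prod.smul_fst, Prod.smul_snd, Prod.fst_sub, Prod.snd_sub, smul_eq_mul] at h0
  have : k * (dd * Complex.sin (θ - ψ) - fc * Complex.cos (θ - ψ)) = 0 := by
    rw [Complex.sin_sub, Complex.cos_sub]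
    linear_combination h0
  rcases mul_eq_zero.1 this with h | h
  · exact absurd h hk
  · exact h

/-- the exact recurrence for the lift near `(0,0)`, for ANY chord functions on a fixed small ball. -/
theorem rec_local : ∃ ε : ℝ, 0 < ε ∧ Metric.ball (0 : ℂ) ε ⊆ B.D ∧
    (∀ s ∈ Metric.ball (0 : ℂ) ε, B.f s ≠ 0) ∧
    ∀ (q : ℂ → ℂ) (c c' d d' : ℂ → ℂ → ℂ),
      (∀ s ∈ Metric.ball (0 : ℂ) ε, deriv (deriv B.f) s = q s * B.f s) →
      IsChord (Metric.ball (0 : ℂ) ε) B.φ B.f q c c' d d' →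
      ∀ᶠ z : ℂ × ℂ in 𝓝 (0, 0),
        d (B.lift z) (B.lift (z.1 + z.2, z.2)) * c (B.lift z) (B.lift (z.1 - z.2, z.2))
          + d (B.lift z) (B.lift (z.1 - z.2, z.2)) * c (B.lift z) (B.lift (z.1 + z.2, z.2)) = 0 := by
  have h0D := B.zero_mem
  have hDopen : IsOpen B.D := isOpen_estrip _
  have hfd : DifferentiableOn ℂ B.f B.D := B.φ_diff.deriv hDopen
  have hcont : ContinuousAt B.f 0 := (hfd.differentiableAt (hDopen.mem_nhds h0D)).continuousAt
  obtain ⟨ε, hε, hball⟩ := Metric.eventually_nhds_iff_ball.1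
    ((hDopen.eventually_mem h0D).and (hcont.eventually_ne B.f_zero_ne))
  refine ⟨ε, hε, fun s hs => (hball s hs).1, fun s hs => (hball s hs).2, ?_⟩
  intro q c c' d d' hq hI
  have hs : 0 < B.G.s := B.G.r₁_pos.trans B.G.r₁_lt
  have hform := IsChord.formula Metric.isOpen_ball (convex_ball (0 : ℂ) ε) (φ := B.φ) (f := B.f)
    (fun v hv => (B.φ_diff.differentiableAt (hDopen.mem_nhds (hball v hv).1)).hasDerivAt)
    (hfd.mono fun v hv => (hball v hv).1) hq hI (Γ := B.Γ) (cG := (B.G.c : ℂ))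
    (fun v hv => (hball v hv).2) (fun v hv => B.Γ_deriv v (hball v hv).1 (hball v hv).2)
  -- the three maps
  have cp : Continuous fun z : ℂ × ℂ => (z.1 + z.2, z.2) := by fun_prop
  have cm : Continuous fun z : ℂ × ℂ => (z.1 - z.2, z.2) := by fun_prop
  have tp : Tendsto (fun z : ℂ × ℂ => (z.1 + z.2, z.2)) (𝓝 (0, 0)) (𝓝 (0, 0)) := by
    have := cp.tendsto (0, 0); simpa using this
  have tm : Tendsto (fun z : ℂ × ℂ => (z.1 - z.2, z.2)) (𝓝 (0, 0)) (𝓝 (0, 0)) := by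
    have := cm.tendsto (0, 0); simpa using this
  -- E1 : base domain
  have E1 : ∀ᶠ z : ℂ × ℂ in 𝓝 (0, 0), z ∈ hstrip (B.G.s / 4) ×ˢ Metric.ball (0 : ℂ) B.ρ :=
    ((zr_isOpen_hstrip _).prod Metric.isOpen_ball).mem_nhds
      ⟨by simp [hstrip]; positivity, by simpa using B.ρ_pos⟩
  -- E2 : the lift is small
  have hl0 : B.lift (0, 0) = 0 := B.lift_zero 0 h0D
  have hlc : ContinuousAt B.lift (0, 0) := (B.lift_analyticAt (B.mem_tube h0D)).continuousAt
  have E2 : ∀ᶠ z : ℂ × ℂ in 𝓝 (0, 0), B.lift z ∈ Metric.ball (0 : ℂ) ε := by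
    apply hlc.eventually
    rw [hl0]
    exact Metric.ball_mem_nhds _ hε
  -- E3 : base points of the reflection law
  have E3 : ∀ a : ℂ, ∀ᶠ z : ℂ × ℂ in 𝓝 (0, 0), z.1 + a * z.2 ∈ hstrip B.G.s := by
    intro a
    have hc : Continuous fun z : ℂ × ℂ => z.1 + a * z.2 := by fun_prop
    apply hc.continuousAt.eventually
    apply (zr_isOpen_hstrip _).mem_nhds
    simpa [hstrip] using hs
  have E3' : ∀ᶠ z : ℂ × ℂ in 𝓝 (0, 0), z.2 ∈ Metric.ball (0 : ℂ) B.G.r₁ :=
    continuous_snd.continuousAt.eventually (Metric.ball_mem_nhds _ B.G.r₁_pos)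
  -- the angle at the origin is real
  have h0s : (0 : ℂ) ∈ hstrip (2 * B.G.s) := by simp [hstrip]; positivity
  have h0r : (0 : ℂ) ∈ Metric.ball (0 : ℂ) B.G.r₁ := by simpa using B.G.r₁_pos
  obtain ⟨x, hx⟩ : ∃ x : ℝ, B.G.Θ 0 0 = x := by
    have := B.G.Θ_conj 0 h0s 0 h0r
    simp only [map_zero] at this
    exact Complex.conj_eq_iff_real.1 this.symm
  obtain ⟨mu, hmu⟩ := zr_supp_inj B.G x
  -- continuity of `Θ`
  have hΘc : ContinuousAt (fun z : ℂ × ℂ => B.G.Θ z.1 z.2) (0, 0) :=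
    (B.G.Θ_diff.differentiableAt (((zr_isOpen_hstrip _).prod Metric.isOpen_ball).mem_nhds
      ⟨h0s, h0r⟩)).continuousAt
  have hΘt : ∀ a : ℂ, Tendsto (fun z : ℂ × ℂ => B.G.Θ (z.1 + a * z.2) z.2) (𝓝 (0, 0)) (𝓝 (x : ℂ)) := by
    intro a
    have hc : Continuous fun z : ℂ × ℂ => (z.1 + a * z.2, z.2) := by fun_prop
    have ht : Tendsto (fun z : ℂ × ℂ => (z.1 + a * z.2, z.2)) (𝓝 (0, 0)) (𝓝 (0, 0)) := by
      have := hc.tendsto (0, 0); simpa using this
    have := hΘc.tendsto.comp ht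
    simp only [hx] at this
    exact this
  have hψt : Tendsto (fun z : ℂ × ℂ => (B.G.Θ (z.1 + (-1 / 2) * z.2) z.2
      + B.G.Θ (z.1 + (1 / 2) * z.2) z.2) / 2) (𝓝 (0, 0)) (𝓝 (x : ℂ)) := by
    have := ((hΘt (-1 / 2)).add (hΘt (1 / 2))).div_const 2
    simpa using this
  have hφ0 : B.φ 0 = x := by
    rw [B.φ_base 0 (by simp [hstrip]; positivity), hx]
  have hφt : Tendsto (fun z : ℂ × ℂ => B.φ (B.lift z)) (𝓝 (0, 0)) (𝓝 (x : ℂ)) := by
    have h1 : ContinuousAt B.φ (B.lift (0, 0)) := by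
      rw [hl0]
      exact (B.φ_diff.differentiableAt (hDopen.mem_nhds h0D)).continuousAt
    have := h1.tendsto.comp hlc.tendsto
    rw [hl0, hφ0] at this
    exact this
  have E4 := hψt.eventually hmu
  have E5 := hφt.eventually hmu
  filter_upwards [E1, tp.eventually E1, tm.eventually E1, E2, tp.eventually E2, tm.eventually E2,
    E3 (-1 / 2), E3 (1 / 2), E3 (-3 / 2), E3', E4, E5] with z a1 a2 a3 b1 b2 b3 c1 c2 c3 c4 e4 e5
  obtain ⟨y, t⟩ := z
  simp only at a1 a2 a3 b1 b2 b3 c1 c2 c3 c4 e4 e5 ⊢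
  -- names
  set Θ0 := B.G.Θ (y + -1 / 2 * t) t with hΘ0
  set Θ1 := B.G.Θ (y + 1 / 2 * t) t with hΘ1
  set s0 := B.lift (y, t) with hs0
  set sp := B.lift (y + t, t) with hsp
  set sm := B.lift (y - t, t) with hsm
  -- impacts as points of the curve
  have X0Γ : ∀ z ∈ hstrip (B.G.s / 4) ×ˢ Metric.ball (0 : ℂ) B.ρ, B.G.X0 z = B.Γ (B.lift z) :=
    fun z hz => by rw [(B.lift_base z hz).2, B.Γ_base _ (B.lift_base z hz).1]
  -- `φ s0 = ψ`
  have hX0 : B.G.X0 (y, t) = suppPt B.G.hc ((Θ0 + Θ1) / 2) := by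
    simp only [Glance.X0, hΘ0, hΘ1]
    congr 3 <;> ring_nf
  have hψ : B.φ s0 = (Θ0 + Θ1) / 2 := by
    have h1 : B.G.X0 (y, t) = suppPt B.G.hc (B.φ s0) := by
      rw [(B.lift_base _ a1).2, B.φ_base _ (B.lift_base _ a1).1]
      simp [Glance.Γ0, Glance.X0]
    rw [← e5, ← h1, hX0, e4]
  -- the reflection law
  have hXp : B.G.X0 (y + t, t) = suppPt B.G.hc ((Θ1 + B.G.Θ (y + 1 / 2 * t + t) t) / 2) := by
    simp only [Glance.X0, hΘ1]
    congr 3 <;> ring_nf
  have hXm : B.G.X0 (y - t, t) = suppPt B.G.hc ((B.G.Θ (y + -3 / 2 * t) t + Θ0) / 2) := by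
    simp only [Glance.X0, hΘ0]
    congr 3 <;> ring_nf
  have r1 : (B.G.X0 (y, t)).1 * Complex.cos Θ1 + (B.G.X0 (y, t)).2 * Complex.sin Θ1
      = B.G.p (y + 1 / 2 * t) t := by
    have h := B.G.refl_out _ c1 t c4
    have e : y + -1 / 2 * t + t = y + 1 / 2 * t := by ring
    rw [e] at h
    rw [hX0, zr_supp_out, h]
  have r2 : (B.G.X0 (y + t, t)).1 * Complex.cos Θ1 + (B.G.X0 (y + t, t)).2 * Complex.sin Θ1
      = B.G.p (y + 1 / 2 * t) t := by
    rw [hXp, zr_supp_in, B.G.refl_in _ c2 t c4]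
  have r3 : (B.G.X0 (y, t)).1 * Complex.cos Θ0 + (B.G.X0 (y, t)).2 * Complex.sin Θ0
      = B.G.p (y + -1 / 2 * t) t := by
    have h := B.G.refl_in _ c1 t c4
    have e : y + -1 / 2 * t + t = y + 1 / 2 * t := by ring
    rw [e] at h
    rw [hX0, zr_supp_in, h]
  have r4 : (B.G.X0 (y - t, t)).1 * Complex.cos Θ0 + (B.G.X0 (y - t, t)).2 * Complex.sin Θ0
      = B.G.p (y + -1 / 2 * t) t := by
    have h := B.G.refl_out _ c3 t c4
    have e : y + -3 / 2 * t + t = y + -1 / 2 * t := by ring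
    rw [e] at h
    rw [hXm, zr_supp_out, h]
  rw [X0Γ _ a1] at r1 r3
  rw [X0Γ _ a2] at r2
  rw [X0Γ _ a3] at r4
  have hcG : (B.G.c : ℂ) ≠ 0 := by exact_mod_cast B.G.c_pos.ne'
  have q1 := zr_chord_perp (θ := Θ1) (div_ne_zero hcG (mul_ne_zero (hball _ b1).2 (hball _ b2).2))
    (hform s0 b1 sp b2) (by
      simp only [Prod.fst_sub, Prod.snd_sub]
      linear_combination r2 - r1)
  have q2 := zr_chord_perp (θ := Θ0) (div_ne_zero hcG (mul_ne_zero (hball _ b1).2 (hball _ b3).2))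
    (hform s0 b1 sm b3) (by
      simp only [Prod.fst_sub, Prod.snd_sub]
      linear_combination r4 - r3)
  rw [hψ] at q1 q2
  have d1 : Θ1 - (Θ0 + Θ1) / 2 = (Θ1 - Θ0) / 2 := by ring
  have d2 : Θ0 - (Θ0 + Θ1) / 2 = -((Θ1 - Θ0) / 2) := by ring
  rw [d1] at q1
  rw [d2, Complex.sin_neg, Complex.cos_neg] at q2
  exact zr_alg (hball _ b1).2 (Complex.sin_sq_add_cos_sq _) q1 q2

/-! ## §3  LF-S5e-loc -/

theorem V_local : ∃ ε : ℝ, 0 < ε ∧ Metric.ball (0 : ℂ) ε ⊆ B.D ∧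
    (∀ s ∈ Metric.ball (0 : ℂ) ε, B.f s ≠ 0) ∧
    ∀ y ∈ Metric.ball (0 : ℂ) ε, deriv (deriv B.V) y =
      (2 * B.f y * deriv B.f y + 8 * deriv (fun s => deriv (deriv B.f) s / B.f s) y) / 120 := by
  obtain ⟨ε, hε, hsub, hne, hrec⟩ := B.rec_local
  have hDopen : IsOpen B.D := isOpen_estrip _
  have hfd : DifferentiableOn ℂ B.f B.D := B.φ_diff.deriv hDopen
  have hfU : DifferentiableOn ℂ B.f (Metric.ball (0 : ℂ) ε) := hfd.mono hsub
  have hf2 : DifferentiableOn ℂ (deriv (deriv B.f)) (Metric.ball (0 : ℂ) ε) :=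
    ((hfd.deriv hDopen).deriv hDopen).mono hsub
  have hq : DifferentiableOn ℂ (fun s => deriv (deriv B.f) s / B.f s) (Metric.ball (0 : ℂ) ε) :=
    hf2.div hfU hne
  have hφU : ∀ v ∈ Metric.ball (0 : ℂ) ε, HasDerivAt B.φ (B.f v) v := fun v hv =>
    (B.φ_diff.differentiableAt (hDopen.mem_nhds (hsub hv))).hasDerivAt
  obtain ⟨c, c', d, d', hI⟩ := isChord_exists Metric.isOpen_ball (convex_ball (0 : ℂ) ε)
    (fun v hv => (hφU v hv).differentiableAt.differentiableWithinAt) hfU hq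
  have h1 := hrec _ c c' d d' (fun s hs => by field_simp [hne s hs]) hI
  obtain ⟨ε₂, hε₂, h2⟩ := Metric.eventually_nhds_iff_ball.1 h1.curry_nhds
  refine ⟨min ε ε₂, lt_min hε hε₂, fun s hs => hsub (Metric.ball_subset_ball (min_le_left _ _) hs),
    fun s hs => hne s (Metric.ball_subset_ball (min_le_left _ _) hs), fun y hy => ?_⟩
  have hyU : y ∈ Metric.ball (0 : ℂ) ε := Metric.ball_subset_ball (min_le_left _ _) hy
  have hyD := hsub hyU
  have hop := B.G.isOpen_tube B.lsc_X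
  exact chord_exp Metric.isOpen_ball hφU hfU hq hI hyU (B.lift_analyticAt (B.mem_tube hyD))
    (by filter_upwards [hDopen.mem_nhds hyD] with w hw using B.lift_zero w hw)
    (by filter_upwards [hop.mem_nhds (B.mem_tube hyD)] with z hz using B.lift_even z hz)
    (h2 y (Metric.ball_subset_ball (min_le_right _ _) hy))

/-! ## §4  LF-S5e-glob -/

theorem exists_kappa : ∃ κ : ℂ, ∀ s ∈ B.D,
    8 * deriv (deriv B.f) s = (120 * deriv B.V s - B.f s ^ 2 - κ) * B.f s := by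
  obtain ⟨ε, hε, hsub, hne, hV⟩ := B.V_local
  have hDopen : IsOpen B.D := isOpen_estrip _
  have hDconv : Convex ℝ B.D := convex_estrip _
  have hfd : DifferentiableOn ℂ B.f B.D := B.φ_diff.deriv hDopen
  have hf1 : DifferentiableOn ℂ (deriv B.f) B.D := hfd.deriv hDopen
  have hf2 : DifferentiableOn ℂ (deriv (deriv B.f)) B.D := hf1.deriv hDopen
  have hV1 : DifferentiableOn ℂ (deriv B.V) B.D := B.V_diff.deriv hDopen
  have h00 : (0 : ℂ) ∈ Metric.ball (0 : ℂ) ε := Metric.mem_ball_self hε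
  set q₀ : ℂ → ℂ := fun s => deriv (deriv B.f) s / B.f s with hq₀
  have hq : ∀ s ∈ Metric.ball (0 : ℂ) ε, HasDerivAt q₀ (deriv q₀ s) s := fun s hs =>
    (((hf2.differentiableAt (hDopen.mem_nhds (hsub hs))).div
      (hfd.differentiableAt (hDopen.mem_nhds (hsub hs))) (hne s hs))).hasDerivAt
  set κ : ℂ := 120 * deriv B.V 0 - B.f 0 ^ 2 - 8 * q₀ 0 with hκ
  have hconst : ∀ s ∈ Metric.ball (0 : ℂ) ε, 120 * deriv B.V s - B.f s ^ 2 - 8 * q₀ s = κ := by
    intro s hs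
    refine chf_const Metric.isOpen_ball (convex_ball (0 : ℂ) ε)
      (g := fun s => 120 * deriv B.V s - B.f s ^ 2 - 8 * q₀ s) (fun w hw => ?_) hs h00
    have a1 := (hV1.differentiableAt (hDopen.mem_nhds (hsub hw))).hasDerivAt
    have a2 := (hfd.differentiableAt (hDopen.mem_nhds (hsub hw))).hasDerivAt
    refine (((a1.const_mul 120).sub (a2.pow 2)).sub ((hq w hw).const_mul 8)).congr_deriv ?_
    rw [hV w hw]
    simp only [Nat.cast_ofNat, Nat.add_one_sub_one, pow_one]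
    ring
  refine ⟨κ, ?_⟩
  have hF : DifferentiableOn ℂ (fun s => 8 * deriv (deriv B.f) s
      - (120 * deriv B.V s - B.f s ^ 2 - κ) * B.f s) B.D :=
    (hf2.const_mul 8).sub ((((hV1.const_mul 120).sub (hfd.pow 2)).sub_const κ).mul hfd)
  have hev : (fun s => 8 * deriv (deriv B.f) s - (120 * deriv B.V s - B.f s ^ 2 - κ) * B.f s)
      =ᶠ[𝓝 0] 0 := by
    filter_upwards [Metric.ball_mem_nhds (0 : ℂ) hε] with s hs
    have h1 := hconst s hs
    have h2 := hne s hs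
    have h3 : q₀ s * B.f s = deriv (deriv B.f) s := by simp only [hq₀]; field_simp
    simp only [Pi.zero_apply]
    linear_combination (-8 : ℂ) * h3 - B.f s * h1
  have key := (hF.analyticOnNhd hDopen).eqOn_zero_of_preconnected_of_eventuallyEq_zero
    hDconv.isPreconnected B.zero_mem hev
  intro s hs
  have := key hs
  simp only [Pi.zero_apply] at this
  exact sub_eq_zero.1 this

/-- uniqueness of the potential: a holomorphic `q` with `f'' = q f` is `(120 V' - f² - κ)/8`. -/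
theorem q_unique {q : ℂ → ℂ} (hq : DifferentiableOn ℂ q B.D)
    (h : ∀ s ∈ B.D, deriv (deriv B.f) s = q s * B.f s) {κ : ℂ}
    (hκ : ∀ s ∈ B.D, 8 * deriv (deriv B.f) s = (120 * deriv B.V s - B.f s ^ 2 - κ) * B.f s) :
    ∀ s ∈ B.D, 8 * q s = 120 * deriv B.V s - B.f s ^ 2 - κ := by
  have hDopen : IsOpen B.D := isOpen_estrip _
  have hDconv : Convex ℝ B.D := convex_estrip _
  have hfd : DifferentiableOn ℂ B.f B.D := B.φ_diff.deriv hDopen
  have hV1 : DifferentiableOn ℂ (deriv B.V) B.D := B.V_diff.deriv hDopen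
  have hF : DifferentiableOn ℂ (fun s => 8 * q s - (120 * deriv B.V s - B.f s ^ 2 - κ)) B.D :=
    (hq.const_mul 8).sub (((hV1.const_mul 120).sub (hfd.pow 2)).sub_const κ)
  have hcont : ContinuousAt B.f 0 :=
    (hfd.differentiableAt (hDopen.mem_nhds B.zero_mem)).continuousAt
  have hev : (fun s => 8 * q s - (120 * deriv B.V s - B.f s ^ 2 - κ)) =ᶠ[𝓝 0] 0 := by
    filter_upwards [hDopen.mem_nhds B.zero_mem, hcont.eventually_ne B.f_zero_ne] with s hs hne
    have h1 := h s hs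
    have h2 := hκ s hs
    have : (8 * q s - (120 * deriv B.V s - B.f s ^ 2 - κ)) * B.f s = 0 := by
      linear_combination h2 - 8 * h1
    rcases mul_eq_zero.1 this with h3 | h3
    · exact h3
    · exact absurd h3 hne
  have key := (hF.analyticOnNhd hDopen).eqOn_zero_of_preconnected_of_eventuallyEq_zero
    hDconv.isPreconnected B.zero_mem hev
  intro s hs
  have := key hs
  simp only [Pi.zero_apply] at this
  exact sub_eq_zero.1 this

/-- the mean of `V'` over a period vanishes. -/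
theorem V_mean : ∫ x in (0 : ℝ)..(2 * π), deriv B.V (x : ℂ) = 0 := by
  have hDopen : IsOpen B.D := isOpen_estrip _
  have hreal : ∀ x : ℝ, (x : ℂ) ∈ B.D := fun x => by
    have h : (0 : ℂ) + (x : ℂ) ∈ estrip B.G.Hs := estrip_add_real B.zero_mem x
    rwa [zero_add] at h
  have hV1 : DifferentiableOn ℂ (deriv B.V) B.D := B.V_diff.deriv hDopen
  have hcont : Continuous fun x : ℝ => deriv B.V (x : ℂ) := by
    refine continuous_iff_continuousAt.2 fun x => ?_
    have h1 : ContinuousAt (deriv B.V) (x : ℂ) :=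
      (hV1.differentiableAt (hDopen.mem_nhds (hreal x))).continuousAt
    exact h1.comp (f := fun x : ℝ => (x : ℂ)) Complex.continuous_ofReal.continuousAt
  have hd : ∀ x : ℝ, HasDerivAt (fun x : ℝ => B.V (x : ℂ)) (deriv B.V (x : ℂ)) x := fun x =>
    ((B.V_diff.differentiableAt (hDopen.mem_nhds (hreal x))).hasDerivAt).comp_ofReal
  rw [intervalIntegral.integral_eq_sub_of_hasDerivAt (fun x _ => hd x)
    (hcont.intervalIntegrable _ _)]
  have := B.V_per 0 B.zero_mem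
  rw [zero_add] at this
  push_cast
  rw [this]
  simp

/-! auxiliary (proved) -/

theorem isOpen_D : IsOpen B.D := isOpen_estrip _

theorem f_diff : DifferentiableOn ℂ B.f B.D := B.φ_diff.deriv B.isOpen_D

theorem dV_diff : DifferentiableOn ℂ (deriv B.V) B.D := B.V_diff.deriv B.isOpen_D

theorem real_mem (x : ℝ) : (x : ℂ) ∈ B.D := by
  have h : (0 : ℂ) + (x : ℂ) ∈ estrip B.G.Hs := estrip_add_real B.zero_mem x
  rw [zero_add] at h
  exact h

end BaseCtx

/-! ## §5  glue -/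

/-- **P1 Lemma 5.5.** -/
theorem Lifted.exists_q' {G : Glance} (T : Lifted G) :
    ∃ q : ℂ → ℂ, DifferentiableOn ℂ q (estrip G.Hs) ∧
      ∀ s ∈ estrip G.Hs, deriv (deriv (deriv T.φ)) s = q s * deriv T.φ s := by
  obtain ⟨κ, hκ⟩ := T.toBase.exists_kappa
  refine ⟨fun s => (120 * deriv T.toBase.V s - T.toBase.f s ^ 2 - κ) / 8, ?_, ?_⟩
  · exact ((((T.toBase.dV_diff).const_mul 120).sub (T.toBase.f_diff.pow 2)).sub_const κ).div_const 8
  · intro s hs
    have h := hκ s hs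
    have e : deriv (deriv (deriv T.φ)) s = deriv (deriv T.toBase.f) s := rfl
    have e' : deriv T.φ s = T.toBase.f s := rfl
    rw [e, e']
    linear_combination h / 8

/-- **P1 Proposition 5.6, (5.24).** -/
theorem Shape.V_deriv (Sh : Shape) : ∀ y ∈ Sh.D,
    HasDerivAt (fun y => deriv (deriv fun t : ℂ => Sh.lift (y, t)) 0 / 2)
      ((Sh.W y - (2 * π : ℂ)⁻¹ * ∫ x in (0 : ℝ)..(2 * π), Sh.W (x : ℂ)) / 120) y := by
  intro y hy
  set B := Sh.toBase with hB
  obtain ⟨κ, hκ⟩ := B.exists_kappa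
  have hq := B.q_unique (q := Sh.q) Sh.q_diff (fun s hs => Sh.q_eq s hs) hκ
  have hW : ∀ s ∈ B.D, Sh.W s = 120 * deriv B.V s - κ := by
    intro s hs
    have h := hq s hs
    have e : Sh.W s = B.f s ^ 2 + 8 * Sh.q s := rfl
    rw [e]
    linear_combination h
  have hcont : Continuous fun x : ℝ => deriv B.V (x : ℂ) := by
    refine continuous_iff_continuousAt.2 fun x => ?_
    have h1 : ContinuousAt (deriv B.V) (x : ℂ) :=
      (B.dV_diff.differentiableAt (B.isOpen_D.mem_nhds (B.real_mem x))).continuousAt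
    exact h1.comp (f := fun x : ℝ => (x : ℂ)) Complex.continuous_ofReal.continuousAt
  have hint : ∫ x in (0 : ℝ)..(2 * π), Sh.W (x : ℂ) = -(2 * π * κ) := by
    have h1 : ∫ x in (0 : ℝ)..(2 * π), Sh.W (x : ℂ)
        = ∫ x in (0 : ℝ)..(2 * π), (120 * deriv B.V (x : ℂ) - κ) :=
      intervalIntegral.integral_congr fun x _ => hW _ (B.real_mem x)
    rw [h1, intervalIntegral.integral_sub ((hcont.const_mul 120).intervalIntegrable _ _)
      (intervalIntegrable_const), intervalIntegral.integral_const_mul, B.V_mean,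
      intervalIntegral.integral_const]
    simp
  have hd : HasDerivAt B.V (deriv B.V y) y :=
    (B.V_diff.differentiableAt (B.isOpen_D.mem_nhds hy)).hasDerivAt
  have hπ : (2 * π : ℂ) ≠ 0 := by
    simp [Real.pi_ne_zero]
  have e : (Sh.W y - (2 * π : ℂ)⁻¹ * ∫ x in (0 : ℝ)..(2 * π), Sh.W (x : ℂ)) / 120 = deriv B.V y := by
    rw [hint, hW y hy]
    field_simp
    ring
  rw [e]
  exact hd

end Claimed.Agent.R269
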