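/-
Row 269, P1 Lemmas 5.1-5.2, the analytic bridge: definitions.   Owner: helper134.
 `rkF A B`  the rank-one defect `A_y B_t - A_t B_y`;
 `rfF A B`  the defect of the reflection law in isotropic coordinates  `ΔA₊ ΔA₋ B_y² - ΔB₊ ΔB₋ A_y²`,  `Δ_± F = F(y ± t, t) - F(y,t)`;
 `G.XZ0, G.XW0`, `S.XZ, S.XW`   the isotropic coordinates `x₁ ± i x₂` of the impact map (initial domain / maximal extension).
-/
import Claimed.Agent.R269.S5.Pre
import Claimed.Agent.R269.S4.Defs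

set_option autoImplicit false

namespace Claimed.Agent.R269

open Complex

/-- rank-one defect. -/
noncomputable def rkF (A B : ℂ × ℂ → ℂ) (w : ℂ × ℂ) : ℂ := pdy A w * pdt B w - pdt A w * pdy B w

/-- defect of the reflection law. -/
noncomputable def rfF (A B : ℂ × ℂ → ℂ) (w : ℂ × ℂ) : ℂ :=
  (A (w.1 + ((1 : ℤ) : ℂ) * w.2, w.2) - A w) * (A (w.1 + ((-1 : ℤ) : ℂ) * w.2, w.2) - A w) * pdy B w ^ 2 -
    (B (w.1 + ((1 : ℤ) : ℂ) * w.2, w.2) - B w) * (B (w.1 + ((-1 : ℤ) : ℂ) * w.2, w.2) - B w) * pdy A w ^ 2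

namespace Glance

variable (G : Glance)

noncomputable def XZ0 (w : ℂ × ℂ) : ℂ := (G.X0 w).1 + I * (G.X0 w).2

noncomputable def XW0 (w : ℂ × ℂ) : ℂ := (G.X0 w).1 - I * (G.X0 w).2

end Glance

namespace Sec4

variable {G : Glance} (S : Sec4 G)

noncomputable def XZ (w : ℂ × ℂ) : ℂ := (S.X w).1 + I * (S.X w).2

noncomputable def XW (w : ℂ × ℂ) : ℂ := (S.X w).1 - I * (S.X w).2

theorem XZ_zero (s : ℂ) : S.XZ (s, 0) = S.Zc s := rfl

theorem XW_zero (s : ℂ) : S.XW (s, 0) = S.Wc s := rfl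

end Sec4

end Claimed.Agent.R269
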