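/-
Row 269, P1 Lemma 5.2, the rational functional equation (HOST-FREE, Mathlib only): definitions.   Owner: helper134.
  `psh q`  the shift `P(w) ↦ P(w+q)` of `ℂ[w]`;    `rsh q`  the shift of `ℂ(w)`.
-/
import Mathlib

set_option autoImplicit false

namespace Claimed.Agent.R269.Ctr

open Polynomial

/-- the shift `P(w) ↦ P(w+q)`. -/
noncomputable def psh (q : ℤ) : Polynomial ℂ →+* Polynomial ℂ :=
  (Polynomial.taylorAlgHom (q : ℂ)).toRingHom

theorem psh_apply (q : ℤ) (P : Polynomial ℂ) : psh q P = Polynomial.taylor (q : ℂ) P := rfl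

theorem psh_injective (q : ℤ) : Function.Injective (psh q) := fun _ _ h =>
  Polynomial.taylor_injective (q : ℂ) h

/-- the shift `r(w) ↦ r(w+q)` of `ℂ(w)`. -/
noncomputable def rsh (q : ℤ) : RatFunc ℂ →+* RatFunc ℂ :=
  RatFunc.mapRingHom (psh q) (by
    intro P hP
    rw [Submonoid.mem_comap]
    rw [mem_nonZeroDivisors_iff_ne_zero] at hP ⊢
    intro h
    exact hP (psh_injective q (by rw [h, map_zero])))

theorem rsh_algebraMap (q : ℤ) (P : Polynomial ℂ) :
    rsh q (algebraMap (Polynomial ℂ) (RatFunc ℂ) P) = algebraMap (Polynomial ℂ) (RatFunc ℂ) (psh q P) := by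
  have h := RatFunc.map_apply_div_ne_zero (psh q) (by
    intro P hP
    rw [Submonoid.mem_comap]
    rw [mem_nonZeroDivisors_iff_ne_zero] at hP ⊢
    intro h
    exact hP (psh_injective q (by rw [h, map_zero]))) P 1 one_ne_zero
  simpa [rsh, RatFunc.coe_mapRingHom_eq_coe_map] using h

/-- The reduced form `ρ = A/B` of a nonconstant rational function with `ρ(∞) = 1`, of degree `s`. -/
structure RhoCtx where
  A : Polynomial ℂ
  B : Polynomial ℂ
  s : ℕ
  cop : IsCoprime A B
  hs : 1 ≤ s
  degA : A.natDegree = s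
  degB : B.natDegree = s
  lc : A.leadingCoeff = B.leadingCoeff

/-- the Wronskian `A'B - AB'`. -/
noncomputable def wr (A B : Polynomial ℂ) : Polynomial ℂ := derivative A * B - A * derivative B

theorem rateq_defs_eqns_cite : True := by
  have := @psh.eq_1
  have := @rsh.eq_1
  have := @wr.eq_1
  trivial

end Claimed.Agent.R269.Ctr
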