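/-
Row 269, P1 Lemmas 5.1-5.2 (isotropic centres), FORMAL CORE: definitions.   Owner: helper134 (sub-captain sec 5).

Everything happens in ONE field  `AA = K((t))`, `K = KK = ℂ((z))`  (`z = s - p`), with the operators of `Lib/Lau.lean`:
  `Dz = ∂_z` (coefficientwise), `Dt = ∂_t`, `Sh q = exp(q t ∂_z)` (the shear `y ↦ y + q t`).
  `Wt b x`     weight filtration (`wt z = wt t = 1`): the coefficient of `t^l` has `z`-order `≥ b - l`;
  `lead b x`   the part of `x` which is homogeneous of weight `b`;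
  `Hom b Y`    `Y` is homogeneous of weight `b` (Euler's relation);
  `IsPS2 x`    `x ∈ ℂ[[z,t]]`;   `IsFrac x`   `x ∈ Frac ℂ[[z,t]]`;
  `om = z/t`, `pev`, `iota`   the embedding `ℂ(w) → AA`, `w ↦ z/t`; `rsh q` the shift `w ↦ w + q` of `ℂ(w)`;
  `Bq`, `Bq2`  the quadratic form `[(S₁g-g)(S₋₁g-g) + t²(∂g)²]/t⁴` and its polarisation;
  `FCtr`       a FORMAL CENTRE DATUM (what the analysis gives at an isotropic centre).
No composition of series, no lift, no convergence is used anywhere.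
-/
import Claimed.Agent.R269.Lib.Lau
import Claimed.Agent.R269.S5.RatEqDefs

set_option autoImplicit false
set_option maxSynthPendingDepth 3

namespace Claimed.Agent.R269.Ctr

open HahnSeries Lau

/-- `K = ℂ((z))`. -/
abbrev KK := LaurentSeries ℂ

/-- `K((t))`. -/
abbrev AA := LaurentSeries KK

instance instCharZeroKK : CharZero KK :=
  charZero_of_injective_ringHom (f := (HahnSeries.C : ℂ →+* KK)) HahnSeries.C_injective

instance instCharZeroAA : CharZero AA :=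
  charZero_of_injective_ringHom (f := (HahnSeries.C : KK →+* AA)) HahnSeries.C_injective

/-- `d/dz` on `K`. -/
noncomputable def dz : Dv KK := Lau.dt

/-- `∂_z` on `K((t))`. -/
noncomputable def Dz : Dv AA := Lau.dy dz

/-- `∂_t` on `K((t))`. -/
noncomputable def Dt : Dv AA := Lau.dt

/-- the shear `exp(q t ∂_z)`. -/
noncomputable def Sh (q : ℤ) : AA →+* AA := Lau.shear dz q

/-- `t`. -/
noncomputable def tt : AA := single 1 1

/-- `z`. -/
noncomputable def zz : AA := HahnSeries.C (single 1 1)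

/-- constants. -/
noncomputable def cc (c : ℂ) : AA := HahnSeries.C (HahnSeries.C c)

/-- the weight filtration. -/
def Wt (b : ℤ) (x : AA) : Prop := ∀ l : ℤ, ((b - l : ℤ) : WithTop ℤ) ≤ (x.coeff l).orderTop

/-- the homogeneous part of weight `b`. -/
noncomputable def lead (b : ℤ) (x : AA) : AA :=
  HahnSeries.ofSuppBddBelow (fun l : ℤ => single (b - l) ((x.coeff l).coeff (b - l)))
    (by
      refine ⟨x.order, ?_⟩
      intro m hm
      by_contra hlt
      exact hm (by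
        show single (b - m) ((x.coeff m).coeff (b - m)) = 0
        rw [HahnSeries.coeff_eq_zero_of_lt_order (not_le.mp hlt)]
        simp))

@[simp] theorem lead_coeff (b : ℤ) (x : AA) (l : ℤ) :
    (lead b x).coeff l = single (b - l) ((x.coeff l).coeff (b - l)) := rfl

/-- homogeneous of weight `b` (Euler). -/
def Hom (b : ℤ) (Y : AA) : Prop := zz * Dz Y + tt * Dt Y = (b : AA) * Y

/-- `x ∈ ℂ[[z,t]]`. -/
def IsPS2 (x : AA) : Prop := 0 ≤ x.orderTop ∧ ∀ l : ℤ, 0 ≤ (x.coeff l).orderTop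

/-- `x ∈ Frac ℂ[[z,t]]`. -/
def IsFrac (x : AA) : Prop := ∃ D N : AA, IsPS2 D ∧ IsPS2 N ∧ D ≠ 0 ∧ D * x = N

/-- `w = z/t`. -/
noncomputable def om : AA := zz * tt⁻¹

/-- `P ↦ P(z/t)`. -/
noncomputable def pev : Polynomial ℂ →+* AA :=
  Polynomial.eval₂RingHom ((HahnSeries.C : KK →+* AA).comp (HahnSeries.C : ℂ →+* KK)) om

/-- the quadratic form `[(S₁g-g)(S₋₁g-g) + t²(∂_z g)²]/t⁴ = (∂²g)²/4 - ∂g ∂³g/3 + O(t²)`. -/
noncomputable def Bq (g : AA) : AA :=
  ((Sh 1 g - g) * (Sh (-1) g - g) + tt ^ 2 * Dz g ^ 2) * (tt ^ 4)⁻¹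

/-- its polarisation. -/
noncomputable def Bq2 (g h : AA) : AA :=
  ((Sh 1 g - g) * (Sh (-1) h - h) + (Sh 1 h - h) * (Sh (-1) g - g) + 2 * tt ^ 2 * Dz g * Dz h) *
    (tt ^ 4)⁻¹

/-- `B₀(g) = g''²/4 - g' g'''/3` on `K`. -/
noncomputable def B0 (g : KK) : KK := dz (dz g) ^ 2 / 4 - dz g * dz (dz (dz g)) / 3

/-- polarisation of `B₀`. -/
noncomputable def B1 (g h : KK) : KK :=
  dz (dz g) * dz (dz h) / 2 - (dz h * dz (dz (dz g)) + dz g * dz (dz (dz h))) / 3

/-- `E₀ = B₀(Z) W'² - B₀(W) Z'²`. -/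
noncomputable def E0 (Z W : KK) : KK := B0 Z * dz W ^ 2 - B0 W * dz Z ^ 2

/-- the linearisation of `E₀` at `(Z,W)` in the direction `(a,b)`. -/
noncomputable def LL (Z W a b : KK) : KK :=
  (B1 Z a * dz W ^ 2 + 2 * B0 Z * dz W * dz b) - (B1 W b * dz Z ^ 2 + 2 * B0 W * dz Z * dz a)

/-- A formal centre datum: the expansions at `(p,0)` of the isotropic coordinates `Z - Z₀`, `W - W₀` of the impact map. -/
structure FCtr where
  Zx : AA
  Wx : AA
  Zx_nonneg : 0 ≤ Zx.orderTop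
  Wx_nonneg : 0 ≤ Wx.orderTop
  /-- rank one -/
  rank : Dz Zx * Dt Wx = Dt Zx * Dz Wx
  /-- the reflection law in isotropic coordinates -/
  refl : (Sh 1 Zx - Zx) * (Sh (-1) Zx - Zx) * Dz Wx ^ 2 =
    (Sh 1 Wx - Wx) * (Sh (-1) Wx - Wx) * Dz Zx ^ 2
  fracZ : IsFrac Zx
  fracW : IsFrac Wx
  /-- the order of the normal `a` at the centre -/
  n : ℤ
  n_ne : n ≠ 0
  n_ne3 : n ≠ 3
  n_ne3' : n ≠ -3
  ordZ : (Zx.coeff 0).orderTop = ((3 + n : ℤ) : WithTop ℤ)
  ordW : (Wx.coeff 0).orderTop = ((3 - n : ℤ) : WithTop ℤ)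

namespace FCtr

variable (Φ : FCtr)

/-- the zero slice. -/
noncomputable def Z : KK := Φ.Zx.coeff 0

noncomputable def W : KK := Φ.Wx.coeff 0

/-- `y` is a function of the impact point: rank one with `Zx`. -/
def Flat (y : AA) : Prop := Dz Φ.Zx * Dt y = Dt Φ.Zx * Dz y

/-- leading parts. -/
noncomputable def Yp : AA := lead (3 + Φ.n) Φ.Zx

noncomputable def Ym : AA := lead (3 - Φ.n) Φ.Wx

/-- interchange of the isotropic coordinates. -/
def swap : FCtr where
  Zx := Φ.Wx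
  Wx := Φ.Zx
  Zx_nonneg := Φ.Wx_nonneg
  Wx_nonneg := Φ.Zx_nonneg
  rank := by
    have h := Φ.rank
    rw [mul_comm (Dz Φ.Wx), mul_comm (Dt Φ.Wx)]
    exact h.symm
  refl := Φ.refl.symm
  fracZ := Φ.fracW
  fracW := Φ.fracZ
  n := -Φ.n
  n_ne := neg_ne_zero.mpr Φ.n_ne
  n_ne3 := fun h => Φ.n_ne3' (by omega)
  n_ne3' := fun h => Φ.n_ne3 (by omega)
  ordZ := by rw [Φ.ordW]; congr 1
  ordW := by rw [Φ.ordZ]; congr 1; ring

end FCtr

end Claimed.Agent.R269.Ctr
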