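/-
Row 269, P1 Lemmas 5.1-5.2, formal core, leaf LF-S5b-ops (HOST-FREE formal algebra).   Statements and proofs: helper134.
Elementary facts on Laurent series and on the operators `dz, Dz, Dt, Sh` of `CenterDefs.lean`.
NOTE for all users of `AA = ℂ((z))((t))`: keep `set_option maxSynthPendingDepth 3` (Mathlib's own default) at the top of the file:
without it the field lemmas (`mul_eq_zero`, `pow_ne_zero`, `zpow_neg`, `div_eq_iff`, `linear_combination`, `simp`) do not unify on the nested type.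
-/
import Claimed.Agent.R269.S5.CenterDefs

set_option autoImplicit false
set_option maxSynthPendingDepth 3

namespace Claimed.Agent.R269.Ctr

open HahnSeries Lau

section General

variable {k : Type*} [Field k]

theorem le_orderTop_iff (x : LaurentSeries k) (a : ℤ) :
    (a : WithTop ℤ) ≤ x.orderTop ↔ ∀ i : ℤ, i < a → x.coeff i = 0 := by
  rw [HahnSeries.le_orderTop_iff_forall]
  constructor
  · intro h i hi
    exact h i (by exact_mod_cast hi)
  · intro h i hi
    exact h i (by exact_mod_cast hi)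

theorem le_orderTop_add {x y : LaurentSeries k} {a : ℤ} (hx : (a : WithTop ℤ) ≤ x.orderTop)
    (hy : (a : WithTop ℤ) ≤ y.orderTop) : (a : WithTop ℤ) ≤ (x + y).orderTop :=
  (le_min hx hy).trans HahnSeries.min_orderTop_le_orderTop_add

theorem le_orderTop_neg {x : LaurentSeries k} {a : ℤ} (hx : (a : WithTop ℤ) ≤ x.orderTop) :
    (a : WithTop ℤ) ≤ (-x).orderTop := by
  rwa [HahnSeries.orderTop_neg]

theorem le_orderTop_sub {x y : LaurentSeries k} {a : ℤ} (hx : (a : WithTop ℤ) ≤ x.orderTop)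
    (hy : (a : WithTop ℤ) ≤ y.orderTop) : (a : WithTop ℤ) ≤ (x - y).orderTop := by
  rw [sub_eq_add_neg]
  exact le_orderTop_add hx (le_orderTop_neg hy)

theorem le_orderTop_sum {ι : Type*} (s : Finset ι) (f : ι → LaurentSeries k) (a : ℤ)
    (h : ∀ i ∈ s, (a : WithTop ℤ) ≤ (f i).orderTop) : (a : WithTop ℤ) ≤ (∑ i ∈ s, f i).orderTop := by
  classical
  induction s using Finset.induction_on with
  | empty => simp
  | insert i s hi ih =>
    rw [Finset.sum_insert hi]
    exact le_orderTop_add (h i (Finset.mem_insert_self i s))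
      (ih fun j hj => h j (Finset.mem_insert_of_mem hj))

theorem orderTop_mul_eq (x y : LaurentSeries k) : (x * y).orderTop = x.orderTop + y.orderTop :=
  HahnSeries.orderTop_mul x y

theorem le_orderTop_mul {x y : LaurentSeries k} {a b : ℤ} (hx : (a : WithTop ℤ) ≤ x.orderTop)
    (hy : (b : WithTop ℤ) ≤ y.orderTop) : ((a + b : ℤ) : WithTop ℤ) ≤ (x * y).orderTop := by
  rw [orderTop_mul_eq, WithTop.coe_add]
  exact add_le_add hx hy

theorem orderTop_inv_eq {x : LaurentSeries k} {a : ℤ} (hx : x.orderTop = (a : WithTop ℤ)) :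
    x⁻¹.orderTop = ((-a : ℤ) : WithTop ℤ) := by
  have hx0 : x ≠ 0 := by
    intro h
    rw [h, HahnSeries.orderTop_zero] at hx
    exact WithTop.top_ne_coe hx
  have h1 : (x * x⁻¹).orderTop = 0 := by
    rw [mul_inv_cancel₀ hx0, HahnSeries.orderTop_one]
  rw [orderTop_mul_eq, hx] at h1
  have hi0 : x⁻¹ ≠ 0 := inv_ne_zero hx0
  obtain ⟨b, hb⟩ := WithTop.ne_top_iff_exists.1 (HahnSeries.orderTop_ne_top.2 hi0)
  rw [← hb] at h1 ⊢
  have h2 : a + b = 0 := by exact_mod_cast h1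
  have : b = -a := by omega
  rw [this]

/-- the coefficient of a product as a sum over an interval. -/
theorem coeff_mul_Icc (x y : LaurentSeries k) (a b l : ℤ) (hx : (a : WithTop ℤ) ≤ x.orderTop)
    (hy : (b : WithTop ℤ) ≤ y.orderTop) :
    (x * y).coeff l = ∑ i ∈ Finset.Icc a (l - b), x.coeff i * y.coeff (l - i) :=
  lau_coeff_mul x y a b ((le_orderTop_iff x a).1 hx) ((le_orderTop_iff y b).1 hy) l

/-- the lowest possible coefficient of a product. -/
theorem coeff_mul_add (x y : LaurentSeries k) (a b : ℤ) (hx : (a : WithTop ℤ) ≤ x.orderTop)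
    (hy : (b : WithTop ℤ) ≤ y.orderTop) : (x * y).coeff (a + b) = x.coeff a * y.coeff b := by
  rw [coeff_mul_Icc x y a b (a + b) hx hy, show a + b - b = a by ring, Finset.Icc_self,
    Finset.sum_singleton, show a + b - a = b by ring]

theorem coeff_zero_mul (x y : LaurentSeries k) (hx : 0 ≤ x.orderTop) (hy : 0 ≤ y.orderTop) :
    (x * y).coeff 0 = x.coeff 0 * y.coeff 0 := by
  have := coeff_mul_add x y 0 0 (by exact_mod_cast hx) (by exact_mod_cast hy)
  simpa using this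

theorem nonneg_mul {x y : LaurentSeries k} (hx : 0 ≤ x.orderTop) (hy : 0 ≤ y.orderTop) :
    0 ≤ (x * y).orderTop := by
  rw [orderTop_mul_eq]
  exact add_nonneg hx hy

theorem nonneg_pow {x : LaurentSeries k} (hx : 0 ≤ x.orderTop) (m : ℕ) : 0 ≤ (x ^ m).orderTop := by
  induction m with
  | zero => simp [HahnSeries.orderTop_one]
  | succ m ih => rw [pow_succ]; exact nonneg_mul ih hx

theorem coeff_zero_pow (x : LaurentSeries k) (hx : 0 ≤ x.orderTop) (m : ℕ) :
    (x ^ m).coeff 0 = x.coeff 0 ^ m := by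
  induction m with
  | zero => simp
  | succ m ih => rw [pow_succ, coeff_zero_mul _ _ (nonneg_pow hx m) hx, ih, pow_succ]

theorem nonneg_add {x y : LaurentSeries k} (hx : 0 ≤ x.orderTop) (hy : 0 ≤ y.orderTop) :
    0 ≤ (x + y).orderTop :=
  (le_min hx hy).trans HahnSeries.min_orderTop_le_orderTop_add

theorem nonneg_sub {x y : LaurentSeries k} (hx : 0 ≤ x.orderTop) (hy : 0 ≤ y.orderTop) :
    0 ≤ (x - y).orderTop := by
  rw [sub_eq_add_neg]
  exact nonneg_add hx (by rwa [HahnSeries.orderTop_neg])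

/-- multiplication by `τ^m`. -/
theorem coeff_single_zpow_mul (x : LaurentSeries k) (m l : ℤ) :
    ((single 1 (1 : k) : LaurentSeries k) ^ m * x).coeff l = x.coeff (l - m) := by
  rw [← RatFunc.single_zpow]
  have h := HahnSeries.coeff_single_mul_add (r := (1 : k)) (x := x) (a := l - m) (b := m)
  rwa [sub_add_cancel, one_mul] at h

/-- the inverse of a power series with invertible constant term. -/
theorem nonneg_inv {x : LaurentSeries k} (hx : 0 ≤ x.orderTop) (h0 : x.coeff 0 ≠ 0) :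
    0 ≤ x⁻¹.orderTop ∧ x⁻¹.coeff 0 = (x.coeff 0)⁻¹ := by
  have h1 : x.orderTop = ((0 : ℤ) : WithTop ℤ) :=
    le_antisymm (HahnSeries.orderTop_le_of_coeff_ne_zero h0) (by exact_mod_cast hx)
  have h2 := orderTop_inv_eq h1
  have h3 : 0 ≤ x⁻¹.orderTop := by rw [h2]; simp
  refine ⟨h3, ?_⟩
  have hx0 : x ≠ 0 := by
    intro h
    rw [h] at h0
    exact h0 rfl
  have h4 := coeff_zero_mul x x⁻¹ hx h3
  rw [mul_inv_cancel₀ hx0] at h4
  have h5 : (1 : LaurentSeries k).coeff 0 = 1 := by simp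
  rw [h5] at h4
  exact (eq_inv_of_mul_eq_one_right h4.symm)

end General

/-! ### the operators -/

theorem dz_coeff (c : KK) (m : ℤ) : (dz c).coeff m = ((m : ℂ) + 1) * c.coeff (m + 1) :=
  Lau.dt_coeff c m

theorem Dz_coeff (x : AA) (l : ℤ) : (Dz x).coeff l = dz (x.coeff l) := rfl

theorem Dt_coeff (x : AA) (l : ℤ) : (Dt x).coeff l = ((l : KK) + 1) * x.coeff (l + 1) :=
  Lau.dt_coeff x l

theorem Sh_coeff (q : ℤ) (x : AA) (l : ℤ) (N : ℕ) (hN : l - x.order < N) :
    (Sh q x).coeff l =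
      ∑ i ∈ Finset.range N, ((q : KK) ^ i / (i.factorial : KK)) * (dz^[i]) (x.coeff (l - i)) :=
  Lau.shearFun_coeff dz q x l N hN

theorem ops_Sh_coeff' (q : ℤ) (x : AA) (a : ℤ) (ha : ∀ i < a, x.coeff i = 0) (l : ℤ) (N : ℕ)
    (hN : l - a < N) :
    (Sh q x).coeff l =
      ∑ i ∈ Finset.range N, ((q : KK) ^ i / (i.factorial : KK)) * (dz^[i]) (x.coeff (l - i)) :=
  Lau.shearFun_coeff' dz q x a ha l N hN

theorem dz_single (m : ℤ) (c : ℂ) : dz (single m c) = single (m - 1) ((m : ℂ) * c) := by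
  ext j
  rw [dz_coeff, HahnSeries.coeff_single, HahnSeries.coeff_single]
  by_cases h : j + 1 = m
  · have h' : j = m - 1 := by omega
    rw [if_pos h, if_pos h', ← h]
    push_cast
    ring
  · have h' : ¬ j = m - 1 := by omega
    rw [if_neg h, if_neg h', mul_zero]

theorem dz_C (c : ℂ) : dz (HahnSeries.C c) = 0 := by
  have : (HahnSeries.C c : KK) = single 0 c := rfl
  rw [this, dz_single]
  simp

theorem le_orderTop_dz {c : KK} {a : ℤ} (h : (a : WithTop ℤ) ≤ c.orderTop) :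
    ((a - 1 : ℤ) : WithTop ℤ) ≤ (dz c).orderTop := by
  rw [le_orderTop_iff] at h ⊢
  intro i hi
  rw [dz_coeff, h (i + 1) (by omega), mul_zero]

theorem le_orderTop_dz_iter {c : KK} {a : ℤ} (h : (a : WithTop ℤ) ≤ c.orderTop) (i : ℕ) :
    ((a - i : ℤ) : WithTop ℤ) ≤ ((dz^[i]) c).orderTop := by
  induction i with
  | zero => simpa using h
  | succ i ih =>
    rw [Function.iterate_succ_apply']
    have := le_orderTop_dz ih
    have e : a - (i : ℤ) - 1 = a - ((i + 1 : ℕ) : ℤ) := by push_cast; ring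
    rwa [e] at this

/-- exact order of a derivative. -/
theorem orderTop_dz {c : KK} {a : ℤ} (h : c.orderTop = (a : WithTop ℤ)) (ha : a ≠ 0) :
    (dz c).orderTop = ((a - 1 : ℤ) : WithTop ℤ) := by
  refine le_antisymm ?_ (le_orderTop_dz h.ge)
  apply HahnSeries.orderTop_le_of_coeff_ne_zero
  rw [dz_coeff, sub_add_cancel]
  refine mul_ne_zero ?_ (HahnSeries.coeff_orderTop_ne h)
  have : ((a - 1 : ℤ) : ℂ) + 1 = (a : ℂ) := by push_cast; ring
  rw [this]
  exact_mod_cast ha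

/-- a derivative has no residue. -/
theorem dz_coeff_neg_one (c : KK) : (dz c).coeff (-1) = 0 := by
  rw [dz_coeff]
  simp

theorem dz_eq_zero_iff (c : KK) : dz c = 0 ↔ ∃ a : ℂ, c = HahnSeries.C a := by
  constructor
  · intro h
    refine ⟨c.coeff 0, ?_⟩
    ext j
    have e : (HahnSeries.C (c.coeff 0) : KK) = single 0 (c.coeff 0) := rfl
    rw [e, HahnSeries.coeff_single]
    by_cases hj : j = 0
    · rw [if_pos hj, hj]
    · rw [if_neg hj]
      have h1 : (dz c).coeff (j - 1) = 0 := by rw [h]; rfl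
      rw [dz_coeff, sub_add_cancel] at h1
      have h2 : ((j - 1 : ℤ) : ℂ) + 1 ≠ 0 := by
        have : ((j - 1 : ℤ) : ℂ) + 1 = (j : ℂ) := by push_cast; ring
        rw [this]
        exact_mod_cast hj
      exact (mul_eq_zero.1 h1).resolve_left h2
  · rintro ⟨a, rfl⟩
    exact dz_C a

/-- integration: a bound on `c''` bounds `c`. -/
theorem le_orderTop_of_dz_dz {c : KK} {a : ℤ} (ha : a ≤ 0)
    (h : ((a - 2 : ℤ) : WithTop ℤ) ≤ (dz (dz c)).orderTop) : (a : WithTop ℤ) ≤ c.orderTop := by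
  rw [le_orderTop_iff] at h ⊢
  intro i hi
  have h1 := h (i - 2) (by omega)
  rw [dz_coeff, dz_coeff, show i - 2 + 1 + 1 = i by ring] at h1
  have h2 : ((i - 2 : ℤ) : ℂ) + 1 ≠ 0 := by
    have : ((i - 2 : ℤ) : ℂ) + 1 = ((i - 1 : ℤ) : ℂ) := by push_cast; ring
    rw [this]
    have : i - 1 ≠ 0 := by omega
    exact_mod_cast this
  have h3 : ((i - 2 + 1 : ℤ) : ℂ) + 1 ≠ 0 := by
    have : ((i - 2 + 1 : ℤ) : ℂ) + 1 = (i : ℂ) := by push_cast; ring
    rw [this]
    have : i ≠ 0 := by omega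
    exact_mod_cast this
  exact (mul_eq_zero.1 ((mul_eq_zero.1 h1).resolve_left h2)).resolve_left h3

theorem tt_ne_zero : tt ≠ 0 := by
  unfold tt
  exact HahnSeries.single_ne_zero one_ne_zero

theorem zz_ne_zero : zz ≠ 0 := by
  unfold zz
  intro h
  have h1 : (single 1 (1 : ℂ) : KK) = 0 := HahnSeries.C_injective (by rw [h, HahnSeries.C_zero])
  exact HahnSeries.single_ne_zero one_ne_zero h1

theorem tt_zpow_eq (m : ℤ) : tt ^ m = single m (1 : KK) := (RatFunc.single_zpow m).symm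

theorem tt_zpow_orderTop (m : ℤ) : (tt ^ m).orderTop = (m : WithTop ℤ) := by
  rw [tt_zpow_eq]
  exact HahnSeries.orderTop_single one_ne_zero

theorem Dz_tt : Dz tt = 0 := by
  refine HahnSeries.ext (funext fun l => ?_)
  rw [Dz_coeff]
  unfold tt
  rw [HahnSeries.coeff_single]
  split_ifs
  · exact dz.map_one
  · exact map_zero dz

theorem Dt_tt : Dt tt = 1 := by
  refine HahnSeries.ext (funext fun l => ?_)
  rw [Dt_coeff]
  unfold tt
  rw [HahnSeries.coeff_single, HahnSeries.coeff_one]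
  by_cases h : l = 0
  · subst h
    simp
  · have : ¬ l + 1 = 1 := by omega
    rw [if_neg this, if_neg h, mul_zero]

theorem ops_C_coeff (c : KK) (l : ℤ) : (HahnSeries.C c : AA).coeff l = if l = 0 then c else 0 := by
  have : (HahnSeries.C c : AA) = single 0 c := rfl
  rw [this, HahnSeries.coeff_single]
  split_ifs <;> rfl

theorem Dt_C (c : KK) : Dt (HahnSeries.C c) = 0 := by
  refine HahnSeries.ext (funext fun l => ?_)
  rw [Dt_coeff, ops_C_coeff]
  by_cases h : l + 1 = 0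
  · have : (l : KK) + 1 = 0 := by exact_mod_cast congrArg (Int.cast : ℤ → KK) h
    rw [this, zero_mul]
    rfl
  · rw [if_neg h, mul_zero]
    rfl

theorem Dz_C (c : KK) : Dz (HahnSeries.C c) = HahnSeries.C (dz c) := by
  refine HahnSeries.ext (funext fun l => ?_)
  rw [Dz_coeff, ops_C_coeff, ops_C_coeff]
  split_ifs
  · rfl
  · exact map_zero dz

theorem Dz_zz : Dz zz = 1 := by
  unfold zz
  rw [Dz_C, dz_single]
  simp

theorem Dt_zz : Dt zz = 0 := Dt_C _

theorem Dz_cc (c : ℂ) : Dz (cc c) = 0 := by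
  unfold cc
  rw [Dz_C, dz_C, HahnSeries.C_zero]

theorem Dt_cc (c : ℂ) : Dt (cc c) = 0 := Dt_C _

theorem Sh_tt (q : ℤ) : Sh q tt = tt := by
  have h := Lau.shearFun_single_mul dz q 1 (1 : AA)
  have h1 : Lau.shearFun dz q (1 : AA) = 1 := (Sh q).map_one
  rw [h1, mul_one] at h
  exact h

theorem ops_Sh_C_coeff (q : ℤ) (a : KK) (l : ℕ) :
    (Sh q (HahnSeries.C a)).coeff (l : ℤ) = ((q : KK) ^ l / (l.factorial : KK)) * (dz^[l]) a := by
  have h0 : ∀ i < (0 : ℤ), (HahnSeries.C a : AA).coeff i = 0 := by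
    intro i hi
    rw [ops_C_coeff, if_neg (by omega)]
  rw [ops_Sh_coeff' q _ 0 h0 l (l + 1) (by push_cast; omega), Finset.sum_range_succ]
  have : ∑ i ∈ Finset.range l, ((q : KK) ^ i / (i.factorial : KK)) *
      (dz^[i]) ((HahnSeries.C a : AA).coeff ((l : ℤ) - i)) = 0 := by
    refine Finset.sum_eq_zero fun i hi => ?_
    have hi' := Finset.mem_range.1 hi
    rw [ops_C_coeff, if_neg (by omega), iterate_map_zero, mul_zero]
  rw [this, zero_add, sub_self, ops_C_coeff, if_pos rfl]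

theorem ops_Sh_coeff_neg (q : ℤ) (x : AA) (hx : 0 ≤ x.orderTop) (l : ℤ) (hl : l < 0) :
    (Sh q x).coeff l = 0 := by
  have h : 0 ≤ (Sh q x).orderTop := by
    have : (Sh q x).orderTop = x.orderTop := Lau.shear_orderTop dz q x
    rw [this]; exact hx
  exact (le_orderTop_iff _ 0).1 (by exact_mod_cast h) l hl

theorem ops_nonneg_C (a : KK) : 0 ≤ (HahnSeries.C a : AA).orderTop := by
  have : ((0 : ℤ) : WithTop ℤ) ≤ (HahnSeries.C a : AA).orderTop := by
    rw [le_orderTop_iff]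
    intro i hi
    rw [ops_C_coeff, if_neg (by omega)]
  exact_mod_cast this

theorem ops_intCast (q : ℤ) : (q : AA) = HahnSeries.C (q : KK) := by
  have h := map_intCast (HahnSeries.C : KK →+* AA) q
  exact h.symm

theorem Sh_zz (q : ℤ) : Sh q zz = zz + (q : AA) * tt := by
  refine HahnSeries.ext (funext fun l => ?_)
  have hq : (q : AA) = HahnSeries.C (q : KK) := ops_intCast q
  have hR : (zz + (q : AA) * tt).coeff l =
      (if l = 0 then (single 1 1 : KK) else 0) + (if l = 1 then (q : KK) else 0) := by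
    rw [HahnSeries.coeff_add, hq]
    unfold zz tt
    rw [ops_C_coeff, HahnSeries.C_mul_eq_smul, HahnSeries.coeff_smul, HahnSeries.coeff_single]
    congr 1
    split_ifs <;> simp
  rw [hR]
  rcases lt_or_ge l 0 with hl | hl
  · rw [ops_Sh_coeff_neg q zz (ops_nonneg_C _) l hl, if_neg (by omega), if_neg (by omega), add_zero]
  · obtain ⟨n, rfl⟩ := Int.eq_ofNat_of_zero_le hl
    unfold zz
    rw [ops_Sh_C_coeff]
    match n with
    | 0 => simp
    | 1 =>
      simp [dz_single]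
    | (n + 2) =>
      rw [if_neg (by omega), if_neg (by omega), add_zero, Function.iterate_succ_apply,
        Function.iterate_succ_apply, dz_single]
      have : dz (single (1 - 1) (((1 : ℤ) : ℂ) * 1)) = 0 := by
        rw [dz_single]; simp
      rw [this, iterate_map_zero, mul_zero]

theorem Sh_cc (q : ℤ) (c : ℂ) : Sh q (cc c) = cc c := by
  refine HahnSeries.ext (funext fun l => ?_)
  rcases lt_or_ge l 0 with hl | hl
  · rw [ops_Sh_coeff_neg q (cc c) (ops_nonneg_C _) l hl]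
    unfold cc
    rw [ops_C_coeff, if_neg (by omega)]
  · obtain ⟨n, rfl⟩ := Int.eq_ofNat_of_zero_le hl
    unfold cc
    rw [ops_Sh_C_coeff, ops_C_coeff]
    match n with
    | 0 => simp
    | (n + 1) =>
      rw [if_neg (by omega), Function.iterate_succ_apply, dz_C, iterate_map_zero, mul_zero]

theorem Dz_Dt_comm (x : AA) : Dz (Dt x) = Dt (Dz x) := Lau.dy_dt_comm dz x

theorem Dz_Sh (q : ℤ) (x : AA) : Dz (Sh q x) = Sh q (Dz x) := Lau.dy_shear dz q x

theorem Dt_Sh (q : ℤ) (x : AA) : Dt (Sh q x) = Sh q (Dt x + (q : AA) * Dz x) := Lau.dt_shear dz q x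

theorem Sh_Sh (q q' : ℤ) (x : AA) : Sh q (Sh q' x) = Sh (q + q') x := Lau.shear_shear dz q q' x

theorem Sh_orderTop (q : ℤ) (x : AA) : (Sh q x).orderTop = x.orderTop := Lau.shear_orderTop dz q x

theorem Dz_nonneg {x : AA} (hx : 0 ≤ x.orderTop) : 0 ≤ (Dz x).orderTop :=
  hx.trans (Lau.orderTop_dy_ge dz x)

theorem Dt_nonneg {x : AA} (hx : 0 ≤ x.orderTop) : 0 ≤ (Dt x).orderTop :=
  Lau.orderTop_dt_nonneg x hx

theorem cc_add (a b : ℂ) : cc (a + b) = cc a + cc b := by
  simp [cc]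

theorem cc_mul (a b : ℂ) : cc (a * b) = cc a * cc b := by
  simp [cc]

theorem cc_injective : Function.Injective cc := by
  intro a b h
  exact HahnSeries.C_injective (HahnSeries.C_injective h)

theorem cc_ne_zero {c : ℂ} (hc : c ≠ 0) : cc c ≠ 0 := by
  intro h
  apply hc
  apply cc_injective
  rw [h]
  simp [cc]

theorem coeff_tt_zpow_mul (x : AA) (m l : ℤ) : (tt ^ m * x).coeff l = x.coeff (l - m) :=
  coeff_single_zpow_mul x m l

theorem ops_coeff_tt_pow_mul (x : AA) (m : ℕ) (l : ℤ) : (tt ^ m * x).coeff l = x.coeff (l - m) := by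
  have h : tt ^ m = tt ^ (m : ℤ) := (zpow_natCast tt m).symm
  rw [h]
  exact coeff_tt_zpow_mul x m l

theorem ops_coeff_C_mul (a : KK) (x : AA) (l : ℤ) : (HahnSeries.C a * x).coeff l = a * x.coeff l := by
  rw [HahnSeries.C_mul_eq_smul, HahnSeries.coeff_smul, smul_eq_mul]

/-- splitting off the coefficients of `t^l`, `l ≥ L`. -/
theorem exists_split (x : AA) (hx : 0 ≤ x.orderTop) (L : ℕ) :
    ∃ x₁ x₂ : AA, x = x₁ + tt ^ L * x₂ ∧ 0 ≤ x₁.orderTop ∧ 0 ≤ x₂.orderTop ∧
      (∀ l : ℤ, l < L → x₁.coeff l = x.coeff l) ∧ (∀ l : ℤ, (L : ℤ) ≤ l → x₁.coeff l = 0) ∧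
      x₂.coeff 0 = x.coeff L := by
  have hx0 : ∀ i : ℤ, i < 0 → x.coeff i = 0 := (le_orderTop_iff x 0).1 (by exact_mod_cast hx)
  let x₁ : AA := HahnSeries.ofSuppBddBelow (fun l : ℤ => if l < L then x.coeff l else 0)
    (by
      refine ⟨0, ?_⟩
      intro m hm
      by_contra hlt
      exact hm (by
        show (if m < (L : ℤ) then x.coeff m else 0) = 0
        rw [hx0 m (not_le.mp hlt)]
        simp))
  have hx1 : ∀ l : ℤ, x₁.coeff l = if l < L then x.coeff l else 0 := fun l => rfl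
  let x₂ : AA := tt ^ (-(L : ℤ)) * (x - x₁)
  have hx2 : ∀ l : ℤ, x₂.coeff l = x.coeff (l + L) - x₁.coeff (l + L) := by
    intro l
    show (tt ^ (-(L : ℤ)) * (x - x₁)).coeff l = _
    rw [coeff_tt_zpow_mul, HahnSeries.coeff_sub, sub_neg_eq_add]
  refine ⟨x₁, x₂, ?_, ?_, ?_, ?_, ?_, ?_⟩
  · show x = x₁ + tt ^ L * (tt ^ (-(L : ℤ)) * (x - x₁))
    have h : tt ^ L * tt ^ (-(L : ℤ)) = 1 := by
      rw [zpow_neg tt (L : ℤ), zpow_natCast tt L]
      have h0 : tt ^ L ≠ 0 := pow_ne_zero L tt_ne_zero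
      exact mul_inv_cancel₀ (a := tt ^ L) h0
    have h2 : tt ^ L * (tt ^ (-(L : ℤ)) * (x - x₁)) = (tt ^ L * tt ^ (-(L : ℤ))) * (x - x₁) := by
      ring
    rw [h2, h]
    ring
  · have : ((0 : ℤ) : WithTop ℤ) ≤ x₁.orderTop := by
      rw [le_orderTop_iff]
      intro i hi
      rw [hx1, hx0 i hi]
      simp
    exact_mod_cast this
  · have : ((0 : ℤ) : WithTop ℤ) ≤ x₂.orderTop := by
      rw [le_orderTop_iff]
      intro i hi
      rw [hx2, hx1, if_pos (by omega), sub_self]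
    exact_mod_cast this
  · intro l hl
    rw [hx1, if_pos hl]
  · intro l hl
    rw [hx1, if_neg (by omega)]
  · rw [hx2, hx1, if_neg (by omega), sub_zero, zero_add]

theorem ops_tt_pow_mul_zpow (L : ℕ) : tt ^ L * tt ^ (-(L : ℤ)) = 1 := by
  rw [zpow_neg tt (L : ℤ), zpow_natCast tt L]
  have h0 : tt ^ L ≠ 0 := pow_ne_zero L tt_ne_zero
  exact mul_inv_cancel₀ (a := tt ^ L) h0

/-- third order Taylor expansion of the shear. -/
theorem Sh_taylor (q : ℤ) (g : AA) (hg : 0 ≤ g.orderTop) :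
    ∃ r : AA, 0 ≤ r.orderTop ∧
      Sh q g = g + (q : AA) * tt * Dz g + (q : AA) ^ 2 / 2 * tt ^ 2 * Dz (Dz g) +
        (q : AA) ^ 3 / 6 * tt ^ 3 * Dz (Dz (Dz g)) + tt ^ 4 * r := by
  have hg0 : ∀ i : ℤ, i < 0 → g.coeff i = 0 := (le_orderTop_iff g 0).1 (by exact_mod_cast hg)
  set T : AA := g + (q : AA) * tt * Dz g + (q : AA) ^ 2 / 2 * tt ^ 2 * Dz (Dz g) +
        (q : AA) ^ 3 / 6 * tt ^ 3 * Dz (Dz (Dz g)) with hT
  have e1 : (q : AA) * tt * Dz g = HahnSeries.C (q : KK) * (tt ^ 1 * Dz g) := by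
    rw [ops_intCast]; ring
  have e2 : (q : AA) ^ 2 / 2 * tt ^ 2 * Dz (Dz g) =
      HahnSeries.C ((q : KK) ^ 2 / 2) * (tt ^ 2 * Dz (Dz g)) := by
    rw [ops_intCast, map_div₀, map_pow, map_ofNat]; ring
  have e3 : (q : AA) ^ 3 / 6 * tt ^ 3 * Dz (Dz (Dz g)) =
      HahnSeries.C ((q : KK) ^ 3 / 6) * (tt ^ 3 * Dz (Dz (Dz g))) := by
    rw [ops_intCast, map_div₀, map_pow, map_ofNat]; ring
  have hTc : ∀ l : ℤ, T.coeff l = g.coeff l + (q : KK) * dz (g.coeff (l - 1)) +
      (q : KK) ^ 2 / 2 * dz (dz (g.coeff (l - 2))) +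
      (q : KK) ^ 3 / 6 * dz (dz (dz (g.coeff (l - 3)))) := by
    intro l
    rw [hT, e1, e2, e3, HahnSeries.coeff_add, HahnSeries.coeff_add, HahnSeries.coeff_add,
      ops_coeff_C_mul, ops_coeff_C_mul, ops_coeff_C_mul, ops_coeff_tt_pow_mul,
      ops_coeff_tt_pow_mul, ops_coeff_tt_pow_mul, Dz_coeff, Dz_coeff, Dz_coeff, Dz_coeff,
      Dz_coeff, Dz_coeff]
    norm_num
  refine ⟨tt ^ (-((4 : ℕ) : ℤ)) * (Sh q g - T), ?_, ?_⟩
  · have : ((0 : ℤ) : WithTop ℤ) ≤ (tt ^ (-((4 : ℕ) : ℤ)) * (Sh q g - T)).orderTop := by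
      rw [le_orderTop_iff]
      intro i hi
      rw [coeff_tt_zpow_mul, HahnSeries.coeff_sub, hTc,
        ops_Sh_coeff' q g 0 hg0 _ 4 (by push_cast; omega)]
      simp only [Finset.sum_range_succ, Finset.sum_range_zero, Function.iterate_succ_apply,
        Function.iterate_zero, id_eq, Nat.factorial]
      norm_num
    exact_mod_cast this
  · have h2 : tt ^ 4 * (tt ^ (-((4 : ℕ) : ℤ)) * (Sh q g - T)) =
        (tt ^ 4 * tt ^ (-((4 : ℕ) : ℤ))) * (Sh q g - T) := by ring
    rw [h2, ops_tt_pow_mul_zpow 4]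
    ring

end Claimed.Agent.R269.Ctr
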