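/-
Row 269, P1 Lemmas 5.1-5.2, formal core, leaf LF-S5b-wt (HOST-FREE formal algebra).   Statements: helper134.
The weight filtration `Wt b x : ∀ l, b - l ≤ ord_z (coeff_l x)`.   Use `CenterOps.lean` as a black box.
PROVED by helper283 (auxiliary lemmas prefix `wt_`).

PLAN.  `Wt.mul`: `coeff_mul_Icc` (with `a := x.order`-type lower bounds; treat `x = 0` or `y = 0` separately), `le_orderTop_sum`, `le_orderTop_mul`.
 `Wt.map_Sh`: `Sh_coeff`, each term `q^i/i! ∂^i x_{l-i}` has order `≥ (b - l + i) - i` (the scalar `q^i/i! ∈ K` is a constant: order `≥ 0`).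
 `Wt.inv`: `y := x⁻¹` has `0 ≤ ord_t`, `y_0 = x_0⁻¹`; from `x y = 1`: `x_0 y_l = - ∑_{1 ≤ i ≤ l} x_i y_{l-i}` for `l ≥ 1`; strong induction on `l`.
-/
import Claimed.Agent.R269.S5.CenterOps

set_option autoImplicit false
set_option maxSynthPendingDepth 3

namespace Claimed.Agent.R269.Ctr

open HahnSeries Lau

theorem wt_zero (b : ℤ) : Wt b 0 := by
  intro l
  rw [coeff_zero, orderTop_zero]
  exact le_top

theorem Wt.mono {a b : ℤ} {x : AA} (h : Wt b x) (hab : a ≤ b) : Wt a x := by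
  intro l
  refine le_trans ?_ (h l)
  exact_mod_cast (by omega : a - l ≤ b - l)

theorem Wt.add {b : ℤ} {x y : AA} (hx : Wt b x) (hy : Wt b y) : Wt b (x + y) := by
  intro l
  rw [coeff_add]
  exact le_orderTop_add (hx l) (hy l)

theorem Wt.neg {b : ℤ} {x : AA} (hx : Wt b x) : Wt b (-x) := by
  intro l
  rw [coeff_neg]
  exact le_orderTop_neg (hx l)

theorem Wt.sub {b : ℤ} {x y : AA} (hx : Wt b x) (hy : Wt b y) : Wt b (x - y) := by
  intro l
  rw [coeff_sub]
  exact le_orderTop_sub (hx l) (hy l)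

theorem wt_order_le {x : AA} (hx : x ≠ 0) : (x.order : WithTop ℤ) ≤ x.orderTop :=
  (HahnSeries.order_eq_orderTop_of_ne_zero hx).le

theorem Wt.mul {a b : ℤ} {x y : AA} (hx : Wt a x) (hy : Wt b y) : Wt (a + b) (x * y) := by
  by_cases hx0 : x = 0
  · rw [hx0, zero_mul]; exact wt_zero _
  by_cases hy0 : y = 0
  · rw [hy0, mul_zero]; exact wt_zero _
  intro l
  rw [coeff_mul_Icc x y x.order y.order l (wt_order_le hx0) (wt_order_le hy0)]
  apply le_orderTop_sum
  intro i _
  have := le_orderTop_mul (hx i) (hy (l - i))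
  convert this using 2
  ring

theorem wt_C {b : ℤ} {c : KK} (h : (b : WithTop ℤ) ≤ c.orderTop) : Wt b (HahnSeries.C c) := by
  intro l
  rw [ops_C_coeff]
  split_ifs with hl
  · rw [hl, sub_zero]; exact h
  · rw [orderTop_zero]; exact le_top

theorem wt_nonneg_C (c : ℂ) : ((0 : ℤ) : WithTop ℤ) ≤ (HahnSeries.C c : KK).orderTop :=
  HahnSeries.orderTop_single_le

theorem wt_cc (c : ℂ) : Wt 0 (cc c) := wt_C (wt_nonneg_C c)

theorem wt_one : Wt 0 1 := by
  have : (1 : AA) = cc 1 := by simp [cc]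
  rw [this]; exact wt_cc 1

theorem Wt.pow {b : ℤ} {x : AA} (hx : Wt b x) (m : ℕ) : Wt (m * b) (x ^ m) := by
  induction m with
  | zero => simpa using wt_one
  | succ m ih =>
    rw [pow_succ]
    have := ih.mul hx
    convert this using 1
    push_cast; ring

theorem wt_intCast (m : ℤ) : Wt 0 (m : AA) := by
  have : (m : AA) = cc (m : ℂ) := by simp [cc]
  rw [this]; exact wt_cc _

/-- rational constants such as `1/4`, `1/3`. -/
theorem wt_ratCast (r : ℚ) : Wt 0 (r : AA) := by
  have : (r : AA) = cc (r : ℂ) := by simp [cc]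
  rw [this]; exact wt_cc _

theorem wt_tt_zpow (m : ℤ) : Wt m (tt ^ m) := by
  intro l
  rw [tt_zpow_eq, coeff_single]
  split_ifs with hl
  · rw [hl, sub_self, orderTop_one]; rfl
  · rw [orderTop_zero]; exact le_top

theorem wt_tt_pow (m : ℕ) : Wt m (tt ^ m) := by
  have := wt_tt_zpow (m : ℤ)
  rwa [zpow_natCast] at this

theorem wt_zz : Wt 1 zz := wt_C HahnSeries.orderTop_single_le

theorem Wt.map_Dz {b : ℤ} {x : AA} (hx : Wt b x) : Wt (b - 1) (Dz x) := by
  intro l
  rw [Dz_coeff]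
  have := le_orderTop_dz (hx l)
  convert this using 2
  ring

theorem wt_nonneg_intCast (m : ℤ) : ((0 : ℤ) : WithTop ℤ) ≤ (m : KK).orderTop := by
  have : (m : KK) = HahnSeries.C (m : ℂ) := by simp
  rw [this]; exact wt_nonneg_C _

theorem Wt.map_Dt {b : ℤ} {x : AA} (hx : Wt b x) : Wt (b - 1) (Dt x) := by
  intro l
  rw [Dt_coeff]
  have h1 : ((0 : ℤ) : WithTop ℤ) ≤ ((l : KK) + 1).orderTop := by
    have := wt_nonneg_intCast (l + 1)
    rwa [Int.cast_add, Int.cast_one] at this
  have := le_orderTop_mul h1 (hx (l + 1))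
  convert this using 2
  ring

theorem wt_nonneg_scalar (q : ℤ) (i : ℕ) :
    ((0 : ℤ) : WithTop ℤ) ≤ ((q : KK) ^ i / (i.factorial : KK)).orderTop := by
  have : ((q : KK) ^ i / (i.factorial : KK)) = HahnSeries.C ((q : ℂ) ^ i / (i.factorial : ℂ)) := by
    rw [map_div₀, map_pow, map_intCast, map_natCast]
  rw [this]; exact wt_nonneg_C _

theorem Wt.map_Sh {b : ℤ} {x : AA} (hx : Wt b x) (q : ℤ) : Wt b (Sh q x) := by
  intro l
  rw [Sh_coeff q x l (l - x.order + 1).toNat (by have := Int.self_le_toNat (l - x.order + 1); omega)]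
  apply le_orderTop_sum
  intro i _
  have := le_orderTop_mul (wt_nonneg_scalar q i) (le_orderTop_dz_iter (hx (l - i)) i)
  convert this using 2
  ring


/-- the recursion for the coefficients of an inverse. -/
theorem wt_inv_rec {x y : AA} (hx : 0 ≤ x.orderTop) (hy : 0 ≤ y.orderTop) (hxy : x * y = 1)
    (l : ℕ) (hl : 1 ≤ l) :
    x.coeff 0 * y.coeff l = - ∑ i ∈ Finset.Icc (1 : ℤ) l, x.coeff i * y.coeff (l - i) := by
  have h := coeff_mul_Icc x y 0 0 l (by exact_mod_cast hx) (by exact_mod_cast hy)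
  rw [hxy, coeff_one, if_neg (by omega), sub_zero] at h
  have hI : Finset.Icc (0 : ℤ) l = insert 0 (Finset.Icc (1 : ℤ) l) := by
    ext j
    simp only [Finset.mem_Icc, Finset.mem_insert]
    omega
  rw [hI, Finset.sum_insert (by simp), sub_zero] at h
  exact eq_neg_of_add_eq_zero_left h.symm

/-- the inverse of a series whose `t⁰`-coefficient has the exact order `b`. -/
theorem Wt.inv {b : ℤ} {x : AA} (hx : Wt b x) (h0 : 0 ≤ x.orderTop)
    (hb : (x.coeff 0).orderTop = (b : WithTop ℤ)) : Wt (-b) x⁻¹ := by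
  have hc0 : x.coeff 0 ≠ 0 := by
    intro h
    rw [h, orderTop_zero] at hb
    exact WithTop.top_ne_coe hb
  have hx0 : x ≠ 0 := by
    intro h
    rw [h] at hc0
    exact hc0 rfl
  obtain ⟨hy, hy0⟩ := nonneg_inv h0 hc0
  have hxy : x * x⁻¹ = 1 := mul_inv_cancel₀ hx0
  have key : ∀ l : ℕ, ((-b - (l : ℤ) : ℤ) : WithTop ℤ) ≤ (x⁻¹.coeff (l : ℤ)).orderTop := by
    intro l
    induction l using Nat.strong_induction_on with
    | _ l ih =>
      rcases Nat.eq_zero_or_pos l with rfl | hl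
      · rw [Nat.cast_zero, sub_zero, hy0, orderTop_inv_eq hb]
      · have hrec := wt_inv_rec h0 hy hxy l hl
        have hsum : ((-(l : ℤ) : ℤ) : WithTop ℤ) ≤
            (- ∑ i ∈ Finset.Icc (1 : ℤ) l, x.coeff i * x⁻¹.coeff (l - i)).orderTop := by
          apply le_orderTop_neg
          apply le_orderTop_sum
          intro i hi
          rw [Finset.mem_Icc] at hi
          obtain ⟨m, hm⟩ := Int.eq_ofNat_of_zero_le (by omega : 0 ≤ (l : ℤ) - i)
          have h1 := ih m (by omega)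
          rw [← hm] at h1
          have := le_orderTop_mul (hx i) h1
          convert this using 2
          ring
        rw [← hrec] at hsum
        have hxl : x⁻¹.coeff (l : ℤ) = (x.coeff 0)⁻¹ * (x.coeff 0 * x⁻¹.coeff (l : ℤ)) := by
          field_simp
        rw [hxl]
        have := le_orderTop_mul (orderTop_inv_eq hb).ge hsum
        convert this using 2
        ring
  intro l
  rcases lt_or_ge l 0 with hl | hl
  · rw [(le_orderTop_iff x⁻¹ 0).1 (by exact_mod_cast hy) l hl, orderTop_zero]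
    exact le_top
  · obtain ⟨m, rfl⟩ := Int.eq_ofNat_of_zero_le hl
    exact key m

/-- a series with finitely many controlled coefficients. -/
theorem wt_of_coeff {b : ℤ} {x : AA} (L : ℤ)
    (h1 : ∀ l : ℤ, l < L → ((b - l : ℤ) : WithTop ℤ) ≤ (x.coeff l).orderTop)
    (h2 : ∀ l : ℤ, L ≤ l → x.coeff l = 0) : Wt b x := by
  intro l
  rcases lt_or_ge l L with hl | hl
  · exact h1 l hl
  · rw [h2 l hl, orderTop_zero]
    exact le_top

theorem Wt.coeff {b : ℤ} {x : AA} (hx : Wt b x) (l : ℤ) :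
    ((b - l : ℤ) : WithTop ℤ) ≤ (x.coeff l).orderTop := hx l

end Claimed.Agent.R269.Ctr
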