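/-
Row 269, P1 Lemmas 5.1-5.2, formal core, leaf LF-S5b-bq (HOST-FREE formal algebra).   Statements: helper134.
The quadratic form `Bq g = [(S₁g-g)(S₋₁g-g) + t²(∂_z g)²]/t⁴` and the linearisation identity.
Use `CenterOps.lean`, `CenterWt.lean` as black boxes.  PROVED by helper283 (auxiliary lemmas prefix `bq_`).

PLAN.  With `D^k = Dz^k g` and `Sh_taylor`:  `S₁g - g = tD + t²D²/2 + t³D³/6 + t⁴ r₊`,  `S₋₁g - g = -tD + t²D²/2 - t³D³/6 + t⁴ r₋`.  The product plus `t²D²` is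
   `t⁴ [ (D²)²/4 - D D³/3 ] + t⁵ (…)`, `(…)` a polynomial in `t, D^k, r_±` (nonnegative order).  Divide by `t⁴` (`tt_ne_zero`, `field_simp`/`ring`).
 `Bq_coeff_zero`: `coeff_zero_mul`, `Dz_coeff`; constants `1/4`, `1/3` are `C`'s.   The same for `Bq2`.
 `Bq_add`, `Bq2_tt_mul`, `Bq_tt_mul`, `refl_iff_Bq`: `map_add`, `map_mul`, `Sh_tt`, `Dv.leibniz`, `Dz_tt`, then `ring`/`field_simp`.
 `Wt.Bq'`, `Wt.Bq2'`: `Wt.mul`, `Wt.sub`, `Wt.map_Sh`, `Wt.map_Dz`, `wt_tt_pow`, `wt_tt_zpow (-4)`.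
 `LL_flat`: expand with `Dv.leibniz` (the constants `1/2, 1/3, 1/4` have derivative zero: `Dv.map_ratCast` or write `x / 4 = x * C (1/4)`), then `ring`.
   (checked by `ring` on independent variables `Z', Z'', …, ν, ν', ν'', ν'''`: the coefficient of `ν'''` cancels.)
-/
import Claimed.Agent.R269.S5.CenterWt

set_option autoImplicit false
set_option maxSynthPendingDepth 3

namespace Claimed.Agent.R269.Ctr

open HahnSeries Lau

theorem bq_div_natCast (x : AA) (n : ℕ) : x / (n : AA) = HahnSeries.C ((n : KK)⁻¹) * x := by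
  rw [div_eq_mul_inv, ← map_natCast (HahnSeries.C : KK →+* AA), ← map_inv₀, mul_comm]

theorem bq_nonneg_div {x : AA} (hx : 0 ≤ x.orderTop) (n : ℕ) : 0 ≤ (x / (n : AA)).orderTop := by
  rw [bq_div_natCast]
  exact nonneg_mul (ops_nonneg_C _) hx

theorem bq_coeff_div (x : AA) (n : ℕ) (l : ℤ) : (x / (n : AA)).coeff l = x.coeff l / (n : KK) := by
  rw [bq_div_natCast, ops_coeff_C_mul, div_eq_mul_inv, mul_comm]

theorem bq_tt_nonneg : 0 ≤ tt.orderTop := by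
  have := tt_zpow_orderTop 1
  rw [zpow_one] at this
  rw [this]
  exact_mod_cast (by norm_num : (0 : ℤ) ≤ 1)

theorem bq_expand_alg {F : Type*} [Field F] [CharZero F] (t g D D2 D3 rp rm S1 S2 : F) (ht : t ≠ 0)
    (h1 : S1 = g + 1 * t * D + 1 ^ 2 / 2 * t ^ 2 * D2 + 1 ^ 3 / 6 * t ^ 3 * D3 + t ^ 4 * rp)
    (h2 : S2 = g + (-1) * t * D + (-1) ^ 2 / 2 * t ^ 2 * D2 + (-1) ^ 3 / 6 * t ^ 3 * D3 + t ^ 4 * rm) :
    ((S1 - g) * (S2 - g) + t ^ 2 * D ^ 2) * (t ^ 4)⁻¹ =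
      D2 ^ 2 / 4 - D * D3 / 3 +
        t * (D * (rm - rp) + t * (D2 * (rm + rp) / (2 : ℕ) - D3 ^ 2 / (36 : ℕ)) +
          t ^ 2 * (D3 * (rm - rp) / (6 : ℕ)) + t ^ 3 * (rp * rm)) := by
  subst h1 h2
  push_cast
  field_simp
  ring

theorem Bq_expand (g : AA) (hg : 0 ≤ g.orderTop) :
    ∃ r : AA, 0 ≤ r.orderTop ∧
      Bq g = Dz (Dz g) ^ 2 / 4 - Dz g * Dz (Dz (Dz g)) / 3 + tt * r := by
  obtain ⟨rp, hrp, h1⟩ := Sh_taylor 1 g hg
  obtain ⟨rm, hrm, h2⟩ := Sh_taylor (-1) g hg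
  rw [Int.cast_one] at h1
  rw [Int.cast_neg, Int.cast_one] at h2
  have hD := Dz_nonneg hg
  have hD2 := Dz_nonneg hD
  have hD3 := Dz_nonneg hD2
  refine ⟨_, ?_, bq_expand_alg tt g (Dz g) (Dz (Dz g)) (Dz (Dz (Dz g))) rp rm _ _ tt_ne_zero h1 h2⟩
  exact nonneg_add (nonneg_add (nonneg_add (nonneg_mul hD (nonneg_sub hrm hrp))
    (nonneg_mul bq_tt_nonneg (nonneg_sub (bq_nonneg_div (nonneg_mul hD2 (nonneg_add hrm hrp)) 2)
      (bq_nonneg_div (nonneg_pow hD3 2) 36))))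
    (nonneg_mul (nonneg_pow bq_tt_nonneg 2) (bq_nonneg_div (nonneg_mul hD3 (nonneg_sub hrm hrp)) 6)))
    (nonneg_mul (nonneg_pow bq_tt_nonneg 3) (nonneg_mul hrp hrm))

theorem Bq_add (g h : AA) : Bq (g + h) = Bq g + Bq2 g h + Bq h := by
  unfold Bq Bq2
  rw [map_add, map_add, map_add]
  ring

theorem Bq2_expand (g h : AA) (hg : 0 ≤ g.orderTop) (hh : 0 ≤ h.orderTop) :
    ∃ r : AA, 0 ≤ r.orderTop ∧
      Bq2 g h = Dz (Dz g) * Dz (Dz h) / 2 -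
        (Dz h * Dz (Dz (Dz g)) + Dz g * Dz (Dz (Dz h))) / 3 + tt * r := by
  obtain ⟨r1, hr1, h1⟩ := Bq_expand (g + h) (nonneg_add hg hh)
  obtain ⟨r2, hr2, h2⟩ := Bq_expand g hg
  obtain ⟨r3, hr3, h3⟩ := Bq_expand h hh
  refine ⟨r1 - r2 - r3, nonneg_sub (nonneg_sub hr1 hr2) hr3, ?_⟩
  have : Bq2 g h = Bq (g + h) - Bq g - Bq h := by rw [Bq_add]; ring
  rw [this, h1, h2, h3, map_add, map_add, map_add]
  ring

theorem Bq_nonneg (g : AA) (hg : 0 ≤ g.orderTop) : 0 ≤ (Bq g).orderTop := by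
  obtain ⟨r, hr, h⟩ := Bq_expand g hg
  have hD := Dz_nonneg hg
  have hD2 := Dz_nonneg hD
  have hD3 := Dz_nonneg hD2
  rw [h]
  have e4 : (4 : AA) = ((4 : ℕ) : AA) := by norm_num
  have e3 : (3 : AA) = ((3 : ℕ) : AA) := by norm_num
  rw [e4, e3]
  exact nonneg_add (nonneg_sub (bq_nonneg_div (nonneg_pow hD2 2) 4)
    (bq_nonneg_div (nonneg_mul hD hD3) 3)) (nonneg_mul bq_tt_nonneg hr)

theorem bq_coeff_tt_mul {r : AA} (hr : 0 ≤ r.orderTop) : (tt * r).coeff 0 = 0 := by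
  have := ops_coeff_tt_pow_mul r 1 0
  rw [pow_one] at this
  rw [this]
  exact (le_orderTop_iff r 0).1 (by exact_mod_cast hr) _ (by norm_num)

theorem Bq_coeff_zero (g : AA) (hg : 0 ≤ g.orderTop) : (Bq g).coeff 0 = B0 (g.coeff 0) := by
  obtain ⟨r, hr, h⟩ := Bq_expand g hg
  have hD := Dz_nonneg hg
  have hD2 := Dz_nonneg hD
  have hD3 := Dz_nonneg hD2
  have e4 : (4 : AA) = ((4 : ℕ) : AA) := by norm_num
  have e3 : (3 : AA) = ((3 : ℕ) : AA) := by norm_num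
  rw [h, e4, e3, coeff_add, coeff_sub, bq_coeff_tt_mul hr, bq_coeff_div, bq_coeff_div,
    coeff_zero_pow _ hD2, coeff_zero_mul _ _ hD hD3]
  simp only [Dz_coeff]
  unfold B0
  norm_num

theorem Bq2_nonneg (g h : AA) (hg : 0 ≤ g.orderTop) (hh : 0 ≤ h.orderTop) :
    0 ≤ (Bq2 g h).orderTop := by
  have : Bq2 g h = Bq (g + h) - Bq g - Bq h := by rw [Bq_add]; ring
  rw [this]
  exact nonneg_sub (nonneg_sub (Bq_nonneg _ (nonneg_add hg hh)) (Bq_nonneg _ hg)) (Bq_nonneg _ hh)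

theorem Bq2_coeff_zero (g h : AA) (hg : 0 ≤ g.orderTop) (hh : 0 ≤ h.orderTop) :
    (Bq2 g h).coeff 0 = B1 (g.coeff 0) (h.coeff 0) := by
  have : Bq2 g h = Bq (g + h) - Bq g - Bq h := by rw [Bq_add]; ring
  rw [this, coeff_sub, coeff_sub, Bq_coeff_zero _ (nonneg_add hg hh), Bq_coeff_zero _ hg,
    Bq_coeff_zero _ hh, coeff_add]
  unfold B0 B1
  rw [map_add, map_add, map_add]
  ring


theorem bq_Sh_tt_pow_mul (q : ℤ) (m : ℕ) (h : AA) : Sh q (tt ^ m * h) = tt ^ m * Sh q h := by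
  rw [map_mul, map_pow, Sh_tt]

theorem bq_Dz_tt_pow_mul (m : ℕ) (h : AA) : Dz (tt ^ m * h) = tt ^ m * Dz h := by
  rw [Dv.leibniz, Dv.map_pow, Dz_tt]
  ring

theorem Bq2_tt_mul (g h : AA) (m : ℕ) : Bq2 g (tt ^ m * h) = tt ^ m * Bq2 g h := by
  unfold Bq2
  rw [bq_Sh_tt_pow_mul, bq_Sh_tt_pow_mul, bq_Dz_tt_pow_mul]
  ring

theorem Bq_tt_mul (h : AA) (m : ℕ) : Bq (tt ^ m * h) = tt ^ (2 * m) * Bq h := by
  unfold Bq
  rw [bq_Sh_tt_pow_mul, bq_Sh_tt_pow_mul, bq_Dz_tt_pow_mul]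
  ring

theorem bq_wt_inv4 : Wt (-4) (tt ^ 4)⁻¹ := by
  have := wt_tt_zpow (-4)
  rwa [zpow_neg, ← Nat.cast_ofNat (R := ℤ), zpow_natCast] at this

theorem Wt.Bq' {b : ℤ} {g : AA} (hg : Wt b g) : Wt (2 * b - 4) (Bq g) := by
  unfold Bq
  have h1 : Wt (b + b) ((Sh 1 g - g) * (Sh (-1) g - g)) :=
    ((hg.map_Sh 1).sub hg).mul ((hg.map_Sh (-1)).sub hg)
  have h2 : Wt (b + b) (tt ^ 2 * Dz g ^ 2) := by
    have := (wt_tt_pow 2).mul (hg.map_Dz.pow 2)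
    convert this using 1
    push_cast; ring
  have := (h1.add h2).mul bq_wt_inv4
  convert this using 1
  ring

theorem Wt.Bq2' {a b : ℤ} {g h : AA} (hg : Wt a g) (hh : Wt b h) : Wt (a + b - 4) (Bq2 g h) := by
  unfold Bq2
  have h1 : Wt (a + b) ((Sh 1 g - g) * (Sh (-1) h - h)) :=
    ((hg.map_Sh 1).sub hg).mul ((hh.map_Sh (-1)).sub hh)
  have h2 : Wt (a + b) ((Sh 1 h - h) * (Sh (-1) g - g)) := by
    have := ((hh.map_Sh 1).sub hh).mul ((hg.map_Sh (-1)).sub hg)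
    convert this using 1
    ring
  have h3 : Wt (a + b) (2 * tt ^ 2 * Dz g * Dz h) := by
    have := (((wt_intCast 2).mul (wt_tt_pow 2)).mul hg.map_Dz).mul hh.map_Dz
    rw [Int.cast_ofNat] at this
    convert this using 1
    push_cast; ring
  have := ((h1.add h2).add h3).mul bq_wt_inv4
  convert this using 1
  ring

theorem bq_refl_alg {F : Type*} [Field F] (t PZ PW DZ DW : F) (ht : t ≠ 0) :
    PZ * DW ^ 2 = PW * DZ ^ 2 ↔
      ((PZ + t ^ 2 * DZ ^ 2) * (t ^ 4)⁻¹) * DW ^ 2 = ((PW + t ^ 2 * DW ^ 2) * (t ^ 4)⁻¹) * DZ ^ 2 := by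
  have h4 : (t ^ 4)⁻¹ ≠ 0 := inv_ne_zero (pow_ne_zero 4 ht)
  constructor
  · intro h
    linear_combination (t ^ 4)⁻¹ * h
  · intro h
    have : (t ^ 4)⁻¹ * (PZ * DW ^ 2) = (t ^ 4)⁻¹ * (PW * DZ ^ 2) := by linear_combination h
    exact mul_left_cancel₀ h4 this

/-- the reflection law in terms of `Bq`. -/
theorem refl_iff_Bq (Zx Wx : AA) :
    (Sh 1 Zx - Zx) * (Sh (-1) Zx - Zx) * Dz Wx ^ 2 = (Sh 1 Wx - Wx) * (Sh (-1) Wx - Wx) * Dz Zx ^ 2 ↔
      Bq Zx * Dz Wx ^ 2 = Bq Wx * Dz Zx ^ 2 :=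
  bq_refl_alg tt _ _ _ _ tt_ne_zero

/-- `LL` is additive in the direction. -/
theorem LL_add (Z W a b a' b' : KK) : LL Z W (a + a') (b + b') = LL Z W a b + LL Z W a' b' := by
  unfold LL B1
  simp only [map_add]
  ring

theorem bq_dz_div (x : KK) (n : ℕ) : dz (x / (n : KK)) = dz x / (n : KK) := by
  rw [div_eq_mul_inv, Dv.leibniz, Dv.map_inv, Dv.map_natCast]
  ring

/-- the linearisation in the direction of a reparametrisation `ν`. -/
theorem LL_flat (Z W ν : KK) :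
    LL Z W (dz Z * ν) (dz W * ν) =
      1 / 2 * dz Z * dz W * (dz Z * dz (dz W) - dz (dz Z) * dz W) * dz (dz ν) +
        6 * E0 Z W * dz ν + dz (E0 Z W) * ν := by
  have e4 : (4 : KK) = ((4 : ℕ) : KK) := by norm_num
  have e3 : (3 : KK) = ((3 : ℕ) : KK) := by norm_num
  unfold LL E0 B1 B0
  rw [e4, e3]
  simp only [Dv.leibniz, map_add, map_sub, Dv.map_pow, bq_dz_div]
  push_cast
  ring

theorem bq_le_div {x : KK} {a : ℤ} (h : (a : WithTop ℤ) ≤ x.orderTop) (n : ℕ) :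
    (a : WithTop ℤ) ≤ (x / (n : KK)).orderTop := by
  have e : x / (n : KK) = HahnSeries.C ((n : ℂ)⁻¹) * x := by
    rw [div_eq_mul_inv, ← map_natCast (HahnSeries.C : ℂ →+* KK), ← map_inv₀, mul_comm]
  rw [e]
  have := le_orderTop_mul (wt_nonneg_C ((n : ℂ)⁻¹)) h
  rwa [zero_add] at this

/-- orders: `B0`, `B1`. -/
theorem le_orderTop_B0 {g : KK} {a : ℤ} (h : (a : WithTop ℤ) ≤ g.orderTop) :
    ((2 * a - 4 : ℤ) : WithTop ℤ) ≤ (B0 g).orderTop := by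
  have h1 := le_orderTop_dz h
  have h2 := le_orderTop_dz h1
  have h3 := le_orderTop_dz h2
  have e4 : (4 : KK) = ((4 : ℕ) : KK) := by norm_num
  have e3 : (3 : KK) = ((3 : ℕ) : KK) := by norm_num
  unfold B0
  rw [e4, e3, sq]
  apply le_orderTop_sub
  · apply bq_le_div
    have := le_orderTop_mul h2 h2
    convert this using 2
    ring
  · apply bq_le_div
    have := le_orderTop_mul h1 h3
    convert this using 2
    ring

theorem le_orderTop_B1 {g h : KK} {a b : ℤ} (hg : (a : WithTop ℤ) ≤ g.orderTop)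
    (hh : (b : WithTop ℤ) ≤ h.orderTop) : ((a + b - 4 : ℤ) : WithTop ℤ) ≤ (B1 g h).orderTop := by
  have g1 := le_orderTop_dz hg
  have g2 := le_orderTop_dz g1
  have g3 := le_orderTop_dz g2
  have h1 := le_orderTop_dz hh
  have h2 := le_orderTop_dz h1
  have h3 := le_orderTop_dz h2
  have e2 : (2 : KK) = ((2 : ℕ) : KK) := by norm_num
  have e3 : (3 : KK) = ((3 : ℕ) : KK) := by norm_num
  unfold B1
  rw [e2, e3]
  apply le_orderTop_sub
  · apply bq_le_div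
    have := le_orderTop_mul g2 h2
    convert this using 2
    ring
  · apply bq_le_div
    apply le_orderTop_add
    · have := le_orderTop_mul h1 g3
      convert this using 2
      ring
    · have := le_orderTop_mul g1 h3
      convert this using 2
      ring

end Claimed.Agent.R269.Ctr
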