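/-
Row 269, P1 Lemmas 5.1-5.2, the analytic bridge, leaf LF-S5b-base.   Statements and proofs: helper134.
Rank one and the reflection law for the impact map `X0` near `(0,0)`, in isotropic coordinates.
Everything follows from the fields of `Glance` (R269/Glance.lean) and the definition of `X0` (R269/Cplx.lean).  `S4/EmbedB.lean` contains closely related STATEMENTS for `X_+ = X0(y + t/2, t)`
(`inc_zero`, `inc_one`, `rank_fun`, `refl_fun`); you may use them as black boxes (substitute `y ↦ y ± t/2`) or argue directly.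
Fill the `sorry`s IN PLACE (auxiliary lemmas above the statements, prefix `cb_`).

DIRECT PLAN.  `ψ(y,t) := (Θ(y - t/2,t) + Θ(y + t/2,t))/2`, `X0 = suppPt hc ∘ ψ`; for `x = suppPt h ψ`:  `x₁ + i x₂ = (h + i h')(ψ) e^{iψ}`, `x₁ - i x₂ = (h - i h')(ψ) e^{-iψ}`,
   `d/dψ (x₁ + i x₂) = i (h + h'')(ψ) e^{iψ}`,  `d/dψ (x₁ - i x₂) = -i (h + h'')(ψ) e^{-iψ}`.
 * all functions are analytic near `(0,0)` (`Θ_diff`, `hc_diff`, `Θ_mem`; `analyticOnNhd_of_differentiableOn₂` of `Lib/SCV.lean` or `SCV.analyticOnNhd_of_differentiableOn` of `Lib/SCV0.lean`).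
 * `base_rank`: chain rule: `∂_y XZ0 = Z'(ψ) ψ_y`, `∂_t XZ0 = Z'(ψ) ψ_t`, the same for `XW0`.
 * incidence: with `θ = Θ(y + t/2, t)`, `x = X0(y,t)`, `x⁺ = X0(y+t,t)`:  `x·n_θ = p(y + t/2,t)` (`refl_out` at `y - t/2`) and `x⁺·n_θ = p(y+t/2,t)` (`refl_in` at `y + t/2`); as `2 x·n_θ = Z e^{-iθ} + W e^{iθ}`:
     `ΔZ₊ = - e^{2iθ₊} ΔW₊`, `θ₊ = Θ(y + t/2,t)`;   likewise `ΔZ₋ = - e^{2iθ₋} ΔW₋`, `θ₋ = Θ(y - t/2,t)`;   and `∂_y XZ0 = - e^{2iψ} ∂_y XW0`, `2ψ = θ₊ + θ₋`.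
 * `base_refl`: multiply.
-/
import Claimed.Agent.R269.S5.CenterADefs
import Claimed.Agent.R269.Lib.SCV0

set_option autoImplicit false

namespace Claimed.Agent.R269

open Complex Filter Topology

theorem cb_isOpen_hstrip (s : ℝ) : IsOpen (hstrip s) :=
  isOpen_lt (continuous_abs.comp Complex.continuous_im) continuous_const

/-- isotropic coordinates of the support point. -/
noncomputable def cbZ (h : ℂ → ℂ) (ψ : ℂ) : ℂ := (suppPt h ψ).1 + I * (suppPt h ψ).2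

noncomputable def cbW (h : ℂ → ℂ) (ψ : ℂ) : ℂ := (suppPt h ψ).1 - I * (suppPt h ψ).2

theorem cb_exp_I (x : ℂ) : Complex.exp (I * x) = Complex.cos x + Complex.sin x * I := by
  rw [mul_comm, Complex.exp_mul_I]

theorem cb_exp_neg_I (x : ℂ) : Complex.exp (-(I * x)) = Complex.cos x - Complex.sin x * I := by
  have : -(I * x) = (-x) * I := by ring
  rw [this, Complex.exp_mul_I, Complex.cos_neg, Complex.sin_neg]
  ring

theorem cb_Z_eq (h : ℂ → ℂ) (ψ : ℂ) : cbZ h ψ = (h ψ + I * deriv h ψ) * Complex.exp (I * ψ) := by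
  rw [cb_exp_I]
  unfold cbZ suppPt
  linear_combination (-(deriv h ψ) * Complex.sin ψ) * I_sq

theorem cb_W_eq (h : ℂ → ℂ) (ψ : ℂ) : cbW h ψ = (h ψ - I * deriv h ψ) * Complex.exp (-(I * ψ)) := by
  rw [cb_exp_neg_I]
  unfold cbW suppPt
  linear_combination (-(deriv h ψ) * Complex.sin ψ) * I_sq

theorem cb_inc (h : ℂ → ℂ) (ψ θ : ℂ) :
    cbZ h ψ * Complex.exp (-(I * θ)) + cbW h ψ * Complex.exp (I * θ) =
      2 * (h ψ * Complex.cos (ψ - θ) - deriv h ψ * Complex.sin (ψ - θ)) := by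
  have e1 : Complex.exp (I * ψ) * Complex.exp (-(I * θ)) = Complex.exp (I * (ψ - θ)) := by
    rw [← Complex.exp_add]; congr 1; ring
  have e2 : Complex.exp (-(I * ψ)) * Complex.exp (I * θ) = Complex.exp (-(I * (ψ - θ))) := by
    rw [← Complex.exp_add]; congr 1; ring
  rw [cb_Z_eq, cb_W_eq, mul_assoc, mul_assoc, e1, e2, cb_exp_I, cb_exp_neg_I]
  linear_combination (2 * deriv h ψ * Complex.sin (ψ - θ)) * I_sq

theorem cb_hasDerivAt_Z {h : ℂ → ℂ} {ψ : ℂ} (hh : AnalyticAt ℂ h ψ) :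
    HasDerivAt (cbZ h) (I * (h ψ + deriv (deriv h) ψ) * Complex.exp (I * ψ)) ψ := by
  have e : cbZ h = fun ψ => (h ψ + I * deriv h ψ) * Complex.exp (I * ψ) := funext (cb_Z_eq h)
  rw [e]
  have h0 : HasDerivAt h (deriv h ψ) ψ := hh.differentiableAt.hasDerivAt
  have h1 : HasDerivAt (deriv h) (deriv (deriv h) ψ) ψ := hh.deriv.differentiableAt.hasDerivAt
  have h2 : HasDerivAt (fun ψ : ℂ => Complex.exp (I * ψ)) (Complex.exp (I * ψ) * (I * 1)) ψ :=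
    ((hasDerivAt_id ψ).const_mul I).cexp
  have h3 := (h0.add (h1.const_mul I)).mul h2
  refine h3.congr_deriv ?_
  simp only [Pi.add_apply]
  linear_combination (deriv h ψ * Complex.exp (I * ψ)) * I_sq

theorem cb_hasDerivAt_W {h : ℂ → ℂ} {ψ : ℂ} (hh : AnalyticAt ℂ h ψ) :
    HasDerivAt (cbW h) (-I * (h ψ + deriv (deriv h) ψ) * Complex.exp (-(I * ψ))) ψ := by
  have e : cbW h = fun ψ => (h ψ - I * deriv h ψ) * Complex.exp (-(I * ψ)) := funext (cb_W_eq h)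
  rw [e]
  have h0 : HasDerivAt h (deriv h ψ) ψ := hh.differentiableAt.hasDerivAt
  have h1 : HasDerivAt (deriv h) (deriv (deriv h) ψ) ψ := hh.deriv.differentiableAt.hasDerivAt
  have h2 : HasDerivAt (fun ψ : ℂ => Complex.exp (-(I * ψ))) (Complex.exp (-(I * ψ)) * (-(I * 1))) ψ :=
    ((hasDerivAt_id ψ).const_mul I).neg.cexp
  have h3 := (h0.sub (h1.const_mul I)).mul h2
  refine h3.congr_deriv ?_
  simp only [Pi.sub_apply]
  linear_combination (deriv h ψ * Complex.exp (-(I * ψ))) * I_sq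

theorem cb_pdy_comp {F : ℂ → ℂ} {F' : ℂ} {ψ : ℂ × ℂ → ℂ} {w : ℂ × ℂ} (hF : HasDerivAt F F' (ψ w))
    (hψ : DifferentiableAt ℂ ψ w) : pdy (fun z => F (ψ z)) w = F' * pdy ψ w := by
  have h1 : DifferentiableAt ℂ (fun y => ψ (y, w.2)) w.1 :=
    DifferentiableAt.comp w.1 (f := fun y : ℂ => (y, w.2)) (g := ψ) hψ
      (differentiableAt_id.prodMk (differentiableAt_const _))
  exact (HasDerivAt.comp w.1 (h := fun y => ψ (y, w.2)) hF h1.hasDerivAt).deriv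

theorem cb_pdt_comp {F : ℂ → ℂ} {F' : ℂ} {ψ : ℂ × ℂ → ℂ} {w : ℂ × ℂ} (hF : HasDerivAt F F' (ψ w))
    (hψ : DifferentiableAt ℂ ψ w) : pdt (fun z => F (ψ z)) w = F' * pdt ψ w := by
  have h1 : DifferentiableAt ℂ (fun t => ψ (w.1, t)) w.2 :=
    DifferentiableAt.comp w.2 (f := fun t : ℂ => (w.1, t)) (g := ψ) hψ
      ((differentiableAt_const _).prodMk differentiableAt_id)
  exact (HasDerivAt.comp w.2 (h := fun t => ψ (w.1, t)) hF h1.hasDerivAt).deriv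

theorem cb_alg (dZp dWp dZm dWm Ep Em Eψ k : ℂ) (hEp : Ep ≠ 0) (hEm : Em ≠ 0) (hEψ : Eψ ≠ 0)
    (hE : Eψ ^ 2 = Ep * Em) (h1 : dZp * Ep⁻¹ + dWp * Ep = 0) (h2 : dZm * Em⁻¹ + dWm * Em = 0) :
    dZp * dZm * (-I * k * Eψ⁻¹) ^ 2 - dWp * dWm * (I * k * Eψ) ^ 2 = 0 := by
  have e1 : dZp = -dWp * Ep ^ 2 := by
    field_simp at h1
    linear_combination h1
  have e2 : dZm = -dWm * Em ^ 2 := by
    field_simp at h2
    linear_combination h2
  rw [e1, e2]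
  field_simp
  have hE4 : Eψ ^ 4 = Ep ^ 2 * Em ^ 2 := by
    rw [show (4 : ℕ) = 2 * 2 by norm_num, pow_mul, hE]; ring
  grind

namespace Glance

variable (G : Glance)

theorem cb_s_pos : 0 < G.s := G.r₁_pos.trans G.r₁_lt

/-- the mean normal angle. -/
noncomputable def cbψ (z : ℂ × ℂ) : ℂ := (G.Θ (z.1 - z.2 / 2) z.2 + G.Θ (z.1 + z.2 / 2) z.2) / 2

theorem cb_XZ0_eq : G.XZ0 = fun z => cbZ G.hc (G.cbψ z) := rfl

theorem cb_XW0_eq : G.XW0 = fun z => cbW G.hc (G.cbψ z) := rfl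

theorem cb_Θ_analyticAt {z : ℂ × ℂ} (hz : z ∈ hstrip (2 * G.s) ×ˢ Metric.ball (0 : ℂ) G.r₁) :
    AnalyticAt ℂ (fun z : ℂ × ℂ => G.Θ z.1 z.2) z :=
  SCV.analyticOnNhd_of_differentiableOn ((cb_isOpen_hstrip _).prod Metric.isOpen_ball) G.Θ_diff z hz

theorem cb_zero_mem : ((0 : ℂ), (0 : ℂ)) ∈ hstrip (2 * G.s) ×ˢ Metric.ball (0 : ℂ) G.r₁ := by
  refine ⟨?_, Metric.mem_ball_self G.r₁_pos⟩
  show |(0 : ℂ).im| < 2 * G.s
  have := G.cb_s_pos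
  simp
  linarith

theorem cb_ψ_analyticAt : AnalyticAt ℂ G.cbψ (0, 0) := by
  have h1' : AnalyticAt ℂ (fun z : ℂ × ℂ => z.1 - z.2 / 2) (0, 0) :=
    analyticAt_fst.sub analyticAt_snd.div_const
  have h2' : AnalyticAt ℂ (fun z : ℂ × ℂ => z.1 + z.2 / 2) (0, 0) :=
    analyticAt_fst.add analyticAt_snd.div_const
  have h1 : AnalyticAt ℂ (fun z : ℂ × ℂ => (z.1 - z.2 / 2, z.2)) (0, 0) := h1'.prod analyticAt_snd
  have h2 : AnalyticAt ℂ (fun z : ℂ × ℂ => (z.1 + z.2 / 2, z.2)) (0, 0) := h2'.prod analyticAt_snd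
  have a1 : AnalyticAt ℂ (fun z : ℂ × ℂ => G.Θ (z.1 - z.2 / 2) z.2) (0, 0) :=
    AnalyticAt.comp_of_eq (g := fun z : ℂ × ℂ => G.Θ z.1 z.2) (G.cb_Θ_analyticAt G.cb_zero_mem) h1
      (by simp)
  have a2 : AnalyticAt ℂ (fun z : ℂ × ℂ => G.Θ (z.1 + z.2 / 2) z.2) (0, 0) :=
    AnalyticAt.comp_of_eq (g := fun z : ℂ × ℂ => G.Θ z.1 z.2) (G.cb_Θ_analyticAt G.cb_zero_mem) h2
      (by simp)
  exact (a1.add a2).div_const

theorem cb_hc_analyticAt {ψ : ℂ} (h : ψ ∈ hstrip G.σ) : AnalyticAt ℂ G.hc ψ :=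
  G.hc_diff.analyticOnNhd (cb_isOpen_hstrip _) ψ h

theorem cb_ψ_zero_mem : G.cbψ (0, 0) ∈ hstrip G.σ := by
  have h := G.Θ_mem 0 G.cb_zero_mem.1 0 G.cb_zero_mem.2
  have e : G.cbψ (0, 0) = G.Θ 0 0 := by
    unfold cbψ
    simp
  rw [e]
  exact h

/-- near `(0,0)` everything is analytic. -/
theorem cb_generic : ∀ᶠ w in 𝓝 ((0 : ℂ), (0 : ℂ)), AnalyticAt ℂ G.cbψ w ∧ AnalyticAt ℂ G.hc (G.cbψ w) := by
  have h1 := G.cb_ψ_analyticAt.eventually_analyticAt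
  have h2 : ∀ᶠ w in 𝓝 ((0 : ℂ), (0 : ℂ)), G.cbψ w ∈ hstrip G.σ :=
    G.cb_ψ_analyticAt.continuousAt.eventually_mem ((cb_isOpen_hstrip _).mem_nhds G.cb_ψ_zero_mem)
  filter_upwards [h1, h2] with w a1 a2
  exact ⟨a1, G.cb_hc_analyticAt a2⟩

theorem XZ0_analyticAt : AnalyticAt ℂ G.XZ0 (0, 0) := by
  have hh := G.cb_hc_analyticAt G.cb_ψ_zero_mem
  have e : cbZ G.hc = fun ψ => (G.hc ψ + I * deriv G.hc ψ) * Complex.exp (I * ψ) :=
    funext (cb_Z_eq G.hc)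
  have h1 : AnalyticAt ℂ (cbZ G.hc) (G.cbψ (0, 0)) := by
    rw [e]
    exact (hh.add (analyticAt_const.mul hh.deriv)).mul (analyticAt_const.mul analyticAt_id).cexp
  rw [cb_XZ0_eq]
  exact h1.comp G.cb_ψ_analyticAt

theorem XW0_analyticAt : AnalyticAt ℂ G.XW0 (0, 0) := by
  have hh := G.cb_hc_analyticAt G.cb_ψ_zero_mem
  have e : cbW G.hc = fun ψ => (G.hc ψ - I * deriv G.hc ψ) * Complex.exp (-(I * ψ)) :=
    funext (cb_W_eq G.hc)
  have h1 : AnalyticAt ℂ (cbW G.hc) (G.cbψ (0, 0)) := by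
    rw [e]
    exact (hh.sub (analyticAt_const.mul hh.deriv)).mul (analyticAt_const.mul analyticAt_id).neg.cexp
  rw [cb_XW0_eq]
  exact h1.comp G.cb_ψ_analyticAt

theorem base_rank : ∀ᶠ w in 𝓝 ((0 : ℂ), (0 : ℂ)), rkF G.XZ0 G.XW0 w = 0 := by
  filter_upwards [G.cb_generic] with w ⟨a1, a2⟩
  unfold rkF
  rw [cb_XZ0_eq, cb_XW0_eq, cb_pdy_comp (cb_hasDerivAt_Z a2) a1.differentiableAt,
    cb_pdt_comp (cb_hasDerivAt_Z a2) a1.differentiableAt,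
    cb_pdy_comp (cb_hasDerivAt_W a2) a1.differentiableAt,
    cb_pdt_comp (cb_hasDerivAt_W a2) a1.differentiableAt]
  ring

theorem cb_in (y t : ℂ) (hy : y - t / 2 ∈ hstrip G.s) (ht : t ∈ Metric.ball (0 : ℂ) G.r₁) :
    G.XZ0 (y, t) * Complex.exp (-(I * G.Θ (y - t / 2) t)) +
      G.XW0 (y, t) * Complex.exp (I * G.Θ (y - t / 2) t) = 2 * G.p (y - t / 2) t := by
  have h := G.refl_in (y - t / 2) hy t ht
  rw [show y - t / 2 + t = y + t / 2 by ring] at h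
  rw [h]
  have e := cb_inc G.hc (G.cbψ (y, t)) (G.Θ (y - t / 2) t)
  have e1 : G.cbψ (y, t) - G.Θ (y - t / 2) t = (G.Θ (y + t / 2) t - G.Θ (y - t / 2) t) / 2 := by
    unfold cbψ
    ring
  rw [e1] at e
  exact e

theorem cb_out (y t : ℂ) (hy : y - t / 2 ∈ hstrip G.s) (ht : t ∈ Metric.ball (0 : ℂ) G.r₁) :
    G.XZ0 (y, t) * Complex.exp (-(I * G.Θ (y + t / 2) t)) +
      G.XW0 (y, t) * Complex.exp (I * G.Θ (y + t / 2) t) = 2 * G.p (y + t / 2) t := by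
  have h := G.refl_out (y - t / 2) hy t ht
  rw [show y - t / 2 + t = y + t / 2 by ring] at h
  rw [h]
  have e := cb_inc G.hc (G.cbψ (y, t)) (G.Θ (y + t / 2) t)
  have e1 : G.cbψ (y, t) - G.Θ (y + t / 2) t = -((G.Θ (y + t / 2) t - G.Θ (y - t / 2) t) / 2) := by
    unfold cbψ
    ring
  rw [e1, Complex.cos_neg, Complex.sin_neg] at e
  refine e.trans ?_
  unfold pOutC cbψ
  ring

theorem cb_refl_pt (y t : ℂ) (a1 : AnalyticAt ℂ G.cbψ (y, t)) (a2 : AnalyticAt ℂ G.hc (G.cbψ (y, t)))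
    (m1 : y - t / 2 ∈ hstrip G.s) (m2 : y + t - t / 2 ∈ hstrip G.s) (m3 : y - t - t / 2 ∈ hstrip G.s)
    (mt : t ∈ Metric.ball (0 : ℂ) G.r₁) : rfF G.XZ0 G.XW0 (y, t) = 0 := by
  have i1 := G.cb_in y t m1 mt
  have i2 := G.cb_out y t m1 mt
  have i3 := G.cb_in (y + t) t m2 mt
  have i4 := G.cb_out (y - t) t m3 mt
  rw [show y + t - t / 2 = y + t / 2 by ring] at i3
  rw [show y - t + t / 2 = y - t / 2 by ring] at i4
  have p1 : pdy G.XZ0 (y, t) = I * ((G.hc (G.cbψ (y, t)) + deriv (deriv G.hc) (G.cbψ (y, t))) *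
      pdy G.cbψ (y, t)) * Complex.exp (I * G.cbψ (y, t)) := by
    rw [cb_XZ0_eq, cb_pdy_comp (cb_hasDerivAt_Z a2) a1.differentiableAt]
    ring
  have p2 : pdy G.XW0 (y, t) = -I * ((G.hc (G.cbψ (y, t)) + deriv (deriv G.hc) (G.cbψ (y, t))) *
      pdy G.cbψ (y, t)) * (Complex.exp (I * G.cbψ (y, t)))⁻¹ := by
    rw [cb_XW0_eq, cb_pdy_comp (cb_hasDerivAt_W a2) a1.differentiableAt, Complex.exp_neg]
    ring
  have e : rfF G.XZ0 G.XW0 (y, t) =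
      (G.XZ0 (y + t, t) - G.XZ0 (y, t)) * (G.XZ0 (y - t, t) - G.XZ0 (y, t)) * pdy G.XW0 (y, t) ^ 2 -
      (G.XW0 (y + t, t) - G.XW0 (y, t)) * (G.XW0 (y - t, t) - G.XW0 (y, t)) * pdy G.XZ0 (y, t) ^ 2 := by
    unfold rfF
    simp only [Int.cast_one, one_mul, Int.cast_neg, neg_mul, ← sub_eq_add_neg]
  rw [e, p1, p2]
  rw [Complex.exp_neg] at i1 i2 i3 i4
  refine cb_alg _ _ _ _ (Complex.exp (I * G.Θ (y + t / 2) t)) (Complex.exp (I * G.Θ (y - t / 2) t)) _ _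
    (Complex.exp_ne_zero _) (Complex.exp_ne_zero _) (Complex.exp_ne_zero _) ?_ ?_ ?_
  · rw [← Complex.exp_nat_mul, ← Complex.exp_add]
    congr 1
    unfold cbψ
    push_cast
    ring
  · linear_combination i3 - i2
  · linear_combination i4 - i1

theorem base_refl : ∀ᶠ w in 𝓝 ((0 : ℂ), (0 : ℂ)), rfF G.XZ0 G.XW0 w = 0 := by
  have hs := G.cb_s_pos
  have hm : ∀ a : ℂ, ∀ᶠ w in 𝓝 ((0 : ℂ), (0 : ℂ)), w.1 + a * w.2 ∈ hstrip G.s := by
    intro a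
    have hc : ContinuousAt (fun w : ℂ × ℂ => w.1 + a * w.2) (0, 0) :=
      (continuous_fst.add (continuous_const.mul continuous_snd)).continuousAt
    refine hc.eventually_mem ((cb_isOpen_hstrip _).mem_nhds ?_)
    show |((0 : ℂ) + a * 0).im| < G.s
    simpa using hs
  have ht : ∀ᶠ w in 𝓝 ((0 : ℂ), (0 : ℂ)), w.2 ∈ Metric.ball (0 : ℂ) G.r₁ :=
    continuous_snd.continuousAt.eventually_mem (Metric.isOpen_ball.mem_nhds (Metric.mem_ball_self G.r₁_pos))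
  filter_upwards [G.cb_generic, hm (-1 / 2), hm (1 / 2), hm (-3 / 2), ht] with w ha m1 m2 m3 mt
  exact G.cb_refl_pt w.1 w.2 ha.1 ha.2
    (by rw [show w.1 - w.2 / 2 = w.1 + -1 / 2 * w.2 by ring]; exact m1)
    (by rw [show w.1 + w.2 - w.2 / 2 = w.1 + 1 / 2 * w.2 by ring]; exact m2)
    (by rw [show w.1 - w.2 - w.2 / 2 = w.1 + -3 / 2 * w.2 by ring]; exact m3) mt

end Glance

end Claimed.Agent.R269
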