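/-
Row 269, P1 Lemmas 5.1-5.2, formal core, leaf LF-S5b-lead (HOST-FREE formal algebra).   Statements: helper134.
Homogeneous parts `lead b x` and homogeneous elements `Hom b Y` (Euler's relation `z ∂_z Y + t ∂_t Y = b Y`).
Use `CenterOps.lean`, `CenterWt.lean` as black boxes.  Fill the `sorry`s IN PLACE (auxiliary lemmas above the statements, prefix `ld_`).

WRITE `x = ∑ x_{l,k} z^k t^l`.  `lead b x = ∑_l x_{l,b-l} z^{b-l} t^l`.  All operators are graded: `Dz, Dt` lower the weight `k + l` by one, `Sh q` preserves it: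
   `(Sh q x)_{l,k} = ∑_i q^i/i! (k+1)…(k+i) x_{l-i,k+i}`.
PLAN.  * additivity, `lead_Dz`, `lead_Dt`: `ext l; ext k`, `lead_coeff`, `Dz_coeff`, `Dt_coeff`, `dz_coeff`, `coeff_single`.
 * `lead_Sh`: `Sh_coeff` on both sides with a common `N` (note `(lead b x).order ≥ x.order` unless `lead b x = 0`; choose `N` large for both), then termwise
   `single (b-l) ((∂^i c).coeff (b-l)) = ∂^i (single (b-l+i) (c.coeff (b-l+i)))`.
 * `lead_mul`: coefficient `l`: `coeff_mul_Icc` on both sides with the same interval; termwise `coeff_mul_add` and `single_mul_single`.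
 * `hom_iff`: the Euler operator multiplies `z^k t^l` by `k + l`: `(zz * Dz Y + tt * Dt Y)_{l,k} = (k + l) Y_{l,k}`; so `Hom b Y ↔ ∀ l k, k + l ≠ b → Y_{l,k} = 0 ↔ lead b Y = Y`.
 * `Hom.mul/inv/map_Dz/map_Sh`: from the definition by the Leibniz rule (`Dv.leibniz`, `Dv.map_inv`), `Dz_Sh`, `Dt_Sh`, `Sh_zz`, `Sh_tt`; e.g. `E (Sh q Y) = Sh q (E Y)`.
 * `Hom.const`: `Dz Y = 0` and Euler give `tt * Dt Y = 0`; `Dt Y = 0` ⇒ `Y = C c`, `Dz Y = 0` ⇒ `dz c = 0` ⇒ `c` constant (`dz_eq_zero_iff`).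
-/
import Claimed.Agent.R269.S5.CenterWt

set_option autoImplicit false
set_option maxSynthPendingDepth 3

namespace Claimed.Agent.R269.Ctr

open HahnSeries Lau

theorem ld_ext {x y : AA} (h : ∀ l, x.coeff l = y.coeff l) : x = y :=
  HahnSeries.ext (funext h)

theorem ld_single_add (m : ℤ) (a b : ℂ) : (single m (a + b) : KK) = single m a + single m b := by
  ext k
  by_cases h : k = m
  · subst h; simp
  · simp [coeff_single_of_ne h]

theorem ld_single_neg (m : ℤ) (a : ℂ) : (single m (-a) : KK) = -single m a := by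
  ext k
  by_cases h : k = m
  · subst h; simp
  · simp [coeff_single_of_ne h]

theorem lead_zero (b : ℤ) : lead b 0 = 0 := by
  refine ld_ext fun l => ?_
  simp [lead_coeff]

theorem lead_add (b : ℤ) (x y : AA) : lead b (x + y) = lead b x + lead b y := by
  refine ld_ext fun l => ?_
  simp only [lead_coeff, coeff_add, ld_single_add]

theorem lead_neg (b : ℤ) (x : AA) : lead b (-x) = -lead b x := by
  refine ld_ext fun l => ?_
  simp only [lead_coeff, coeff_neg, ld_single_neg]

theorem lead_sub (b : ℤ) (x y : AA) : lead b (x - y) = lead b x - lead b y := by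
  rw [sub_eq_add_neg, lead_add, lead_neg, ← sub_eq_add_neg]

theorem ld_lead_coeff_lt (b : ℤ) (x : AA) : ∀ i < x.order, (lead b x).coeff i = 0 := by
  intro i hi
  rw [lead_coeff, lau_coeff_lt_order x i hi]
  simp

theorem ld_single_sum {ι : Type*} (s : Finset ι) (m : ℤ) (f : ι → ℂ) :
    (single m (∑ i ∈ s, f i) : KK) = ∑ i ∈ s, single m (f i) := by
  classical
  induction s using Finset.induction_on with
  | empty => simp
  | insert a s ha ih => rw [Finset.sum_insert ha, Finset.sum_insert ha, ld_single_add, ih]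

theorem ld_coeff_sum {ι : Type*} (s : Finset ι) (m : ℤ) (f : ι → KK) :
    (∑ i ∈ s, f i).coeff m = ∑ i ∈ s, (f i).coeff m := by
  classical
  induction s using Finset.induction_on with
  | empty => simp
  | insert a s ha ih => rw [Finset.sum_insert ha, Finset.sum_insert ha, coeff_add, ih]

theorem lead_mul {a b : ℤ} {x y : AA} (hx : Wt a x) (hy : Wt b y) :
    lead (a + b) (x * y) = lead a x * lead b y := by
  refine ld_ext fun l => ?_
  rw [lead_coeff, lau_coeff_mul x y x.order y.order (lau_coeff_lt_order x) (lau_coeff_lt_order y),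
    lau_coeff_mul (lead a x) (lead b y) x.order y.order (ld_lead_coeff_lt a x) (ld_lead_coeff_lt b y),
    ld_coeff_sum, ld_single_sum]
  refine Finset.sum_congr rfl ?_
  intro i _
  rw [lead_coeff, lead_coeff, single_mul_single]
  have e : a + b - l = (a - i) + (b - (l - i)) := by ring
  rw [e, coeff_mul_add _ _ _ _ (hx i) (hy (l - i))]

theorem ld_lead_one : lead 0 (1 : AA) = 1 := by
  refine ld_ext fun l => ?_
  rw [lead_coeff]
  by_cases h : l = 0
  · subst h
    simp
  · rw [show (1 : AA) = single 0 1 from rfl, coeff_single_of_ne h]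
    simp

theorem lead_pow {b : ℤ} {x : AA} (hx : Wt b x) (m : ℕ) : lead (m * b) (x ^ m) = lead b x ^ m := by
  induction m with
  | zero => simpa using ld_lead_one
  | succ m ih =>
    rw [pow_succ, pow_succ, ← ih, ← lead_mul (hx.pow m) hx]
    congr 1
    push_cast
    ring

theorem lead_Dz (b : ℤ) (x : AA) : lead (b - 1) (Dz x) = Dz (lead b x) := by
  refine ld_ext fun l => ?_
  rw [lead_coeff, Dz_coeff, Dz_coeff, lead_coeff, dz_single, dz_coeff]
  have e : b - 1 - l = b - l - 1 := by ring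
  have e' : b - l - 1 + 1 = b - l := by ring
  rw [e, e']
  congr 2
  push_cast
  ring

theorem ld_intCast_mul_single (q m : ℤ) (a : ℂ) : (q : KK) * single m a = single m ((q : ℂ) * a) := by
  ext k
  rw [lau_intCast_mul_coeff]
  by_cases h : k = m
  · subst h; simp
  · simp [coeff_single_of_ne h]

theorem lead_Dt (b : ℤ) (x : AA) : lead (b - 1) (Dt x) = Dt (lead b x) := by
  refine ld_ext fun l => ?_
  rw [lead_coeff, Dt_coeff, Dt_coeff, lead_coeff]
  have e : ((l : KK) + 1) = ((l + 1 : ℤ) : KK) := by push_cast; ring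
  have e' : b - 1 - l = b - (l + 1) := by ring
  rw [e, lau_intCast_mul_coeff, ld_intCast_mul_single, e']


/-- the homogeneous part of degree `m` commutes with `dz`. -/
theorem ld_hp_dz (m : ℤ) (c : KK) :
    (single m ((dz c).coeff m) : KK) = dz (single (m + 1) (c.coeff (m + 1))) := by
  rw [dz_single, dz_coeff]
  have e : m + 1 - 1 = m := by ring
  rw [e]
  congr 2
  push_cast
  ring

theorem ld_hp_dz_iter (i : ℕ) : ∀ (m : ℤ) (c : KK),
    (single m (((dz^[i]) c).coeff m) : KK) = (dz^[i]) (single (m + i) (c.coeff (m + i))) := by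
  induction i with
  | zero => intro m c; simp
  | succ i ih =>
    intro m c
    rw [Function.iterate_succ_apply', Function.iterate_succ_apply', ld_hp_dz, ih (m + 1) c]
    have e : m + 1 + (i : ℤ) = m + ((i + 1 : ℕ) : ℤ) := by push_cast; ring
    rw [e]

theorem ld_sc_eq (q : ℤ) (i : ℕ) :
    ((q : KK) ^ i / (i.factorial : KK)) = HahnSeries.C ((q : ℂ) ^ i / (i.factorial : ℂ)) := by
  rw [map_div₀, map_pow, map_intCast, map_natCast]

theorem ld_C_mul_coeff (s : ℂ) (c : KK) (m : ℤ) : (HahnSeries.C s * c).coeff m = s * c.coeff m := by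
  rw [HahnSeries.C_mul_eq_smul, coeff_smul, smul_eq_mul]

theorem ld_C_mul_single (s : ℂ) (m : ℤ) (a : ℂ) :
    (HahnSeries.C s : KK) * single m a = single m (s * a) := by
  ext k
  rw [ld_C_mul_coeff]
  by_cases h : k = m
  · subst h; simp
  · simp [coeff_single_of_ne h]

theorem ld_dz_iter_C_mul (s : ℂ) (i : ℕ) (c : KK) :
    (dz^[i]) (HahnSeries.C s * c) = HahnSeries.C s * (dz^[i]) c :=
  lau_iter_const_mul dz _ (dz_C s) i c

theorem lead_Sh (b q : ℤ) (x : AA) : lead b (Sh q x) = Sh q (lead b x) := by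
  refine ld_ext fun l => ?_
  rw [lead_coeff, ops_Sh_coeff' q x x.order (lau_coeff_lt_order x) l _ (lau_toNat_lt l x.order),
    ops_Sh_coeff' q (lead b x) x.order (ld_lead_coeff_lt b x) l _ (lau_toNat_lt l x.order),
    ld_coeff_sum, ld_single_sum]
  refine Finset.sum_congr rfl ?_
  intro i _
  rw [ld_sc_eq, ld_C_mul_coeff, ← ld_C_mul_single, ld_hp_dz_iter, lead_coeff]
  have e : b - l + (i : ℤ) = b - (l - i) := by ring
  rw [e]

theorem lead_eq_zero {a b : ℤ} {x : AA} (hx : Wt b x) (hab : a < b) : lead a x = 0 := by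
  refine ld_ext fun l => ?_
  rw [lead_coeff, (le_orderTop_iff _ _).mp (hx l) (a - l) (by omega)]
  simp

theorem lead_ne_zero {b : ℤ} {x : AA} (h : (x.coeff 0).coeff b ≠ 0) : lead b x ≠ 0 := by
  intro h0
  have h1 : ((lead b x).coeff 0).coeff b = 0 := by rw [h0]; simp
  rw [lead_coeff, sub_zero, coeff_single_same] at h1
  exact h h1

theorem lead_nonneg {b : ℤ} {x : AA} (h : 0 ≤ x.orderTop) : 0 ≤ (lead b x).orderTop := by
  have h' : ((0 : ℤ) : WithTop ℤ) ≤ x.orderTop := by simpa using h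
  have : ((0 : ℤ) : WithTop ℤ) ≤ (lead b x).orderTop := by
    rw [le_orderTop_iff] at h' ⊢
    intro i hi
    rw [lead_coeff, h' i hi]
    simp
  simpa using this

theorem wt_lead (b : ℤ) (x : AA) : Wt b (lead b x) := by
  intro l
  rw [le_orderTop_iff]
  intro i hi
  rw [lead_coeff, coeff_single_of_ne (ne_of_lt hi)]

theorem ld_euler_coeff (Y : AA) (l k : ℤ) :
    ((zz * Dz Y + tt * Dt Y).coeff l).coeff k = ((k : ℂ) + l) * (Y.coeff l).coeff k := by
  have h1 : (zz * Dz Y).coeff l = (single 1 (1 : ℂ) : KK) ^ (1 : ℤ) * dz (Y.coeff l) := by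
    rw [zz, ops_coeff_C_mul, Dz_coeff, zpow_one]
  have h2 : (tt * Dt Y).coeff l = ((l : ℤ) : KK) * Y.coeff l := by
    have := coeff_tt_zpow_mul (Dt Y) 1 l
    rw [zpow_one] at this
    rw [this, Dt_coeff]
    have e : l - 1 + 1 = l := by ring
    rw [e]
    congr 1
    push_cast
    ring
  rw [coeff_add, coeff_add, h1, h2, coeff_single_zpow_mul, dz_coeff, lau_intCast_mul_coeff]
  have e : k - 1 + 1 = k := by ring
  rw [e]
  push_cast
  ring

/-- Euler's relation characterises homogeneity. -/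
theorem hom_iff (b : ℤ) (Y : AA) : Hom b Y ↔ lead b Y = Y := by
  constructor
  · intro h
    refine ld_ext fun l => ?_
    ext k
    rw [lead_coeff]
    by_cases hk : k = b - l
    · subst hk; simp
    · rw [coeff_single_of_ne hk]
      have h1 := ld_euler_coeff Y l k
      rw [h, lau_intCast_mul_coeff, lau_intCast_mul_coeff] at h1
      have h2 : ((b : ℂ) - (k + l)) * (Y.coeff l).coeff k = 0 := by linear_combination h1
      rcases mul_eq_zero.mp h2 with h3 | h3
      · exfalso
        apply hk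
        have : ((b - (k + l) : ℤ) : ℂ) = 0 := by push_cast; exact h3
        have := Int.cast_eq_zero.mp this
        omega
      · exact h3.symm
  · intro h
    refine ld_ext fun l => ?_
    ext k
    rw [ld_euler_coeff, lau_intCast_mul_coeff, lau_intCast_mul_coeff]
    by_cases hk : k = b - l
    · subst hk; push_cast; ring
    · have : (Y.coeff l).coeff k = 0 := by
        rw [← h, lead_coeff, coeff_single_of_ne hk]
      rw [this]; ring

theorem ld_lead_lead (b : ℤ) (x : AA) : lead b (lead b x) = lead b x := by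
  refine ld_ext fun l => ?_
  rw [lead_coeff, lead_coeff, coeff_single_same]

theorem hom_lead (b : ℤ) (x : AA) : Hom b (lead b x) := (hom_iff b _).mpr (ld_lead_lead b x)

theorem Hom.wt {b : ℤ} {Y : AA} (h : Hom b Y) : Wt b Y := by
  rw [← (hom_iff b Y).mp h]
  exact wt_lead b Y

theorem hom_tt : Hom 1 tt := by
  unfold Hom
  rw [Dz_tt, Dt_tt]
  simp

theorem hom_zz : Hom 1 zz := by
  unfold Hom
  rw [Dz_zz, Dt_zz]
  simp

theorem hom_cc (c : ℂ) : Hom 0 (cc c) := by
  unfold Hom
  rw [Dz_cc, Dt_cc]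
  simp

theorem Hom.mul {a b : ℤ} {X Y : AA} (hX : Hom a X) (hY : Hom b Y) : Hom (a + b) (X * Y) := by
  unfold Hom at *
  rw [Dv.leibniz, Dv.leibniz]
  push_cast
  linear_combination X * hY + Y * hX

theorem Hom.inv {b : ℤ} {Y : AA} (hY : Hom b Y) : Hom (-b) Y⁻¹ := by
  unfold Hom at *
  by_cases h0 : Y = 0
  · subst h0; simp
  · rw [Dv.map_inv, Dv.map_inv]
    push_cast
    field_simp
    linear_combination -hY

theorem ld_hom_one : Hom 0 1 := by
  unfold Hom
  rw [Dv.map_one, Dv.map_one]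
  simp

theorem ld_hom_pow {b : ℤ} {Y : AA} (hY : Hom b Y) (m : ℕ) : Hom (m * b) (Y ^ m) := by
  induction m with
  | zero => simpa using ld_hom_one
  | succ m ih =>
    rw [pow_succ]
    have := ih.mul hY
    have e : ((m + 1 : ℕ) : ℤ) * b = m * b + b := by push_cast; ring
    rw [e]
    exact this

theorem Hom.zpow {b : ℤ} {Y : AA} (hY : Hom b Y) (m : ℤ) : Hom (m * b) (Y ^ m) := by
  cases m with
  | ofNat m => simpa using ld_hom_pow hY m
  | negSucc m =>
    rw [zpow_negSucc]
    have := (ld_hom_pow hY (m + 1)).inv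
    have e : Int.negSucc m * b = -(((m + 1 : ℕ) : ℤ) * b) := by
      rw [Int.negSucc_eq]; push_cast; ring
    rw [e]
    exact this

theorem Hom.add {b : ℤ} {X Y : AA} (hX : Hom b X) (hY : Hom b Y) : Hom b (X + Y) := by
  unfold Hom at *
  rw [map_add, map_add]
  linear_combination hX + hY

theorem Hom.sub {b : ℤ} {X Y : AA} (hX : Hom b X) (hY : Hom b Y) : Hom b (X - Y) := by
  unfold Hom at *
  rw [map_sub, map_sub]
  linear_combination hX - hY

theorem Hom.map_Dz {b : ℤ} {Y : AA} (hY : Hom b Y) : Hom (b - 1) (Dz Y) := by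
  unfold Hom at *
  have h := congrArg Dz hY
  rw [map_add, Dv.leibniz, Dv.leibniz, Dv.leibniz, Dz_zz, Dz_tt, Dv.map_intCast, Dz_Dt_comm] at h
  push_cast
  linear_combination h

theorem Hom.map_Sh {b : ℤ} {Y : AA} (hY : Hom b Y) (q : ℤ) : Hom b (Sh q Y) := by
  unfold Hom at *
  have h := congrArg (Sh q) hY
  rw [map_add, map_mul, map_mul, map_mul, Sh_zz, Sh_tt, map_intCast] at h
  rw [Dz_Sh, Dt_Sh, map_add, map_mul, map_intCast]
  linear_combination h

/-- a nonzero element is homogeneous of at most one weight. -/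
theorem Hom.unique {a b : ℤ} {Y : AA} (ha : Hom a Y) (hb : Hom b Y) (hY : Y ≠ 0) : a = b := by
  unfold Hom at *
  have h : ((a : AA) - b) * Y = 0 := by linear_combination hb - ha
  rcases mul_eq_zero.mp h with h1 | h1
  · have : (a : AA) = b := sub_eq_zero.mp h1
    exact Int.cast_injective this
  · exact absurd h1 hY


/-- homogeneous of weight zero and independent of `z` ⇒ constant. -/
theorem Hom.const {Y : AA} (h : Hom 0 Y) (hz : Dz Y = 0) : ∃ c : ℂ, Y = cc c := by
  unfold Hom at h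
  rw [hz] at h
  have h1 : tt * Dt Y = 0 := by simpa using h
  have h2 : Dt Y = 0 := (mul_eq_zero.mp h1).resolve_left tt_ne_zero
  have h3 : ∀ l : ℤ, l ≠ 0 → Y.coeff l = 0 := by
    intro l hl
    have h4 := Dt_coeff Y (l - 1)
    rw [h2] at h4
    have e : l - 1 + 1 = l := by ring
    rw [e] at h4
    have h5 : ((l - 1 : ℤ) : KK) + 1 = (l : KK) := by push_cast; ring
    rw [h5] at h4
    have h6 : (l : KK) ≠ 0 := Int.cast_ne_zero.mpr hl
    have h7 : (l : KK) * Y.coeff l = 0 := by rw [← h4]; simp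
    exact (mul_eq_zero.mp h7).resolve_left h6
  have h8 : dz (Y.coeff 0) = 0 := by
    rw [← Dz_coeff, hz]; simp
  obtain ⟨a, ha⟩ := (dz_eq_zero_iff _).mp h8
  refine ⟨a, ld_ext fun l => ?_⟩
  rw [cc, ops_C_coeff]
  by_cases hl : l = 0
  · subst hl; simpa using ha
  · rw [if_neg hl, h3 l hl]

theorem ld_dv_zpow (δ : Dv AA) {a : AA} (ha : a ≠ 0) (m : ℤ) :
    δ (a ^ m) = (m : AA) * a ^ m * a⁻¹ * δ a := by
  cases m with
  | ofNat m =>
    simp only [Int.ofNat_eq_natCast, zpow_natCast, Int.cast_natCast]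
    rw [Dv.map_pow]
    cases m with
    | zero => simp
    | succ k =>
      simp only [Nat.add_sub_cancel]
      field_simp
      ring
  | negSucc m =>
    rw [zpow_negSucc, Dv.map_inv, Dv.map_pow, Int.negSucc_eq]
    simp only [Nat.add_sub_cancel]
    push_cast
    field_simp
    ring

/-- logarithmic derivatives decide proportionality of powers. -/
theorem Hom.const_ratio {Y₁ Y₂ : AA} {j₁ j₂ : ℤ} (h₁ : Hom j₁ Y₁) (h₂ : Hom j₂ Y₂) (hne₁ : Y₁ ≠ 0)
    (hne₂ : Y₂ ≠ 0) (e₁ e₂ : ℤ) (he : e₁ * j₁ = e₂ * j₂)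
    (hrel : (e₁ : AA) * Y₂ * Dz Y₁ = (e₂ : AA) * Y₁ * Dz Y₂) :
    ∃ c : ℂ, c ≠ 0 ∧ Y₁ ^ e₁ = cc c * Y₂ ^ e₂ := by
  have hU : Hom 0 (Y₁ ^ e₁ * (Y₂ ^ e₂)⁻¹) := by
    have := (h₁.zpow e₁).mul (h₂.zpow e₂).inv
    rwa [he, add_neg_cancel] at this
  have hp1 : Y₁ ^ e₁ ≠ 0 := zpow_ne_zero _ hne₁
  have hp2 : Y₂ ^ e₂ ≠ 0 := zpow_ne_zero _ hne₂
  have hD : Dz (Y₁ ^ e₁ * (Y₂ ^ e₂)⁻¹) = 0 := by
    rw [Dv.leibniz, Dv.map_inv, ld_dv_zpow Dz hne₁, ld_dv_zpow Dz hne₂]
    field_simp
    linear_combination Y₁ ^ e₁ * hrel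
  obtain ⟨c, hc⟩ := hU.const hD
  refine ⟨c, ?_, ?_⟩
  · rintro rfl
    have : cc 0 = 0 := by simp [cc]
    rw [this] at hc
    exact (mul_ne_zero hp1 (inv_ne_zero hp2)) hc
  · rw [← hc]
    field_simp

end Claimed.Agent.R269.Ctr
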