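/-
Row 269, P1 Lemma 5.1, formal core, leaf LF-S5b-poleA (HOST-FREE formal algebra).   Statements: helper134.
THE POLE BOUND (5.9), induction step, part A: what rank one and the reflection law say about the coefficient of `t^L`.
Use `CenterOps/Wt/B.lean` as black boxes.  PROVED by helper283 (auxiliary lemmas prefix `pa_`).

SETTING.  `Zx, Wx ∈ K[[t]]`, `Z = Zx_0`, `W = Wx_0`;  induction hypothesis `ord Zx_l ≥ Dp - l`, `ord Wx_l ≥ Dm - l` for `l < L`, `L ≥ 1`.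
PLAN.  `exists_split`: `Zx = Z₁ + t^L Z₂`, `Wx = W₁ + t^L W₂`, `Wt Dp Z₁`, `Wt Dm W₁` (`wt_of_coeff`), `(Z₂)_0 = Zx_L`, `(Z₁)_0 = Z` (as `L ≥ 1`).
 * `pole_rank_step`:  `Dt (t^L Z₂) = L t^{L-1} Z₂ + t^L Dt Z₂`.  The coefficient of `t^{L-1}` of `0 = Dz Zx Dt Wx - Dt Zx Dz Wx` is
      `[Dz Z₁ Dt W₁ - Dt Z₁ Dz W₁]_{L-1} + L (Z' Wx_L - Zx_L W')`    (all other terms are divisible by `t^L`);
   the first bracket has weight `Dp + Dm - 2`, so order `≥ Dp + Dm - 2 - (L-1)`.  `L ≠ 0` in `K`.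
 * `pole_refl_step`:  `Bq Zx = Bq Z₁ + t^L Bq2 Z₁ Z₂ + t^{2L} Bq Z₂` (`Bq_add`, `Bq2_tt_mul`, `Bq_tt_mul`), `Dz Wx = Dz W₁ + t^L Dz W₂`.  So
      `0 = Bq Zx (Dz Wx)² - Bq Wx (Dz Zx)² = [Bq Z₁ (Dz W₁)² - Bq W₁ (Dz Z₁)²] + t^L [Bq2 Z₁ Z₂ (Dz W₁)² + 2 Bq Z₁ Dz W₁ Dz W₂ - (Z ↔ W)] + t^{2L} (nonnegative order)`;
   coefficient of `t^L` (`2L > L`): the first bracket has weight `2Dp + 2Dm - 6`; the `t⁰`-coefficient of the second is `LL Z W Zx_L Wx_L` (`Bq_coeff_zero`, `Bq2_coeff_zero`, `coeff_zero_mul`).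
 * `E0_eq_zero`: the coefficient of `t⁰`.
-/
import Claimed.Agent.R269.S5.CenterB

set_option autoImplicit false

namespace Claimed.Agent.R269.Ctr

open HahnSeries Lau

theorem E0_eq_zero (Zx Wx : AA) (hZ0 : 0 ≤ Zx.orderTop) (hW0 : 0 ≤ Wx.orderTop)
    (hB : Bq Zx * Dz Wx ^ 2 = Bq Wx * Dz Zx ^ 2) : E0 (Zx.coeff 0) (Wx.coeff 0) = 0 := by
  have h : (Bq Zx * Dz Wx ^ 2).coeff 0 = (Bq Wx * Dz Zx ^ 2).coeff 0 := by rw [hB]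
  rw [coeff_zero_mul _ _ (Bq_nonneg Zx hZ0) (nonneg_pow (Dz_nonneg hW0) 2),
    coeff_zero_mul _ _ (Bq_nonneg Wx hW0) (nonneg_pow (Dz_nonneg hZ0) 2),
    coeff_zero_pow _ (Dz_nonneg hW0), coeff_zero_pow _ (Dz_nonneg hZ0),
    Bq_coeff_zero _ hZ0, Bq_coeff_zero _ hW0, Dz_coeff, Dz_coeff] at h
  unfold E0
  rw [h, sub_self]

theorem pa_coeff_neg {x : AA} (hx : 0 ≤ x.orderTop) {l : ℤ} (hl : l < 0) : x.coeff l = 0 :=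
  (le_orderTop_iff x 0).1 (by exact_mod_cast hx) l hl

theorem pa_coeff_tt_pow_mul (x : AA) (m : ℕ) (l : ℤ) : (tt ^ m * x).coeff l = x.coeff (l - m) := by
  have := coeff_tt_zpow_mul x (m : ℤ) l
  rwa [zpow_natCast] at this

theorem pa_Dz_tt_pow_mul (m : ℕ) (x : AA) : Dz (tt ^ m * x) = tt ^ m * Dz x := by
  rw [Dv.leibniz, Dv.map_pow, Dz_tt]
  ring

theorem pa_Dt_tt_pow_mul (m : ℕ) (x : AA) :
    Dt (tt ^ (m + 1) * x) = tt ^ (m + 1) * Dt x + ((m + 1 : ℕ) : AA) * (tt ^ m * x) := by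
  rw [Dv.leibniz, Dv.map_pow, Dt_tt]
  simp only [Nat.add_sub_cancel]
  ring

theorem pa_natCast_eq (m : ℕ) : ((m : ℕ) : AA) = HahnSeries.C ((m : ℕ) : KK) :=
  (map_natCast (HahnSeries.C : KK →+* AA) m).symm

theorem pa_natCast_nonneg (m : ℕ) : 0 ≤ ((m : ℕ) : AA).orderTop := by
  rw [pa_natCast_eq]
  exact orderTop_single_le

theorem pa_natCast_coeff_zero (m : ℕ) : ((m : ℕ) : AA).coeff 0 = ((m : ℕ) : KK) := by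
  rw [pa_natCast_eq]
  exact coeff_single_same 0 _

theorem pa_natCast_inv_nonneg (m : ℕ) : (0 : WithTop ℤ) ≤ (((m : ℕ) : KK)⁻¹).orderTop := by
  have : (((m : ℕ) : KK)⁻¹) = HahnSeries.C (((m : ℕ) : ℂ)⁻¹) := by
    rw [map_inv₀, map_natCast]
  rw [this]
  exact orderTop_single_le

theorem pa_rank_alg {A : Type*} [CommRing A] (a b c d a1 a2 b1 b2 c1 c2 d1 d2 T T' N W2 Z2 : A)
    (rank : a * b = c * d) (ea : a = a1 + T * a2) (ed : d = d1 + T * d2)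
    (ec : c = c1 + (T * c2 + N * (T' * Z2))) (eb : b = b1 + (T * b2 + N * (T' * W2))) :
    (a1 * b1 - c1 * d1) + T' * (N * (a1 * W2 - Z2 * d1)) +
      T * (a1 * b2 + a2 * b - c2 * d1 - c * d2) = 0 := by
  linear_combination rank - b * ea + c * ed - a1 * eb + d1 * ec

theorem pole_rank_step (Zx Wx : AA) (hZ0 : 0 ≤ Zx.orderTop) (hW0 : 0 ≤ Wx.orderTop)
    (rank : Dz Zx * Dt Wx = Dt Zx * Dz Wx) (Dp Dm : ℤ) (L : ℕ) (hL : 1 ≤ L)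
    (hZ : ∀ l : ℤ, l < L → ((Dp - l : ℤ) : WithTop ℤ) ≤ (Zx.coeff l).orderTop)
    (hW : ∀ l : ℤ, l < L → ((Dm - l : ℤ) : WithTop ℤ) ≤ (Wx.coeff l).orderTop) :
    ((Dp + Dm - 1 - L : ℤ) : WithTop ℤ) ≤
      (dz (Zx.coeff 0) * Wx.coeff L - Zx.coeff L * dz (Wx.coeff 0)).orderTop := by
  obtain ⟨M, rfl⟩ : ∃ M, L = M + 1 := ⟨L - 1, by omega⟩
  obtain ⟨Z₁, Z₂, hZe, hZ1, hZ2, hZlt, hZge, hZc⟩ := exists_split Zx hZ0 (M + 1)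
  obtain ⟨W₁, W₂, hWe, hW1, hW2, hWlt, hWge, hWc⟩ := exists_split Wx hW0 (M + 1)
  have wZ : Wt Dp Z₁ := wt_of_coeff ((M + 1 : ℕ) : ℤ) (fun l hl => by rw [hZlt l hl]; exact hZ l hl) hZge
  have wW : Wt Dm W₁ := wt_of_coeff ((M + 1 : ℕ) : ℤ) (fun l hl => by rw [hWlt l hl]; exact hW l hl) hWge
  have wP : Wt (Dp - 1 + (Dm - 1)) (Dz Z₁ * Dt W₁ - Dt Z₁ * Dz W₁) :=
    (wZ.map_Dz.mul wW.map_Dt).sub (wZ.map_Dt.mul wW.map_Dz)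
  have eZz : Dz Zx = Dz Z₁ + tt ^ (M + 1) * Dz Z₂ := by
    rw [hZe, map_add, pa_Dz_tt_pow_mul]
  have eWz : Dz Wx = Dz W₁ + tt ^ (M + 1) * Dz W₂ := by
    rw [hWe, map_add, pa_Dz_tt_pow_mul]
  have eZt : Dt Zx = Dt Z₁ + (tt ^ (M + 1) * Dt Z₂ + ((M + 1 : ℕ) : AA) * (tt ^ M * Z₂)) := by
    rw [hZe, map_add, pa_Dt_tt_pow_mul]
  have eWt : Dt Wx = Dt W₁ + (tt ^ (M + 1) * Dt W₂ + ((M + 1 : ℕ) : AA) * (tt ^ M * W₂)) := by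
    rw [hWe, map_add, pa_Dt_tt_pow_mul]
  have key : (Dz Z₁ * Dt W₁ - Dt Z₁ * Dz W₁) +
      tt ^ M * (((M + 1 : ℕ) : AA) * (Dz Z₁ * W₂ - Z₂ * Dz W₁)) +
      tt ^ (M + 1) * (Dz Z₁ * Dt W₂ + Dz Z₂ * Dt Wx - Dt Z₂ * Dz W₁ - Dt Zx * Dz W₂) = 0 := by
    exact pa_rank_alg (A := AA) _ _ _ _ _ _ _ _ _ _ _ _ _ _ _ _ _ rank eZz eWz eZt eWt
  have nQ : 0 ≤ (Dz Z₁ * W₂ - Z₂ * Dz W₁).orderTop :=
    nonneg_sub (nonneg_mul (Dz_nonneg hZ1) hW2) (nonneg_mul hZ2 (Dz_nonneg hW1))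
  have nR : 0 ≤ (Dz Z₁ * Dt W₂ + Dz Z₂ * Dt Wx - Dt Z₂ * Dz W₁ - Dt Zx * Dz W₂).orderTop :=
    nonneg_sub (nonneg_sub (nonneg_add (nonneg_mul (Dz_nonneg hZ1) (Dt_nonneg hW2))
      (nonneg_mul (Dz_nonneg hZ2) (Dt_nonneg hW0))) (nonneg_mul (Dt_nonneg hZ2) (Dz_nonneg hW1)))
      (nonneg_mul (Dt_nonneg hZ0) (Dz_nonneg hW2))
  have hc : ((Dz Z₁ * Dt W₁ - Dt Z₁ * Dz W₁) +
      tt ^ M * (((M + 1 : ℕ) : AA) * (Dz Z₁ * W₂ - Z₂ * Dz W₁)) +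
      tt ^ (M + 1) * (Dz Z₁ * Dt W₂ + Dz Z₂ * Dt Wx - Dt Z₂ * Dz W₁ - Dt Zx * Dz W₂)).coeff (M : ℤ) = 0 := by
    rw [key]; rfl
  have h0 : (0 : ℤ) < ((M + 1 : ℕ) : ℤ) := by positivity
  generalize (Dz Z₁ * Dt W₁ - Dt Z₁ * Dz W₁) = P at *
  rw [coeff_add, coeff_add, pa_coeff_tt_pow_mul, pa_coeff_tt_pow_mul, sub_self,
    pa_coeff_neg nR (by push_cast; omega), add_zero,
    coeff_zero_mul _ _ (pa_natCast_nonneg _) nQ, pa_natCast_coeff_zero, coeff_sub,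
    coeff_zero_mul _ _ (Dz_nonneg hZ1) hW2, coeff_zero_mul _ _ hZ2 (Dz_nonneg hW1), Dz_coeff,
    Dz_coeff, hZlt 0 h0, hWlt 0 h0, hZc, hWc] at hc
  have hne : (((M + 1 : ℕ) : ℕ) : KK) ≠ 0 := Nat.cast_ne_zero.2 (Nat.succ_ne_zero M)
  have hX : dz (Zx.coeff 0) * Wx.coeff ((M + 1 : ℕ) : ℤ) - Zx.coeff ((M + 1 : ℕ) : ℤ) * dz (Wx.coeff 0) =
      (((M + 1 : ℕ) : KK)⁻¹) * (-P.coeff (M : ℤ)) := by
    field_simp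
    linear_combination hc
  rw [hX]
  have hP := wP.coeff (M : ℤ)
  have := le_orderTop_mul (pa_natCast_inv_nonneg (M + 1)) (le_orderTop_neg hP)
  convert this using 2
  push_cast
  ring

theorem pa_refl_alg {A : Type*} [CommRing A]
    (X Y a d A0 A1 A2 B0 B1 B2 z0 z1 w0 w1 T T2 : A)
    (hB : X * d ^ 2 = Y * a ^ 2) (eX : X = A0 + T * A1 + T2 * A2) (eY : Y = B0 + T * B1 + T2 * B2)
    (ea : a = z0 + T * z1) (ed : d = w0 + T * w1) (hT : T2 = T * T) :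
    (A0 * w0 ^ 2 - B0 * z0 ^ 2) +
      T * ((A1 * w0 ^ 2 + (A0 * w0 * w1 + A0 * w0 * w1)) - (B1 * z0 ^ 2 + (B0 * z0 * z1 + B0 * z0 * z1))) +
      T2 * (((A2 * w0 ^ 2 + (A1 * w0 * w1 + A1 * w0 * w1) + A0 * w1 ^ 2) +
          T * ((A2 * w0 * w1 + A2 * w0 * w1) + A1 * w1 ^ 2) + T2 * (A2 * w1 ^ 2)) -
        ((B2 * z0 ^ 2 + (B1 * z0 * z1 + B1 * z0 * z1) + B0 * z1 ^ 2) +
          T * ((B2 * z0 * z1 + B2 * z0 * z1) + B1 * z1 ^ 2) + T2 * (B2 * z1 ^ 2))) = 0 := by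
  subst eX eY ea ed hT
  linear_combination hB

theorem pa_Bq_split (Z₁ Z₂ : AA) (L : ℕ) :
    Bq (Z₁ + tt ^ L * Z₂) = Bq Z₁ + tt ^ L * Bq2 Z₁ Z₂ + tt ^ (2 * L) * Bq Z₂ := by
  rw [Bq_add, Bq2_tt_mul, Bq_tt_mul]

theorem pa_wt_cast {a b : ℤ} {x : AA} (h : Wt a x) (e : a = b) : Wt b x := e ▸ h

theorem pa_tt_nonneg : 0 ≤ tt.orderTop := by
  have := tt_zpow_orderTop 1
  rw [zpow_one] at this
  rw [this]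
  exact_mod_cast (zero_le_one : (0 : ℤ) ≤ 1)

theorem pa_rest_nonneg {A2 A1 A0 w0 w1 T T2 : AA} (a2 : 0 ≤ A2.orderTop) (a1 : 0 ≤ A1.orderTop)
    (a0 : 0 ≤ A0.orderTop) (h0 : 0 ≤ w0.orderTop) (h1 : 0 ≤ w1.orderTop) (hT : 0 ≤ T.orderTop)
    (hT2 : 0 ≤ T2.orderTop) :
    0 ≤ ((A2 * w0 ^ 2 + (A1 * w0 * w1 + A1 * w0 * w1) + A0 * w1 ^ 2) +
          T * ((A2 * w0 * w1 + A2 * w0 * w1) + A1 * w1 ^ 2) + T2 * (A2 * w1 ^ 2)).orderTop :=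
  nonneg_add (nonneg_add (nonneg_add (nonneg_add (nonneg_mul a2 (nonneg_pow h0 2))
    (nonneg_add (nonneg_mul (nonneg_mul a1 h0) h1) (nonneg_mul (nonneg_mul a1 h0) h1)))
    (nonneg_mul a0 (nonneg_pow h1 2)))
    (nonneg_mul hT (nonneg_add (nonneg_add (nonneg_mul (nonneg_mul a2 h0) h1)
      (nonneg_mul (nonneg_mul a2 h0) h1)) (nonneg_mul a1 (nonneg_pow h1 2)))))
    (nonneg_mul hT2 (nonneg_mul a2 (nonneg_pow h1 2)))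

theorem pole_refl_step (Zx Wx : AA) (hZ0 : 0 ≤ Zx.orderTop) (hW0 : 0 ≤ Wx.orderTop)
    (hB : Bq Zx * Dz Wx ^ 2 = Bq Wx * Dz Zx ^ 2) (Dp Dm : ℤ) (L : ℕ) (hL : 1 ≤ L)
    (hZ : ∀ l : ℤ, l < L → ((Dp - l : ℤ) : WithTop ℤ) ≤ (Zx.coeff l).orderTop)
    (hW : ∀ l : ℤ, l < L → ((Dm - l : ℤ) : WithTop ℤ) ≤ (Wx.coeff l).orderTop) :
    ((2 * Dp + 2 * Dm - 6 - L : ℤ) : WithTop ℤ) ≤
      (LL (Zx.coeff 0) (Wx.coeff 0) (Zx.coeff L) (Wx.coeff L)).orderTop := by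
  obtain ⟨Z₁, Z₂, hZe, hZ1, hZ2, hZlt, hZge, hZc⟩ := exists_split Zx hZ0 L
  obtain ⟨W₁, W₂, hWe, hW1, hW2, hWlt, hWge, hWc⟩ := exists_split Wx hW0 L
  have wZ : Wt Dp Z₁ := wt_of_coeff (L : ℤ) (fun l hl => by rw [hZlt l hl]; exact hZ l hl) hZge
  have wW : Wt Dm W₁ := wt_of_coeff (L : ℤ) (fun l hl => by rw [hWlt l hl]; exact hW l hl) hWge
  have wP : Wt (2 * Dp + 2 * Dm - 6) (Bq Z₁ * Dz W₁ ^ 2 - Bq W₁ * Dz Z₁ ^ 2) :=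
    (pa_wt_cast (wZ.Bq'.mul (wW.map_Dz.pow 2)) (by push_cast; ring)).sub
      (pa_wt_cast (wW.Bq'.mul (wZ.map_Dz.pow 2)) (by push_cast; ring))
  have eZz : Dz Zx = Dz Z₁ + tt ^ L * Dz Z₂ := by
    rw [hZe, map_add, pa_Dz_tt_pow_mul]
  have eWz : Dz Wx = Dz W₁ + tt ^ L * Dz W₂ := by
    rw [hWe, map_add, pa_Dz_tt_pow_mul]
  have eX : Bq Zx = Bq Z₁ + tt ^ L * Bq2 Z₁ Z₂ + tt ^ (2 * L) * Bq Z₂ := by
    rw [hZe, pa_Bq_split]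
  have eY : Bq Wx = Bq W₁ + tt ^ L * Bq2 W₁ W₂ + tt ^ (2 * L) * Bq W₂ := by
    rw [hWe, pa_Bq_split]
  have key := pa_refl_alg (A := AA) _ _ _ _ _ _ _ _ _ _ _ _ _ _ _ _ hB eX eY eZz eWz
    (by rw [two_mul, _root_.pow_add])
  have htt := pa_tt_nonneg
  have a0 := Bq_nonneg Z₁ hZ1
  have a1 := Bq2_nonneg Z₁ Z₂ hZ1 hZ2
  have a2 := Bq_nonneg Z₂ hZ2
  have b0 := Bq_nonneg W₁ hW1
  have b1 := Bq2_nonneg W₁ W₂ hW1 hW2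
  have b2 := Bq_nonneg W₂ hW2
  have z0 := Dz_nonneg hZ1
  have z1 := Dz_nonneg hZ2
  have w0 := Dz_nonneg hW1
  have w1 := Dz_nonneg hW2
  have h0 : (0 : ℤ) < (L : ℤ) := by exact_mod_cast hL
  have hc := congrArg (fun x : AA => x.coeff (L : ℤ)) key
  simp only [coeff_zero] at hc
  generalize (Bq Z₁ * Dz W₁ ^ 2 - Bq W₁ * Dz Z₁ ^ 2) = P at *
  rw [coeff_add, coeff_add, pa_coeff_tt_pow_mul, pa_coeff_tt_pow_mul, sub_self,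
    pa_coeff_neg (l := (L : ℤ) - ((2 * L : ℕ) : ℤ))
      (nonneg_sub (pa_rest_nonneg a2 a1 a0 w0 w1 (nonneg_pow htt L) (nonneg_pow htt (2 * L)))
        (pa_rest_nonneg b2 b1 b0 z0 z1 (nonneg_pow htt L) (nonneg_pow htt (2 * L))))
      (by push_cast; omega), add_zero] at hc
  have hQ : ((Bq2 Z₁ Z₂ * Dz W₁ ^ 2 + (Bq Z₁ * Dz W₁ * Dz W₂ + Bq Z₁ * Dz W₁ * Dz W₂)) -
      (Bq2 W₁ W₂ * Dz Z₁ ^ 2 + (Bq W₁ * Dz Z₁ * Dz Z₂ + Bq W₁ * Dz Z₁ * Dz Z₂))).coeff 0 =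
      LL (Zx.coeff 0) (Wx.coeff 0) (Zx.coeff L) (Wx.coeff L) := by
    rw [coeff_sub, coeff_add, coeff_add, coeff_add, coeff_add,
      coeff_zero_mul _ _ a1 (nonneg_pow w0 2), coeff_zero_mul _ _ (nonneg_mul a0 w0) w1,
      coeff_zero_mul _ _ a0 w0, coeff_zero_mul _ _ b1 (nonneg_pow z0 2),
      coeff_zero_mul _ _ (nonneg_mul b0 z0) z1, coeff_zero_mul _ _ b0 z0,
      coeff_zero_pow _ w0, coeff_zero_pow _ z0, Bq2_coeff_zero _ _ hZ1 hZ2,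
      Bq2_coeff_zero _ _ hW1 hW2, Bq_coeff_zero _ hZ1, Bq_coeff_zero _ hW1,
      Dz_coeff, Dz_coeff, Dz_coeff, Dz_coeff, hZlt 0 h0, hWlt 0 h0, hZc, hWc]
    unfold LL
    ring
  rw [hQ] at hc
  have hX : LL (Zx.coeff 0) (Wx.coeff 0) (Zx.coeff L) (Wx.coeff L) = -P.coeff (L : ℤ) := by
    rw [eq_neg_iff_add_eq_zero, add_comm]; exact hc
  rw [hX]
  exact le_orderTop_neg (wP.coeff (L : ℤ))

end Claimed.Agent.R269.Ctr
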