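/-
Row 269, P1 Lemma 5.1, formal core, leaf LF-S5b-poleB (HOST-FREE formal algebra).   Statements: helper134.
THE POLE BOUND (5.9), part B: solving the linearised equation in `K = ℂ((z))`, and the induction.
Use `CenterOps/Wt/B/PoleA.lean` as black boxes.  PROVED by helper283 (auxiliary lemmas prefix `pb_`).

PLAN for `pole_solve`.  `ord Z' = Dp - 1`, `ord W' = Dm - 1` (`orderTop_dz`).  `ν := a / Z'`, `r := b - W' ν = (Z' b - a W')/Z'`, so `ord r ≥ Dm - L` by `h1`.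
 `LL Z W a b = LL Z W (Z' ν) (W' ν) + LL Z W 0 r` (`LL_add`);   `LL Z W 0 r = 2 B0(Z) W' r' - B1(W,r) Z'²` has order `≥ 2Dp + 2Dm - 6 - L` (`le_orderTop_B0/B1`);
 `LL_flat` with `E0 = 0`:  `LL Z W (Z'ν) (W'ν) = ½ Z' W' (Z' W'' - Z'' W') ν''`.
 `wronski_order`: the coefficient of `z^{Dp+Dm-3}` of `Z'W'' - Z''W'` is `Dp Dm (Dm - Dp) z_0 w_0 ≠ 0` (`coeff_mul_add`, `dz_coeff`), and the order is `≥ Dp + Dm - 3`.
 Hence `ord ν'' ≥ (2Dp + 2Dm - 6 - L) - (2Dp + 2Dm - 5) = -1 - L`, `ord ν ≥ 1 - L` (`le_orderTop_of_dz_dz`, `1 - L ≤ 0`), `a = Z' ν`, `b = W' ν + r`.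
 INDUCTION (`pole_bound`): strong induction on `L`; `L = 0` is the hypothesis on the orders; negative `l`: the coefficient vanishes.
-/
import Claimed.Agent.R269.S5.CenterPoleA

set_option autoImplicit false

namespace Claimed.Agent.R269.Ctr

open HahnSeries Lau

theorem pb_orderTop_eq {x : KK} {a : ℤ} (h : (a : WithTop ℤ) ≤ x.orderTop) (hc : x.coeff a ≠ 0) :
    x.orderTop = (a : WithTop ℤ) :=
  le_antisymm (HahnSeries.orderTop_le_of_coeff_ne_zero hc) h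

theorem pb_coeff_ne {x : KK} {a : ℤ} (h : x.orderTop = (a : WithTop ℤ)) : x.coeff a ≠ 0 :=
  HahnSeries.coeff_orderTop_ne h

theorem wronski_order (Z W : KK) (Dp Dm : ℤ) (hZ : Z.orderTop = (Dp : WithTop ℤ))
    (hW : W.orderTop = (Dm : WithTop ℤ)) (hDp : Dp ≠ 0) (hDm : Dm ≠ 0) (hne : Dp ≠ Dm) :
    (dz Z * dz (dz W) - dz (dz Z) * dz W).orderTop = ((Dp + Dm - 3 : ℤ) : WithTop ℤ) := by
  have hZ1 : ((Dp - 1 : ℤ) : WithTop ℤ) ≤ (dz Z).orderTop := le_orderTop_dz hZ.ge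
  have hW1 : ((Dm - 1 : ℤ) : WithTop ℤ) ≤ (dz W).orderTop := le_orderTop_dz hW.ge
  have hZ2 : ((Dp - 1 - 1 : ℤ) : WithTop ℤ) ≤ (dz (dz Z)).orderTop := le_orderTop_dz hZ1
  have hW2 : ((Dm - 1 - 1 : ℤ) : WithTop ℤ) ≤ (dz (dz W)).orderTop := le_orderTop_dz hW1
  have e1 : Dp + Dm - 3 = (Dp - 1) + (Dm - 1 - 1) := by ring
  have e2 : Dp + Dm - 3 = (Dp - 1 - 1) + (Dm - 1) := by ring
  apply pb_orderTop_eq
  · apply le_orderTop_sub
    · rw [e1]; exact le_orderTop_mul hZ1 hW2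
    · rw [e2]; exact le_orderTop_mul hZ2 hW1
  · rw [coeff_sub]
    conv_lhs => rw [e1, coeff_mul_add _ _ _ _ hZ1 hW2, ← e1, e2, coeff_mul_add _ _ _ _ hZ2 hW1]
    rw [dz_coeff, dz_coeff, dz_coeff, dz_coeff, dz_coeff, dz_coeff]
    have a1 : Dp - 1 + 1 = Dp := by ring
    have a2 : Dm - 1 + 1 = Dm := by ring
    have a3 : Dp - 1 - 1 + 1 = Dp - 1 := by ring
    have a4 : Dm - 1 - 1 + 1 = Dm - 1 := by ring
    rw [a3, a4, a1, a2]
    have hz := pb_coeff_ne hZ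
    have hw := pb_coeff_ne hW
    have : (((Dp - 1 : ℤ) : ℂ) + 1) * Z.coeff Dp * ((((Dm - 1 - 1 : ℤ) : ℂ) + 1) * ((((Dm - 1 : ℤ) : ℂ) + 1) * W.coeff Dm)) -
        (((Dp - 1 - 1 : ℤ) : ℂ) + 1) * ((((Dp - 1 : ℤ) : ℂ) + 1) * Z.coeff Dp) * ((((Dm - 1 : ℤ) : ℂ) + 1) * W.coeff Dm)
        = (Dp : ℂ) * (Dm : ℂ) * ((Dm : ℂ) - (Dp : ℂ)) * (Z.coeff Dp * W.coeff Dm) := by
      push_cast; ring
    rw [this]
    have h1 : (Dp : ℂ) ≠ 0 := by exact_mod_cast hDp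
    have h2 : (Dm : ℂ) ≠ 0 := by exact_mod_cast hDm
    have h3 : (Dm : ℂ) - (Dp : ℂ) ≠ 0 := by
      intro h
      apply hne
      have : (Dm : ℂ) = (Dp : ℂ) := sub_eq_zero.1 h
      exact_mod_cast this.symm
    exact mul_ne_zero (mul_ne_zero (mul_ne_zero h1 h2) h3) (mul_ne_zero hz hw)


theorem pb_two_mul_le {x : KK} {a : ℤ} (h : (a : WithTop ℤ) ≤ x.orderTop) :
    (a : WithTop ℤ) ≤ (2 * x).orderTop := by
  rw [two_mul]; exact le_orderTop_add h h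

/-- the order of the linearisation. -/
theorem pb_LL_order {Z W a b : KK} {Dp Dm M : ℤ} (hZ : (Dp : WithTop ℤ) ≤ Z.orderTop)
    (hW : (Dm : WithTop ℤ) ≤ W.orderTop) (ha : ((Dp - M : ℤ) : WithTop ℤ) ≤ a.orderTop)
    (hb : ((Dm - M : ℤ) : WithTop ℤ) ≤ b.orderTop) :
    ((2 * Dp + 2 * Dm - 6 - M : ℤ) : WithTop ℤ) ≤ (LL Z W a b).orderTop := by
  have hZ1 := le_orderTop_dz hZ
  have hW1 := le_orderTop_dz hW
  have ha1 := le_orderTop_dz ha
  have hb1 := le_orderTop_dz hb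
  unfold LL
  apply le_orderTop_sub
  · apply le_orderTop_add
    · have := le_orderTop_mul (le_orderTop_B1 hZ ha) (le_orderTop_mul hW1 hW1)
      rw [sq]
      convert this using 2
      ring
    · have := pb_two_mul_le (le_orderTop_mul (le_orderTop_mul (le_orderTop_B0 hZ) hW1) hb1)
      rw [mul_assoc 2, mul_assoc 2]
      convert this using 2
      ring
  · apply le_orderTop_add
    · have := le_orderTop_mul (le_orderTop_B1 hW hb) (le_orderTop_mul hZ1 hZ1)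
      rw [sq]
      convert this using 2
      ring
    · have := pb_two_mul_le (le_orderTop_mul (le_orderTop_mul (le_orderTop_B0 hW) hZ1) ha1)
      rw [mul_assoc 2, mul_assoc 2]
      convert this using 2
      ring

theorem pb_ne_zero {x : KK} {a : ℤ} (h : x.orderTop = (a : WithTop ℤ)) : x ≠ 0 := by
  intro h0
  rw [h0, HahnSeries.orderTop_zero] at h
  exact WithTop.top_ne_coe h

theorem pb_le_of_mul {x y : KK} {a c : ℤ} (hx : x.orderTop = (a : WithTop ℤ))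
    (h : (c : WithTop ℤ) ≤ (x * y).orderTop) : ((c - a : ℤ) : WithTop ℤ) ≤ y.orderTop := by
  have hx0 := pb_ne_zero hx
  have : y = x⁻¹ * (x * y) := by field_simp
  rw [this]
  have h2 := le_orderTop_mul (orderTop_inv_eq hx).ge h
  convert h2 using 2
  ring

theorem pole_solve (Z W a b : KK) (Dp Dm : ℤ) (L : ℕ) (hL : 1 ≤ L)
    (hZ : Z.orderTop = (Dp : WithTop ℤ)) (hW : W.orderTop = (Dm : WithTop ℤ))
    (hDp : Dp ≠ 0) (hDm : Dm ≠ 0) (hne : Dp ≠ Dm) (hE : E0 Z W = 0)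
    (h1 : ((Dp + Dm - 1 - L : ℤ) : WithTop ℤ) ≤ (dz Z * b - a * dz W).orderTop)
    (h2 : ((2 * Dp + 2 * Dm - 6 - L : ℤ) : WithTop ℤ) ≤ (LL Z W a b).orderTop) :
    ((Dp - L : ℤ) : WithTop ℤ) ≤ a.orderTop ∧ ((Dm - L : ℤ) : WithTop ℤ) ≤ b.orderTop := by
  have hZ1 : (dz Z).orderTop = ((Dp - 1 : ℤ) : WithTop ℤ) := orderTop_dz hZ hDp
  have hW1 : (dz W).orderTop = ((Dm - 1 : ℤ) : WithTop ℤ) := orderTop_dz hW hDm
  have hZ0 : dz Z ≠ 0 := pb_ne_zero hZ1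
  have hWr := wronski_order Z W Dp Dm hZ hW hDp hDm hne
  obtain ⟨ν, hν⟩ : ∃ ν : KK, ν = a * (dz Z)⁻¹ := ⟨_, rfl⟩
  obtain ⟨r, hr⟩ : ∃ r : KK, r = b - dz W * ν := ⟨_, rfl⟩
  have ha : a = dz Z * ν := by rw [hν]; field_simp
  have hb : b = dz W * ν + r := by rw [hr]; ring
  have hZr : dz Z * r = dz Z * b - a * dz W := by rw [hr, ha]; ring
  have hrord : ((Dm - L : ℤ) : WithTop ℤ) ≤ r.orderTop := by
    have := pb_le_of_mul hZ1 (hZr ▸ h1)
    convert this using 2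
    ring
  have hsplit : LL Z W a b = LL Z W (dz Z * ν) (dz W * ν) + LL Z W 0 r := by
    rw [← LL_add, add_zero, ← ha, ← hb]
  have h0r : ((2 * Dp + 2 * Dm - 6 - L : ℤ) : WithTop ℤ) ≤ (LL Z W 0 r).orderTop :=
    pb_LL_order hZ.ge hW.ge (by rw [HahnSeries.orderTop_zero]; exact le_top) hrord
  have hflat : ((2 * Dp + 2 * Dm - 6 - L : ℤ) : WithTop ℤ) ≤
      (LL Z W (dz Z * ν) (dz W * ν)).orderTop := by
    have : LL Z W (dz Z * ν) (dz W * ν) = LL Z W a b - LL Z W 0 r := by rw [hsplit]; ring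
    rw [this]
    exact le_orderTop_sub h2 h0r
  have hprod : dz Z * (dz W * ((dz Z * dz (dz W) - dz (dz Z) * dz W) * dz (dz ν))) =
      2 * LL Z W (dz Z * ν) (dz W * ν) := by
    rw [LL_flat, hE, map_zero]
    ring
  have h3 := pb_two_mul_le hflat
  rw [← hprod] at h3
  have h4 := pb_le_of_mul hWr (pb_le_of_mul hW1 (pb_le_of_mul hZ1 h3))
  have hνord : ((1 - L : ℤ) : WithTop ℤ) ≤ ν.orderTop := by
    apply le_orderTop_of_dz_dz (by omega)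
    convert h4 using 2
    ring
  have haord : ((Dp - L : ℤ) : WithTop ℤ) ≤ a.orderTop := by
    rw [ha]
    have := le_orderTop_mul hZ1.ge hνord
    convert this using 2
    ring
  refine ⟨haord, ?_⟩
  rw [hb]
  apply le_orderTop_add _ hrord
  have := le_orderTop_mul hW1.ge hνord
  convert this using 2
  ring


theorem pb_coeff_neg_le {x : AA} (hx : 0 ≤ x.orderTop) {l : ℤ} (hl : l < 0) (c : ℤ) :
    (c : WithTop ℤ) ≤ (x.coeff l).orderTop := by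
  rw [pa_coeff_neg hx hl, HahnSeries.orderTop_zero]
  exact le_top

/-- **The pole bound.** -/
theorem pole_bound (Zx Wx : AA) (hZ0 : 0 ≤ Zx.orderTop) (hW0 : 0 ≤ Wx.orderTop)
    (rank : Dz Zx * Dt Wx = Dt Zx * Dz Wx)
    (hrefl : (Sh 1 Zx - Zx) * (Sh (-1) Zx - Zx) * Dz Wx ^ 2 =
      (Sh 1 Wx - Wx) * (Sh (-1) Wx - Wx) * Dz Zx ^ 2)
    (Dp Dm : ℤ) (hZ : (Zx.coeff 0).orderTop = (Dp : WithTop ℤ))
    (hW : (Wx.coeff 0).orderTop = (Dm : WithTop ℤ)) (hDp : Dp ≠ 0) (hDm : Dm ≠ 0) (hne : Dp ≠ Dm) :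
    Wt Dp Zx ∧ Wt Dm Wx := by
  have hB := (refl_iff_Bq Zx Wx).1 hrefl
  have hE := E0_eq_zero Zx Wx hZ0 hW0 hB
  have key : ∀ L : ℕ, ((Dp - (L : ℤ) : ℤ) : WithTop ℤ) ≤ (Zx.coeff (L : ℤ)).orderTop ∧
      ((Dm - (L : ℤ) : ℤ) : WithTop ℤ) ≤ (Wx.coeff (L : ℤ)).orderTop := by
    intro L
    induction L using Nat.strong_induction_on with
    | _ L ih =>
      rcases Nat.eq_zero_or_pos L with rfl | hL
      · constructor
        · rw [Nat.cast_zero, sub_zero, hZ]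
        · rw [Nat.cast_zero, sub_zero, hW]
      · have hZl : ∀ l : ℤ, l < L → ((Dp - l : ℤ) : WithTop ℤ) ≤ (Zx.coeff l).orderTop := by
          intro l hl
          rcases lt_or_ge l 0 with h0 | h0
          · exact pb_coeff_neg_le hZ0 h0 _
          · obtain ⟨m, rfl⟩ := Int.eq_ofNat_of_zero_le h0
            exact (ih m (by exact_mod_cast hl)).1
        have hWl : ∀ l : ℤ, l < L → ((Dm - l : ℤ) : WithTop ℤ) ≤ (Wx.coeff l).orderTop := by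
          intro l hl
          rcases lt_or_ge l 0 with h0 | h0
          · exact pb_coeff_neg_le hW0 h0 _
          · obtain ⟨m, rfl⟩ := Int.eq_ofNat_of_zero_le h0
            exact (ih m (by exact_mod_cast hl)).2
        exact pole_solve _ _ _ _ Dp Dm L hL hZ hW hDp hDm hne hE
          (pole_rank_step Zx Wx hZ0 hW0 rank Dp Dm L hL hZl hWl)
          (pole_refl_step Zx Wx hZ0 hW0 hB Dp Dm L hL hZl hWl)
  constructor
  · intro l
    rcases lt_or_ge l 0 with h0 | h0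
    · exact pb_coeff_neg_le hZ0 h0 _
    · obtain ⟨m, rfl⟩ := Int.eq_ofNat_of_zero_le h0
      exact (key m).1
  · intro l
    rcases lt_or_ge l 0 with h0 | h0
    · exact pb_coeff_neg_le hW0 h0 _
    · obtain ⟨m, rfl⟩ := Int.eq_ofNat_of_zero_le h0
      exact (key m).2

theorem pb_FCtr_wt (Φ : FCtr) : Wt (3 + Φ.n) Φ.Zx ∧ Wt (3 - Φ.n) Φ.Wx :=
  pole_bound Φ.Zx Φ.Wx Φ.Zx_nonneg Φ.Wx_nonneg Φ.rank Φ.refl (3 + Φ.n) (3 - Φ.n) Φ.ordZ Φ.ordW
    (by have := Φ.n_ne3'; omega) (by have := Φ.n_ne3; omega) (by have := Φ.n_ne; omega)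

theorem FCtr.wt_Zx (Φ : FCtr) : Wt (3 + Φ.n) Φ.Zx := (pb_FCtr_wt Φ).1

theorem FCtr.wt_Wx (Φ : FCtr) : Wt (3 - Φ.n) Φ.Wx := (pb_FCtr_wt Φ).2

end Claimed.Agent.R269.Ctr
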