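/-
Row 269, P1 Lemma 5.1, formal core, leaf LF-S5b-flat (HOST-FREE formal algebra).   Statements: helper134.
Flat elements (functions of the impact point) and the relations between the leading parts.
Use `CenterOps/Wt/Lead/PoleB.lean` as black boxes.  Fill the `sorry`s IN PLACE (auxiliary lemmas above the statements, prefix `fl_`).

NOTATION.  `Dp = 3 + n`, `Dm = 3 - n`, `Yp = lead Dp Zx`, `Ym = lead Dm Wx`.   `Flat y : Dz Zx * Dt y = Dt Zx * Dz y`.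
PLAN.  * `Yp_coeff_zero`: `(Yp)_0 = single Dp (leading coefficient of Z) ≠ 0`; `Dz Yp ≠ 0` since `Dp ≠ 0` (`dz_single`).
 * `flat_wt`: `β := Dt Zx * (Dz Zx)⁻¹` has `Wt 0` (`Wt.map_Dt`, `Wt.map_Dz`, `Wt.inv`: `(Dz Zx)_0 = Z'` has exact order `Dp - 1`) and `Dt y = β Dz y`.
   Coefficient of `t^l`:  `(l+1) y_{l+1} = ∑_{i=0}^{l} β_i ∂y_{l-i}` (`coeff_mul_Icc`, `β` and `Dz y` have nonnegative `t`-order).  Induction on `l`: `ord y_{l+1} ≥ min_i (-i) + (j - (l - i) - 1) = j - (l+1)`.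
 * `lead_flat`: `lead_mul` applied to both sides of `Flat y` (weights `(Dp-1) + (j-1)`), `lead_Dz`, `lead_Dt`:  `Dz Yp * Dt Y = Dt Yp * Dz Y`, `Y = lead j y`.
 * `lead_rel`: multiply by `tt`, replace `tt * Dt Y = j Y - zz Dz Y`, `tt * Dt Yp = Dp Yp - zz Dz Yp` (`hom_lead`); the `zz` terms cancel; `tt ≠ 0`.
 * `lead_refl`: `lead_mul`, `lead_pow`, `lead_sub`, `lead_Sh`, `lead_Dz` applied to `Φ.refl` (both sides have weight `2Dp + 2(Dm - 1)`, resp. `2Dm + 2(Dp-1)`: equal).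
 * `lead_eq`: multiply `lead_refl` by `(Dp Yp)²`, use `lead_rel` for `y = Wx` (`Φ.rank`), cancel `(Dz Yp)² ≠ 0`.
-/
import Claimed.Agent.R269.S5.CenterLead
import Claimed.Agent.R269.S5.CenterPoleB

set_option autoImplicit false
set_option maxSynthPendingDepth 3

namespace Claimed.Agent.R269.Ctr

open HahnSeries Lau

theorem fl_orderTop_zero {x : AA} (h : 0 ≤ x.orderTop) (h0 : x.coeff 0 ≠ 0) : x.orderTop = 0 :=
  le_antisymm (by simpa using HahnSeries.orderTop_le_of_coeff_ne_zero h0) h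

theorem fl_lead_coeff_zero_ne {b : ℤ} {x : AA} (h : (x.coeff 0).coeff b ≠ 0) :
    (lead b x).coeff 0 ≠ 0 := by
  intro h0
  have h1 : ((lead b x).coeff 0).coeff b = 0 := by rw [h0]; simp
  rw [lead_coeff, sub_zero, coeff_single_same] at h1
  exact h h1

namespace FCtr

variable (Φ : FCtr)

theorem fl_Dp_ne : (3 + Φ.n : ℤ) ≠ 0 := fun h => Φ.n_ne3' (by omega)

theorem fl_Dm_ne : (3 - Φ.n : ℤ) ≠ 0 := fun h => Φ.n_ne3 (by omega)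

theorem Yp_ne_zero : Φ.Yp ≠ 0 := lead_ne_zero (pb_coeff_ne Φ.ordZ)

theorem Ym_ne_zero : Φ.Ym ≠ 0 := lead_ne_zero (pb_coeff_ne Φ.ordW)

theorem Yp_orderTop : Φ.Yp.orderTop = 0 :=
  fl_orderTop_zero (lead_nonneg Φ.Zx_nonneg) (fl_lead_coeff_zero_ne (pb_coeff_ne Φ.ordZ))

theorem Ym_orderTop : Φ.Ym.orderTop = 0 :=
  fl_orderTop_zero (lead_nonneg Φ.Wx_nonneg) (fl_lead_coeff_zero_ne (pb_coeff_ne Φ.ordW))

theorem Dz_Yp_ne_zero : Dz Φ.Yp ≠ 0 := by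
  intro h0
  have h1 : ((Dz Φ.Yp).coeff 0).coeff (3 + Φ.n - 0 - 1) = 0 := by rw [h0]; simp
  rw [Dz_coeff, Yp, lead_coeff, dz_single, coeff_single_same] at h1
  rcases mul_eq_zero.mp h1 with h2 | h2
  · have h3 : (3 + Φ.n - 0 : ℤ) = 0 := Int.cast_eq_zero.mp h2
    exact Φ.fl_Dp_ne (by omega)
  · rw [sub_zero] at h2
    exact pb_coeff_ne Φ.ordZ h2

theorem hom_Yp : Hom (3 + Φ.n) Φ.Yp := hom_lead _ _

theorem hom_Ym : Hom (3 - Φ.n) Φ.Ym := hom_lead _ _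

theorem flat_Wx : Φ.Flat Φ.Wx := Φ.rank

theorem flat_Zx : Φ.Flat Φ.Zx :=
  mul_comm (Dz Φ.Zx) (Dt Φ.Zx)

theorem flat_cc (c : ℂ) : Φ.Flat (cc c) := by
  unfold Flat
  rw [Dt_cc, Dz_cc, mul_zero, mul_zero]

theorem Flat.add {y y' : AA} (h : Φ.Flat y) (h' : Φ.Flat y') : Φ.Flat (y + y') := by
  unfold Flat at *
  rw [map_add, map_add]
  linear_combination h + h'

theorem Flat.sub {y y' : AA} (h : Φ.Flat y) (h' : Φ.Flat y') : Φ.Flat (y - y') := by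
  unfold Flat at *
  rw [map_sub, map_sub]
  linear_combination h - h'

theorem Flat.mul {y y' : AA} (h : Φ.Flat y) (h' : Φ.Flat y') : Φ.Flat (y * y') := by
  unfold Flat at *
  rw [Dv.leibniz, Dv.leibniz]
  linear_combination y' * h + y * h'

theorem Flat.pow {y : AA} (h : Φ.Flat y) (m : ℕ) : Φ.Flat (y ^ m) := by
  induction m with
  | zero =>
    unfold Flat
    rw [pow_zero, Dv.map_one, Dv.map_one, mul_zero, mul_zero]
  | succ m ih =>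
    rw [pow_succ]
    exact Flat.mul Φ ih h

theorem Flat.sum {ι : Type*} (s : Finset ι) (f : ι → AA) (h : ∀ i ∈ s, Φ.Flat (f i)) :
    Φ.Flat (∑ i ∈ s, f i) := by
  classical
  induction s using Finset.induction_on with
  | empty =>
    unfold Flat
    simp
  | insert a s ha ih =>
    rw [Finset.sum_insert ha]
    exact Flat.add Φ (h a (Finset.mem_insert_self a s))
      (ih fun i hi => h i (Finset.mem_insert_of_mem hi))

/-- `β = Dt Zx / Dz Zx`. -/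
theorem fl_beta : ∃ β : AA, Wt 0 β ∧ 0 ≤ β.orderTop ∧ ∀ y : AA, Φ.Flat y → Dt y = β * Dz y := by
  have hord : ((Dz Φ.Zx).coeff 0).orderTop = ((3 + Φ.n - 1 : ℤ) : WithTop ℤ) := by
    rw [Dz_coeff]
    exact orderTop_dz Φ.ordZ Φ.fl_Dp_ne
  have hc0 : (Dz Φ.Zx).coeff 0 ≠ 0 := pb_ne_zero hord
  have hne : Dz Φ.Zx ≠ 0 := by
    intro h0
    apply hc0
    rw [h0]; simp
  have hnn : 0 ≤ (Dz Φ.Zx).orderTop := Dz_nonneg Φ.Zx_nonneg
  refine ⟨Dt Φ.Zx * (Dz Φ.Zx)⁻¹, ?_, ?_, ?_⟩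
  · have := Φ.wt_Zx.map_Dt.mul (Φ.wt_Zx.map_Dz.inv hnn hord)
    rwa [add_neg_cancel] at this
  · exact nonneg_mul (Dt_nonneg Φ.Zx_nonneg) (nonneg_inv hnn hc0).1
  · intro y hy
    unfold Flat at hy
    field_simp
    linear_combination hy

/-- a flat element has the weight of its zero slice. -/
theorem flat_wt (y : AA) (hy0 : 0 ≤ y.orderTop) (hfl : Φ.Flat y) (j : ℤ)
    (hj : (j : WithTop ℤ) ≤ (y.coeff 0).orderTop) : Wt j y := by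
  obtain ⟨β, hβ, hβ0, hβy⟩ := Φ.fl_beta
  have hD := hβy y hfl
  have key : ∀ l : ℕ, ((j - (l : ℤ) : ℤ) : WithTop ℤ) ≤ (y.coeff (l : ℤ)).orderTop := by
    intro l
    induction l using Nat.strong_induction_on with
    | _ l ih =>
      cases l with
      | zero => simpa using hj
      | succ l =>
        have h1 := Dt_coeff y (l : ℤ)
        rw [hD, coeff_mul_Icc β (Dz y) 0 0 (l : ℤ) (by simpa using hβ0)
          (by simpa using Dz_nonneg hy0)] at h1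
        have h2 : ((j - ((l + 1 : ℕ) : ℤ) : ℤ) : WithTop ℤ)
            ≤ (∑ i ∈ Finset.Icc (0 : ℤ) ((l : ℤ) - 0), β.coeff i * (Dz y).coeff ((l : ℤ) - i)).orderTop := by
          refine le_orderTop_sum _ _ _ ?_
          intro i hi
          rw [Finset.mem_Icc] at hi
          obtain ⟨m, hm⟩ : ∃ m : ℕ, (m : ℤ) = (l : ℤ) - i := ⟨((l : ℤ) - i).toNat, by omega⟩
          have h3 := ih m (by omega)
          rw [Dz_coeff, ← hm]
          have h4 := le_orderTop_mul (hβ i) (le_orderTop_dz h3)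
          have e : (0 - i + (j - (m : ℤ) - 1) : ℤ) = j - ((l + 1 : ℕ) : ℤ) := by
            push_cast; omega
          rwa [e] at h4
        rw [h1] at h2
        have h5 : y.coeff ((l + 1 : ℕ) : ℤ)
            = (((l + 1 : ℕ) : ℕ) : KK)⁻¹ * ((((l : ℤ) : KK) + 1) * y.coeff ((l : ℤ) + 1)) := by
          have hne : (((l + 1 : ℕ) : ℕ) : KK) ≠ 0 := Nat.cast_ne_zero.mpr (Nat.succ_ne_zero l)
          have e1 : (((l : ℤ) : KK) + 1) = (((l + 1 : ℕ) : ℕ) : KK) := by push_cast; ring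
          rw [e1, ← mul_assoc, inv_mul_cancel₀ hne, one_mul]
          congr 1
        rw [h5]
        have h6 := le_orderTop_mul (a := 0)
          (by rw [WithTop.coe_zero]; exact pa_natCast_inv_nonneg (l + 1)) h2
        rwa [zero_add] at h6
  intro l
  by_cases hl : l < 0
  · exact pb_coeff_neg_le hy0 hl _
  · obtain ⟨m, hm⟩ : ∃ m : ℕ, (m : ℤ) = l := ⟨l.toNat, by omega⟩
    rw [← hm]
    exact key m

theorem lead_flat (y : AA) (j : ℤ) (hy : Wt j y) (hfl : Φ.Flat y) :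
    Dz Φ.Yp * Dt (lead j y) = Dt Φ.Yp * Dz (lead j y) := by
  have h1 := lead_mul Φ.wt_Zx.map_Dz hy.map_Dt
  have h2 := lead_mul Φ.wt_Zx.map_Dt hy.map_Dz
  unfold Flat at hfl
  rw [hfl, h2, lead_Dz, lead_Dt, lead_Dz, lead_Dt] at h1
  exact h1.symm

/-- logarithmic derivatives of leading parts are proportional to the weights. -/
theorem lead_rel (y : AA) (j : ℤ) (hy : Wt j y) (hfl : Φ.Flat y) :
    ((3 + Φ.n : ℤ) : AA) * Φ.Yp * Dz (lead j y) = (j : AA) * lead j y * Dz Φ.Yp := by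
  have hF := Φ.lead_flat y j hy hfl
  have hP : zz * Dz Φ.Yp + tt * Dt Φ.Yp = ((3 + Φ.n : ℤ) : AA) * Φ.Yp := Φ.hom_Yp
  have hY : zz * Dz (lead j y) + tt * Dt (lead j y) = (j : AA) * lead j y := hom_lead j y
  linear_combination (-Dz (lead j y)) * hP + Dz Φ.Yp * hY - tt * hF

theorem lead_refl :
    (Sh 1 Φ.Yp - Φ.Yp) * (Sh (-1) Φ.Yp - Φ.Yp) * Dz Φ.Ym ^ 2 =
      (Sh 1 Φ.Ym - Φ.Ym) * (Sh (-1) Φ.Ym - Φ.Ym) * Dz Φ.Yp ^ 2 := by
  have hZ := Φ.wt_Zx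
  have hW := Φ.wt_Wx
  have h1 := lead_mul (((hZ.map_Sh 1).sub hZ).mul ((hZ.map_Sh (-1)).sub hZ)) (hW.map_Dz.pow 2)
  have h2 := lead_mul (((hW.map_Sh 1).sub hW).mul ((hW.map_Sh (-1)).sub hW)) (hZ.map_Dz.pow 2)
  rw [lead_mul ((hZ.map_Sh 1).sub hZ) ((hZ.map_Sh (-1)).sub hZ), lead_pow hW.map_Dz, lead_sub,
    lead_sub, lead_Sh, lead_Sh, lead_Dz] at h1
  rw [lead_mul ((hW.map_Sh 1).sub hW) ((hW.map_Sh (-1)).sub hW), lead_pow hZ.map_Dz, lead_sub,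
    lead_sub, lead_Sh, lead_Sh, lead_Dz] at h2
  have e : (3 + Φ.n + (3 + Φ.n) + ((2 : ℕ) : ℤ) * (3 - Φ.n - 1) : ℤ)
      = 3 - Φ.n + (3 - Φ.n) + ((2 : ℕ) : ℤ) * (3 + Φ.n - 1) := by push_cast; ring
  rw [Φ.refl, e, h2] at h1
  exact h1.symm

/-- (5.3) for the leading parts. -/
theorem lead_eq :
    (Sh 1 Φ.Yp - Φ.Yp) * (Sh (-1) Φ.Yp - Φ.Yp) * ((3 - Φ.n : ℤ) : AA) ^ 2 * Φ.Ym ^ 2 =
      (Sh 1 Φ.Ym - Φ.Ym) * (Sh (-1) Φ.Ym - Φ.Ym) * ((3 + Φ.n : ℤ) : AA) ^ 2 * Φ.Yp ^ 2 := by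
  have r : ((3 + Φ.n : ℤ) : AA) * Φ.Yp * Dz Φ.Ym = ((3 - Φ.n : ℤ) : AA) * Φ.Ym * Dz Φ.Yp :=
    Φ.lead_rel Φ.Wx _ Φ.wt_Wx Φ.flat_Wx
  have hr := Φ.lead_refl
  refine mul_right_cancel₀ (pow_ne_zero 2 Φ.Dz_Yp_ne_zero) ?_
  linear_combination (((3 + Φ.n : ℤ) : AA) * Φ.Yp) ^ 2 * hr
    - (Sh 1 Φ.Yp - Φ.Yp) * (Sh (-1) Φ.Yp - Φ.Yp)
      * (((3 - Φ.n : ℤ) : AA) * Φ.Ym * Dz Φ.Yp + ((3 + Φ.n : ℤ) : AA) * Φ.Yp * Dz Φ.Ym) * r

/-- the same for an arbitrary flat element against `Ym`. -/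
theorem lead_pow_rel' (y : AA) (j : ℤ) (hy : Wt j y) (hfl : Φ.Flat y) (hne : lead j y ≠ 0)
    (e₁ e₂ : ℤ) (he : e₁ * j = e₂ * (3 - Φ.n)) :
    ∃ c : ℂ, c ≠ 0 ∧ lead j y ^ e₁ = cc c * Φ.Ym ^ e₂ := by
  refine Hom.const_ratio (hom_lead j y) Φ.hom_Ym hne Φ.Ym_ne_zero e₁ e₂ he ?_
  have r : ((3 + Φ.n : ℤ) : AA) * Φ.Yp * Dz Φ.Ym = ((3 - Φ.n : ℤ) : AA) * Φ.Ym * Dz Φ.Yp :=
    Φ.lead_rel Φ.Wx _ Φ.wt_Wx Φ.flat_Wx
  have r' := Φ.lead_rel y j hy hfl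
  have he' : (e₁ : AA) * (j : AA) = (e₂ : AA) * ((3 - Φ.n : ℤ) : AA) := by exact_mod_cast he
  have hne' : ((3 + Φ.n : ℤ) : AA) * Φ.Yp ≠ 0 :=
    mul_ne_zero (Int.cast_ne_zero.mpr Φ.fl_Dp_ne) Φ.Yp_ne_zero
  refine mul_left_cancel₀ hne' ?_
  linear_combination (e₁ : AA) * Φ.Ym * r' + Φ.Ym * lead j y * Dz Φ.Yp * he' - (e₂ : AA) * lead j y * r

/-- powers of the two leading parts are proportional. -/
theorem lead_pow_rel (e₁ e₂ : ℤ) (he : e₁ * (3 + Φ.n) = e₂ * (3 - Φ.n)) :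
    ∃ c : ℂ, c ≠ 0 ∧ Φ.Yp ^ e₁ = cc c * Φ.Ym ^ e₂ :=
  Φ.lead_pow_rel' Φ.Zx _ Φ.wt_Zx Φ.flat_Zx Φ.Yp_ne_zero e₁ e₂ he

end FCtr

end Claimed.Agent.R269.Ctr
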