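/-
Row 269, P1 Lemma 5.2, rational functional equation, leaf LF-S5b-rq1 (HOST-FREE).   Statements: helper134.
Elementary facts on the shift of `ℂ(w)`.  PROVED by helper283 (statements verbatim; auxiliary lemmas have prefix `rq1_`).

PLAN.  * `rsh q` is a field homomorphism determined by `rsh_algebraMap` (write `r = num/denom`, `RatFunc.num_div_denom`).
 * `psh_natDegree`, `psh_leadingCoeff`: `Polynomial.natDegree_taylor`, `Polynomial.leadingCoeff_taylor` (or `taylor_coeff`).
 * `poly_periodic`: if `1 ≤ natDegree P` then `P` has a root `w₀` (`ℂ` algebraically closed); `P(w+1) = P(w)` makes all `w₀ + k` roots: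
   infinitely many.
 * `periodic_const`: `r = P/Q` reduced, `Q` monic; `psh 1 P / psh 1 Q` is again reduced with monic denominator, so `psh 1 P = P`,
   `psh 1 Q = Q` (`RatFunc.num_denom...` uniqueness, or: `P₊ Q = P Q₊`, coprimality ⇒ `Q ∣ Q₊`, same degree, both monic).
 * `exists_rho`: `R = P/Q`; `ρ = P₊ Q/(P Q₊)`; numerator and denominator have the same degree and the same leading coefficient; divide by their
   gcd; `ρ` is not constant: a constant would be `1` (leading coefficients), `rsh 1 R = R`, `R` constant, `intDegree R = 0`.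
-/
import Claimed.Agent.R269.S5.RatEqDefs

set_option autoImplicit false

namespace Claimed.Agent.R269.Ctr

open Polynomial

theorem psh_natDegree (q : ℤ) (P : Polynomial ℂ) : (psh q P).natDegree = P.natDegree := by
  rw [psh_apply, natDegree_taylor]

theorem psh_leadingCoeff (q : ℤ) (P : Polynomial ℂ) : (psh q P).leadingCoeff = P.leadingCoeff := by
  rw [psh_apply, leadingCoeff_taylor]

theorem psh_eval (q : ℤ) (P : Polynomial ℂ) (w : ℂ) : (psh q P).eval w = P.eval (w + q) := by
  rw [psh_apply, taylor_eval]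

theorem psh_psh (q q' : ℤ) (P : Polynomial ℂ) : psh q (psh q' P) = psh (q + q') P := by
  rw [psh_apply, psh_apply, psh_apply, taylor_taylor]
  push_cast
  rfl

theorem psh_zero (P : Polynomial ℂ) : psh 0 P = P := by
  rw [psh_apply]
  simp

theorem psh_rootMultiplicity (q : ℤ) (P : Polynomial ℂ) (w : ℂ) :
    (psh q P).rootMultiplicity w = P.rootMultiplicity (w + q) := by
  rw [rootMultiplicity_eq_rootMultiplicity, rootMultiplicity_eq_rootMultiplicity (t := w + q),
    psh_apply, ← taylor_apply, ← taylor_apply, taylor_taylor]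

theorem psh_isCoprime (q : ℤ) {P Q : Polynomial ℂ} (h : IsCoprime P Q) : IsCoprime (psh q P) (psh q Q) :=
  h.map (psh q)

theorem rq1_rsh_div (q : ℤ) (P Q : Polynomial ℂ) :
    rsh q (algebraMap (Polynomial ℂ) (RatFunc ℂ) P / algebraMap (Polynomial ℂ) (RatFunc ℂ) Q) =
      algebraMap (Polynomial ℂ) (RatFunc ℂ) (psh q P) / algebraMap (Polynomial ℂ) (RatFunc ℂ) (psh q Q) := by
  rw [map_div₀, rsh_algebraMap, rsh_algebraMap]

theorem rsh_rsh (q q' : ℤ) (r : RatFunc ℂ) : rsh q (rsh q' r) = rsh (q + q') r := by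
  rw [← RatFunc.num_div_denom r, rq1_rsh_div, rq1_rsh_div, rq1_rsh_div, psh_psh, psh_psh]

theorem rsh_zero (r : RatFunc ℂ) : rsh 0 r = r := by
  conv_lhs => rw [← RatFunc.num_div_denom r, rq1_rsh_div, psh_zero, psh_zero]
  exact RatFunc.num_div_denom r

theorem rsh_C (q : ℤ) (c : ℂ) : rsh q (RatFunc.C c) = RatFunc.C c := by
  rw [← RatFunc.algebraMap_C, rsh_algebraMap, psh_apply, taylor_C]

theorem rsh_X (q : ℤ) : rsh q RatFunc.X = RatFunc.X + RatFunc.C (q : ℂ) := by
  rw [← RatFunc.algebraMap_X, rsh_algebraMap, psh_apply, taylor_X, map_add, RatFunc.algebraMap_C]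

theorem rsh_injective (q : ℤ) : Function.Injective (rsh q) := (rsh q).injective

theorem rq1_psh_ne_zero (q : ℤ) {P : Polynomial ℂ} (hP : P ≠ 0) : psh q P ≠ 0 := fun h =>
  hP (psh_injective q (by rw [h, map_zero]))

theorem rq1_algebraMap_ne_zero {P : Polynomial ℂ} (hP : P ≠ 0) :
    algebraMap (Polynomial ℂ) (RatFunc ℂ) P ≠ 0 :=
  RatFunc.algebraMap_ne_zero hP

theorem rsh_intDegree (q : ℤ) (r : RatFunc ℂ) : (rsh q r).intDegree = r.intDegree := by
  by_cases hr : r = 0
  · rw [hr, map_zero]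
  have hn : r.num ≠ 0 := RatFunc.num_ne_zero hr
  have hd : r.denom ≠ 0 := r.denom_ne_zero
  conv_lhs => rw [← RatFunc.num_div_denom r, rq1_rsh_div]
  conv_rhs => rw [← RatFunc.num_div_denom r]
  rw [RatFunc.intDegree_div (rq1_algebraMap_ne_zero (rq1_psh_ne_zero q hn))
      (rq1_algebraMap_ne_zero (rq1_psh_ne_zero q hd)),
    RatFunc.intDegree_div (rq1_algebraMap_ne_zero hn) (rq1_algebraMap_ne_zero hd)]
  simp only [RatFunc.intDegree_polynomial, psh_natDegree]

/-- a one-periodic polynomial is constant. -/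
theorem poly_periodic (P : Polynomial ℂ) (h : psh 1 P = P) : P.natDegree = 0 := by
  by_contra hdeg
  have hdeg' : P.degree ≠ 0 := by
    intro h0
    exact hdeg (natDegree_eq_of_degree_eq_some h0)
  obtain ⟨w₀, hw₀⟩ := IsAlgClosed.exists_root P hdeg'
  have hstep : ∀ w, P.eval (w + 1) = P.eval w := by
    intro w
    have := psh_eval 1 P w
    rw [h] at this
    simpa using this.symm
  have hall : ∀ k : ℕ, P.IsRoot (w₀ + k) := by
    intro k
    induction k with
    | zero => simpa using hw₀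
    | succ k ih =>
      have : w₀ + ((k + 1 : ℕ) : ℂ) = (w₀ + k) + 1 := by push_cast; ring
      rw [IsRoot.def, this, hstep]
      exact ih
  have hinf : Set.Infinite {x | P.IsRoot x} :=
    Set.infinite_of_injective_forall_mem (f := fun k : ℕ => w₀ + (k : ℂ))
      (fun a b hab => by simpa using hab) hall
  have := eq_zero_of_infinite_isRoot P hinf
  rw [this] at hdeg
  simp at hdeg

theorem rq1_algebraMap_injective :
    Function.Injective (algebraMap (Polynomial ℂ) (RatFunc ℂ)) :=
  RatFunc.algebraMap_injective ℂ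

/-- a one-periodic rational function is constant. -/
theorem periodic_const (r : RatFunc ℂ) (h : rsh 1 r = r) : ∃ c : ℂ, r = RatFunc.C c := by
  have hd : r.denom ≠ 0 := r.denom_ne_zero
  have hd' : psh 1 r.denom ≠ 0 := rq1_psh_ne_zero 1 hd
  have h1 : algebraMap (Polynomial ℂ) (RatFunc ℂ) (psh 1 r.num) /
      algebraMap (Polynomial ℂ) (RatFunc ℂ) (psh 1 r.denom) =
      algebraMap (Polynomial ℂ) (RatFunc ℂ) r.num / algebraMap (Polynomial ℂ) (RatFunc ℂ) r.denom := by
    rw [← rq1_rsh_div, RatFunc.num_div_denom, h]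
  rw [div_eq_div_iff (rq1_algebraMap_ne_zero hd') (rq1_algebraMap_ne_zero hd), ← map_mul, ← map_mul] at h1
  have h2 : psh 1 r.num * r.denom = r.num * psh 1 r.denom := rq1_algebraMap_injective h1
  have h3 : r.denom ∣ psh 1 r.denom :=
    (RatFunc.isCoprime_num_denom r).symm.dvd_of_dvd_mul_left ⟨psh 1 r.num, by rw [← h2, mul_comm]⟩
  have hm : (psh 1 r.denom).Monic := by
    rw [Monic, psh_leadingCoeff]; exact r.monic_denom
  have h4 : psh 1 r.denom = r.denom :=
    eq_of_monic_of_dvd_of_natDegree_le r.monic_denom hm h3 (le_of_eq (psh_natDegree 1 _))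
  rw [h4] at h2
  have h5 : psh 1 r.num = r.num := mul_right_cancel₀ hd h2
  have d1 := poly_periodic _ h4
  have d2 := poly_periodic _ h5
  have e1 : r.denom = 1 := r.monic_denom.natDegree_eq_zero.1 d1
  obtain ⟨c, hc⟩ := natDegree_eq_zero.1 d2
  refine ⟨c, ?_⟩
  rw [← RatFunc.num_div_denom r, e1, ← hc, map_one, div_one, RatFunc.algebraMap_C]

theorem rq1_exists_reduced (N D : Polynomial ℂ) (hD : D ≠ 0) :
    ∃ g A B : Polynomial ℂ, N = g * A ∧ D = g * B ∧ IsCoprime A B := by
  classical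
  refine ⟨GCDMonoid.gcd N D, N / GCDMonoid.gcd N D, D / GCDMonoid.gcd N D, ?_, ?_,
    isCoprime_div_gcd_div_gcd hD⟩
  · exact (EuclideanDomain.mul_div_cancel' (gcd_ne_zero_of_right hD) (GCDMonoid.gcd_dvd_left _ _)).symm
  · exact (EuclideanDomain.mul_div_cancel' (gcd_ne_zero_of_right hD) (GCDMonoid.gcd_dvd_right _ _)).symm

/-- the shift ratio `ρ = R(w+1)/R(w)` of a rational function of nonzero degree. -/
theorem exists_rho (R : RatFunc ℂ) (hR : R ≠ 0) (hd : R.intDegree ≠ 0) :
    ∃ c : RhoCtx, rsh 1 R * algebraMap (Polynomial ℂ) (RatFunc ℂ) c.B =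
      algebraMap (Polynomial ℂ) (RatFunc ℂ) c.A * R := by
  set P := R.num with hPdef
  set Q := R.denom with hQdef
  have hP : P ≠ 0 := RatFunc.num_ne_zero hR
  have hQ : Q ≠ 0 := R.denom_ne_zero
  have hP' : psh 1 P ≠ 0 := rq1_psh_ne_zero 1 hP
  have hQ' : psh 1 Q ≠ 0 := rq1_psh_ne_zero 1 hQ
  have hN : psh 1 P * Q ≠ 0 := mul_ne_zero hP' hQ
  have hD : P * psh 1 Q ≠ 0 := mul_ne_zero hP hQ'
  obtain ⟨g, A, B, hgA, hgB, hcop⟩ := rq1_exists_reduced (psh 1 P * Q) (P * psh 1 Q) hD
  have hg : g ≠ 0 := by rintro rfl; rw [zero_mul] at hgA; exact hN hgA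
  have hA : A ≠ 0 := by rintro rfl; rw [mul_zero] at hgA; exact hN hgA
  have hB : B ≠ 0 := by rintro rfl; rw [mul_zero] at hgB; exact hD hgB
  have hdeg : A.natDegree = B.natDegree := by
    have h1 := congrArg natDegree hgA
    have h2 := congrArg natDegree hgB
    rw [natDegree_mul hP' hQ, natDegree_mul hg hA, psh_natDegree] at h1
    rw [natDegree_mul hP hQ', natDegree_mul hg hB, psh_natDegree] at h2
    omega
  have hlc : A.leadingCoeff = B.leadingCoeff := by
    have h1 := congrArg leadingCoeff hgA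
    have h2 := congrArg leadingCoeff hgB
    rw [leadingCoeff_mul, leadingCoeff_mul, psh_leadingCoeff] at h1 h2
    have hg' : g.leadingCoeff ≠ 0 := leadingCoeff_ne_zero.2 hg
    apply mul_left_cancel₀ hg'
    rw [← h1, ← h2]
  have hrel : rsh 1 R * algebraMap (Polynomial ℂ) (RatFunc ℂ) B =
      algebraMap (Polynomial ℂ) (RatFunc ℂ) A * R := by
    have e1 : rsh 1 R = algebraMap (Polynomial ℂ) (RatFunc ℂ) (psh 1 P) /
        algebraMap (Polynomial ℂ) (RatFunc ℂ) (psh 1 Q) := by
      rw [← rq1_rsh_div, RatFunc.num_div_denom]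
    have e2 : R = algebraMap (Polynomial ℂ) (RatFunc ℂ) P / algebraMap (Polynomial ℂ) (RatFunc ℂ) Q :=
      (RatFunc.num_div_denom R).symm
    have a1 := rq1_algebraMap_ne_zero hQ
    have a2 := rq1_algebraMap_ne_zero hQ'
    have a3 := rq1_algebraMap_ne_zero hg
    have hpoly : g * (psh 1 P * Q * B) = g * (A * (P * psh 1 Q)) := by
      rw [hgA, hgB]; ring
    have hpoly' : psh 1 P * Q * B = A * (P * psh 1 Q) := mul_left_cancel₀ hg hpoly
    have hmap := congrArg (algebraMap (Polynomial ℂ) (RatFunc ℂ)) hpoly'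
    simp only [map_mul] at hmap
    rw [e1]
    conv_rhs => rw [e2]
    field_simp
    linear_combination hmap
  have hs : 1 ≤ A.natDegree := by
    by_contra hlt
    have h0 : A.natDegree = 0 := by omega
    have h0' : B.natDegree = 0 := by omega
    obtain ⟨a, ha⟩ := natDegree_eq_zero.1 h0
    obtain ⟨b, hb⟩ := natDegree_eq_zero.1 h0'
    have hab : A = B := by
      rw [← ha, ← hb] at hlc ⊢
      simpa using hlc
    rw [hab, mul_comm] at hrel
    have := mul_left_cancel₀ (rq1_algebraMap_ne_zero hB) hrel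
    obtain ⟨c, hc⟩ := periodic_const R this
    rw [hc, RatFunc.intDegree_C] at hd
    exact hd rfl
  exact ⟨⟨A, B, A.natDegree, hcop, hs, rfl, hdeg.symm, hlc⟩, hrel⟩

end Claimed.Agent.R269.Ctr
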