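/-
Row 269, P1 Lemma 5.1, formal core, leaf LF-S5b-rat (HOST-FREE formal algebra).   Statements: helper134.
The embedding `iota : ℂ(w) → AA`, `w ↦ om = z/t`, and RATIONALITY OF LEADING PARTS (replaces Weierstrass preparation/division of P1):
 if `D x = N` with `D, N ∈ ℂ[[z,t]]` then the lowest homogeneous forms satisfy `N_low = D_low · lead x`.
Use `CenterOps/Wt/Lead.lean`, `RatEqBasic.lean` as black boxes.  Fill the `sorry`s IN PLACE (auxiliary lemmas above the statements, prefix `rt_`).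

PLAN.  * `pev_coeff`: `pev P = ∑_k a_k z^k t^{-k}`: `(pev P).coeff (-k) = single k (P.coeff k)` for `k : ℕ`, `0` at positive indices.  Induction on `P` (`Polynomial.induction_on'`) or `Polynomial.eval₂_eq_sum_range`,
   `om ^ k = C (single k 1) * single (-k) 1`.   ⇒ `pev_injective`, `pev_orderTop`.
 * `iota` is the extension to the fraction field; `iota_div`.
 * `Sh_pev`: both sides are ring homomorphisms in `P`, agree on `C c` and `X` (`Sh q om = om + q`, from `Sh_zz`, `Sh_tt`); `Polynomial.ringHom_ext`.   ⇒ `Sh_iota` (write `r = num/denom`).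
 * `hom_iota`: `Hom 0 om` (`hom_zz`, `hom_tt`, `Hom.inv`, `Hom.mul`), sums and products.
 * `ps2_lead`: `N ∈ ℂ[[z,t]]`, `N ≠ 0`.  `ν := min {k + l : N_{l,k} ≠ 0}` (`Nat.find`).  `Wt ν N`.  `lead ν N = ∑_{l=0}^{ν} N_{l,ν-l} z^{ν-l} t^l = t^ν pev (∑_l N_{l,ν-l} X^{ν-l})`, nonzero.
 * `frac_lead`: `D x = N`, `N ≠ 0` (as `x ≠ 0`).  `lead (δ + b) (D x) = lead δ D * lead b x ≠ 0` (`lead_mul`); also `lead ν N ≠ 0`, `Wt ν N`, `Wt (δ+b) N`: if `δ + b < ν` or `ν < δ + b` one of them vanishes (`lead_eq_zero`).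
   So `t^ν pev P_N = t^δ pev P_D * lead b x`,  `lead b x = t^b iota (P_N/P_D)`.
-/
import Claimed.Agent.R269.S5.CenterLead
import Claimed.Agent.R269.S5.RatEqBasic

set_option autoImplicit false
set_option maxSynthPendingDepth 3

namespace Claimed.Agent.R269.Ctr

open HahnSeries Lau

theorem pev_C (c : ℂ) : pev (Polynomial.C c) = cc c := by
  simp [pev, cc]

theorem pev_X : pev Polynomial.X = om := by
  simp [pev]

theorem rt_zz_pow (i : ℕ) : zz ^ i = HahnSeries.C (single (i : ℤ) (1 : ℂ)) := by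
  rw [zz, ← map_pow, single_pow]
  simp

theorem rt_om_pow (i : ℕ) : om ^ i = tt ^ (-(i : ℤ)) * HahnSeries.C (single (i : ℤ) (1 : ℂ)) := by
  rw [om, mul_pow, rt_zz_pow, inv_pow, zpow_neg, zpow_natCast, mul_comm]

theorem rt_pev_monomial (i : ℕ) (a : ℂ) :
    pev (Polynomial.monomial i a) = tt ^ (-(i : ℤ)) * HahnSeries.C (single (i : ℤ) a) := by
  rw [← Polynomial.C_mul_X_pow_eq_monomial, map_mul, map_pow, pev_C, pev_X, rt_om_pow, cc,
    mul_left_comm, ← map_mul, ld_C_mul_single, mul_one]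

theorem rt_pev_coeff' (P : Polynomial ℂ) (l : ℤ) :
    (pev P).coeff l = if l ≤ 0 then single (-l) (P.coeff (-l).toNat) else 0 := by
  induction P using Polynomial.induction_on' with
  | add p q hp hq =>
    rw [map_add, coeff_add, hp, hq]
    split_ifs
    · rw [Polynomial.coeff_add, ld_single_add]
    · simp
  | monomial i a =>
    rw [rt_pev_monomial, coeff_tt_zpow_mul, ops_C_coeff, Polynomial.coeff_monomial]
    by_cases h : l - -(i : ℤ) = 0
    · have h1 : l ≤ 0 := by omega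
      have h2 : i = (-l).toNat := by omega
      have h3 : -l = (i : ℤ) := by omega
      rw [if_pos h, if_pos h1, if_pos h2, h3]
    · rw [if_neg h]
      split_ifs with h1 h2
      · omega
      · simp
      · rfl

theorem pev_coeff (P : Polynomial ℂ) (k : ℕ) : (pev P).coeff (-(k : ℤ)) = single (k : ℤ) (P.coeff k) := by
  rw [rt_pev_coeff', if_pos (by omega)]
  simp

theorem pev_injective : Function.Injective pev := by
  intro P Q h
  ext k
  have h1 := pev_coeff P k
  rw [h, pev_coeff] at h1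
  have h2 := congrArg (fun c : KK => c.coeff (k : ℤ)) h1
  simpa using h2.symm

theorem pev_nzd : nonZeroDivisors (Polynomial ℂ) ≤ (nonZeroDivisors AA).comap pev := fun P hP => by
  have hP' : P ≠ 0 := mem_nonZeroDivisors_iff_ne_zero.mp hP
  have h1 : pev P ≠ 0 := fun h => hP' (pev_injective (h.trans (map_zero pev).symm))
  exact Submonoid.mem_comap.mpr (mem_nonZeroDivisors_iff_ne_zero.mpr h1)

/-- the embedding `ℂ(w) → AA`. -/
noncomputable def iota : RatFunc ℂ →+* AA :=
  RatFunc.liftRingHom (R := ℂ) (L := AA) pev pev_nzd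

theorem rt_iota_div (P Q : Polynomial ℂ) :
    iota (algebraMap (Polynomial ℂ) (RatFunc ℂ) P / algebraMap (Polynomial ℂ) (RatFunc ℂ) Q)
      = pev P / pev Q :=
  RatFunc.liftRingHom_apply_div pev pev_nzd P Q

theorem iota_algebraMap (P : Polynomial ℂ) : iota (algebraMap (Polynomial ℂ) (RatFunc ℂ) P) = pev P := by
  have h := rt_iota_div P 1
  simpa using h

theorem iota_injective : Function.Injective iota := iota.injective

theorem iota_C (c : ℂ) : iota (RatFunc.C c) = cc c := by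
  rw [← RatFunc.algebraMap_C, iota_algebraMap, pev_C]

theorem iota_X : iota RatFunc.X = om := by
  rw [← RatFunc.algebraMap_X, iota_algebraMap, pev_X]

theorem Sh_om (q : ℤ) : Sh q om = om + (q : AA) := by
  rw [om, map_mul, map_inv₀, Sh_zz, Sh_tt]
  have := tt_ne_zero
  field_simp

theorem rt_cc_intCast (q : ℤ) : cc (q : ℂ) = (q : AA) := by
  rw [cc, map_intCast, map_intCast]

theorem Sh_pev (q : ℤ) (P : Polynomial ℂ) : Sh q (pev P) = pev (psh q P) := by
  have h : (Sh q).comp pev = pev.comp (psh q) := by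
    refine Polynomial.ringHom_ext ?_ ?_
    · intro a
      simp only [RingHom.comp_apply]
      rw [pev_C, Sh_cc, psh_apply, Polynomial.taylor_C, pev_C]
    · simp only [RingHom.comp_apply]
      rw [pev_X, Sh_om, psh_apply, Polynomial.taylor_X, map_add, pev_X, pev_C, rt_cc_intCast]
  exact congrArg (fun f : Polynomial ℂ →+* AA => f P) h

theorem Sh_iota (q : ℤ) (r : RatFunc ℂ) : Sh q (iota r) = iota (rsh q r) := by
  rw [← RatFunc.num_div_denom r, rq1_rsh_div, rt_iota_div, rt_iota_div, map_div₀, Sh_pev, Sh_pev]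

theorem rt_hom_om : Hom 0 om := by
  have := hom_zz.mul hom_tt.inv
  rwa [add_neg_cancel] at this

theorem rt_hom_pev (P : Polynomial ℂ) : Hom 0 (pev P) := by
  induction P using Polynomial.induction_on' with
  | add p q hp hq => rw [map_add]; exact hp.add hq
  | monomial i a =>
    rw [← Polynomial.C_mul_X_pow_eq_monomial, map_mul, map_pow, pev_C, pev_X]
    have := (hom_cc a).mul (ld_hom_pow rt_hom_om i)
    simpa using this

theorem hom_iota (r : RatFunc ℂ) : Hom 0 (iota r) := by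
  rw [← RatFunc.num_div_denom r, rt_iota_div, div_eq_mul_inv]
  have := (rt_hom_pev r.num).mul (rt_hom_pev r.denom).inv
  simpa using this

theorem rt_orderTop_eq {x : AA} {a : ℤ} (h : (a : WithTop ℤ) ≤ x.orderTop) (hc : x.coeff a ≠ 0) :
    x.orderTop = (a : WithTop ℤ) :=
  le_antisymm (HahnSeries.orderTop_le_of_coeff_ne_zero hc) h

theorem pev_orderTop (P : Polynomial ℂ) (hP : P ≠ 0) :
    (pev P).orderTop = ((-(P.natDegree : ℤ) : ℤ) : WithTop ℤ) := by
  refine rt_orderTop_eq ?_ ?_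
  · rw [le_orderTop_iff]
    intro i hi
    rw [rt_pev_coeff', if_pos (by omega), Polynomial.coeff_eq_zero_of_natDegree_lt (by omega)]
    simp
  · rw [pev_coeff]
    intro h
    have h2 := congrArg (fun c : KK => c.coeff (P.natDegree : ℤ)) h
    simp at h2
    exact hP h2

theorem iota_orderTop (r : RatFunc ℂ) (hr : r ≠ 0) :
    (iota r).orderTop = ((-r.intDegree : ℤ) : WithTop ℤ) := by
  have hn : r.num ≠ 0 := RatFunc.num_ne_zero hr
  have hd : r.denom ≠ 0 := RatFunc.denom_ne_zero r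
  conv_lhs => rw [← RatFunc.num_div_denom r]
  rw [rt_iota_div, div_eq_mul_inv, orderTop_mul_eq, pev_orderTop _ hn,
    orderTop_inv_eq (pev_orderTop _ hd), RatFunc.intDegree, ← WithTop.coe_add]
  congr 1
  ring


/-! ### `ℂ[[z,t]]` and its fraction field -/

theorem rt_nonneg_C (c : ℂ) : 0 ≤ (HahnSeries.C c : KK).orderTop := by
  have : ((0 : ℤ) : WithTop ℤ) ≤ (HahnSeries.C c : KK).orderTop := by
    rw [le_orderTop_iff]
    intro i hi
    exact coeff_single_of_ne (ne_of_lt hi)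
  simpa using this

theorem isPS2_cc (c : ℂ) : IsPS2 (cc c) := by
  refine ⟨ops_nonneg_C _, ?_⟩
  intro l
  rw [cc, ops_C_coeff]
  split_ifs
  · exact rt_nonneg_C c
  · simp

theorem IsPS2.add {x y : AA} (hx : IsPS2 x) (hy : IsPS2 y) : IsPS2 (x + y) :=
  ⟨nonneg_add hx.1 hy.1, fun l => by rw [coeff_add]; exact nonneg_add (hx.2 l) (hy.2 l)⟩

theorem IsPS2.neg {x : AA} (hx : IsPS2 x) : IsPS2 (-x) :=
  ⟨by rw [orderTop_neg]; exact hx.1, fun l => by rw [coeff_neg, orderTop_neg]; exact hx.2 l⟩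

theorem IsPS2.mul {x y : AA} (hx : IsPS2 x) (hy : IsPS2 y) : IsPS2 (x * y) := by
  refine ⟨nonneg_mul hx.1 hy.1, ?_⟩
  intro l
  rw [coeff_mul_Icc x y 0 0 l (by simpa using hx.1) (by simpa using hy.1)]
  have := le_orderTop_sum (Finset.Icc (0 : ℤ) (l - 0)) (fun i => x.coeff i * y.coeff (l - i)) 0
    (fun i _ => by simpa using nonneg_mul (hx.2 i) (hy.2 (l - i)))
  simpa using this

theorem rt_isPS2_one : IsPS2 1 := by
  have := isPS2_cc 1
  simpa [cc] using this

theorem rt_isPS2_zero : IsPS2 0 := by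
  have := isPS2_cc 0
  simpa [cc] using this

theorem IsPS2.isFrac {x : AA} (hx : IsPS2 x) : IsFrac x :=
  ⟨1, x, rt_isPS2_one, hx, one_ne_zero, one_mul x⟩

theorem IsFrac.add {x y : AA} (hx : IsFrac x) (hy : IsFrac y) : IsFrac (x + y) := by
  obtain ⟨D, N, hD, hN, h0, h⟩ := hx
  obtain ⟨D', N', hD', hN', h0', h'⟩ := hy
  refine ⟨D * D', D' * N + D * N', hD.mul hD', (hD'.mul hN).add (hD.mul hN'), mul_ne_zero h0 h0', ?_⟩
  rw [← h, ← h']
  ring

theorem IsFrac.neg {x : AA} (hx : IsFrac x) : IsFrac (-x) := by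
  obtain ⟨D, N, hD, hN, h0, h⟩ := hx
  exact ⟨D, -N, hD, hN.neg, h0, by rw [← h]; ring⟩

theorem IsFrac.sub {x y : AA} (hx : IsFrac x) (hy : IsFrac y) : IsFrac (x - y) := by
  rw [sub_eq_add_neg]
  exact hx.add hy.neg

theorem IsFrac.mul {x y : AA} (hx : IsFrac x) (hy : IsFrac y) : IsFrac (x * y) := by
  obtain ⟨D, N, hD, hN, h0, h⟩ := hx
  obtain ⟨D', N', hD', hN', h0', h'⟩ := hy
  refine ⟨D * D', N * N', hD.mul hD', hN.mul hN', mul_ne_zero h0 h0', ?_⟩
  rw [← h, ← h']
  ring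

theorem IsFrac.pow {x : AA} (hx : IsFrac x) (m : ℕ) : IsFrac (x ^ m) := by
  induction m with
  | zero => rw [pow_zero]; exact rt_isPS2_one.isFrac
  | succ m ih => rw [pow_succ]; exact ih.mul hx

theorem IsFrac.sum {ι : Type*} (s : Finset ι) (f : ι → AA) (h : ∀ i ∈ s, IsFrac (f i)) :
    IsFrac (∑ i ∈ s, f i) := by
  classical
  induction s using Finset.induction_on with
  | empty => rw [Finset.sum_empty]; exact rt_isPS2_zero.isFrac
  | insert a s ha ih =>
    rw [Finset.sum_insert ha]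
    exact (h a (Finset.mem_insert_self a s)).add (ih fun i hi => h i (Finset.mem_insert_of_mem hi))

theorem rt_exists_poly (f : ℕ → ℂ) (ν : ℕ) (hf : ∀ k, ν < k → f k = 0) :
    ∃ P : Polynomial ℂ, ∀ k, P.coeff k = f k := by
  refine ⟨∑ k ∈ Finset.range (ν + 1), Polynomial.monomial k (f k), ?_⟩
  intro k
  rw [Polynomial.finsetSum_coeff]
  simp only [Polynomial.coeff_monomial]
  rw [Finset.sum_ite_eq']
  split_ifs with h
  · rfl
  · rw [Finset.mem_range] at h
    exact (hf k (by omega)).symm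

theorem rt_ps2_coeff_t {N : AA} (hN : IsPS2 N) {l : ℤ} (hl : l < 0) : N.coeff l = 0 :=
  (le_orderTop_iff N 0).mp (by simpa using hN.1) l hl

theorem rt_ps2_coeff_z {N : AA} (hN : IsPS2 N) (l : ℤ) {k : ℤ} (hk : k < 0) :
    (N.coeff l).coeff k = 0 :=
  (le_orderTop_iff (N.coeff l) 0).mp (by simpa using hN.2 l) k hk

/-- the lowest homogeneous form of a nonzero power series. -/
theorem ps2_lead (N : AA) (hN : IsPS2 N) (h0 : N ≠ 0) :
    ∃ (ν : ℕ) (P : Polynomial ℂ), P ≠ 0 ∧ Wt ν N ∧ lead ν N = tt ^ ν * pev P := by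
  classical
  have hex : ∃ m : ℕ, ∃ l k : ℤ, (N.coeff l).coeff k ≠ 0 ∧ l + k = m := by
    by_contra hcon
    apply h0
    refine ld_ext fun l => ?_
    ext k
    by_contra hne
    have hne' : (N.coeff l).coeff k ≠ 0 := by simpa using hne
    have hl : 0 ≤ l := by
      by_contra hl
      exact hne' (by rw [rt_ps2_coeff_t hN (not_le.mp hl)]; simp)
    have hk : 0 ≤ k := by
      by_contra hk
      exact hne' (rt_ps2_coeff_z hN l (not_le.mp hk))
    exact hcon ⟨(l + k).toNat, l, k, hne', by omega⟩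
  obtain ⟨l₀, k₀, hne₀, hlk₀⟩ := Nat.find_spec hex
  have hmin := fun m (hm : m < Nat.find hex) => Nat.find_min hex hm
  generalize Nat.find hex = ν at hlk₀ hmin
  have hl₀ : 0 ≤ l₀ := by
    by_contra hl
    exact hne₀ (by rw [rt_ps2_coeff_t hN (not_le.mp hl)]; simp)
  have hk₀ : 0 ≤ k₀ := by
    by_contra hk
    exact hne₀ (rt_ps2_coeff_z hN l₀ (not_le.mp hk))
  obtain ⟨P, hP⟩ := rt_exists_poly (fun k : ℕ => (N.coeff ((ν : ℤ) - k)).coeff (k : ℤ)) ν (by
    intro k hk
    show (N.coeff ((ν : ℤ) - k)).coeff (k : ℤ) = 0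
    rw [rt_ps2_coeff_t hN (by omega)]
    simp)
  refine ⟨ν, P, ?_, ?_, ?_⟩
  · intro hP0
    have h1 := hP k₀.toNat
    rw [hP0] at h1
    apply hne₀
    have e1 : ((k₀.toNat : ℕ) : ℤ) = k₀ := by omega
    have e2 : (ν : ℤ) - k₀ = l₀ := by omega
    rw [e1, e2] at h1
    simpa using h1.symm
  · intro l
    rw [le_orderTop_iff]
    intro i hi
    by_contra hne
    have hl : 0 ≤ l := by
      by_contra hl
      exact hne (by rw [rt_ps2_coeff_t hN (not_le.mp hl)]; simp)
    have hk : 0 ≤ i := by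
      by_contra hk
      exact hne (rt_ps2_coeff_z hN l (not_le.mp hk))
    exact hmin (l + i).toNat (by omega) ⟨l, i, hne, by omega⟩
  · refine ld_ext fun l => ?_
    rw [lead_coeff, ops_coeff_tt_pow_mul, rt_pev_coeff']
    by_cases hl : l - (ν : ℤ) ≤ 0
    · rw [if_pos hl, hP]
      have e1 : (((-(l - (ν : ℤ))).toNat : ℕ) : ℤ) = (ν : ℤ) - l := by omega
      have e2 : (ν : ℤ) - ((ν : ℤ) - l) = l := by ring
      have e3 : -(l - (ν : ℤ)) = (ν : ℤ) - l := by ring
      rw [e1, e2, e3]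
    · rw [if_neg hl, rt_ps2_coeff_z hN l (by omega)]
      simp

/-- **Rationality of leading parts.** -/
theorem frac_lead (x : AA) (b : ℤ) (hx : IsFrac x) (hw : Wt b x) (hl : lead b x ≠ 0) :
    ∃ r : RatFunc ℂ, r ≠ 0 ∧ lead b x = tt ^ b * iota r := by
  obtain ⟨D, N, hD, hN, hD0, hDN⟩ := hx
  have hx0 : x ≠ 0 := by
    rintro rfl
    exact hl (lead_zero b)
  have hN0 : N ≠ 0 := by
    rw [← hDN]
    exact mul_ne_zero hD0 hx0
  obtain ⟨δ, PD, hPD, hwD, hlD⟩ := ps2_lead D hD hD0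
  obtain ⟨ν, PN, hPN, hwN, hlN⟩ := ps2_lead N hN hN0
  have hpD : pev PD ≠ 0 := fun h => hPD (pev_injective (h.trans (map_zero pev).symm))
  have hpN : pev PN ≠ 0 := fun h => hPN (pev_injective (h.trans (map_zero pev).symm))
  have ht := tt_ne_zero
  have h1 : lead ((δ : ℤ) + b) N = lead δ D * lead b x := by
    rw [← hDN]
    exact lead_mul hwD hw
  have h2 : lead ((δ : ℤ) + b) N ≠ 0 := by
    rw [h1, hlD]
    exact mul_ne_zero (mul_ne_zero (pow_ne_zero _ ht) hpD) hl
  have h3 : lead (ν : ℤ) N ≠ 0 := by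
    rw [hlN]
    exact mul_ne_zero (pow_ne_zero _ ht) hpN
  have hwN' : Wt ((δ : ℤ) + b) N := by
    rw [← hDN]
    exact hwD.mul hw
  have hν : (δ : ℤ) + b = ν := by
    rcases lt_trichotomy ((δ : ℤ) + b) (ν : ℤ) with h | h | h
    · exact absurd (lead_eq_zero hwN h) h2
    · exact h
    · exact absurd (lead_eq_zero hwN' h) h3
  refine ⟨algebraMap (Polynomial ℂ) (RatFunc ℂ) PN / algebraMap (Polynomial ℂ) (RatFunc ℂ) PD,
    div_ne_zero (rq1_algebraMap_ne_zero hPN) (rq1_algebraMap_ne_zero hPD), ?_⟩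
  rw [rt_iota_div]
  rw [hν, hlN, hlD] at h1
  have hb : tt ^ b = tt ^ ν / tt ^ δ := by
    have hb' : b = (ν : ℤ) - δ := by omega
    rw [hb', zpow_sub₀ ht, zpow_natCast, zpow_natCast]
  rw [hb]
  field_simp
  linear_combination -h1

end Claimed.Agent.R269.Ctr
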