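/-
Row 269, P1 Lemma 5.2, rational functional equation, leaf LF-S5b-rq6 (HOST-FREE, pure combinatorics).   Statements: helper134.
The counting argument for `n > 3` (P1, proof of Lemma 5.2, "Group the finitely many poles of ρ into maximal runs ...").
PROVED by helper283 (statement verbatim; auxiliary lemmas `rq6_*`; in (c) the depth `ℓ u` is replaced by the `p`-adic valuation of `b u`, `p = minFac γ`, and the runs by a telescoping sum).

DATA.  `P` = the set of poles of `ρ`, `b w` = order of the pole, `s = ∑ b` = degree of `ρ`;  `St = {w ∈ P : w - 1 ∉ P}` the starts of the runs;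
 `e (w-1)`, `w ∈ St`, = multiplicity of `ρ` at the point preceding a run.   `m := α - γ ≥ 1`.
PLAN.  `En := {w ∈ P : w + 1 ∉ P}` (ends).  `card St = card En` (both are `card P - card {w ∈ P : w - 1 ∈ P}`, shift by one).
 (a) SUM IDENTITY  `∑_{w ∈ St} e(w-1) = m s + γ ∑_{u ∈ En} b u`:
       `α s = ∑_{w ∈ St} α b w + ∑_{w ∈ P, w-1 ∈ P} α b w = ∑_{St} e(w-1) + γ ∑_{u ∈ P, u+1 ∈ P} b u = ∑_{St} e(w-1) + γ (s - ∑_{En} b)`.
 (b) `m ≥ 2`:  `hRH` gives `2 s + card En + s + 2 ≤ 2 s + card St + card P`, but `card P ≤ s`.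
 (c) `m = 1`, `γ ≥ 2`:  for `u ∈ P` let `ℓ u` = number of consecutive predecessors of `u` in `P`.  By `h1` and coprimality `γ^{ℓ u} ∣ b u` (induction), so `γ b u ≥ 2^{ℓ u + 1} ≥ ℓ u + 2`.
      Every `w ∈ P` is `u - k` for an end `u` and `k ≤ ℓ u` (`P` finite), so `card P ≤ ∑_{En} (ℓ u + 1)` (`Finset.card_biUnion_le`).  Hence `γ ∑_{En} b ≥ card P + card En`; contradiction with `hRH`.
 (d) `m = γ = 1`, `α = 2`:  `hfib` and (a) give `∑_{En} b = 0`, but `En` is nonempty (take `w ∈ P` with maximal real part) and `b ≥ 1`.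
-/
import Mathlib

set_option autoImplicit false

namespace Claimed.Agent.R269.Ctr

/-- shift by one. -/
theorem rq6_shift (P : Finset ℂ) (f : ℂ → ℕ) :
    ∑ w ∈ P.filter (fun w => w - 1 ∈ P), f (w - 1) = ∑ u ∈ P.filter (fun u => u + 1 ∈ P), f u := by
  refine Finset.sum_nbij' (fun w => w - 1) (fun u => u + 1) ?_ ?_ ?_ ?_ ?_
  · intro w hw
    rw [Finset.mem_filter] at hw ⊢
    exact ⟨hw.2, by rw [sub_add_cancel]; exact hw.1⟩
  · intro u hu
    rw [Finset.mem_filter] at hu ⊢
    exact ⟨hu.2, by rw [add_sub_cancel_right]; exact hu.1⟩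
  · intro w _; ring
  · intro u _; ring
  · intro w _; rfl

/-- telescoping: `∑_P f = ∑_{ends} f + ∑_{w, w-1 ∈ P} f (w-1)`. -/
theorem rq6_tel (P : Finset ℂ) (f : ℂ → ℕ) :
    ∑ w ∈ P, f w = ∑ u ∈ P.filter (fun u => u + 1 ∉ P), f u +
      ∑ w ∈ P.filter (fun w => w - 1 ∈ P), f (w - 1) := by
  rw [rq6_shift, add_comm]
  exact (Finset.sum_filter_add_sum_filter_not P (fun u => u + 1 ∈ P) f).symm

theorem rq6_split (P : Finset ℂ) (f : ℂ → ℕ) :
    ∑ w ∈ P, f w = ∑ w ∈ P.filter (fun w => w - 1 ∉ P), f w +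
      ∑ w ∈ P.filter (fun w => w - 1 ∈ P), f w := by
  rw [add_comm]
  exact (Finset.sum_filter_add_sum_filter_not P (fun w => w - 1 ∈ P) f).symm

theorem rq6_card (P : Finset ℂ) :
    (P.filter (fun w => w - 1 ∉ P)).card = (P.filter (fun u => u + 1 ∉ P)).card := by
  have h1 := rq6_tel P (fun _ => 1)
  have h2 := rq6_split P (fun _ => 1)
  simp only [Finset.sum_const, smul_eq_mul, mul_one] at h1 h2
  omega

theorem rq6_end_nonempty (P : Finset ℂ) (hP : P.Nonempty) :
    (P.filter (fun u => u + 1 ∉ P)).Nonempty := by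
  obtain ⟨u, hu, hmax⟩ := Finset.exists_max_image P (fun w => w.re) hP
  refine ⟨u, Finset.mem_filter.2 ⟨hu, fun h => ?_⟩⟩
  have := hmax _ h
  simp at this
  linarith

/-- (c): the ends carry enough multiplicity. -/
theorem rq6_ends (P : Finset ℂ) (b : ℂ → ℕ) (α γ : ℕ) (hγ : 2 ≤ γ) (hcop : Nat.Coprime α γ)
    (hb : ∀ w ∈ P, 1 ≤ b w) (h1 : ∀ w ∈ P, w - 1 ∈ P → γ * b (w - 1) = α * b w) :
    P.card + (P.filter (fun u => u + 1 ∉ P)).card ≤ γ * ∑ u ∈ P.filter (fun u => u + 1 ∉ P), b u := by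
  set p := γ.minFac with hp
  have hpp : p.Prime := Nat.minFac_prime (by omega)
  have : Fact p.Prime := ⟨hpp⟩
  have hpγ : p ∣ γ := Nat.minFac_dvd γ
  have hpα : ¬ p ∣ α := by
    intro h
    have := Nat.dvd_gcd h hpγ
    rw [hcop] at this
    exact hpp.one_lt.ne' (Nat.dvd_one.1 this)
  have hα0 : α ≠ 0 := by
    rintro rfl
    exact hpα (dvd_zero _)
  -- the valuation increases along a run
  have hstep : ∀ w ∈ P, w - 1 ∈ P → padicValNat p (b (w - 1)) + 1 ≤ padicValNat p (b w) := by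
    intro w hw hw1
    have e := congrArg (padicValNat p) (h1 w hw hw1)
    have b1 : b (w - 1) ≠ 0 := by have := hb _ hw1; omega
    have b2 : b w ≠ 0 := by have := hb _ hw; omega
    rw [padicValNat.mul (by omega) b1, padicValNat.mul hα0 b2,
      padicValNat.eq_zero_of_not_dvd hpα, zero_add] at e
    have : 1 ≤ padicValNat p γ := one_le_padicValNat_of_dvd (by omega) hpγ
    omega
  -- telescoping for `c' = v_p(b) + 1`
  have htel := rq6_tel P (fun w => padicValNat p (b w) + 1)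
  have hsplit := rq6_split P (fun w => padicValNat p (b w) + 1)
  have hcardsplit := rq6_split P (fun _ => 1)
  simp only [Finset.sum_const, smul_eq_mul, mul_one] at hcardsplit
  have hmid : ∑ w ∈ P.filter (fun w => w - 1 ∈ P), (padicValNat p (b (w - 1)) + 1) +
      (P.filter (fun w => w - 1 ∈ P)).card ≤
      ∑ w ∈ P.filter (fun w => w - 1 ∈ P), (padicValNat p (b w) + 1) := by
    rw [Finset.card_eq_sum_ones, ← Finset.sum_add_distrib]
    apply Finset.sum_le_sum
    intro w hw
    rw [Finset.mem_filter] at hw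
    have := hstep w hw.1 hw.2
    omega
  have hst : (P.filter (fun w => w - 1 ∉ P)).card ≤
      ∑ w ∈ P.filter (fun w => w - 1 ∉ P), (padicValNat p (b w) + 1) := by
    rw [Finset.card_eq_sum_ones]
    apply Finset.sum_le_sum
    intro w _
    omega
  have hcP : P.card ≤ ∑ u ∈ P.filter (fun u => u + 1 ∉ P), (padicValNat p (b u) + 1) := by
    omega
  -- pointwise bound at the ends
  have hpt : ∀ u ∈ P.filter (fun u => u + 1 ∉ P), (padicValNat p (b u) + 1) + 1 ≤ γ * b u := by
    intro u hu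
    rw [Finset.mem_filter] at hu
    have b2 : b u ≠ 0 := by have := hb _ hu.1; omega
    have d1 : p ^ padicValNat p (b u) ≤ b u := Nat.le_of_dvd (by omega) pow_padicValNat_dvd
    have d2 : p ≤ γ := Nat.le_of_dvd (by omega) hpγ
    have d3 : padicValNat p (b u) + 1 < 2 ^ (padicValNat p (b u) + 1) := Nat.lt_two_pow_self
    have d4 : 2 ^ (padicValNat p (b u) + 1) ≤ p ^ (padicValNat p (b u) + 1) :=
      Nat.pow_le_pow_left hpp.two_le _
    have d5 : p ^ (padicValNat p (b u) + 1) ≤ γ * b u := by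
      rw [pow_succ, mul_comm]
      exact Nat.mul_le_mul d2 d1
    omega
  have hsum := Finset.sum_le_sum hpt
  rw [Finset.sum_add_distrib, ← Finset.mul_sum] at hsum
  simp only [Finset.sum_const, smul_eq_mul, mul_one] at hsum
  omega

theorem big_count (P : Finset ℂ) (b e : ℂ → ℕ) (s α γ : ℕ) (hγ : 1 ≤ γ) (hαγ : γ < α)
    (hcop : Nat.Coprime α γ) (hP : P.Nonempty) (hb : ∀ w ∈ P, 1 ≤ b w) (hs : ∑ w ∈ P, b w = s)
    (h1 : ∀ w ∈ P, w - 1 ∈ P → γ * b (w - 1) = α * b w)
    (h2 : ∀ w ∈ P, w - 1 ∉ P → e (w - 1) = α * b w)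
    (hRH : ∑ w ∈ P.filter (fun w => w - 1 ∉ P), e (w - 1) + s + 2 ≤
      2 * s + (P.filter (fun w => w - 1 ∉ P)).card + P.card)
    (hfib : α = 2 → ∑ w ∈ P.filter (fun w => w - 1 ∉ P), e (w - 1) ≤ s) : False := by
  set E := ∑ w ∈ P.filter (fun w => w - 1 ∉ P), e (w - 1) with hE
  set BE := ∑ u ∈ P.filter (fun u => u + 1 ∉ P), b u with hBE
  have hcard := rq6_card P
  -- (a)
  have ha : α * s + γ * BE = E + γ * s := by
    have t1 := rq6_split P (fun w => α * b w)
    have t2 := rq6_tel P (fun w => γ * b w)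
    simp only [← Finset.mul_sum] at t1 t2
    rw [hs] at t1 t2
    have t3 : α * ∑ w ∈ P.filter (fun w => w - 1 ∉ P), b w = E := by
      rw [hE, Finset.mul_sum]
      apply Finset.sum_congr rfl
      intro w hw
      rw [Finset.mem_filter] at hw
      exact (h2 w hw.1 hw.2).symm
    have t4 : α * ∑ w ∈ P.filter (fun w => w - 1 ∈ P), b w =
        γ * ∑ w ∈ P.filter (fun w => w - 1 ∈ P), b (w - 1) := by
      rw [Finset.mul_sum, Finset.mul_sum]
      apply Finset.sum_congr rfl
      intro w hw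
      rw [Finset.mem_filter] at hw
      exact (h1 w hw.1 hw.2).symm
    rw [t3, t4] at t1
    rw [← hBE] at t2
    omega
  have hPs : P.card ≤ s := by
    rw [← hs, Finset.card_eq_sum_ones]
    exact Finset.sum_le_sum hb
  have hEn : (P.filter (fun u => u + 1 ∉ P)).card ≤ BE := by
    rw [hBE, Finset.card_eq_sum_ones]
    apply Finset.sum_le_sum
    intro u hu
    exact hb u (Finset.mem_filter.1 hu).1
  have hEn' : BE ≤ γ * BE := Nat.le_mul_of_pos_left _ (by omega)
  rcases Nat.lt_or_ge (γ + 1) α with hm | hm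
  · -- m ≥ 2
    have : (γ + 2) * s ≤ α * s := Nat.mul_le_mul_right _ hm
    have e1 : (γ + 2) * s = γ * s + 2 * s := by ring
    omega
  · have hα : α = γ + 1 := by omega
    have e1 : α * s = γ * s + s := by rw [hα]; ring
    rcases Nat.lt_or_ge 1 γ with hg | hg
    · have := rq6_ends P b α γ hg hcop hb h1
      rw [← hBE] at this
      omega
    · have hγ1 : γ = 1 := by omega
      have := hfib (by omega)
      have hne := rq6_end_nonempty P hP
      have : 0 < (P.filter (fun u => u + 1 ∉ P)).card := Finset.card_pos.2 hne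
      omega

end Claimed.Agent.R269.Ctr
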