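/-
Row 269, P1 Lemma 5.2, rational functional equation, leaf LF-S5b-rq2 (HOST-FREE).   Statements: helper134.
RIEMANN-HURWITZ in the only form used:  total ramification over finite points `≤ deg (A'B - AB') ≤ 2s - 2`.
PROVED by helper283 (statements verbatim; auxiliary lemmas have prefix `rq2_`).

PLAN.  `c : RhoCtx`, `A = c.A`, `B = c.B` coprime of the same degree `s ≥ 1` with the same leading coefficient.
 * `wr_natDegree_le`: the coefficient of `w^{2s-1}` of `A'B - AB'` is `s a b - s a b = 0`; all terms have degree `≤ 2s-1`.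
 * `wr_ne_zero`: `A'B = AB'`, coprimality ⇒ `B ∣ B'`, impossible for `deg B ≥ 1` (characteristic zero).
 * `wr_sub`: `wr (A - ζ B) B = wr A B` (ring).
 * `mult_le_wr`: if `(X - w)^e ∣ P` then `(X-w)^{e-1} ∣ P'` hence `(X-w)^{e-1} ∣ P' Q - P Q'`  (`Polynomial.pow_sub_one_dvd_derivative_of_pow_dvd`…).
 * `sum_mult_le`: `∑_{w ∈ T} rootMultiplicity w P = ∑ count w P.roots ≤ card P.roots ≤ natDegree P`.
-/
import Claimed.Agent.R269.S5.RatEqDefs

set_option autoImplicit false

namespace Claimed.Agent.R269.Ctr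

open Polynomial

theorem sum_mult_le (P : Polynomial ℂ) (hP : P ≠ 0) (T : Finset ℂ) :
    ∑ w ∈ T, P.rootMultiplicity w ≤ P.natDegree := by
  calc ∑ w ∈ T, P.rootMultiplicity w = ∑ w ∈ T, P.roots.count w := by
        simp only [count_roots]
    _ ≤ ∑ w ∈ P.roots.toFinset, P.roots.count w := by
        apply Finset.sum_le_sum_of_ne_zero
        intro x _ hx
        rw [Multiset.mem_toFinset]
        exact Multiset.count_ne_zero.1 hx
    _ = Multiset.card P.roots := Multiset.toFinset_sum_count_eq _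
    _ ≤ P.natDegree := P.card_roots'

/-- all roots: equality. -/
theorem sum_mult_eq (P : Polynomial ℂ) (hP : P ≠ 0) (T : Finset ℂ) (hT : ∀ w, P.IsRoot w → w ∈ T) :
    ∑ w ∈ T, P.rootMultiplicity w = P.natDegree := by
  calc ∑ w ∈ T, P.rootMultiplicity w = ∑ w ∈ T, P.roots.count w := by
        simp only [count_roots]
    _ = ∑ w ∈ P.roots.toFinset, P.roots.count w := by
        symm
        apply Finset.sum_subset
        · intro x hx
          rw [Multiset.mem_toFinset, mem_roots hP] at hx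
          exact hT x hx
        · intro x _ hx
          rw [Multiset.mem_toFinset] at hx
          exact Multiset.count_eq_zero.2 hx
    _ = Multiset.card P.roots := Multiset.toFinset_sum_count_eq _
    _ = P.natDegree := (IsAlgClosed.splits P).natDegree_eq_card_roots.symm

theorem mult_le_wr (P Q : Polynomial ℂ) (w : ℂ) (hW : wr P Q ≠ 0) :
    P.rootMultiplicity w ≤ (wr P Q).rootMultiplicity w + 1 := by
  have h1 : (X - C w) ^ (P.rootMultiplicity w) ∣ P := pow_rootMultiplicity_dvd P w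
  have h2 : (X - C w) ^ (P.rootMultiplicity w - 1) ∣ derivative P :=
    pow_sub_one_dvd_derivative_of_pow_dvd h1
  have h3 : (X - C w) ^ (P.rootMultiplicity w - 1) ∣ P :=
    (pow_dvd_pow _ (Nat.sub_le _ _)).trans h1
  have h4 : (X - C w) ^ (P.rootMultiplicity w - 1) ∣ wr P Q :=
    dvd_sub (h2.mul_right _) (h3.mul_right _)
  have := (le_rootMultiplicity_iff hW).2 h4
  omega

theorem rq2_mult_le_wr' (P Q : Polynomial ℂ) (w : ℂ) (hW : wr P Q ≠ 0) :
    Q.rootMultiplicity w ≤ (wr P Q).rootMultiplicity w + 1 := by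
  have h1 : (X - C w) ^ (Q.rootMultiplicity w) ∣ Q := pow_rootMultiplicity_dvd Q w
  have h2 : (X - C w) ^ (Q.rootMultiplicity w - 1) ∣ derivative Q :=
    pow_sub_one_dvd_derivative_of_pow_dvd h1
  have h3 : (X - C w) ^ (Q.rootMultiplicity w - 1) ∣ Q :=
    (pow_dvd_pow _ (Nat.sub_le _ _)).trans h1
  have h4 : (X - C w) ^ (Q.rootMultiplicity w - 1) ∣ wr P Q :=
    dvd_sub (h3.mul_left _) (h2.mul_left _)
  have := (le_rootMultiplicity_iff hW).2 h4
  omega

namespace RhoCtx

variable (c : RhoCtx)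

theorem A_ne_zero : c.A ≠ 0 := by
  intro h
  have := c.degA
  rw [h, natDegree_zero] at this
  have := c.hs
  omega

theorem B_ne_zero : c.B ≠ 0 := by
  intro h
  have := c.degB
  rw [h, natDegree_zero] at this
  have := c.hs
  omega

theorem rq2_not_isUnit_B : ¬ IsUnit c.B := by
  intro h
  have := natDegree_eq_zero_of_isUnit h
  have h1 := c.degB
  have := c.hs
  omega

theorem wr_ne_zero : wr c.A c.B ≠ 0 := by
  intro h
  have h1 : derivative c.A * c.B = c.A * derivative c.B := sub_eq_zero.1 h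
  have h2 : c.B ∣ c.A * derivative c.B := ⟨derivative c.A, by rw [← h1, mul_comm]⟩
  have h3 : c.B ∣ derivative c.B := c.cop.symm.dvd_of_dvd_mul_left h2
  have hd : derivative c.B ≠ 0 := by
    intro h0
    have := Polynomial.derivative_eq_zero.1 h0
    have h1 := c.degB
    have := c.hs
    omega
  have h4 := natDegree_le_of_dvd h3 hd
  have h5 : (derivative c.B).natDegree < c.B.natDegree := natDegree_derivative_lt (by
    have h1 := c.degB
    have := c.hs
    omega)
  omega

theorem wr_natDegree_le : (wr c.A c.B).natDegree ≤ 2 * c.s - 2 := by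
  obtain ⟨t, ht⟩ : ∃ t, c.s = t + 1 := ⟨c.s - 1, by have := c.hs; omega⟩
  have hA : c.A.natDegree ≤ t + 1 := by rw [c.degA, ht]
  have hB : c.B.natDegree ≤ t + 1 := by rw [c.degB, ht]
  have hA' : (derivative c.A).natDegree ≤ t := by
    have := natDegree_derivative_le c.A
    omega
  have hB' : (derivative c.B).natDegree ≤ t := by
    have := natDegree_derivative_le c.B
    omega
  have hlc : c.A.coeff (t + 1) = c.B.coeff (t + 1) := by
    have := c.lc
    rw [leadingCoeff, leadingCoeff, c.degA, c.degB, ht] at this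
    exact this
  rw [natDegree_le_iff_coeff_eq_zero]
  intro N hN
  have e1 : 2 * c.s - 2 = 2 * t := by omega
  rw [e1] at hN
  unfold wr
  rw [coeff_sub]
  rcases Nat.lt_or_ge (2 * t + 1) N with h | h
  · rw [coeff_eq_zero_of_natDegree_lt, coeff_eq_zero_of_natDegree_lt, sub_zero]
    · exact lt_of_le_of_lt (natDegree_mul_le.trans (by omega : _ ≤ 2 * t + 1)) h
    · exact lt_of_le_of_lt (natDegree_mul_le.trans (by omega : _ ≤ 2 * t + 1)) h
  · have hN' : N = t + (t + 1) := by omega
    have hN'' : N = (t + 1) + t := by omega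
    rw [hN', coeff_mul_add_eq_of_natDegree_le hA' hB, ← hN', hN'',
      coeff_mul_add_eq_of_natDegree_le hA hB', coeff_derivative, coeff_derivative, hlc]
    ring

theorem rq2_wr_sub (ζ : ℂ) : wr (c.A - C ζ * c.B) c.B = wr c.A c.B := by
  unfold wr
  simp only [derivative_sub, derivative_mul, derivative_C]
  ring

/-- ramification at a point of the fibre over `ζ`. -/
theorem mult_fibre_le (ζ w : ℂ) :
    (c.A - C ζ * c.B).rootMultiplicity w ≤ (wr c.A c.B).rootMultiplicity w + 1 := by
  have := mult_le_wr (c.A - C ζ * c.B) c.B w (by rw [c.rq2_wr_sub]; exact c.wr_ne_zero)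
  rwa [c.rq2_wr_sub] at this

/-- ramification at a pole. -/
theorem mult_pole_le (w : ℂ) : c.B.rootMultiplicity w ≤ (wr c.A c.B).rootMultiplicity w + 1 :=
  rq2_mult_le_wr' c.A c.B w c.wr_ne_zero

/-- **Riemann-Hurwitz.**  `e w` = local multiplicity of `ρ` at `w`. -/
theorem rh (T : Finset ℂ) (e : ℂ → ℕ)
    (he : ∀ w ∈ T, e w ≤ (wr c.A c.B).rootMultiplicity w + 1) :
    ∑ w ∈ T, e w + 2 ≤ 2 * c.s + T.card := by
  have h1 : ∑ w ∈ T, e w ≤ ∑ w ∈ T, ((wr c.A c.B).rootMultiplicity w + 1) := Finset.sum_le_sum he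
  rw [Finset.sum_add_distrib, Finset.sum_const, smul_eq_mul, mul_one] at h1
  have h2 := sum_mult_le (wr c.A c.B) c.wr_ne_zero T
  have h3 := c.wr_natDegree_le
  have := c.hs
  omega

/-- the fibre over `ζ ≠ 1` has degree `s`. -/
theorem fibre_natDegree (ζ : ℂ) (hζ : ζ ≠ 1) : (c.A - C ζ * c.B).natDegree = c.s := by
  apply le_antisymm
  · refine (natDegree_sub_le _ _).trans (max_le (le_of_eq c.degA) ?_)
    exact (natDegree_C_mul_le _ _).trans (le_of_eq c.degB)
  · apply le_natDegree_of_ne_zero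
    rw [coeff_sub, coeff_C_mul]
    have hlc : c.A.coeff c.s = c.B.coeff c.s := by
      have := c.lc
      rw [leadingCoeff, leadingCoeff, c.degA, c.degB] at this
      exact this
    have hb : c.B.coeff c.s ≠ 0 := by
      have := leadingCoeff_ne_zero.2 c.B_ne_zero
      rwa [leadingCoeff, c.degB] at this
    rw [hlc]
    intro h
    have : (1 - ζ) * c.B.coeff c.s = 0 := by linear_combination h
    rcases mul_eq_zero.1 this with h | h
    · exact hζ (by linear_combination -h)
    · exact hb h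

theorem fibre_isCoprime_B (ζ : ℂ) : IsCoprime (c.A - C ζ * c.B) c.B := by
  have := c.cop.add_mul_right_left (-C ζ)
  simpa [sub_eq_add_neg] using this

theorem fibre_ne_zero (ζ : ℂ) : c.A - C ζ * c.B ≠ 0 := by
  intro h
  have := c.fibre_isCoprime_B ζ
  rw [h, isCoprime_zero_left] at this
  exact c.rq2_not_isUnit_B this

/-- distinct fibres are coprime. -/
theorem fibre_isCoprime (ζ ζ' : ℂ) (h : ζ ≠ ζ') : IsCoprime (c.A - C ζ * c.B) (c.A - C ζ' * c.B) := by
  obtain ⟨u, v, huv⟩ := c.cop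
  have hne : ζ' - ζ ≠ 0 := sub_ne_zero.2 h.symm
  refine ⟨C (ζ' - ζ)⁻¹ * (u * C ζ' + v), C (ζ' - ζ)⁻¹ * (-(u * C ζ) - v), ?_⟩
  have h1 : C (ζ' - ζ)⁻¹ * (C ζ' - C ζ) = (1 : Polynomial ℂ) := by
    rw [← C_sub, ← C_mul, inv_mul_cancel₀ hne, C_1]
  linear_combination (u * c.A + v * c.B) * h1 + huv

theorem pow_sub_pow_ne_zero (k : ℕ) (hk : 0 < k) : c.A ^ k - c.B ^ k ≠ 0 := by
  intro h
  have h1 : c.A ^ k = c.B ^ k := sub_eq_zero.1 h
  have h2 : c.B ∣ c.A ^ k := by rw [h1]; exact dvd_pow_self _ hk.ne'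
  have h3 : IsCoprime (c.A ^ k) c.B := c.cop.pow_left
  exact c.rq2_not_isUnit_B (h3.symm.isUnit_of_dvd' dvd_rfl h2)

theorem rq2_eval_A_ne_zero (w : ℂ) (hw : c.B.eval w = 0) : c.A.eval w ≠ 0 := by
  intro h
  obtain ⟨u, v, huv⟩ := c.cop
  have := congrArg (eval w) huv
  simp [h, hw] at this

/-- at a pole `A^k - B^k` does not vanish. -/
theorem eval_pow_sub_pow_ne_zero (k : ℕ) (hk : 0 < k) (w : ℂ) (hw : c.B.eval w = 0) :
    (c.A ^ k - c.B ^ k).eval w ≠ 0 := by
  simp only [eval_sub, eval_pow, hw, zero_pow hk.ne', sub_zero]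
  exact pow_ne_zero _ (c.rq2_eval_A_ne_zero w hw)

/-- `A^k - B^k = ∏_{ζ^k = 1} (A - ζ B)`: multiplicity at a point which is not a pole. -/
theorem mult_pow_sub_pow (k : ℕ) (hk : 0 < k) (w : ℂ) (hw : c.B.eval w ≠ 0) :
    (c.A ^ k - c.B ^ k).rootMultiplicity w =
      if (c.A.eval w / c.B.eval w) ^ k = 1 then
        (c.A - C (c.A.eval w / c.B.eval w) * c.B).rootMultiplicity w else 0 := by
  set ζ := c.A.eval w / c.B.eval w with hζ
  have hA : c.A.eval w = ζ * c.B.eval w := by rw [hζ]; field_simp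
  split_ifs with h1
  · have hζ0 : ζ ≠ 0 := by
      rintro h0
      rw [h0, zero_pow hk.ne'] at h1
      exact zero_ne_one h1
    have hfac : c.A ^ k - c.B ^ k =
        (∑ i ∈ Finset.range k, c.A ^ i * (C ζ * c.B) ^ (k - 1 - i)) * (c.A - C ζ * c.B) := by
      rw [geom_sum₂_mul, mul_pow, ← C_pow, h1, C_1, one_mul]
    have hcof : (∑ i ∈ Finset.range k, c.A ^ i * (C ζ * c.B) ^ (k - 1 - i)).eval w ≠ 0 := by
      rw [eval_finsetSum]
      have : ∀ i ∈ Finset.range k, (c.A ^ i * (C ζ * c.B) ^ (k - 1 - i)).eval w =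
          (ζ * c.B.eval w) ^ (k - 1) := by
        intro i hi
        rw [Finset.mem_range] at hi
        simp only [eval_mul, eval_pow, eval_C, hA]
        rw [← pow_add]
        congr 1
        omega
      rw [Finset.sum_congr rfl this, Finset.sum_const, Finset.card_range, nsmul_eq_mul]
      exact mul_ne_zero (Nat.cast_ne_zero.2 hk.ne') (pow_ne_zero _ (mul_ne_zero hζ0 hw))
    rw [hfac, rootMultiplicity_mul (by rw [← hfac]; exact c.pow_sub_pow_ne_zero k hk),
      rootMultiplicity_eq_zero hcof, zero_add]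
  · apply rootMultiplicity_eq_zero
    rw [IsRoot.def]
    simp only [eval_sub, eval_pow, hA, mul_pow]
    intro h
    apply h1
    have hb := pow_ne_zero k hw
    apply mul_right_cancel₀ hb
    linear_combination h

end RhoCtx

end Claimed.Agent.R269.Ctr
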