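/-
Row 269, P1 Lemma 5.2, rational functional equation, leaf LF-S5b-rq7 (HOST-FREE).   Statements: helper134.
The case `n > 3` (`β = -γ < 0`) is impossible: local multiplicities + `big_count`.
PROVED by helper283 (statements verbatim; auxiliary lemmas have prefix `rq7_`).

NOTATION.  `A = c.A`, `B = c.B`, `A₊ = psh 1 A`, `B₊ = psh 1 B`;  `mult_w` = `rootMultiplicity w`;  `mult_w(P₊) = mult_{w+1}(P)` (`psh_rootMultiplicity`).
 `h : γ² (A₊^α - B₊^α)(A^α - B^α) A₊^γ B^γ = α² (A₊^γ - B₊^γ)(A^γ - B^γ) A^α B₊^α`, all factors `≠ 0`, so (`rootMultiplicity_mul`, `rootMultiplicity_pow`…)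
   `mult(A₊^α-B₊^α) + mult(A^α-B^α) + γ mult(A₊) + γ mult(B) = mult(A₊^γ-B₊^γ) + mult(A^γ-B^γ) + α mult(A) + α mult(B₊)`   at every `w`.     (M)
PLAN.  Let `B₊(w) = 0` (i.e. `w + 1` is a pole).  Then `A₊(w) ≠ 0` and `A₊^k - B₊^k` does not vanish at `w`, so (M) reads
   `mult(A^α-B^α) + γ mult(B) = mult(A^γ-B^γ) + α mult(A) + α mult(B₊)`.
 * `pole_pole`: if also `B(w) = 0` then `A(w) ≠ 0`, `A^k - B^k ≠ 0` at `w`:  `γ mult_w(B) = α mult_{w+1}(B)`.
 * `pole_pre`: if `B(w) ≠ 0`: put `ζ = A(w)/B(w)`.  The left side is positive, so `ζ^α = 1` (`RhoCtx.mult_pow_sub_pow`), in particular `A(w) ≠ 0`.  If `ζ^γ = 1` then both multiplicities are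
   `mult_w(A - ζ B)` and `α mult(B₊) = 0`: contradiction.  So `ζ^γ ≠ 1` (hence `ζ ≠ 1`) and `mult_w(A - ζ B) = α mult_{w+1}(B)`.
 * `big_false`: `big_count` with `P := B.roots.toFinset`, `b w := mult_w B`, `e u := mult_u (A - C (A(u)/B(u)) B)`.  `hs`: `sum_mult_eq`.  `hRH`: `RhoCtx.rh` for
   `T := P ∪ image (· - 1) St` (disjoint), multiplicities `b` on `P`, `e` on the image (`mult_pole_le`, `mult_fibre_le`).  `hfib`: for `α = 2`, `ζ² = 1`, `ζ ≠ 1` give `ζ = -1`; `sum_mult_le` for `A - C (-1) B`, of degree `s`.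
-/
import Claimed.Agent.R269.S5.RatEqBasic
import Claimed.Agent.R269.S5.RatEqRH
import Claimed.Agent.R269.S5.RatEqCount

set_option autoImplicit false

namespace Claimed.Agent.R269.Ctr

open Polynomial

/-- the hypothesis: polynomial form of (5.6) for `β = -γ`. -/
def BigEq (c : RhoCtx) (α γ : ℕ) : Prop :=
  C ((γ : ℂ) ^ 2) * (psh 1 c.A ^ α - psh 1 c.B ^ α) * (c.A ^ α - c.B ^ α) * psh 1 c.A ^ γ * c.B ^ γ =
    C ((α : ℂ) ^ 2) * (psh 1 c.A ^ γ - psh 1 c.B ^ γ) * (c.A ^ γ - c.B ^ γ) * c.A ^ α * psh 1 c.B ^ α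

theorem rq7_BigEq_eqns_cite : True := by
  have := @BigEq.eq_1
  trivial

theorem rq7_mult_pow (P : Polynomial ℂ) (hP : P ≠ 0) (k : ℕ) (w : ℂ) :
    (P ^ k).rootMultiplicity w = k * P.rootMultiplicity w := by
  induction k with
  | zero => rw [pow_zero, ← C_1, rootMultiplicity_C, zero_mul]
  | succ k ih =>
    rw [pow_succ, rootMultiplicity_mul (mul_ne_zero (pow_ne_zero k hP) hP), ih]
    ring

/-- the shifted context. -/
theorem rq7_exists_shift (c : RhoCtx) :
    ∃ c' : RhoCtx, c'.A = psh 1 c.A ∧ c'.B = psh 1 c.B ∧ c'.s = c.s :=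
  ⟨⟨psh 1 c.A, psh 1 c.B, c.s, psh_isCoprime 1 c.cop, c.hs, by rw [psh_natDegree, c.degA],
    by rw [psh_natDegree, c.degB], by rw [psh_leadingCoeff, psh_leadingCoeff, c.lc]⟩, rfl, rfl, rfl⟩

/-- (M) -/
theorem rq7_M (c : RhoCtx) (α γ : ℕ) (hγ : 1 ≤ γ) (hα : 1 ≤ α) (h : BigEq c α γ) (w : ℂ) :
    (psh 1 c.A ^ α - psh 1 c.B ^ α).rootMultiplicity w + (c.A ^ α - c.B ^ α).rootMultiplicity w +
        γ * (psh 1 c.A).rootMultiplicity w + γ * c.B.rootMultiplicity w =
      (psh 1 c.A ^ γ - psh 1 c.B ^ γ).rootMultiplicity w + (c.A ^ γ - c.B ^ γ).rootMultiplicity w +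
        α * c.A.rootMultiplicity w + α * (psh 1 c.B).rootMultiplicity w := by
  obtain ⟨c', hA', hB', -⟩ := rq7_exists_shift c
  have a1 : psh 1 c.A ≠ 0 := hA' ▸ c'.A_ne_zero
  have a2 : psh 1 c.B ≠ 0 := hB' ▸ c'.B_ne_zero
  have a3 := c.A_ne_zero
  have a4 := c.B_ne_zero
  have n1 : psh 1 c.A ^ α - psh 1 c.B ^ α ≠ 0 := by
    rw [← hA', ← hB']; exact c'.pow_sub_pow_ne_zero α hα
  have n2 : psh 1 c.A ^ γ - psh 1 c.B ^ γ ≠ 0 := by
    rw [← hA', ← hB']; exact c'.pow_sub_pow_ne_zero γ hγ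
  have n3 := c.pow_sub_pow_ne_zero α hα
  have n4 := c.pow_sub_pow_ne_zero γ hγ
  have k1 : C ((γ : ℂ) ^ 2) ≠ 0 := by
    rw [Ne, C_eq_zero]; exact pow_ne_zero 2 (Nat.cast_ne_zero.2 (by omega))
  have k2 : C ((α : ℂ) ^ 2) ≠ 0 := by
    rw [Ne, C_eq_zero]; exact pow_ne_zero 2 (Nat.cast_ne_zero.2 (by omega))
  have e := congrArg (rootMultiplicity w) h
  rw [rootMultiplicity_mul (by positivity), rootMultiplicity_mul (by positivity),
    rootMultiplicity_mul (by positivity), rootMultiplicity_mul (by positivity),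
    rootMultiplicity_mul (by positivity), rootMultiplicity_mul (by positivity),
    rootMultiplicity_mul (by positivity), rootMultiplicity_mul (by positivity),
    rootMultiplicity_C, rootMultiplicity_C, rq7_mult_pow _ a1, rq7_mult_pow _ a2,
    rq7_mult_pow _ a3, rq7_mult_pow _ a4] at e
  omega

/-- what (M) says when `w + 1` is a pole. -/
theorem rq7_M_pole (c : RhoCtx) (α γ : ℕ) (hγ : 1 ≤ γ) (hα : 1 ≤ α) (h : BigEq c α γ) (w : ℂ)
    (hw1 : c.B.eval (w + 1) = 0) :
    (c.A ^ α - c.B ^ α).rootMultiplicity w + γ * c.B.rootMultiplicity w =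
      (c.A ^ γ - c.B ^ γ).rootMultiplicity w + α * c.A.rootMultiplicity w +
        α * c.B.rootMultiplicity (w + 1) := by
  obtain ⟨c', hA', hB', -⟩ := rq7_exists_shift c
  have hM := rq7_M c α γ hγ hα h w
  have hB0 : c'.B.eval w = 0 := by
    rw [hB', psh_eval]; simpa using hw1
  have z1 : (psh 1 c.A ^ α - psh 1 c.B ^ α).rootMultiplicity w = 0 := by
    rw [← hA', ← hB']
    exact rootMultiplicity_eq_zero (c'.eval_pow_sub_pow_ne_zero α hα w hB0)
  have z2 : (psh 1 c.A ^ γ - psh 1 c.B ^ γ).rootMultiplicity w = 0 := by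
    rw [← hA', ← hB']
    exact rootMultiplicity_eq_zero (c'.eval_pow_sub_pow_ne_zero γ hγ w hB0)
  have z3 : (psh 1 c.A).rootMultiplicity w = 0 := by
    rw [← hA']
    exact rootMultiplicity_eq_zero (c'.rq2_eval_A_ne_zero w hB0)
  have z4 : (psh 1 c.B).rootMultiplicity w = c.B.rootMultiplicity (w + 1) := by
    rw [psh_rootMultiplicity]; simp
  rw [z1, z2, z3, z4] at hM
  omega

theorem pole_pole (c : RhoCtx) (α γ : ℕ) (hγ : 1 ≤ γ) (hα : 1 ≤ α) (h : BigEq c α γ) (w : ℂ)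
    (hw1 : c.B.eval (w + 1) = 0) (hw : c.B.eval w = 0) :
    γ * c.B.rootMultiplicity w = α * c.B.rootMultiplicity (w + 1) := by
  have hM := rq7_M_pole c α γ hγ hα h w hw1
  have z1 : (c.A ^ α - c.B ^ α).rootMultiplicity w = 0 :=
    rootMultiplicity_eq_zero (c.eval_pow_sub_pow_ne_zero α hα w hw)
  have z2 : (c.A ^ γ - c.B ^ γ).rootMultiplicity w = 0 :=
    rootMultiplicity_eq_zero (c.eval_pow_sub_pow_ne_zero γ hγ w hw)
  have z3 : c.A.rootMultiplicity w = 0 := rootMultiplicity_eq_zero (c.rq2_eval_A_ne_zero w hw)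
  rw [z1, z2, z3] at hM
  omega

theorem pole_pre (c : RhoCtx) (α γ : ℕ) (hγ : 1 ≤ γ) (hα : 1 ≤ α) (h : BigEq c α γ) (w : ℂ)
    (hw1 : c.B.eval (w + 1) = 0) (hw : c.B.eval w ≠ 0) :
    (c.A.eval w / c.B.eval w) ^ α = 1 ∧ c.A.eval w / c.B.eval w ≠ 1 ∧
      (c.A - C (c.A.eval w / c.B.eval w) * c.B).rootMultiplicity w = α * c.B.rootMultiplicity (w + 1) := by
  have hM := rq7_M_pole c α γ hγ hα h w hw1
  have z1 : c.B.rootMultiplicity w = 0 := rootMultiplicity_eq_zero hw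
  have p1 : 1 ≤ c.B.rootMultiplicity (w + 1) := (rootMultiplicity_pos c.B_ne_zero).2 hw1
  have p2 : 1 ≤ α * c.B.rootMultiplicity (w + 1) := Nat.mul_pos hα p1
  rw [z1, c.mult_pow_sub_pow α hα w hw, c.mult_pow_sub_pow γ hγ w hw] at hM
  set ζ := c.A.eval w / c.B.eval w with hζ
  by_cases h1 : ζ ^ α = 1
  · rw [if_pos h1] at hM
    have hζ0 : ζ ≠ 0 := by
      rintro h0
      rw [h0, zero_pow (by omega)] at h1
      exact zero_ne_one h1
    have hA0 : c.A.eval w ≠ 0 := by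
      intro h0
      apply hζ0
      rw [hζ, h0, zero_div]
    have z2 : c.A.rootMultiplicity w = 0 := rootMultiplicity_eq_zero hA0
    rw [z2] at hM
    by_cases h2 : ζ ^ γ = 1
    · rw [if_pos h2] at hM
      omega
    · rw [if_neg h2] at hM
      refine ⟨h1, ?_, by omega⟩
      rintro h3
      rw [h3, one_pow] at h2
      exact h2 rfl
  · rw [if_neg h1] at hM
    omega

theorem big_false (c : RhoCtx) (α γ : ℕ) (hγ : 1 ≤ γ) (hαγ : γ < α) (hcop : Nat.Coprime α γ)
    (h : BigEq c α γ) : False := by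
  classical
  have hα : 1 ≤ α := by omega
  set P := c.B.roots.toFinset with hPdef
  have hmem : ∀ w, w ∈ P ↔ c.B.eval w = 0 := by
    intro w
    rw [hPdef, Multiset.mem_toFinset, mem_roots c.B_ne_zero, IsRoot.def]
  set b : ℂ → ℕ := fun w => c.B.rootMultiplicity w with hb
  set e : ℂ → ℕ := fun u => (c.A - C (c.A.eval u / c.B.eval u) * c.B).rootMultiplicity u with he
  set St := P.filter (fun w => w - 1 ∉ P) with hSt
  have hpre : ∀ w ∈ St, (c.A.eval (w - 1) / c.B.eval (w - 1)) ^ α = 1 ∧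
      c.A.eval (w - 1) / c.B.eval (w - 1) ≠ 1 ∧ e (w - 1) = α * b w := by
    intro w hw
    rw [hSt, Finset.mem_filter, hmem, hmem] at hw
    have := pole_pre c α γ hγ hα h (w - 1) (by rw [sub_add_cancel]; exact hw.1) hw.2
    rwa [sub_add_cancel] at this
  have hinj : Set.InjOn (fun w : ℂ => w - 1) St := fun x _ y _ hxy => sub_left_injective hxy
  have hdisj : Disjoint P (St.image (fun w => w - 1)) := by
    rw [Finset.disjoint_right]
    intro u hu
    rw [Finset.mem_image] at hu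
    obtain ⟨w, hw, rfl⟩ := hu
    exact (Finset.mem_filter.1 hw).2
  have hs : ∑ w ∈ P, b w = c.s := by
    rw [← c.degB]
    exact sum_mult_eq c.B c.B_ne_zero P (fun w hw => (hmem w).2 hw)
  refine big_count P b e c.s α γ hγ hαγ hcop ?_ ?_ hs ?_ ?_ ?_ ?_
  · have hdeg : c.B.degree ≠ 0 := by
      intro h0
      have h00 : c.B.natDegree = 0 := natDegree_eq_of_degree_eq_some h0
      have h1 := c.degB
      have := c.hs
      omega
    obtain ⟨w, hw⟩ := IsAlgClosed.exists_root c.B hdeg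
    exact ⟨w, (hmem w).2 hw⟩
  · intro w hw
    exact (rootMultiplicity_pos c.B_ne_zero).2 ((hmem w).1 hw)
  · intro w hw hw1
    have := pole_pole c α γ hγ hα h (w - 1) (by rw [sub_add_cancel]; exact (hmem w).1 hw)
      ((hmem _).1 hw1)
    rwa [sub_add_cancel] at this
  · intro w hw hw1
    exact (hpre w (Finset.mem_filter.2 ⟨hw, hw1⟩)).2.2
  · have hrh := c.rh (P ∪ St.image (fun w => w - 1)) (fun u => if u ∈ P then b u else e u) (by
      intro u _
      by_cases hu : u ∈ P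
      · simp only [if_pos hu]; exact c.mult_pole_le u
      · simp only [if_neg hu]; exact c.mult_fibre_le _ u)
    rw [Finset.sum_union hdisj, Finset.card_union_of_disjoint hdisj, Finset.card_image_of_injOn hinj,
      Finset.sum_image hinj] at hrh
    have e1 : ∑ x ∈ P, (if x ∈ P then b x else e x) = c.s := by
      rw [← hs]
      exact Finset.sum_congr rfl (fun x hx => by rw [if_pos hx])
    have e2 : ∑ x ∈ St, (if x - 1 ∈ P then b (x - 1) else e (x - 1)) = ∑ x ∈ St, e (x - 1) :=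
      Finset.sum_congr rfl (fun x hx => by rw [if_neg (Finset.mem_filter.1 hx).2])
    rw [e1, e2] at hrh
    change ∑ w ∈ St, e (w - 1) + c.s + 2 ≤ 2 * c.s + St.card + P.card
    omega
  · intro hα2
    change ∑ w ∈ St, e (w - 1) ≤ c.s
    have e1 : ∑ w ∈ St, e (w - 1) = ∑ w ∈ St, (c.A - C (-1) * c.B).rootMultiplicity (w - 1) := by
      apply Finset.sum_congr rfl
      intro w hw
      obtain ⟨q1, q2, -⟩ := hpre w hw
      rw [hα2] at q1
      have : c.A.eval (w - 1) / c.B.eval (w - 1) = -1 := by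
        have hz : (c.A.eval (w - 1) / c.B.eval (w - 1) - 1) *
            (c.A.eval (w - 1) / c.B.eval (w - 1) + 1) = 0 := by linear_combination q1
        rcases mul_eq_zero.1 hz with h | h
        · exact absurd (sub_eq_zero.1 h) q2
        · linear_combination h
      simp only [he, this]
    have e2 := Finset.sum_image (s := St) (g := fun w : ℂ => w - 1)
      (f := fun u => (c.A - C (-1) * c.B).rootMultiplicity u) hinj
    rw [e1]
    refine le_trans (le_of_eq e2.symm) ?_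
    have := sum_mult_le (c.A - C (-1) * c.B) (c.fibre_ne_zero (-1)) (St.image (fun w => w - 1))
    rwa [c.fibre_natDegree (-1) (by norm_num)] at this

end Claimed.Agent.R269.Ctr
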