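/-
Row 269, P1 Lemma 5.2, rational functional equation, leaf LF-S5b-rq5 (HOST-FREE).   Statements: helper134.
The case `n = 2` (`d = 1, α = 5, β = 1`) is impossible.
PROVED by helper283 (statement verbatim; auxiliary lemmas `rq5_*`; the four fibres are treated at once through the cofactor `G = (A⁵-B⁵)/(A-B)`, of degree `4s`).

PLAN (multiplicities).  `A = c.A`, `B = c.B`, `A₊ = psh 1 A`, `B₊ = psh 1 B`.   `h : (A₊⁵ - B₊⁵)(A⁵ - B⁵) = 25 (A₊ - B₊)(A - B) B₊⁴ A⁴`.
 Let `ζ ≠ 1`, `ζ⁵ = 1`, and `w` a root of `A - ζ B` of multiplicity `e ≥ 1`.  Then `B(w) ≠ 0`, `A(w) ≠ 0`, `(A-B)(w) ≠ 0`.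
 Compare `rootMultiplicity w` of both sides (`rootMultiplicity_mul`, `psh_rootMultiplicity`, `RhoCtx.mult_pow_sub_pow` for `c` at `w` and at `w+1`):
   `mult_w(A₊⁵ - B₊⁵) + e = mult_w(A₊ - B₊) + 4 mult_w(B₊)`.
 If `B₊(w) ≠ 0`: `mult_w(A₊⁵-B₊⁵) ≥ mult_w(A₊-B₊)` (divisibility) gives `e ≤ 0`.  So `B₊(w) = 0`, the other two multiplicities vanish, `e = 4 mult_w(B₊)`, `4 ∣ e`, `e ≥ 4`,
 so `e ≤ mult_w(wr) + 1` gives `3 e ≤ 4 mult_w(wr)`.   Sum over all roots of the four (pairwise coprime, so with disjoint root sets) polynomials `A - ζ B`, each of degree `s`: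
   `3 · 4 s ≤ 4 ∑ mult(wr) ≤ 4 (2 s - 2)`: contradiction.
-/
import Claimed.Agent.R269.S5.RatEqBasic
import Claimed.Agent.R269.S5.RatEqRH

set_option autoImplicit false

namespace Claimed.Agent.R269.Ctr

open Polynomial

theorem rq5_mult_pow (P : Polynomial ℂ) (hP : P ≠ 0) (k : ℕ) (w : ℂ) :
    (P ^ k).rootMultiplicity w = k * P.rootMultiplicity w := by
  induction k with
  | zero => rw [pow_zero, ← C_1, rootMultiplicity_C, zero_mul]
  | succ k ih =>
    rw [pow_succ, rootMultiplicity_mul (mul_ne_zero (pow_ne_zero k hP) hP), ih]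
    ring

theorem rq5_exists_shift (c : RhoCtx) :
    ∃ c' : RhoCtx, c'.A = psh 1 c.A ∧ c'.B = psh 1 c.B ∧ c'.s = c.s :=
  ⟨⟨psh 1 c.A, psh 1 c.B, c.s, psh_isCoprime 1 c.cop, c.hs, by rw [psh_natDegree, c.degA],
    by rw [psh_natDegree, c.degB], by rw [psh_leadingCoeff, psh_leadingCoeff, c.lc]⟩, rfl, rfl, rfl⟩

theorem rq5_sub_ne_zero (c : RhoCtx) : c.A - c.B ≠ 0 := by
  have := c.fibre_ne_zero 1
  simpa using this

theorem rq5_coeff (c : RhoCtx) (i j : ℕ) :
    (c.A ^ i * c.B ^ j).coeff (i * c.s + j * c.s) = c.B.coeff c.s ^ (i + j) := by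
  have hA : c.A.natDegree ≤ c.s := le_of_eq c.degA
  have hB : c.B.natDegree ≤ c.s := le_of_eq c.degB
  have hlc : c.A.coeff c.s = c.B.coeff c.s := by
    have := c.lc
    rw [leadingCoeff, leadingCoeff, c.degA, c.degB] at this
    exact this
  rw [coeff_mul_add_eq_of_natDegree_le (natDegree_pow_le_of_le i hA) (natDegree_pow_le_of_le j hB),
    coeff_pow_of_natDegree_le hA, coeff_pow_of_natDegree_le hB, hlc, pow_add]

/-- the cofactor `G = (A⁵ - B⁵)/(A - B)`. -/
theorem rq5_G_natDegree (c : RhoCtx) :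
    4 * c.s ≤ (c.A ^ 4 + c.A ^ 3 * c.B + c.A ^ 2 * c.B ^ 2 + c.A * c.B ^ 3 + c.B ^ 4).natDegree := by
  apply le_natDegree_of_ne_zero
  have hb : c.B.coeff c.s ≠ 0 := by
    have := leadingCoeff_ne_zero.2 c.B_ne_zero
    rwa [leadingCoeff, c.degB] at this
  have t0 := rq5_coeff c 4 0
  have t1 := rq5_coeff c 3 1
  have t2 := rq5_coeff c 2 2
  have t3 := rq5_coeff c 1 3
  have t4 := rq5_coeff c 0 4
  have e0 : 4 * c.s + 0 * c.s = 4 * c.s := by ring
  have e1 : 3 * c.s + 1 * c.s = 4 * c.s := by ring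
  have e2 : 2 * c.s + 2 * c.s = 4 * c.s := by ring
  have e3 : 1 * c.s + 3 * c.s = 4 * c.s := by ring
  have e4 : 0 * c.s + 4 * c.s = 4 * c.s := by ring
  rw [e0] at t0; rw [e1] at t1; rw [e2] at t2; rw [e3] at t3; rw [e4] at t4
  simp only [pow_zero, pow_one, mul_one, one_mul] at t0 t1 t2 t3 t4
  rw [coeff_add, coeff_add, coeff_add, coeff_add, t0, t1, t2, t3, t4]
  have : c.B.coeff c.s ^ 4 ≠ 0 := pow_ne_zero 4 hb
  intro h
  apply this
  linear_combination h / 5

theorem n2_false (c : RhoCtx)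
    (h : (psh 1 c.A ^ 5 - psh 1 c.B ^ 5) * (c.A ^ 5 - c.B ^ 5) =
      C ((5 : ℂ) ^ 2) * (psh 1 c.A - psh 1 c.B) * (c.A - c.B) * psh 1 c.B ^ (5 - 1) * c.A ^ (5 - 1)) : False := by
  obtain ⟨c', hA', hB', -⟩ := rq5_exists_shift c
  set G := c.A ^ 4 + c.A ^ 3 * c.B + c.A ^ 2 * c.B ^ 2 + c.A * c.B ^ 3 + c.B ^ 4 with hG
  have hfac : c.A ^ 5 - c.B ^ 5 = G * (c.A - c.B) := by rw [hG]; ring
  have a1 : psh 1 c.A ≠ 0 := hA' ▸ c'.A_ne_zero
  have a2 : psh 1 c.B ≠ 0 := hB' ▸ c'.B_ne_zero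
  have a3 := c.A_ne_zero
  have a4 := c.B_ne_zero
  have n1 : psh 1 c.A ^ 5 - psh 1 c.B ^ 5 ≠ 0 := by
    rw [← hA', ← hB']; exact c'.pow_sub_pow_ne_zero 5 (by norm_num)
  have n2 : psh 1 c.A - psh 1 c.B ≠ 0 := by
    rw [← hA', ← hB']; exact rq5_sub_ne_zero c'
  have n3 := c.pow_sub_pow_ne_zero 5 (by norm_num)
  have n4 := rq5_sub_ne_zero c
  have hG0 : G ≠ 0 := by
    rintro h0
    rw [h0, zero_mul] at hfac
    exact n3 hfac
  have k1 : C ((5 : ℂ) ^ 2) ≠ 0 := by
    rw [Ne, C_eq_zero]; norm_num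
  -- the local inequality
  have hloc : ∀ w, G.IsRoot w → 3 * G.rootMultiplicity w ≤ 4 * (wr c.A c.B).rootMultiplicity w := by
    intro w hw
    have hGw : c.A.eval w ^ 4 + c.A.eval w ^ 3 * c.B.eval w + c.A.eval w ^ 2 * c.B.eval w ^ 2 +
        c.A.eval w * c.B.eval w ^ 3 + c.B.eval w ^ 4 = 0 := by
      have := hw
      rw [IsRoot.def, hG] at this
      simpa using this
    have hB : c.B.eval w ≠ 0 := by
      intro h0
      rw [h0] at hGw
      have : c.A.eval w ^ 4 = 0 := by linear_combination hGw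
      exact c.rq2_eval_A_ne_zero w h0 (pow_eq_zero_iff (by norm_num) |>.1 this)
    have hAB : (c.A - c.B).eval w ≠ 0 := by
      intro h0
      have h1 : c.A.eval w = c.B.eval w := by
        rw [eval_sub] at h0; exact sub_eq_zero.1 h0
      rw [h1] at hGw
      have : c.B.eval w ^ 4 = 0 := by linear_combination hGw / 5
      exact hB (pow_eq_zero_iff (by norm_num) |>.1 this)
    have hA : c.A.eval w ≠ 0 := by
      intro h0
      rw [h0] at hGw
      have : c.B.eval w ^ 4 = 0 := by linear_combination hGw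
      exact hB (pow_eq_zero_iff (by norm_num) |>.1 this)
    have hζ5 : (c.A.eval w / c.B.eval w) ^ 5 = 1 := by
      rw [div_pow, div_eq_one_iff_eq (pow_ne_zero 5 hB)]
      linear_combination (c.A.eval w - c.B.eval w) * hGw
    have m1 : (c.A ^ 5 - c.B ^ 5).rootMultiplicity w = G.rootMultiplicity w := by
      rw [hfac, rootMultiplicity_mul (mul_ne_zero hG0 n4), rootMultiplicity_eq_zero hAB, add_zero]
    have m2 : G.rootMultiplicity w =
        (c.A - C (c.A.eval w / c.B.eval w) * c.B).rootMultiplicity w := by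
      rw [← m1, c.mult_pow_sub_pow 5 (by norm_num) w hB, if_pos hζ5]
    have m3 : G.rootMultiplicity w ≤ (wr c.A c.B).rootMultiplicity w + 1 := by
      rw [m2]; exact c.mult_fibre_le _ w
    have m4 : 1 ≤ G.rootMultiplicity w := (rootMultiplicity_pos hG0).2 hw
    have e := congrArg (rootMultiplicity w) h
    have r1 := mul_ne_zero k1 n2
    have r2 := mul_ne_zero r1 n4
    have r3 := mul_ne_zero r2 (pow_ne_zero (5 - 1) a2)
    have r4 := mul_ne_zero r3 (pow_ne_zero (5 - 1) a3)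
    rw [rootMultiplicity_mul (mul_ne_zero n1 n3), rootMultiplicity_mul r4,
      rootMultiplicity_mul r3, rootMultiplicity_mul r2,
      rootMultiplicity_mul r1, rootMultiplicity_C, rq5_mult_pow _ a2,
      rq5_mult_pow _ a3, m1, rootMultiplicity_eq_zero hAB, rootMultiplicity_eq_zero hA] at e
    by_cases hB1 : (psh 1 c.B).eval w = 0
    · have hB0 : c'.B.eval w = 0 := by rw [hB']; exact hB1
      have y1 := c'.eval_pow_sub_pow_ne_zero 5 (by norm_num) w hB0
      rw [hA', hB'] at y1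
      have z1 : (psh 1 c.A ^ 5 - psh 1 c.B ^ 5).rootMultiplicity w = 0 :=
        rootMultiplicity_eq_zero y1
      have y2 := c'.rq2_eval_A_ne_zero w hB0
      rw [hA'] at y2
      have z2 : (psh 1 c.A - psh 1 c.B).rootMultiplicity w = 0 := by
        apply rootMultiplicity_eq_zero
        rw [IsRoot.def, eval_sub, hB1, sub_zero]
        exact y2
      rw [z1, z2] at e
      omega
    · have z1 : (psh 1 c.B).rootMultiplicity w = 0 := rootMultiplicity_eq_zero hB1
      have z2 : (psh 1 c.A - psh 1 c.B).rootMultiplicity w ≤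
          (psh 1 c.A ^ 5 - psh 1 c.B ^ 5).rootMultiplicity w :=
        rootMultiplicity_le_rootMultiplicity_of_dvd n1 (sub_dvd_pow_sub_pow _ _ 5) w
      rw [z1] at e
      omega
  have s1 := sum_mult_eq G hG0 G.roots.toFinset (fun w hw => by
    rw [Multiset.mem_toFinset, mem_roots hG0]; exact hw)
  have s2 := sum_mult_le (wr c.A c.B) c.wr_ne_zero G.roots.toFinset
  have s3 : 3 * ∑ w ∈ G.roots.toFinset, G.rootMultiplicity w ≤
      4 * ∑ w ∈ G.roots.toFinset, (wr c.A c.B).rootMultiplicity w := by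
    rw [Finset.mul_sum, Finset.mul_sum]
    apply Finset.sum_le_sum
    intro w hw
    rw [Multiset.mem_toFinset, mem_roots hG0] at hw
    exact hloc w hw
  have s4 := rq5_G_natDegree c
  have s5 := c.wr_natDegree_le
  have s6 := c.hs
  rw [← hG] at s4
  omega

end Claimed.Agent.R269.Ctr
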