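/-
Row 269, P1 Lemma 5.2, rational functional equation, leaf LF-S5b-rq3 (HOST-FREE).   Statements: helper134.
From the two rational leading profiles `rp ~ ξ^{3+n}`, `rm ~ ξ^{3-n}` to `R ~ ξ^d`, `ρ = R(w+1)/R(w) = A/B` and the polynomial equations.
PROVED by helper283 (statements verbatim; auxiliary lemmas have prefix `rq3_`).

NOTATION.  `Dp = 3+n = d α`, `Dm = 3-n = d β`, `gcd(α,β) = 1`.
PLAN.  * `exists_R`: Bezout `u α + v β = 1`; `R := rp^u rm^v`.  With `hpow β α`: `rp^β = c rm^α`.  Then `R^α = rp^{uα} rm^{vα} = rp^{1 - vβ} rm^{vα} = rp (rm^α/rp^β)^v`,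
   `R^β = rm (rp^β/rm^α)^u`.  `intDegree` is additive (`RatFunc.intDegree_mul`, `intDegree_inv`; prove the `zpow` rule): `deg R = u Dp + v Dm = d`.
 * `rho_eq`: substitute `rp = κp R^α`, `rm = κm R^β` in `heq`, divide by `d² κp² κm² R^{2α+2β}`; `σ := R(w-1)/R(w)`:
     `(ρ^α - 1)(σ^α - 1) β² = (ρ^β - 1)(σ^β - 1) α²`;  apply `rsh 1` (`rsh 1 σ = ρ⁻¹`).
 * `poly_eq_one`, `poly_eq_neg`: put `ρ = A/B`, `rsh 1 ρ = A₊/B₊` and clear denominators (`field_simp`), all of `A, B, A₊, B₊ ≠ 0`.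
-/
import Claimed.Agent.R269.S5.RatEqBasic
import Claimed.Agent.R269.S5.RatEqRH

set_option autoImplicit false

namespace Claimed.Agent.R269.Ctr

open Polynomial

theorem rq3_intDegree_pow (r : RatFunc ℂ) (hr : r ≠ 0) (k : ℕ) :
    (r ^ k).intDegree = k * r.intDegree := by
  induction k with
  | zero => simp
  | succ k ih =>
    rw [pow_succ, RatFunc.intDegree_mul (pow_ne_zero k hr) hr, ih]
    push_cast
    ring

theorem intDegree_zpow (r : RatFunc ℂ) (hr : r ≠ 0) (m : ℤ) : (r ^ m).intDegree = m * r.intDegree := by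
  rcases Int.eq_nat_or_neg m with ⟨k, rfl | rfl⟩
  · rw [zpow_natCast, rq3_intDegree_pow r hr]
  · rw [zpow_neg, zpow_natCast, RatFunc.intDegree_inv, rq3_intDegree_pow r hr]
    ring

/-- the common root `R ~ ξ^d`. -/
theorem exists_R (rp rm : RatFunc ℂ) (hp : rp ≠ 0) (hm : rm ≠ 0) (Dp Dm d α β : ℤ) (hd : d ≠ 0)
    (hα : Dp = d * α) (hβ : Dm = d * β) (hcop : IsCoprime α β)
    (hdp : rp.intDegree = Dp) (hdm : rm.intDegree = Dm)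
    (hpow : ∃ c : ℂ, c ≠ 0 ∧ rp ^ β = RatFunc.C c * rm ^ α) :
    ∃ (R : RatFunc ℂ) (κp κm : ℂ), R ≠ 0 ∧ κp ≠ 0 ∧ κm ≠ 0 ∧ R.intDegree = d ∧
      rp = RatFunc.C κp * R ^ α ∧ rm = RatFunc.C κm * R ^ β := by
  obtain ⟨u, v, huv⟩ := hcop
  obtain ⟨c, hc, hpow⟩ := hpow
  have hC : RatFunc.C c ≠ 0 := by rw [Ne, map_eq_zero]; exact hc
  refine ⟨rp ^ u * rm ^ v, c ^ v, c ^ (-u), mul_ne_zero (zpow_ne_zero u hp) (zpow_ne_zero v hm),
    zpow_ne_zero v hc, zpow_ne_zero _ hc, ?_, ?_, ?_⟩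
  · rw [RatFunc.intDegree_mul (zpow_ne_zero u hp) (zpow_ne_zero v hm), intDegree_zpow _ hp,
      intDegree_zpow _ hm, hdp, hdm, hα, hβ]
    linear_combination d * huv
  · -- rp = C c ^ v * (rp^u rm^v)^α
    rw [map_zpow₀, mul_zpow, ← zpow_mul, ← zpow_mul]
    have e1 : u * α = 1 - β * v := by linear_combination huv
    have e2 : v * α = α * v := mul_comm _ _
    rw [e1, e2, zpow_sub₀ hp, zpow_one, zpow_mul, zpow_mul, hpow, mul_zpow]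
    have h1 := zpow_ne_zero v hC
    have h2 := zpow_ne_zero v (zpow_ne_zero α hm)
    field_simp
  · rw [map_zpow₀, mul_zpow, ← zpow_mul, ← zpow_mul]
    have e1 : v * β = 1 - α * u := by linear_combination huv
    have e2 : u * β = β * u := mul_comm _ _
    rw [e1, e2, zpow_sub₀ hm, zpow_one, zpow_mul, zpow_mul, hpow, mul_zpow, zpow_neg]
    have h1 := zpow_ne_zero u hC
    have h2 := zpow_ne_zero u (zpow_ne_zero α hm)
    field_simp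

/-- the equation (5.6) for `ρ = R(w+1)/R(w)`. -/
theorem rho_eq (R : RatFunc ℂ) (hR : R ≠ 0) (κp κm : ℂ) (hκp : κp ≠ 0) (hκm : κm ≠ 0) (d α β : ℤ) (hd : d ≠ 0)
    (heq : (rsh 1 (RatFunc.C κp * R ^ α) - RatFunc.C κp * R ^ α) *
        (rsh (-1) (RatFunc.C κp * R ^ α) - RatFunc.C κp * R ^ α) * ((d * β : ℤ) : RatFunc ℂ) ^ 2 *
        (RatFunc.C κm * R ^ β) ^ 2 =
      (rsh 1 (RatFunc.C κm * R ^ β) - RatFunc.C κm * R ^ β) *
        (rsh (-1) (RatFunc.C κm * R ^ β) - RatFunc.C κm * R ^ β) * ((d * α : ℤ) : RatFunc ℂ) ^ 2 *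
        (RatFunc.C κp * R ^ α) ^ 2)
    (ρ : RatFunc ℂ) (hρ : rsh 1 R = ρ * R) :
    (rsh 1 ρ ^ α - 1) * (ρ ^ (-α) - 1) * (β : RatFunc ℂ) ^ 2 =
      (rsh 1 ρ ^ β - 1) * (ρ ^ (-β) - 1) * (α : RatFunc ℂ) ^ 2 := by
  have hρ0 : ρ ≠ 0 := by
    rintro rfl
    rw [zero_mul] at hρ
    exact hR (rsh_injective 1 (by rw [hρ, map_zero]))
  set τ := rsh (-1) ρ with hτ
  have hτ0 : τ ≠ 0 := by
    intro h0
    exact hρ0 (rsh_injective (-1) (by rw [← hτ, h0, map_zero]))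
  have hRm : R = τ * rsh (-1) R := by
    have := congrArg (rsh (-1)) hρ
    rw [rsh_rsh, map_mul] at this
    simpa [rsh_zero] using this
  have hRm' : rsh (-1) R = τ⁻¹ * R := by
    rw [eq_inv_mul_iff_mul_eq₀ hτ0]; exact hRm.symm
  have hCp : RatFunc.C κp ≠ 0 := by rw [Ne, map_eq_zero]; exact hκp
  have hCm : RatFunc.C κm ≠ 0 := by rw [Ne, map_eq_zero]; exact hκm
  have hdd : (d : RatFunc ℂ) ≠ 0 := Int.cast_ne_zero.2 hd
  have hRα := zpow_ne_zero α hR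
  have hRβ := zpow_ne_zero β hR
  simp only [map_mul, rsh_C, map_zpow₀, hρ, hRm', mul_zpow, inv_zpow'] at heq
  push_cast at heq
  -- the equation one step below
  have key : (ρ ^ α - 1) * (τ ^ (-α) - 1) * (β : RatFunc ℂ) ^ 2 =
      (ρ ^ β - 1) * (τ ^ (-β) - 1) * (α : RatFunc ℂ) ^ 2 := by
    have hne : (RatFunc.C κp) ^ 2 * (RatFunc.C κm) ^ 2 * (d : RatFunc ℂ) ^ 2 * (R ^ α) ^ 2 * (R ^ β) ^ 2 ≠ 0 := by
      positivity
    apply mul_left_cancel₀ hne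
    linear_combination heq
  have := congrArg (rsh 1) key
  simp only [map_mul, map_sub, map_zpow₀, map_one, map_pow, map_intCast] at this
  have hτρ : rsh 1 τ = ρ := by
    rw [hτ, rsh_rsh]
    simpa using rsh_zero ρ
  rw [hτρ] at this
  exact this

theorem rq3_field_one {K : Type*} [Field K] (a b a' b' N : K) (ha : a ≠ 0) (hb : b ≠ 0)
    (hb' : b' ≠ 0) (α : ℕ) (hα : 1 ≤ α)
    (h : ((a' / b') ^ (α : ℤ) - 1) * ((a / b) ^ (-(α : ℤ)) - 1) * 1 ^ 2 =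
      ((a' / b') ^ (1 : ℤ) - 1) * ((a / b) ^ (-(1 : ℤ)) - 1) * N ^ 2) :
    (a' ^ α - b' ^ α) * (a ^ α - b ^ α) = N ^ 2 * (a' - b') * (a - b) * b' ^ (α - 1) * a ^ (α - 1) := by
  obtain ⟨k, rfl⟩ : ∃ k, α = k + 1 := ⟨α - 1, by omega⟩
  have e1 : (a' / b') ^ ((k + 1 : ℕ) : ℤ) - 1 = (a' ^ (k + 1) - b' ^ (k + 1)) / b' ^ (k + 1) := by
    rw [zpow_natCast, div_pow]; field_simp
  have e2 : (a / b) ^ (-((k + 1 : ℕ) : ℤ)) - 1 = (b ^ (k + 1) - a ^ (k + 1)) / a ^ (k + 1) := by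
    rw [zpow_neg, zpow_natCast, div_pow]; field_simp
  have e3 : (a' / b') ^ (1 : ℤ) - 1 = (a' - b') / b' := by
    rw [zpow_one]; field_simp
  have e4 : (a / b) ^ (-(1 : ℤ)) - 1 = (b - a) / a := by
    rw [zpow_neg, zpow_one]; field_simp
  rw [e1, e2, e3, e4] at h
  have hk1 := pow_ne_zero k hb'
  have hk2 := pow_ne_zero k ha
  rw [pow_succ b' k, pow_succ a k] at h
  simp only [Nat.add_sub_cancel]
  field_simp at h
  rw [pow_succ b' k, pow_succ a k]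
  linear_combination -h

theorem rq3_field_neg {K : Type*} [Field K] (a b a' b' N M : K) (ha : a ≠ 0) (hb : b ≠ 0)
    (ha' : a' ≠ 0) (hb' : b' ≠ 0) (α γ : ℕ)
    (h : ((a' / b') ^ (α : ℤ) - 1) * ((a / b) ^ (-(α : ℤ)) - 1) * M ^ 2 =
      ((a' / b') ^ (-(γ : ℤ)) - 1) * ((a / b) ^ (-(-(γ : ℤ))) - 1) * N ^ 2) :
    M ^ 2 * (a' ^ α - b' ^ α) * (a ^ α - b ^ α) * a' ^ γ * b ^ γ =
      N ^ 2 * (a' ^ γ - b' ^ γ) * (a ^ γ - b ^ γ) * a ^ α * b' ^ α := by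
  have e1 : (a' / b') ^ (α : ℤ) - 1 = (a' ^ α - b' ^ α) / b' ^ α := by
    rw [zpow_natCast, div_pow]; field_simp
  have e2 : (a / b) ^ (-(α : ℤ)) - 1 = (b ^ α - a ^ α) / a ^ α := by
    rw [zpow_neg, zpow_natCast, div_pow]; field_simp
  have e3 : (a' / b') ^ (-(γ : ℤ)) - 1 = (b' ^ γ - a' ^ γ) / a' ^ γ := by
    rw [zpow_neg, zpow_natCast, div_pow]; field_simp
  have e4 : (a / b) ^ (-(-(γ : ℤ))) - 1 = (a ^ γ - b ^ γ) / b ^ γ := by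
    rw [neg_neg, zpow_natCast, div_pow]; field_simp
  rw [e1, e2, e3, e4] at h
  have h1 := pow_ne_zero α hb'
  have h2 := pow_ne_zero α ha
  have h3 := pow_ne_zero γ ha'
  have h4 := pow_ne_zero γ hb
  generalize a' ^ α = x1 at *
  generalize b' ^ α = x2 at *
  generalize a ^ α = x3 at *
  generalize b ^ α = x4 at *
  generalize a' ^ γ = y1 at *
  generalize b' ^ γ = y2 at *
  generalize a ^ γ = y3 at *
  generalize b ^ γ = y4 at *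
  field_simp at h
  linear_combination -h

theorem rq3_rho_forms (c : RhoCtx) (ρ : RatFunc ℂ)
    (hρ : ρ * algebraMap (Polynomial ℂ) (RatFunc ℂ) c.B = algebraMap (Polynomial ℂ) (RatFunc ℂ) c.A) :
    ρ = algebraMap (Polynomial ℂ) (RatFunc ℂ) c.A / algebraMap (Polynomial ℂ) (RatFunc ℂ) c.B ∧
    rsh 1 ρ = algebraMap (Polynomial ℂ) (RatFunc ℂ) (psh 1 c.A) /
      algebraMap (Polynomial ℂ) (RatFunc ℂ) (psh 1 c.B) := by
  have h1 : ρ = algebraMap (Polynomial ℂ) (RatFunc ℂ) c.A / algebraMap (Polynomial ℂ) (RatFunc ℂ) c.B := by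
    rw [eq_div_iff (rq1_algebraMap_ne_zero c.B_ne_zero)]; exact hρ
  exact ⟨h1, by rw [h1, rq1_rsh_div]⟩

/-- polynomial form, `β = 1`. -/
theorem poly_eq_one (c : RhoCtx) (ρ : RatFunc ℂ)
    (hρ : ρ * algebraMap (Polynomial ℂ) (RatFunc ℂ) c.B = algebraMap (Polynomial ℂ) (RatFunc ℂ) c.A) (α : ℕ) (hα : 1 ≤ α)
    (h : (rsh 1 ρ ^ (α : ℤ) - 1) * (ρ ^ (-(α : ℤ)) - 1) * ((1 : ℤ) : RatFunc ℂ) ^ 2 =
      (rsh 1 ρ ^ (1 : ℤ) - 1) * (ρ ^ (-(1 : ℤ)) - 1) * ((α : ℤ) : RatFunc ℂ) ^ 2) :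
    (psh 1 c.A ^ α - psh 1 c.B ^ α) * (c.A ^ α - c.B ^ α) =
      C ((α : ℂ) ^ 2) * (psh 1 c.A - psh 1 c.B) * (c.A - c.B) * psh 1 c.B ^ (α - 1) * c.A ^ (α - 1) := by
  obtain ⟨e1, e2⟩ := rq3_rho_forms c ρ hρ
  rw [e2, e1, Int.cast_one] at h
  have key := rq3_field_one _ _ _ _ _ (rq1_algebraMap_ne_zero c.A_ne_zero)
    (rq1_algebraMap_ne_zero c.B_ne_zero) (rq1_algebraMap_ne_zero (rq1_psh_ne_zero 1 c.B_ne_zero)) α hα h
  apply rq1_algebraMap_injective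
  simp only [map_mul, map_sub, map_pow, map_natCast]
  rw [key]
  simp only [Int.cast_natCast]

/-- polynomial form, `β = -γ < 0`. -/
theorem poly_eq_neg (c : RhoCtx) (ρ : RatFunc ℂ)
    (hρ : ρ * algebraMap (Polynomial ℂ) (RatFunc ℂ) c.B = algebraMap (Polynomial ℂ) (RatFunc ℂ) c.A) (α γ : ℕ)
    (h : (rsh 1 ρ ^ (α : ℤ) - 1) * (ρ ^ (-(α : ℤ)) - 1) * ((-(γ : ℤ) : ℤ) : RatFunc ℂ) ^ 2 =
      (rsh 1 ρ ^ (-(γ : ℤ)) - 1) * (ρ ^ (-(-(γ : ℤ))) - 1) * ((α : ℤ) : RatFunc ℂ) ^ 2) :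
    C ((γ : ℂ) ^ 2) * (psh 1 c.A ^ α - psh 1 c.B ^ α) * (c.A ^ α - c.B ^ α) * psh 1 c.A ^ γ * c.B ^ γ =
      C ((α : ℂ) ^ 2) * (psh 1 c.A ^ γ - psh 1 c.B ^ γ) * (c.A ^ γ - c.B ^ γ) * c.A ^ α * psh 1 c.B ^ α := by
  obtain ⟨e1, e2⟩ := rq3_rho_forms c ρ hρ
  rw [e2, e1] at h
  have key := rq3_field_neg _ _ _ _ _ _ (rq1_algebraMap_ne_zero c.A_ne_zero)
    (rq1_algebraMap_ne_zero c.B_ne_zero) (rq1_algebraMap_ne_zero (rq1_psh_ne_zero 1 c.A_ne_zero))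
    (rq1_algebraMap_ne_zero (rq1_psh_ne_zero 1 c.B_ne_zero)) α γ h
  apply rq1_algebraMap_injective
  simp only [map_mul, map_sub, map_pow, map_natCast]
  simp only [Int.cast_neg, Int.cast_natCast, neg_sq] at key
  exact key

end Claimed.Agent.R269.Ctr
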