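/-
Row 269, P1 Lemma 5.2, rational functional equation, leaf LF-S5b-rq8 (HOST-FREE): ASSEMBLY.   Statements: helper134.
EXPORTS of the block `RatEq*`:  `rateq_main` (this file), `not_sq` (RatEqN1.lean).
PROVED by helper283 (statement verbatim; auxiliary lemma `rq8_step`).  The whole block `RatEq*` is sorry-free.

PLAN.  `d := Int.gcd (3+n) (3-n) > 0`, `3 + n = d α`, `3 - n = d β`, `IsCoprime α β` (`Int.isCoprime_iff_gcd_eq_one`, `Int.gcd_div_gcd_div_gcd`…).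
 `exists_R` (with `hpow β α`; `β (3+n) = α (3-n)`), substitute in `heq`; `exists_rho R` gives `c : RhoCtx`; `ρ := A/B`; `rho_eq`.
 * `n = 1`: `d = 2`, `α = 2`, `β = 1`: `n1_rho`; `rm = κm R`.
 * `n = 2`: `d = 1`, `α = 5`, `β = 1`: `poly_eq_one`, `n2_false`.
 * `n ≥ 4`: `β < 0`; `γ := (-β).toNat ≥ 1`, `α.toNat > γ` (as `3 + n > n - 3 > 0`), coprime: `poly_eq_neg`, `big_false`.
-/
import Claimed.Agent.R269.S5.RatEqRho
import Claimed.Agent.R269.S5.RatEqN1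
import Claimed.Agent.R269.S5.RatEqN2
import Claimed.Agent.R269.S5.RatEqBig

set_option autoImplicit false

namespace Claimed.Agent.R269.Ctr

theorem rq8_step (n d α β : ℤ) (hd : d ≠ 0) (hα : 3 + n = d * α) (hβ : 3 - n = d * β)
    (hcop : IsCoprime α β) (rp rm : RatFunc ℂ) (hp : rp ≠ 0) (hm : rm ≠ 0)
    (hdp : rp.intDegree = 3 + n) (hdm : rm.intDegree = 3 - n)
    (hpow : ∀ e₁ e₂ : ℤ, e₁ * (3 + n) = e₂ * (3 - n) →
      ∃ c : ℂ, c ≠ 0 ∧ rp ^ e₁ = RatFunc.C c * rm ^ e₂)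
    (heq : (rsh 1 rp - rp) * (rsh (-1) rp - rp) * ((3 - n : ℤ) : RatFunc ℂ) ^ 2 * rm ^ 2 =
      (rsh 1 rm - rm) * (rsh (-1) rm - rm) * ((3 + n : ℤ) : RatFunc ℂ) ^ 2 * rp ^ 2) :
    ∃ (R : RatFunc ℂ) (κm : ℂ) (c : RhoCtx) (ρ : RatFunc ℂ), R ≠ 0 ∧ κm ≠ 0 ∧ R.intDegree = d ∧
      rm = RatFunc.C κm * R ^ β ∧ rsh 1 R = ρ * R ∧
      ρ * algebraMap (Polynomial ℂ) (RatFunc ℂ) c.B = algebraMap (Polynomial ℂ) (RatFunc ℂ) c.A ∧
      (rsh 1 ρ ^ α - 1) * (ρ ^ (-α) - 1) * (β : RatFunc ℂ) ^ 2 =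
        (rsh 1 ρ ^ β - 1) * (ρ ^ (-β) - 1) * (α : RatFunc ℂ) ^ 2 := by
  obtain ⟨R, κp, κm, hR, hκp, hκm, hdeg, hrp, hrm⟩ :=
    exists_R rp rm hp hm (3 + n) (3 - n) d α β hd hα hβ hcop hdp hdm
      (hpow β α (by rw [hα, hβ]; ring))
  obtain ⟨c, hc⟩ := exists_rho R hR (by rw [hdeg]; exact hd)
  have hB := rq1_algebraMap_ne_zero c.B_ne_zero
  set ρ := algebraMap (Polynomial ℂ) (RatFunc ℂ) c.A / algebraMap (Polynomial ℂ) (RatFunc ℂ) c.B with hρdef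
  have hρ : rsh 1 R = ρ * R := by
    rw [hρdef, div_mul_eq_mul_div, eq_div_iff hB]; exact hc
  have hρ' : ρ * algebraMap (Polynomial ℂ) (RatFunc ℂ) c.B = algebraMap (Polynomial ℂ) (RatFunc ℂ) c.A :=
    div_mul_cancel₀ _ hB
  rw [hα, hβ, hrp, hrm] at heq
  exact ⟨R, κm, c, ρ, hR, hκm, hdeg, hrm, hρ, hρ', rho_eq R hR κp κm hκp hκm d α β hd heq ρ hρ⟩

/-- **The rational functional equation** (P1 Lemma 5.2, first half).  `rp ~ ξ^{3+n}`, `rm ~ ξ^{3-n}`. -/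
theorem rateq_main (n : ℤ) (hn : 1 ≤ n) (hn3 : n ≠ 3) (rp rm : RatFunc ℂ) (hp : rp ≠ 0) (hm : rm ≠ 0)
    (hdp : rp.intDegree = 3 + n) (hdm : rm.intDegree = 3 - n)
    (hpow : ∀ e₁ e₂ : ℤ, e₁ * (3 + n) = e₂ * (3 - n) →
      ∃ c : ℂ, c ≠ 0 ∧ rp ^ e₁ = RatFunc.C c * rm ^ e₂)
    (heq : (rsh 1 rp - rp) * (rsh (-1) rp - rp) * ((3 - n : ℤ) : RatFunc ℂ) ^ 2 * rm ^ 2 =
      (rsh 1 rm - rm) * (rsh (-1) rm - rm) * ((3 + n : ℤ) : RatFunc ℂ) ^ 2 * rp ^ 2) :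
    n = 1 ∧ ∃ κ b : ℂ, κ ≠ 0 ∧
      rm = RatFunc.C κ * (RatFunc.X + RatFunc.C b) * (RatFunc.X + RatFunc.C b + 1) := by
  have hcases : n = 1 ∨ n = 2 ∨ 4 ≤ n := by omega
  rcases hcases with rfl | rfl | h4
  · refine ⟨rfl, ?_⟩
    obtain ⟨R, κm, c, ρ, hR, hκm, hdeg, hrm, hρ, -, h⟩ :=
      rq8_step 1 2 2 1 (by norm_num) (by norm_num) (by norm_num) isCoprime_one_right rp rm hp hm
        hdp hdm hpow heq
    obtain ⟨κ, b, hκ, hRe⟩ := n1_rho R hR hdeg ρ hρ h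
    refine ⟨κm * κ, b, mul_ne_zero hκm hκ, ?_⟩
    rw [hrm, zpow_one, hRe, map_mul]
    ring
  · exfalso
    obtain ⟨R, κm, c, ρ, hR, hκm, hdeg, hrm, hρ, hρ', h⟩ :=
      rq8_step 2 1 ((5 : ℕ) : ℤ) 1 (by norm_num) (by norm_num) (by norm_num) isCoprime_one_right
        rp rm hp hm hdp hdm hpow heq
    have h5 := poly_eq_one c ρ hρ' 5 (by norm_num) h
    rw [Nat.cast_ofNat] at h5
    exact n2_false c h5
  · exfalso
    obtain ⟨a, ha⟩ : ∃ a : ℕ, (a : ℤ) = 3 + n := ⟨(3 + n).toNat, Int.toNat_of_nonneg (by omega)⟩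
    obtain ⟨g, hg⟩ : ∃ g : ℕ, (g : ℤ) = n - 3 := ⟨(n - 3).toNat, Int.toNat_of_nonneg (by omega)⟩
    obtain ⟨α, γ, hcop, hα, hγ⟩ := Nat.exists_coprime a g
    set d := Nat.gcd a g with hd
    have hd0 : d ≠ 0 := by
      intro h0
      rw [h0, mul_zero] at hα
      omega
    have hα' : 3 + n = (d : ℤ) * (α : ℤ) := by
      rw [← ha, hα]; push_cast; ring
    have hβ' : 3 - n = (d : ℤ) * (-(γ : ℤ)) := by
      have : (g : ℤ) = (γ : ℤ) * (d : ℤ) := by exact_mod_cast hγ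
      linear_combination hg - this
    obtain ⟨R, κm, c, ρ, hR, hκm, hdeg, hrm, hρ, hρ', h⟩ :=
      rq8_step n d α (-(γ : ℤ)) (by exact_mod_cast hd0) hα' hβ'
        ((Nat.isCoprime_iff_coprime.2 hcop).neg_right) rp rm hp hm hdp hdm hpow heq
    have hbig : BigEq c α γ := poly_eq_neg c ρ hρ' α γ h
    have hγ1 : 1 ≤ γ := by
      rcases Nat.eq_zero_or_pos γ with h0 | h0
      · rw [h0, zero_mul] at hγ
        omega
      · exact h0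
    have hαγ : γ < α := by
      have hlt : g < a := by omega
      rw [hα, hγ] at hlt
      exact lt_of_mul_lt_mul_right hlt (Nat.zero_le _)
    exact big_false c α γ hγ1 hαγ hcop hbig

end Claimed.Agent.R269.Ctr
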