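/-
Row 269, P1 Lemmas 5.1-5.2, formal core, leaf LF-S5b-core (HOST-FREE): ASSEMBLY OF THE FORMAL CORE.   Statements and proofs: helper134.
EXPORTS:  `FCtr.n_eq` (every centre is simple), `FCtr.no_odd`, `FCtr.no_odd'` (no polynomial combination of the two coordinates has odd order).
Use `CenterFlat.lean`, `CenterRat.lean`, `RatEqMain.lean` (`rateq_main`, `not_sq`) as black boxes.  Fill the `sorry`s IN PLACE (prefix `co_`).

PLAN.  `Dp = 3+n`, `Dm = 3-n`.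
 * `exists_profiles`: `frac_lead` for `Zx` (`Φ.fracZ`, `Φ.wt_Zx`, `Φ.Yp_ne_zero`) and `Wx`: `Yp = t^Dp iota rp`, `Ym = t^Dm iota rm`.
     degrees: `0 = ord_t Yp = Dp - intDegree rp` (`Yp_orderTop`, `orderTop_mul_eq`, `tt_zpow_orderTop`, `iota_orderTop`).
     `hpow`: `lead_pow_rel`; `(t^Dp iota rp)^e₁ = t^{Dp e₁} iota (rp^e₁)` (`mul_zpow`, `zpow_mul`, `map_zpow₀`), cancel `t^{Dp e₁} = t^{Dm e₂}`, `iota_C`, `iota_injective`.
     `heq`: `lead_eq`; `Sh q (t^Dp iota rp) = t^Dp iota (rsh q rp)` (`map_mul`, `map_zpow₀`, `Sh_tt`, `Sh_iota`); both sides are `t^{2Dp+2Dm} iota (…)`.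
 * `n_eq_of_pos`: `rateq_main`.
 * `even_of_pos`: `n = 1`, `Dm = 2`.  `Wt j y` (`flat_wt`), `Y := lead j y ≠ 0` (`lead_ne_zero`: the coefficient `j` of `y_0` is its leading coefficient), `Y = t^j iota r` (`frac_lead`).
     `lead_pow_rel'` with `e₁ = 2`, `e₂ = j`:  `Y² = c Ym^j`, so `r² = C c * rm^j`; `not_sq` if `j` is odd.
 * `flat_swap`: `Dz Zx ≠ 0` (its `t⁰`-coefficient is `Z' ≠ 0`); multiply `Dz Wx * Dt y - Dt Wx * Dz y` by `Dz Zx` and use `hfl`, `Φ.rank`.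
 * general case: `Φ.n ≥ 1` or `Φ.swap.n ≥ 1`.
 * `no_odd`: `y := Zx - ∑ cc (e i) * Wx^i` is flat, fractional, of nonnegative order; `y_0 = Z - ∑ C (e i) W^i` (`coeff_zero_mul`, `coeff_zero_pow`).
-/
import Claimed.Agent.R269.S5.CenterFlat
import Claimed.Agent.R269.S5.CenterRat
import Claimed.Agent.R269.S5.RatEqMain

set_option autoImplicit false
set_option maxSynthPendingDepth 3

namespace Claimed.Agent.R269.Ctr

open HahnSeries Lau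

theorem co_Sh_tt_zpow (q m : ℤ) : Sh q (tt ^ m) = tt ^ m := by
  rw [map_zpow₀, Sh_tt]

theorem co_nonneg_cc (c : ℂ) : 0 ≤ (cc c).orderTop := (isPS2_cc c).1

theorem co_cc_coeff_zero (c : ℂ) : (cc c).coeff 0 = HahnSeries.C c := by
  unfold cc
  exact coeff_single_same 0 _

namespace FCtr

variable (Φ : FCtr)

theorem exists_profiles :
    ∃ rp rm : RatFunc ℂ, rp ≠ 0 ∧ rm ≠ 0 ∧ Φ.Yp = tt ^ (3 + Φ.n) * iota rp ∧
      Φ.Ym = tt ^ (3 - Φ.n) * iota rm ∧ rp.intDegree = 3 + Φ.n ∧ rm.intDegree = 3 - Φ.n ∧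
      (∀ e₁ e₂ : ℤ, e₁ * (3 + Φ.n) = e₂ * (3 - Φ.n) →
        ∃ c : ℂ, c ≠ 0 ∧ rp ^ e₁ = RatFunc.C c * rm ^ e₂) ∧
      (rsh 1 rp - rp) * (rsh (-1) rp - rp) * ((3 - Φ.n : ℤ) : RatFunc ℂ) ^ 2 * rm ^ 2 =
        (rsh 1 rm - rm) * (rsh (-1) rm - rm) * ((3 + Φ.n : ℤ) : RatFunc ℂ) ^ 2 * rp ^ 2 := by
  obtain ⟨rp, hrp, hYp⟩ := frac_lead Φ.Zx (3 + Φ.n) Φ.fracZ Φ.wt_Zx Φ.Yp_ne_zero
  obtain ⟨rm, hrm, hYm⟩ := frac_lead Φ.Wx (3 - Φ.n) Φ.fracW Φ.wt_Wx Φ.Ym_ne_zero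
  have hYp' : Φ.Yp = tt ^ (3 + Φ.n) * iota rp := hYp
  have hYm' : Φ.Ym = tt ^ (3 - Φ.n) * iota rm := hYm
  refine ⟨rp, rm, hrp, hrm, hYp', hYm', ?_, ?_, ?_, ?_⟩
  · have h := Φ.Yp_orderTop
    rw [hYp', orderTop_mul_eq, tt_zpow_orderTop, iota_orderTop rp hrp] at h
    have h2 : (3 + Φ.n) + (-rp.intDegree) = 0 := by exact_mod_cast h
    omega
  · have h := Φ.Ym_orderTop
    rw [hYm', orderTop_mul_eq, tt_zpow_orderTop, iota_orderTop rm hrm] at h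
    have h2 : (3 - Φ.n) + (-rm.intDegree) = 0 := by exact_mod_cast h
    omega
  · intro e₁ e₂ he
    obtain ⟨c, hc, h⟩ := Φ.lead_pow_rel e₁ e₂ he
    refine ⟨c, hc, ?_⟩
    apply iota_injective
    rw [map_mul, map_zpow₀, map_zpow₀, iota_C]
    rw [hYp', hYm', mul_zpow, mul_zpow, ← zpow_mul, ← zpow_mul] at h
    have e : (3 + Φ.n) * e₁ = (3 - Φ.n) * e₂ := by linarith
    rw [e] at h
    have ht : tt ^ ((3 - Φ.n) * e₂) ≠ 0 := zpow_ne_zero _ tt_ne_zero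
    apply mul_left_cancel₀ ht
    rw [h]
    ring
  · apply iota_injective
    simp only [map_mul, map_sub, map_pow, map_intCast, ← Sh_iota]
    have h := Φ.lead_eq
    rw [hYp', hYm'] at h
    simp only [map_mul, co_Sh_tt_zpow] at h
    have ht : tt ^ (3 + Φ.n) ≠ 0 := zpow_ne_zero _ tt_ne_zero
    have ht' : tt ^ (3 - Φ.n) ≠ 0 := zpow_ne_zero _ tt_ne_zero
    have ht2 : (tt ^ (3 + Φ.n)) ^ 2 * (tt ^ (3 - Φ.n)) ^ 2 ≠ 0 :=
      mul_ne_zero (pow_ne_zero 2 ht) (pow_ne_zero 2 ht')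
    apply mul_left_cancel₀ ht2
    linear_combination h

theorem n_eq_of_pos (hn : 1 ≤ Φ.n) : Φ.n = 1 := by
  obtain ⟨rp, rm, hrp, hrm, -, -, hdp, hdm, hpow, heq⟩ := Φ.exists_profiles
  exact (rateq_main Φ.n hn Φ.n_ne3 rp rm hrp hrm hdp hdm hpow heq).1

theorem even_of_pos (hn : 1 ≤ Φ.n) (y : AA) (hy0 : 0 ≤ y.orderTop) (hF : IsFrac y) (hfl : Φ.Flat y)
    (j : ℤ) (hj : (y.coeff 0).orderTop = (j : WithTop ℤ)) : Even j := by
  obtain ⟨rp, rm, hrp, hrm, hYp, hYm, hdp, hdm, hpow, heq⟩ := Φ.exists_profiles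
  obtain ⟨hn1, κ, b, hκ, hrm'⟩ := rateq_main Φ.n hn Φ.n_ne3 rp rm hrp hrm hdp hdm hpow heq
  have hw : Wt j y := Φ.flat_wt y hy0 hfl j hj.ge
  have hne : lead j y ≠ 0 := lead_ne_zero (HahnSeries.coeff_orderTop_ne hj)
  obtain ⟨r, hr, hY⟩ := frac_lead y j hF hw hne
  obtain ⟨c, hc, h⟩ := Φ.lead_pow_rel' y j hw hfl hne 2 j (by rw [hn1]; ring)
  by_contra hodd
  rw [Int.not_even_iff_odd] at hodd
  refine not_sq κ b c hκ hc j hodd r ?_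
  rw [← hrm']
  apply iota_injective
  rw [map_pow, map_mul, iota_C, map_zpow₀]
  rw [hY, hYm, mul_zpow, mul_zpow, ← zpow_mul, ← zpow_mul, hn1] at h
  have e : (3 - 1 : ℤ) * j = j * 2 := by ring
  rw [e] at h
  have ht : tt ^ (j * 2) ≠ 0 := zpow_ne_zero _ tt_ne_zero
  apply mul_left_cancel₀ ht
  have e2 : iota r ^ (2 : ℤ) = iota r ^ 2 := zpow_ofNat _ 2
  rw [e2] at h
  rw [h]
  ring

theorem co_Dz_Zx_ne_zero : Dz Φ.Zx ≠ 0 := by
  intro h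
  have h1 : (Dz Φ.Zx).coeff 0 = 0 := by rw [h]; rfl
  rw [Dz_coeff] at h1
  have h2 := orderTop_dz Φ.ordZ (by have := Φ.n_ne3'; omega)
  rw [h1, HahnSeries.orderTop_zero] at h2
  exact WithTop.top_ne_coe h2

theorem flat_swap {y : AA} (hfl : Φ.Flat y) : Φ.swap.Flat y := by
  show Dz Φ.Wx * Dt y = Dt Φ.Wx * Dz y
  have hfl' : Dz Φ.Zx * Dt y = Dt Φ.Zx * Dz y := hfl
  apply mul_left_cancel₀ Φ.co_Dz_Zx_ne_zero
  linear_combination Dz Φ.Wx * hfl' - Dz y * Φ.rank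

/-- **Every isotropic centre is simple.** -/
theorem n_eq : Φ.n = 1 ∨ Φ.n = -1 := by
  rcases lt_or_ge 0 Φ.n with h | h
  · exact Or.inl (Φ.n_eq_of_pos h)
  · right
    have h1 : 1 ≤ Φ.swap.n := by
      show 1 ≤ -Φ.n
      have := Φ.n_ne
      omega
    have h2 : -Φ.n = 1 := Φ.swap.n_eq_of_pos h1
    omega

/-- functions of the impact point have even order on the zero slice. -/
theorem even_order (y : AA) (hy0 : 0 ≤ y.orderTop) (hF : IsFrac y) (hfl : Φ.Flat y) (j : ℤ)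
    (hj : (y.coeff 0).orderTop = (j : WithTop ℤ)) : Even j := by
  rcases lt_or_ge 0 Φ.n with h | h
  · exact Φ.even_of_pos h y hy0 hF hfl j hj
  · have h1 : 1 ≤ Φ.swap.n := by
      show 1 ≤ -Φ.n
      have := Φ.n_ne
      omega
    exact Φ.swap.even_of_pos h1 y hy0 hF (Φ.flat_swap hfl) j hj

theorem no_odd (N : ℕ) (e : ℕ → ℂ) (j : ℤ)
    (hj : (Φ.Z - ∑ i ∈ Finset.range N, HahnSeries.C (e i) * Φ.W ^ i).orderTop = (j : WithTop ℤ)) :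
    Even j := by
  have hs0 : 0 ≤ (∑ i ∈ Finset.range N, cc (e i) * Φ.Wx ^ i).orderTop := by
    have := le_orderTop_sum (Finset.range N) (fun i => cc (e i) * Φ.Wx ^ i) 0 (fun i _ => by
      exact_mod_cast nonneg_mul (co_nonneg_cc (e i)) (nonneg_pow Φ.Wx_nonneg i))
    exact_mod_cast this
  refine Φ.even_order (Φ.Zx - ∑ i ∈ Finset.range N, cc (e i) * Φ.Wx ^ i) ?_ ?_ ?_ j ?_
  · exact nonneg_sub Φ.Zx_nonneg hs0
  · exact Φ.fracZ.sub (IsFrac.sum _ _ fun i _ => (isPS2_cc (e i)).isFrac.mul (Φ.fracW.pow i))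
  · exact Flat.sub Φ Φ.flat_Zx (Flat.sum Φ _ _ fun i _ => Flat.mul Φ (Φ.flat_cc (e i)) (Flat.pow Φ Φ.flat_Wx i))
  · rw [HahnSeries.coeff_sub, HahnSeries.coeff_sum]
    have : ∀ i ∈ Finset.range N, (cc (e i) * Φ.Wx ^ i).coeff 0 = HahnSeries.C (e i) * Φ.W ^ i := by
      intro i _
      rw [coeff_zero_mul _ _ (co_nonneg_cc (e i)) (nonneg_pow Φ.Wx_nonneg i),
        coeff_zero_pow _ Φ.Wx_nonneg, co_cc_coeff_zero]
      rfl
    rw [Finset.sum_congr rfl this]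
    exact hj

theorem no_odd' (N : ℕ) (e : ℕ → ℂ) (j : ℤ)
    (hj : (Φ.W - ∑ i ∈ Finset.range N, HahnSeries.C (e i) * Φ.Z ^ i).orderTop = (j : WithTop ℤ)) :
    Even j :=
  Φ.swap.no_odd N e j hj

end FCtr

end Claimed.Agent.R269.Ctr
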