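/-
Row 269, P1 Lemmas 5.1-5.2, the analytic bridge, leaf LF-S5b-id.   Statements: helper134.
TRANSFER of rank one and of the reflection law from `(0,0)` to every point `(p,0)`, `p ∈ D_H`, by the identity theorem for jointly meromorphic functions.
Black boxes: the `Mero2` toolkit (`Lib/Mero2.lean`, `Lib/Mero2b.lean`), `LiftBasic.lean` (`isOpen_tube`, `mem_tube_iff`, `slice_zero`, `convex_estrip`), `CenterBase.lean`.
Fill the `sorry`s IN PLACE (auxiliary lemmas above the statements, prefix `ci_`).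

PLAN.  `T := G.tube S.ρ` is open (`isOpen_tube S.lsc_X`).  `Ω := {w ∈ T | (w.1 + w.2, w.2) ∈ T ∧ (w.1 - w.2, w.2) ∈ T}` is open and contains `D_H × {0}` (`mem_tube_iff`, `slice_zero`).
 `Ω' := connectedComponentIn Ω (0,0)` is open (`IsOpen.connectedComponentIn`), preconnected, and contains the connected set `D_H × {0}` (`IsPreconnected.subset_connectedComponentIn`; `D_H` is convex).
 `S.XZ`, `S.XW` are `Mero2On T` (`SliceMero.mero2On`, `Mero2At.add/mul`), so `rkF S.XZ S.XW`, `rfF S.XZ S.XW` are `Mero2On Ω` (`Mero2At.pdy/pdt`, `Mero2At.comp_shear` with `a t = ± t`, `t₀ = 0`, `r = 1`).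
 Near `(0,0)`: `S.X = G.X0` on the open set `hstrip (s/2) × ball 0 ρ` (`S.X_base`), so `S.XZ = G.XZ0` near every point near `(0,0)` and near its two shears; hence `rkF`, `rfF` coincide with those of `X0` near `(0,0)`
 (`pdy_congr_nhds`, `pdt_congr_nhds`) and vanish there (`base_rank`, `base_refl`).  `Mero2On.eventually_eq_zero_of_isPreconnected`.
-/
import Claimed.Agent.R269.S5.CenterBase
import Claimed.Agent.R269.S5.LiftBasic
import Claimed.Agent.R269.Lib.Mero2b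

set_option autoImplicit false

namespace Claimed.Agent.R269

open Complex Filter Topology

/-- linear combinations of slice-meromorphic functions. -/
theorem ci_sliceMero_lin {F P : ℂ × ℂ → ℂ} {W : Set (ℂ × ℂ)} (hF : SliceMero F W) (hP : SliceMero P W)
    (c : ℂ) : SliceMero (fun w => F w + c * P w) W := by
  intro z hz
  obtain ⟨g₁, k₁, hg₁, hk₁, hn₁, he₁⟩ := hF z hz
  obtain ⟨g₂, k₂, hg₂, hk₂, hn₂, he₂⟩ := hP z hz
  refine ⟨fun w => g₁ w * k₂ w + c * g₂ w * k₁ w, fun w => k₁ w * k₂ w,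
    (hg₁.mul hk₂).add ((analyticAt_const.mul hg₂).mul hk₁), hk₁.mul hk₂, ?_, ?_⟩
  · intro h
    have hι : AnalyticAt ℂ (fun y : ℂ => (y, z.2)) z.1 := analyticAt_id.prod analyticAt_const
    have a₁ : AnalyticAt ℂ (fun y => k₁ (y, z.2)) z.1 :=
      AnalyticAt.comp (g := k₁) (f := fun y : ℂ => (y, z.2)) hk₁ hι
    have a₂ : AnalyticAt ℂ (fun y => k₂ (y, z.2)) z.1 :=
      AnalyticAt.comp (g := k₂) (f := fun y : ℂ => (y, z.2)) hk₂ hι
    rcases a₁.eventually_eq_zero_or_eventually_ne_zero with h1 | h1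
    · exact hn₁ h1
    rcases a₂.eventually_eq_zero_or_eventually_ne_zero with h2 | h2
    · exact hn₂ h2
    obtain ⟨y, hy0, hy1, hy2⟩ := ((h.filter_mono nhdsWithin_le_nhds).and (h1.and h2)).exists
    exact (mul_ne_zero hy1 hy2) hy0
  · filter_upwards [he₁, he₂] with w h1 h2 hne
    have n1 := left_ne_zero_of_mul hne
    have n2 := right_ne_zero_of_mul hne
    rw [h1 n1, h2 n2]
    field_simp

theorem ci_isOpen_hstrip (a : ℝ) : IsOpen (hstrip a) :=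
  isOpen_lt (continuous_abs.comp Complex.continuous_im) continuous_const

/-- the shear `(y + n t, t)` as a `shear`. -/
theorem ci_shear_eq (n : ℤ) (w : ℂ × ℂ) :
    shear (fun t => (n : ℂ) * t) 0 1 w = (w.1 + (n : ℂ) * w.2, w.2) := by
  simp [shear]

theorem ci_mero_shear {F : ℂ × ℂ → ℂ} {p : ℂ} (hF : Mero2At F (p, 0)) (n : ℤ) :
    Mero2At (fun w => F (w.1 + (n : ℂ) * w.2, w.2)) (p, 0) := by
  have h1 : Mero2At F (shear (fun t => (n : ℂ) * t) 0 1 (p, 0)) := by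
    rw [ci_shear_eq]; simpa using hF
  have h2 := h1.comp_shear (a := fun t => (n : ℂ) * t) (by fun_prop) one_ne_zero
  simpa only [ci_shear_eq] using h2

theorem ci_mero_rkF {A B : ℂ × ℂ → ℂ} {z : ℂ × ℂ} (hA : Mero2At A z) (hB : Mero2At B z) :
    Mero2At (rkF A B) z :=
  (hA.pdy.mul hB.pdt).sub (hA.pdt.mul hB.pdy)

theorem ci_mero_rfF {A B : ℂ × ℂ → ℂ} {p : ℂ} (hA : Mero2At A (p, 0)) (hB : Mero2At B (p, 0)) :
    Mero2At (rfF A B) (p, 0) :=
  ((((ci_mero_shear hA 1).sub hA).mul ((ci_mero_shear hA (-1)).sub hA)).mul (hB.pdy.pow 2)).sub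
    ((((ci_mero_shear hB 1).sub hB).mul ((ci_mero_shear hB (-1)).sub hB)).mul (hA.pdy.pow 2))

namespace Sec4

variable {G : Glance} (S : Sec4 G)

theorem XZ_sliceMero : SliceMero S.XZ (G.tube S.ρ) :=
  ci_sliceMero_lin S.X_mero₁ S.X_mero₂ I

theorem XW_sliceMero : SliceMero S.XW (G.tube S.ρ) := by
  have h := ci_sliceMero_lin S.X_mero₁ S.X_mero₂ (-I)
  have e : S.XW = fun w => (S.X w).1 + -I * (S.X w).2 := by
    funext w; simp only [XW]; ring
  rw [e]; exact h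

theorem mem_tube_zero {p : ℂ} (hp : p ∈ estrip G.Hs) : (p, (0 : ℂ)) ∈ G.tube S.ρ := by
  rw [Glance.mem_tube_iff]
  refine ⟨Metric.mem_ball_self S.ρ_pos, ?_⟩
  show p ∈ G.slice 0
  rw [Glance.slice_zero]; exact hp

/-- the base domain is a neighbourhood of `(0,0)`. -/
theorem ci_base_nhds : hstrip (G.s / 2) ×ˢ Metric.ball (0 : ℂ) S.ρ ∈ 𝓝 ((0 : ℂ), (0 : ℂ)) := by
  apply ((ci_isOpen_hstrip _).prod Metric.isOpen_ball).mem_nhds
  refine ⟨?_, Metric.mem_ball_self S.ρ_pos⟩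
  show |(0 : ℂ).im| < G.s / 2
  have : 0 < G.s := G.r₁_pos.trans G.r₁_lt
  simpa using this

theorem ci_XZ_eq : ∀ w ∈ hstrip (G.s / 2) ×ˢ Metric.ball (0 : ℂ) S.ρ, S.XZ w = G.XZ0 w := by
  intro w hw
  simp only [XZ, Glance.XZ0, S.X_base w hw]

theorem ci_XW_eq : ∀ w ∈ hstrip (G.s / 2) ×ˢ Metric.ball (0 : ℂ) S.ρ, S.XW w = G.XW0 w := by
  intro w hw
  simp only [XW, Glance.XW0, S.X_base w hw]

theorem ci_XZ_ev : ∀ w ∈ hstrip (G.s / 2) ×ˢ Metric.ball (0 : ℂ) S.ρ, S.XZ =ᶠ[𝓝 w] G.XZ0 := by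
  intro w hw
  filter_upwards [((ci_isOpen_hstrip _).prod Metric.isOpen_ball).mem_nhds hw] with w' hw'
  exact S.ci_XZ_eq w' hw'

theorem ci_XW_ev : ∀ w ∈ hstrip (G.s / 2) ×ˢ Metric.ball (0 : ℂ) S.ρ, S.XW =ᶠ[𝓝 w] G.XW0 := by
  intro w hw
  filter_upwards [((ci_isOpen_hstrip _).prod Metric.isOpen_ball).mem_nhds hw] with w' hw'
  exact S.ci_XW_eq w' hw'

/-- transfer along `D_H × {0}`. -/
theorem ci_transfer (F : ℂ × ℂ → ℂ) (hF : ∀ p ∈ estrip G.Hs, Mero2At F (p, 0))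
    (h0 : ∀ᶠ w in 𝓝 ((0 : ℂ), (0 : ℂ)), F w = 0) (p : ℂ) (hp : p ∈ estrip G.Hs) :
    ∀ᶠ w in genF (p, 0), F w = 0 := by
  have hc : IsPreconnected ((fun y : ℂ => (y, (0 : ℂ))) '' estrip G.Hs) :=
    (convex_estrip G.Hs).isPreconnected.image _ (by fun_prop)
  have h00 : (0 : ℂ) ∈ estrip G.Hs := by
    have h1 : ENNReal.ofReal |p.im| < G.Hs := hp
    show ENNReal.ofReal |(0 : ℂ).im| < G.Hs
    simp only [Complex.zero_im, abs_zero, ENNReal.ofReal_zero]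
    exact lt_of_le_of_lt zero_le h1
  exact Mero2On.eventually_eq_zero_of_isPreconnected hc
    (by rintro _ ⟨y, hy, rfl⟩; exact hF y hy) ⟨0, h00, rfl⟩ h0.genF _ ⟨p, hp, rfl⟩

theorem rank_at (p : ℂ) (hp : p ∈ estrip G.Hs) : ∀ᶠ w in genF (p, 0), rkF S.XZ S.XW w = 0 := by
  apply ci_transfer (G := G) _ _ _ p hp
  · intro y hy
    exact ci_mero_rkF (S.XZ_sliceMero.mero2On _ (S.mem_tube_zero hy))
      (S.XW_sliceMero.mero2On _ (S.mem_tube_zero hy))
  · filter_upwards [S.ci_base_nhds, G.base_rank] with w hw h0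
    rw [← h0]
    simp only [rkF, pdy_congr_nhds (S.ci_XZ_ev w hw), pdy_congr_nhds (S.ci_XW_ev w hw),
      pdt_congr_nhds (S.ci_XZ_ev w hw), pdt_congr_nhds (S.ci_XW_ev w hw)]

theorem refl_at (p : ℂ) (hp : p ∈ estrip G.Hs) : ∀ᶠ w in genF (p, 0), rfF S.XZ S.XW w = 0 := by
  apply ci_transfer (G := G) _ _ _ p hp
  · intro y hy
    exact ci_mero_rfF (S.XZ_sliceMero.mero2On _ (S.mem_tube_zero hy))
      (S.XW_sliceMero.mero2On _ (S.mem_tube_zero hy))
  · have hsh : ∀ n : ℤ, ∀ᶠ w in 𝓝 ((0 : ℂ), (0 : ℂ)),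
        (w.1 + (n : ℂ) * w.2, w.2) ∈ hstrip (G.s / 2) ×ˢ Metric.ball (0 : ℂ) S.ρ := by
      intro n
      have hc : ContinuousAt (fun w : ℂ × ℂ => (w.1 + (n : ℂ) * w.2, w.2)) ((0 : ℂ), (0 : ℂ)) := by
        fun_prop
      apply hc.eventually_mem
      simpa using S.ci_base_nhds
    filter_upwards [S.ci_base_nhds, G.base_refl, hsh 1, hsh (-1)] with w hw h0 h1 h2
    rw [← h0]
    simp only [rfF, pdy_congr_nhds (S.ci_XZ_ev w hw), pdy_congr_nhds (S.ci_XW_ev w hw),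
      S.ci_XZ_eq w hw, S.ci_XW_eq w hw, S.ci_XZ_eq _ h1, S.ci_XW_eq _ h1, S.ci_XZ_eq _ h2,
      S.ci_XW_eq _ h2]

end Sec4

end Claimed.Agent.R269
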