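/-
Row 269, P1 Lemmas 5.1-5.2, the analytic bridge, leaf LF-S5b-tay1.   Statements: helper134.
TAYLOR EXPANSION at `p` of analytic germs of one variable, as elements of `K = ℂ((z))`: an injective differential ring homomorphism which computes the order.
HOST-FREE analysis (Mathlib + `CenterOps.lean`).   Fill the `sorry`s IN PLACE (auxiliary lemmas above the statements, prefix `ty_`).

PLAN.  `iteratedDeriv_add`, Leibniz `iteratedDeriv_mul` (analytic ⇒ `ContDiffAt`), `iteratedDeriv_succ'`; coefficient of a product of power series `PowerSeries.coeff_mul`.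
 `tay1_eq_zero_iff`: `AnalyticAt.eventually_eq_zero_or_eventually_ne_zero` + the power series with coefficients `iteratedDeriv/n!` (`AnalyticAt.hasFPowerSeriesAt`), or through `analyticOrderAt`.
 `tay1_orderTop`: `f = (y-p)^n g`, `g p ≠ 0` (`AnalyticAt.analyticOrderAt_eq_natCast`), `tay1_mul`, `tay1 ((y-p)^n) = single n 1`; `AnalyticAt.meromorphicOrderAt_eq`.
-/
import Claimed.Agent.R269.S5.CenterOps
import Claimed.Agent.R269.S4.ZTayCore

set_option autoImplicit false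

namespace Claimed.Agent.R269.Ctr

open HahnSeries Lau Filter Topology

/-- Taylor series at `p`. -/
noncomputable def tay1 (p : ℂ) (f : ℂ → ℂ) : KK :=
  HahnSeries.ofPowerSeries ℤ ℂ (PowerSeries.mk fun m => iteratedDeriv m f p / (m.factorial : ℂ))

theorem tay1_coeff (p : ℂ) (f : ℂ → ℂ) (m : ℕ) :
    (tay1 p f).coeff (m : ℤ) = iteratedDeriv m f p / (m.factorial : ℂ) := by
  exact ZT.ztay1_coeff p f m

theorem tay1_nonneg (p : ℂ) (f : ℂ → ℂ) : 0 ≤ (tay1 p f).orderTop := by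
  exact ZT.ztay1_nonneg p f

theorem tay1_congr {p : ℂ} {f g : ℂ → ℂ} (h : f =ᶠ[𝓝 p] g) : tay1 p f = tay1 p g := by
  exact ZT.ztay1_congr h

theorem tay1_const (p c : ℂ) : tay1 p (fun _ => c) = HahnSeries.C c := by
  exact ZT.ztay1_const p c

theorem tay1_add {p : ℂ} {f g : ℂ → ℂ} (hf : AnalyticAt ℂ f p) (hg : AnalyticAt ℂ g p) :
    tay1 p (fun y => f y + g y) = tay1 p f + tay1 p g := by
  exact ZT.ztay1_add hf hg

theorem tay1_neg {p : ℂ} {f : ℂ → ℂ} (hf : AnalyticAt ℂ f p) : tay1 p (fun y => -f y) = -tay1 p f := by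
  exact ZT.ztay1_neg hf

theorem tay1_mul {p : ℂ} {f g : ℂ → ℂ} (hf : AnalyticAt ℂ f p) (hg : AnalyticAt ℂ g p) :
    tay1 p (fun y => f y * g y) = tay1 p f * tay1 p g := by
  exact ZT.ztay1_mul hf hg

theorem tay1_deriv (p : ℂ) (f : ℂ → ℂ) : tay1 p (deriv f) = dz (tay1 p f) := by
  exact ZT.ztay1_deriv p f

theorem tay1_eq_zero_iff {p : ℂ} {f : ℂ → ℂ} (hf : AnalyticAt ℂ f p) :
    tay1 p f = 0 ↔ ∀ᶠ y in 𝓝 p, f y = 0 := by
  exact ZT.ztay1_eq_zero_iff hf

theorem tay1_orderTop {p : ℂ} {f : ℂ → ℂ} (hf : AnalyticAt ℂ f p) :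
    (tay1 p f).orderTop = meromorphicOrderAt f p := by
  rw [hf.meromorphicOrderAt_eq]
  cases h : analyticOrderAt f p with
  | top =>
    have h1 : tay1 p f = 0 := (tay1_eq_zero_iff hf).mpr (analyticOrderAt_eq_top.mp h)
    rw [h1, HahnSeries.orderTop_zero]
    rfl
  | coe n =>
    obtain ⟨h1, h2⟩ := (analyticOrderAt_eq_nat_iff_iteratedDeriv_eq_zero hf).mp h
    have hfac : ∀ m : ℕ, ((m.factorial : ℕ) : ℂ) ≠ 0 := fun m => Nat.cast_ne_zero.mpr (Nat.factorial_ne_zero m)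
    have e : ENat.map (Nat.cast : ℕ → ℤ) ((n : ℕ) : ℕ∞) = (((n : ℕ) : ℤ) : WithTop ℤ) := by
      simp
    show (tay1 p f).orderTop = ENat.map (Nat.cast : ℕ → ℤ) ((n : ℕ) : ℕ∞)
    rw [e]
    apply le_antisymm
    · apply HahnSeries.orderTop_le_of_coeff_ne_zero
      rw [tay1_coeff]
      exact div_ne_zero h2 (hfac n)
    · rw [le_orderTop_iff]
      intro i hi
      rcases lt_or_ge i 0 with hneg | hpos
      · exact ZT.ztay1_coeff_neg p f i hneg
      · obtain ⟨m, rfl⟩ := Int.eq_ofNat_of_zero_le hpos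
        have hm : m < n := by exact_mod_cast hi
        show (tay1 p f).coeff (m : ℤ) = 0
        rw [tay1_coeff, h1 m hm, zero_div]

end Claimed.Agent.R269.Ctr
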