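/-
Row 269, P1 Lemmas 5.1-5.2, the analytic bridge, leaf LF-S5b-rep1.   Statements: helper134.
LAURENT EXPANSION of meromorphic germs of one variable as a RELATION:  `LRep p f c` : `f = g/k` near `p` (punctured), `c · tay1 k = tay1 g`.
HOST-FREE analysis (Mathlib + `CenterTay1.lean`).  Fill the `sorry`s IN PLACE (auxiliary lemmas above the statements, prefix `l1_`).

PLAN.  All closure properties: choose representatives, cross-multiply, `tay1_add/mul/deriv`, `tay1 k ≠ 0` (`tay1_eq_zero_iff`), `field_simp` in the field `KK`.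
 `LRep.unique`: `g/k = g'/k'` on a punctured neighbourhood ⇒ `g k' = g' k` near `p` (both analytic; they agree on a punctured neighbourhood where `k k' ≠ 0`, hence everywhere by continuity/identity theorem).
 `LRep.deriv`: `deriv f = (g' k - g k')/k²` on a punctured neighbourhood (`EventuallyEq.deriv` on the open punctured neighbourhood: use `eventually_eventually_nhdsWithin`/`eventually_nhdsNE_…`).
 `LRep.order`: `meromorphicOrderAt f = ord g - ord k` (`meromorphicOrderAt_congr`, `meromorphicOrderAt_mul/inv`), `tay1_orderTop`, `orderTop_mul_eq`.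
 `exists_lrep`: `MeromorphicAt f p` ⇒ `(y-p)^n f` analytic.
 `LRep.exists_analytic`: `0 ≤ ord c` ⇒ `f` has an analytic representative `h` near `p`, with `tay1 p h = c`.
-/
import Claimed.Agent.R269.S5.CenterTay1

set_option autoImplicit false

namespace Claimed.Agent.R269.Ctr

open HahnSeries Lau Filter Topology

/-- `c ∈ ℂ((z))` is the Laurent expansion of `f` at `p`. -/
def LRep (p : ℂ) (f : ℂ → ℂ) (c : KK) : Prop :=
  ∃ g k : ℂ → ℂ, AnalyticAt ℂ g p ∧ AnalyticAt ℂ k p ∧ (¬ ∀ᶠ y in 𝓝 p, k y = 0) ∧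
    (f =ᶠ[𝓝[≠] p] fun y => g y / k y) ∧ c * tay1 p k = tay1 p g

theorem l1_tay_ne {p : ℂ} {k : ℂ → ℂ} (hk : AnalyticAt ℂ k p) (hne : ¬ ∀ᶠ y in 𝓝 p, k y = 0) :
    tay1 p k ≠ 0 := fun h => hne ((tay1_eq_zero_iff hk).mp h)

theorem l1_ne_punct {p : ℂ} {k : ℂ → ℂ} (hk : AnalyticAt ℂ k p) (hne : ¬ ∀ᶠ y in 𝓝 p, k y = 0) :
    ∀ᶠ y in 𝓝[≠] p, k y ≠ 0 :=
  (hk.eventually_eq_zero_or_eventually_ne_zero).resolve_left hne

theorem l1_mul_ne {p : ℂ} {k k' : ℂ → ℂ} (hk : AnalyticAt ℂ k p) (hne : ¬ ∀ᶠ y in 𝓝 p, k y = 0)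
    (hk' : AnalyticAt ℂ k' p) (hne' : ¬ ∀ᶠ y in 𝓝 p, k' y = 0) :
    ¬ ∀ᶠ y in 𝓝 p, k y * k' y = 0 := by
  intro h
  have h1 := (tay1_eq_zero_iff (hk.fun_mul hk')).mpr h
  rw [tay1_mul hk hk'] at h1
  rcases mul_eq_zero.mp h1 with h2 | h2
  · exact l1_tay_ne hk hne h2
  · exact l1_tay_ne hk' hne' h2

theorem l1_one_ne (p : ℂ) : ¬ ∀ᶠ _y in 𝓝 p, (1 : ℂ) = 0 := by
  intro h
  exact one_ne_zero h.self_of_nhds

theorem l1_tay_one (p : ℂ) : tay1 p (fun _ => (1 : ℂ)) = 1 := by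
  rw [tay1_const]
  simp

theorem l1_tay_sub {p : ℂ} {f g : ℂ → ℂ} (hf : AnalyticAt ℂ f p) (hg : AnalyticAt ℂ g p) :
    tay1 p (fun y => f y - g y) = tay1 p f - tay1 p g := by
  have : (fun y => f y - g y) = fun y => f y + (-g y) := by
    funext y
    ring
  rw [this, tay1_add hf hg.fun_neg, tay1_neg hg, sub_eq_add_neg]

theorem lrep_of_analyticAt {p : ℂ} {f : ℂ → ℂ} (hf : AnalyticAt ℂ f p) : LRep p f (tay1 p f) := by
  refine ⟨f, fun _ => 1, hf, analyticAt_const, l1_one_ne p, ?_, ?_⟩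
  · exact Eventually.of_forall fun y => by simp
  · rw [l1_tay_one, mul_one]

theorem exists_lrep {p : ℂ} {f : ℂ → ℂ} (hf : MeromorphicAt f p) : ∃ c : KK, LRep p f c := by
  obtain ⟨n, hn⟩ := hf
  have hk : AnalyticAt ℂ (fun z : ℂ => (z - p) ^ n) p := (analyticAt_id.sub analyticAt_const).pow n
  have hkp : ∀ᶠ y in 𝓝[≠] p, (y - p) ^ n ≠ 0 := by
    filter_upwards [self_mem_nhdsWithin] with y hy
    exact pow_ne_zero n (sub_ne_zero.mpr hy)
  have hne : ¬ ∀ᶠ y in 𝓝 p, (y - p) ^ n = 0 := by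
    intro h
    have h1 : ∀ᶠ y in 𝓝[≠] p, False := by
      filter_upwards [hkp, h.filter_mono nhdsWithin_le_nhds] with y a b
      exact a b
    exact (Filter.eventually_false_iff_eq_bot.mp h1 ▸ (inferInstance : (𝓝[≠] p).NeBot)).ne rfl
  refine ⟨tay1 p (fun z => (z - p) ^ n • f z) / tay1 p (fun z : ℂ => (z - p) ^ n),
    fun z => (z - p) ^ n • f z, fun z => (z - p) ^ n, hn, hk, hne, ?_, ?_⟩
  · filter_upwards [hkp] with y hy
    rw [smul_eq_mul]
    field_simp
  · exact div_mul_cancel₀ _ (l1_tay_ne hk hne)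

theorem LRep.meromorphicAt {p : ℂ} {f : ℂ → ℂ} {c : KK} (h : LRep p f c) : MeromorphicAt f p := by
  obtain ⟨g, k, hg, hk, -, hf, -⟩ := h
  exact (hg.meromorphicAt.fun_div hk.meromorphicAt).congr hf.symm

theorem LRep.congr {p : ℂ} {f f' : ℂ → ℂ} {c : KK} (h : LRep p f c) (hf : f =ᶠ[𝓝[≠] p] f') :
    LRep p f' c := by
  obtain ⟨g, k, hg, hk, hne, hfe, hc⟩ := h
  exact ⟨g, k, hg, hk, hne, hf.symm.trans hfe, hc⟩

theorem LRep.unique {p : ℂ} {f f' : ℂ → ℂ} {c c' : KK} (h : LRep p f c) (h' : LRep p f' c')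
    (hf : f =ᶠ[𝓝[≠] p] f') : c = c' := by
  obtain ⟨g, k, hg, hk, hne, hfe, hc⟩ := h
  obtain ⟨g', k', hg', hk', hne', hfe', hc'⟩ := h'
  have h1 : ∀ᶠ y in 𝓝[≠] p, g y * k' y = g' y * k y := by
    filter_upwards [hfe, hfe', hf, l1_ne_punct hk hne, l1_ne_punct hk' hne'] with y a b c d e
    have : g y / k y = g' y / k' y := by rw [← a, ← b, c]
    field_simp at this
    linear_combination this
  have h2 : ∀ᶠ y in 𝓝 p, g y * k' y = g' y * k y :=
    ((hg.mul hk').frequently_eq_iff_eventually_eq (hg'.mul hk)).mp h1.frequently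
  have h3 : tay1 p g * tay1 p k' = tay1 p g' * tay1 p k := by
    rw [← tay1_mul hg hk', ← tay1_mul hg' hk]
    exact tay1_congr h2
  have hk0 := l1_tay_ne hk hne
  have hk0' := l1_tay_ne hk' hne'
  rw [← hc, ← hc'] at h3
  have h4 : (c - c') * (tay1 p k * tay1 p k') = 0 := by linear_combination h3
  rcases mul_eq_zero.mp h4 with h5 | h5
  · exact sub_eq_zero.mp h5
  · exact absurd h5 (mul_ne_zero hk0 hk0')

theorem lrep_const (p a : ℂ) : LRep p (fun _ => a) (HahnSeries.C a) := by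
  have := lrep_of_analyticAt (p := p) (f := fun _ => a) analyticAt_const
  rwa [tay1_const] at this

theorem LRep.add {p : ℂ} {f f' : ℂ → ℂ} {c c' : KK} (h : LRep p f c) (h' : LRep p f' c') :
    LRep p (fun y => f y + f' y) (c + c') := by
  obtain ⟨g, k, hg, hk, hne, hfe, hc⟩ := h
  obtain ⟨g', k', hg', hk', hne', hfe', hc'⟩ := h'
  refine ⟨fun y => g y * k' y + g' y * k y, fun y => k y * k' y, (hg.mul hk').add (hg'.mul hk),
    hk.mul hk', l1_mul_ne hk hne hk' hne', ?_, ?_⟩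
  · filter_upwards [hfe, hfe', l1_ne_punct hk hne, l1_ne_punct hk' hne'] with y a b d e
    rw [a, b]
    field_simp
  · rw [tay1_mul hk hk', tay1_add (hg.fun_mul hk') (hg'.fun_mul hk), tay1_mul hg hk', tay1_mul hg' hk, ← hc, ← hc']
    ring

theorem LRep.neg {p : ℂ} {f : ℂ → ℂ} {c : KK} (h : LRep p f c) : LRep p (fun y => -f y) (-c) := by
  obtain ⟨g, k, hg, hk, hne, hfe, hc⟩ := h
  refine ⟨fun y => -g y, k, hg.neg, hk, hne, ?_, ?_⟩
  · filter_upwards [hfe] with y a
    rw [a]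
    ring
  · rw [tay1_neg hg, ← hc]
    ring

theorem LRep.sub {p : ℂ} {f f' : ℂ → ℂ} {c c' : KK} (h : LRep p f c) (h' : LRep p f' c') :
    LRep p (fun y => f y - f' y) (c - c') := by
  have := h.add h'.neg
  have e : (fun y => f y - f' y) = fun y => f y + -f' y := by
    funext y
    ring
  rw [e, sub_eq_add_neg]
  exact this

theorem LRep.mul {p : ℂ} {f f' : ℂ → ℂ} {c c' : KK} (h : LRep p f c) (h' : LRep p f' c') :
    LRep p (fun y => f y * f' y) (c * c') := by
  obtain ⟨g, k, hg, hk, hne, hfe, hc⟩ := h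
  obtain ⟨g', k', hg', hk', hne', hfe', hc'⟩ := h'
  refine ⟨fun y => g y * g' y, fun y => k y * k' y, hg.mul hg', hk.mul hk',
    l1_mul_ne hk hne hk' hne', ?_, ?_⟩
  · filter_upwards [hfe, hfe'] with y a b
    rw [a, b]
    ring
  · rw [tay1_mul hk hk', tay1_mul hg hg', ← hc, ← hc']
    ring

theorem LRep.pow {p : ℂ} {f : ℂ → ℂ} {c : KK} (h : LRep p f c) (m : ℕ) :
    LRep p (fun y => f y ^ m) (c ^ m) := by
  induction m with
  | zero =>
    have := lrep_const p 1
    simpa using this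
  | succ m ih =>
    have := ih.mul h
    simpa only [pow_succ] using this

theorem LRep.sum {p : ℂ} {ι : Type*} (s : Finset ι) (f : ι → ℂ → ℂ) (c : ι → KK)
    (h : ∀ i ∈ s, LRep p (f i) (c i)) : LRep p (fun y => ∑ i ∈ s, f i y) (∑ i ∈ s, c i) := by
  classical
  induction s using Finset.induction_on with
  | empty =>
    have := lrep_const p 0
    simpa using this
  | insert i s hi ih =>
    have h1 := (h i (Finset.mem_insert_self i s)).add (ih fun j hj => h j (Finset.mem_insert_of_mem hj))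
    simpa only [Finset.sum_insert hi] using h1

/-- (`0⁻¹ = 0` on both sides.) -/
theorem LRep.inv {p : ℂ} {f : ℂ → ℂ} {c : KK} (h : LRep p f c) : LRep p (fun y => (f y)⁻¹) c⁻¹ := by
  obtain ⟨g, k, hg, hk, hne, hfe, hc⟩ := h
  by_cases hg0 : ∀ᶠ y in 𝓝 p, g y = 0
  · have h1 : tay1 p g = 0 := (tay1_eq_zero_iff hg).mpr hg0
    rw [h1] at hc
    have hc0 : c = 0 := (mul_eq_zero.mp hc).resolve_right (l1_tay_ne hk hne)
    rw [hc0, inv_zero]
    have h2 := lrep_const p 0
    rw [map_zero] at h2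
    refine h2.congr ?_
    filter_upwards [hfe, hg0.filter_mono nhdsWithin_le_nhds] with y a b
    rw [a, b]
    simp
  · refine ⟨k, g, hk, hg, hg0, ?_, ?_⟩
    · filter_upwards [hfe] with y a
      rw [a, inv_div]
    · have hg1 := l1_tay_ne hg hg0
      have hc0 : c ≠ 0 := by
        intro h0
        rw [h0, zero_mul] at hc
        exact hg1 hc.symm
      rw [← hc]
      field_simp

theorem LRep.div {p : ℂ} {f f' : ℂ → ℂ} {c c' : KK} (h : LRep p f c) (h' : LRep p f' c') :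
    LRep p (fun y => f y / f' y) (c / c') := by
  have := h.mul h'.inv
  simpa only [div_eq_mul_inv] using this

theorem LRep.deriv {p : ℂ} {f : ℂ → ℂ} {c : KK} (h : LRep p f c) : LRep p (deriv f) (dz c) := by
  obtain ⟨g, k, hg, hk, hne, hfe, hc⟩ := h
  refine ⟨fun y => _root_.deriv g y * k y - g y * _root_.deriv k y, fun y => k y * k y,
    (hg.deriv.mul hk).sub (hg.mul hk.deriv), hk.mul hk, l1_mul_ne hk hne hk hne, ?_, ?_⟩
  · filter_upwards [hfe.nhdsNE_deriv, l1_ne_punct hk hne,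
      hg.eventually_analyticAt.filter_mono nhdsWithin_le_nhds,
      hk.eventually_analyticAt.filter_mono nhdsWithin_le_nhds] with y a b d e
    rw [a]
    have := (d.differentiableAt.hasDerivAt.fun_div e.differentiableAt.hasDerivAt b).deriv
    rw [this, pow_two]
  · rw [tay1_mul hk hk, l1_tay_sub (hg.deriv.fun_mul hk) (hg.fun_mul hk.deriv), tay1_mul hg.deriv hk,
      tay1_mul hg hk.deriv, tay1_deriv, tay1_deriv, ← hc, Dv.leibniz]
    ring

theorem LRep.order {p : ℂ} {f : ℂ → ℂ} {c : KK} (h : LRep p f c) :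
    meromorphicOrderAt f p = c.orderTop := by
  have hm := h.meromorphicAt
  obtain ⟨g, k, hg, hk, hne, hfe, hc⟩ := h
  have h1 : (fun y => f y * k y) =ᶠ[𝓝[≠] p] g := by
    filter_upwards [hfe, l1_ne_punct hk hne] with y a b
    rw [a]
    field_simp
  have h2 : meromorphicOrderAt f p + meromorphicOrderAt k p = meromorphicOrderAt g p := by
    rw [← meromorphicOrderAt_congr h1]
    exact (meromorphicOrderAt_mul hm hk.meromorphicAt).symm
  have h3 : c.orderTop + (tay1 p k).orderTop = (tay1 p g).orderTop := by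
    rw [← hc, orderTop_mul_eq]
  rw [tay1_orderTop hk, tay1_orderTop hg, ← h2] at h3
  have hfin : meromorphicOrderAt k p ≠ ⊤ := by
    rw [← tay1_orderTop hk]
    exact HahnSeries.orderTop_ne_top.mpr (l1_tay_ne hk hne)
  exact ((WithTop.add_right_inj hfin).mp h3).symm

theorem LRep.exists_analytic {p : ℂ} {f : ℂ → ℂ} {c : KK} (h : LRep p f c) (h0 : 0 ≤ c.orderTop) :
    ∃ fh : ℂ → ℂ, AnalyticAt ℂ fh p ∧ f =ᶠ[𝓝[≠] p] fh ∧ tay1 p fh = c ∧ fh p = c.coeff 0 := by
  have hm := h.meromorphicAt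
  have hord := h.order
  have ha : AnalyticAt ℂ (toMeromorphicNFAt f p) p :=
    hm.meromorphicOrderAt_nonneg_iff_analyticAt_toMeromorphicNFAt.mp (by rw [hord]; exact h0)
  have he := hm.eq_nhdsNE_toMeromorphicNFAt
  have ht : tay1 p (toMeromorphicNFAt f p) = c := ((h.unique (lrep_of_analyticAt ha) he)).symm
  refine ⟨toMeromorphicNFAt f p, ha, he, ht, ?_⟩
  rw [← ht]
  have := tay1_coeff p (toMeromorphicNFAt f p) 0
  simpa using this.symm

end Claimed.Agent.R269.Ctr
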