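/-
Row 269, P1 Lemmas 5.1-5.2, the analytic bridge, leaf LF-S5b-tay2.   Statements: helper134.
TAYLOR EXPANSION at `(p,0)` of analytic germs of two variables, as elements of `AA = K((t))`: an injective differential ring homomorphism, compatible with the shears.
HOST-FREE analysis (Mathlib + the definitions `pdy, pdt, pd` of `S4/Defs.lean`, `CenterOps.lean`, `CenterTay1.lean`, statements of `Lib/Lau.lean`).
(The same statements for the base point `(0,0)` and the coefficient field `kk ⊇ K` are `S4/EmbedA.lean`; whoever proves one of the two files should tell the owner of the other.)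
PROVED by helper283: `tay2 p = ZT.ztay (p,0)` of `S4/ZTayCore.lean` (helper270) by `rfl`; the shear as in `S4/EmbedA.lean` (helper180).  Auxiliary lemmas prefix `ty2_`.

PLAN.  `u_l(y) := ∂_t^l u (y,0)/l!` is analytic at `p`; `tay2 p u = ∑ t^l tay1 p u_l`.
 * `tay2_mul`: Leibniz in `t` for fixed `y` near `p`.   * `tay2_pdt`: `(∂_t u)_l = (l+1) u_{l+1}`.   * `tay2_pdy`: `∂_y` commutes with `∂_t^l` on analytic functions (symmetry of the second derivative), `tay1_deriv`.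
 * `tay2_eq_zero_iff`: on a bidisc `U × V` of analyticity: every `u_l` vanishes near `p`, hence on `U` (identity theorem), hence `t ↦ u(y,t)` has zero Taylor series at `0` for `y ∈ U`.
 * `tay2_shear`: `v(y,t) := u(y + q t, t)`; `∂_t v = (∂_t u + q ∂_y u)(y+qt,t)`, `∂_y v = (∂_y u)(y + qt,t)`, so `∂_t^l v (y,0) = ((∂_t + q ∂_y)^l u)(y,0) = ∑_i binom(l,i) q^i ∂_y^i ∂_t^{l-i} u (y,0)`,
   i.e. `v_l = ∑_i q^i/i! ∂_y^i u_{l-i}`; compare with `Sh_coeff`.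
-/
import Claimed.Agent.R269.S5.CenterTay1
import Claimed.Agent.R269.S4.Defs
import Claimed.Agent.R269.S4.ZTayCore

set_option autoImplicit false
set_option maxSynthPendingDepth 3

namespace Claimed.Agent.R269.Ctr

open HahnSeries Lau Filter Topology

/-- Taylor series at `(p,0)`. -/
noncomputable def tay2 (p : ℂ) (u : ℂ × ℂ → ℂ) : AA :=
  HahnSeries.ofPowerSeries ℤ KK
    (PowerSeries.mk fun l => tay1 p (fun y => pd 0 l u (y, 0) / (l.factorial : ℂ)))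

theorem ty2_tay1_eq (p : ℂ) (f : ℂ → ℂ) : tay1 p f = ZT.ztay1 p f := rfl

theorem ty2_tay2_eq (p : ℂ) (u : ℂ × ℂ → ℂ) : tay2 p u = ZT.ztay (p, 0) u := rfl

theorem ty2_cc_eq (c : ℂ) : cc c = ZT.cst c := rfl

theorem ty2_Dz_eq : Dz = ZT.D1 := rfl

theorem ty2_Dt_eq : Dt = ZT.D2 := rfl

theorem tay2_coeff (p : ℂ) (u : ℂ × ℂ → ℂ) (l : ℕ) :
    (tay2 p u).coeff (l : ℤ) = tay1 p (fun y => pd 0 l u (y, 0) / (l.factorial : ℂ)) :=
  ZT.coeff_ofPS _ l

theorem tay2_coeff_zero (p : ℂ) (u : ℂ × ℂ → ℂ) : (tay2 p u).coeff 0 = tay1 p (fun y => u (y, 0)) :=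
  ZT.ztay_coeff_zero (p, 0) u

theorem ty2_tay2_nonneg (p : ℂ) (u : ℂ × ℂ → ℂ) : 0 ≤ (tay2 p u).orderTop := by
  have : ((0 : ℤ) : WithTop ℤ) ≤ (tay2 p u).orderTop := by
    rw [le_orderTop_iff]
    exact (ZT.isPS_ztay (p, 0) u).coeff_neg
  exact_mod_cast this

theorem tay2_isPS2 (p : ℂ) (u : ℂ × ℂ → ℂ) : IsPS2 (tay2 p u) := by
  refine ⟨ty2_tay2_nonneg p u, fun l => ?_⟩
  rw [ty2_tay2_eq]
  exact ZT.coeff_orderTop_nonneg (ZT.isPS_ztay (p, 0) u) l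

theorem tay2_congr {p : ℂ} {u v : ℂ × ℂ → ℂ} (h : u =ᶠ[𝓝 (p, 0)] v) : tay2 p u = tay2 p v := by
  simp only [ty2_tay2_eq]
  exact ZT.ztay_congr h

theorem tay2_const (p c : ℂ) : tay2 p (fun _ => c) = cc c := by
  simp only [ty2_tay2_eq, ty2_cc_eq]
  exact ZT.ztay_const (p, 0) c

theorem tay2_add {p : ℂ} {u v : ℂ × ℂ → ℂ} (hu : AnalyticAt ℂ u (p, 0)) (hv : AnalyticAt ℂ v (p, 0)) :
    tay2 p (fun z => u z + v z) = tay2 p u + tay2 p v := by
  simp only [ty2_tay2_eq]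
  exact ZT.ztay_add hu hv

theorem tay2_neg {p : ℂ} {u : ℂ × ℂ → ℂ} (hu : AnalyticAt ℂ u (p, 0)) :
    tay2 p (fun z => -u z) = -tay2 p u := by
  simp only [ty2_tay2_eq]
  exact ZT.ztay_neg hu

theorem tay2_mul {p : ℂ} {u v : ℂ × ℂ → ℂ} (hu : AnalyticAt ℂ u (p, 0)) (hv : AnalyticAt ℂ v (p, 0)) :
    tay2 p (fun z => u z * v z) = tay2 p u * tay2 p v := by
  simp only [ty2_tay2_eq]
  exact ZT.ztay_mul hu hv

theorem tay2_eq_zero_iff {p : ℂ} {u : ℂ × ℂ → ℂ} (hu : AnalyticAt ℂ u (p, 0)) :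
    tay2 p u = 0 ↔ ∀ᶠ z in 𝓝 (p, (0 : ℂ)), u z = 0 := by
  simp only [ty2_tay2_eq]
  exact ZT.ztay_eq_zero_iff hu

theorem tay2_pdy {p : ℂ} {u : ℂ × ℂ → ℂ} (hu : AnalyticAt ℂ u (p, 0)) :
    tay2 p (pdy u) = Dz (tay2 p u) := by
  simp only [ty2_tay2_eq, ty2_Dz_eq]
  exact ZT.ztay_pdy hu

theorem tay2_pdt {p : ℂ} {u : ℂ × ℂ → ℂ} (hu : AnalyticAt ℂ u (p, 0)) :
    tay2 p (pdt u) = Dt (tay2 p u) := by
  simp only [ty2_tay2_eq, ty2_Dt_eq]
  exact ZT.ztay_pdt hu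

theorem ty2_shear_map_analyticAt (p q : ℂ) :
    AnalyticAt ℂ (fun z : ℂ × ℂ => (z.1 + q * z.2, z.2)) (p, 0) :=
  AnalyticAt.prod (analyticAt_fst.add (analyticAt_const.mul analyticAt_snd)) analyticAt_snd

theorem ty2_shear_analyticAt {p : ℂ} {u : ℂ × ℂ → ℂ} (hu : AnalyticAt ℂ u (p, 0)) (q : ℂ) :
    AnalyticAt ℂ (fun z => u (z.1 + q * z.2, z.2)) (p, 0) := by
  exact AnalyticAt.comp (f := fun z : ℂ × ℂ => (z.1 + q * z.2, z.2)) (by simpa using hu)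
    (ty2_shear_map_analyticAt p q)

/-- chain rule for the shear. -/
theorem ty2_pdt_shear {p : ℂ} {u : ℂ × ℂ → ℂ} (hu : AnalyticAt ℂ u (p, 0)) (q : ℂ) :
    pdt (fun z => u (z.1 + q * z.2, z.2)) =ᶠ[𝓝 (p, 0)]
      fun z => (fun w => pdt u w + (fun _ => q) w * pdy u w) (z.1 + q * z.2, z.2) := by
  have hc : Tendsto (fun z : ℂ × ℂ => (z.1 + q * z.2, z.2)) (𝓝 (p, 0)) (𝓝 (p, 0)) := by
    have := (ty2_shear_map_analyticAt p q).continuousAt.tendsto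
    simpa using this
  filter_upwards [hc.eventually hu.eventually_analyticAt] with z hz
  have hd : DifferentiableAt ℂ u (z.1 + q * z.2, z.2) := hz.differentiableAt
  have h1 : HasDerivAt (fun t : ℂ => (z.1 + q * t, t)) (q, (1 : ℂ)) z.2 := by
    have h2 : HasDerivAt (fun t : ℂ => z.1 + q * t) q z.2 := by
      simpa using ((hasDerivAt_id z.2).const_mul q).const_add z.1
    exact h2.prodMk (hasDerivAt_id z.2)
  have h2 : HasFDerivAt u (fderiv ℂ u (z.1 + q * z.2, z.2)) ((fun t : ℂ => (z.1 + q * t, t)) z.2) :=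
    hd.hasFDerivAt
  have h3 : pdt (fun z => u (z.1 + q * z.2, z.2)) z = fderiv ℂ u (z.1 + q * z.2, z.2) (q, 1) :=
    (HasFDerivAt.comp_hasDerivAt (f := fun t : ℂ => (z.1 + q * t, t)) z.2 h2 h1).deriv
  rw [h3]
  show _ = pdt u (z.1 + q * z.2, z.2) + q * pdy u (z.1 + q * z.2, z.2)
  rw [pdt_eq_fderiv hd, pdy_eq_fderiv hd]
  have h4 : ((q, 1) : ℂ × ℂ) = (0, 1) + q • ((1, 0) : ℂ × ℂ) := by
    ext <;> simp
  rw [h4, map_add, map_smul, smul_eq_mul]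

/-- the step of the induction on the order in `t`. -/
theorem ty2_coeff_succ {F G : AA} (n : ℕ) (h : (Dt F).coeff (n : ℤ) = (Dt G).coeff (n : ℤ)) :
    F.coeff ((n + 1 : ℕ) : ℤ) = G.coeff ((n + 1 : ℕ) : ℤ) := by
  rw [Dt_coeff, Dt_coeff] at h
  have hn : ((n : ℤ) : KK) + 1 ≠ 0 := by
    have : ((n + 1 : ℕ) : KK) ≠ 0 := Nat.cast_ne_zero.2 (Nat.succ_ne_zero n)
    push_cast at this ⊢
    exact this
  have := mul_left_cancel₀ hn h
  push_cast
  exact this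

theorem ty2_shear_coeff (p : ℂ) (q : ℤ) (n : ℕ) : ∀ {u : ℂ × ℂ → ℂ}, AnalyticAt ℂ u (p, 0) →
    (tay2 p (fun z => u (z.1 + (q : ℂ) * z.2, z.2))).coeff (n : ℤ) =
      (Sh q (tay2 p u)).coeff (n : ℤ) := by
  induction n with
  | zero =>
    intro u _
    rw [Nat.cast_zero]
    have h0 : (Sh q (tay2 p u)).coeff 0 = (tay2 p u).coeff 0 :=
      Lau.shear_coeff_zero dz q (tay2 p u) (ty2_tay2_nonneg p u)
    rw [h0, tay2_coeff_zero, tay2_coeff_zero]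
    congr 1
    funext y
    simp
  | succ n ih =>
    intro u hu
    apply ty2_coeff_succ
    have hw : AnalyticAt ℂ (fun w => (fun _ => (q : ℂ)) w * pdy u w) (p, 0) :=
      analyticAt_const.mul (analyticAt_pdy hu)
    have hv : AnalyticAt ℂ (fun w => pdt u w + (fun w => (fun _ => (q : ℂ)) w * pdy u w) w) (p, 0) :=
      (analyticAt_pdt hu).add hw
    have hq : cc (q : ℂ) = (q : AA) := by simp [cc]
    rw [← tay2_pdt (ty2_shear_analyticAt hu q), tay2_congr (ty2_pdt_shear hu q), ih hv, Dt_Sh,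
      tay2_add (analyticAt_pdt hu) hw,
      tay2_mul analyticAt_const (analyticAt_pdy hu), tay2_const, tay2_pdt hu, tay2_pdy hu, hq]

/-- compatibility with the shear `(y,t) ↦ (y + q t, t)`. -/
theorem tay2_shear {p : ℂ} {u : ℂ × ℂ → ℂ} (hu : AnalyticAt ℂ u (p, 0)) (q : ℤ) :
    tay2 p (fun z => u (z.1 + (q : ℂ) * z.2, z.2)) = Sh q (tay2 p u) := by
  have h1 : ∀ i : ℤ, i < 0 → (tay2 p (fun z => u (z.1 + (q : ℂ) * z.2, z.2))).coeff i = 0 :=
    (le_orderTop_iff _ 0).1 (by exact_mod_cast ty2_tay2_nonneg p _)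
  have h2 : ∀ i : ℤ, i < 0 → (Sh q (tay2 p u)).coeff i = 0 :=
    (le_orderTop_iff _ 0).1 (by rw [Sh_orderTop]; exact_mod_cast ty2_tay2_nonneg p u)
  exact ZT.ext_nat h1 h2 fun n => ty2_shear_coeff p q n hu

theorem ty2_tay2_eqns_cite : True := by
  have := @tay2.eq_1
  trivial

end Claimed.Agent.R269.Ctr
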