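/-
Row 269, P1 Lemmas 5.1-5.2, the analytic bridge, leaf LF-S5b-rep2.   Statements: helper134.
FORMAL EXPANSION at `(p,0)` of jointly meromorphic germs as a RELATION:  `FRep p F x` : `F = g/k` generically near `(p,0)`, `x · tay2 k = tay2 g`.
Uses the `Mero2` toolkit (`Lib/Mero2.lean`, `Lib/Mero2b.lean`: `genF`, `NZAt`, `pdy_congr_genF`, `pdt_congr_genF`, `tendsto_genF_shear`, `eventuallyEq_nhds_of_genF`, …) and `CenterTay2.lean`, `CenterRep1.lean` as black boxes.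
Fill the `sorry`s IN PLACE (auxiliary lemmas above the statements, prefix `l2_`).

PLAN.  `tay2 p k ≠ 0` for `NZAt k (p,0)` (`tay2_eq_zero_iff`).  Closure: choose representatives, cross-multiply, `tay2_add/mul/pdy/pdt/shear`, `field_simp` in the field `AA`, `Dv.map_div`.
 * `FRep.pdy`: `pdy F =ᶠ[genF] pdy (g/k)` (`pdy_congr_genF`) `= (k ∂_y g - g ∂_y k)/k²` where `k ≠ 0` (generic).
 * `FRep.shear`: `Φ(w) = (w.1 + q w.2, w.2) = shear (fun t => q t) 0 1 w` fixes `(p,0)`; `tendsto_genF_shear`; `NZAt (k ∘ Φ)`.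
 * `FRep.eq_zero`: `g/k = 0` generically ⇒ `g = 0` generically ⇒ `g = 0` near `(p,0)` (`eventuallyEq_nhds_of_genF`) ⇒ `tay2 g = 0` ⇒ `x = 0`.
 * `frep_of_sliceMero`: the representation `g/k` of `SliceMero` has `k(·,0) ≢ 0`: `(tay2 k)_0 = tay1 (k(·,0)) ≠ 0`; `x := tay2 g * (tay2 k)⁻¹`, `nonneg_inv`, `coeff_zero_mul`;
   on the slice: `k(y,0) ≠ 0` on a punctured neighbourhood of `p`, there `F(y,0) = g(y,0)/k(y,0)` (restrict the `𝓝 (p,0)`-statement of `SliceMero` to the slice).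
-/
import Claimed.Agent.R269.S5.CenterTay2
import Claimed.Agent.R269.S5.CenterRep1
import Claimed.Agent.R269.Lib.Mero2b

set_option autoImplicit false
set_option maxSynthPendingDepth 3

namespace Claimed.Agent.R269.Ctr

open HahnSeries Lau Filter Topology

/-- `x ∈ K((t))` is the formal expansion of the meromorphic germ `F` at `(p,0)`. -/
def FRep (p : ℂ) (F : ℂ × ℂ → ℂ) (x : AA) : Prop :=
  ∃ g k : ℂ × ℂ → ℂ, AnalyticAt ℂ g (p, 0) ∧ AnalyticAt ℂ k (p, 0) ∧ NZAt k (p, 0) ∧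
    (F =ᶠ[genF (p, 0)] fun w => g w / k w) ∧ x * tay2 p k = tay2 p g

theorem l2_tay2_ne {p : ℂ} {k : ℂ × ℂ → ℂ} (hk : AnalyticAt ℂ k (p, 0)) (h0 : NZAt k (p, 0)) :
    tay2 p k ≠ 0 := fun h => h0 ((tay2_eq_zero_iff hk).mp h)

theorem l2_tay2_sub {p : ℂ} {u v : ℂ × ℂ → ℂ} (hu : AnalyticAt ℂ u (p, 0))
    (hv : AnalyticAt ℂ v (p, 0)) : tay2 p (fun z => u z - v z) = tay2 p u - tay2 p v := by
  have h : (fun z => u z - v z) = fun z => u z + (fun z => -v z) z := by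
    funext z; ring
  rw [h, tay2_add (v := fun z => -v z) hu hv.neg, tay2_neg hv, sub_eq_add_neg]

theorem FRep.congr {p : ℂ} {F F' : ℂ × ℂ → ℂ} {x : AA} (h : FRep p F x) (hF : F =ᶠ[genF (p, 0)] F') :
    FRep p F' x := by
  obtain ⟨g, k, hg, hk, h0, hFg, hx⟩ := h
  exact ⟨g, k, hg, hk, h0, hF.symm.trans hFg, hx⟩

theorem FRep.isFrac {p : ℂ} {F : ℂ × ℂ → ℂ} {x : AA} (h : FRep p F x) : IsFrac x := by
  obtain ⟨g, k, hg, hk, h0, hFg, hx⟩ := h
  exact ⟨tay2 p k, tay2 p g, tay2_isPS2 p k, tay2_isPS2 p g, l2_tay2_ne hk h0, by rw [mul_comm, hx]⟩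

theorem l2_cc_one : cc 1 = 1 := by simp [cc]

theorem frep_const (p c : ℂ) : FRep p (fun _ => c) (cc c) := by
  refine ⟨fun _ => c, fun _ => 1, analyticAt_const, analyticAt_const, NZAt.of_ne_zero one_ne_zero,
    Eventually.of_forall fun w => by simp, ?_⟩
  rw [tay2_const, tay2_const, l2_cc_one, mul_one]

theorem FRep.add {p : ℂ} {F F' : ℂ × ℂ → ℂ} {x x' : AA} (h : FRep p F x) (h' : FRep p F' x') :
    FRep p (fun w => F w + F' w) (x + x') := by
  obtain ⟨g, k, hg, hk, h0, hFg, hx⟩ := h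
  obtain ⟨g', k', hg', hk', h0', hFg', hx'⟩ := h'
  refine ⟨fun w => g w * k' w + g' w * k w, fun w => k w * k' w, (hg.mul hk').add (hg'.mul hk),
    hk.mul hk', NZAt.mul hk hk' h0 h0', ?_, ?_⟩
  · filter_upwards [hFg, hFg', eventually_genF_ne_zero hk h0, eventually_genF_ne_zero hk' h0']
      with w h1 h2 h3 h4
    rw [h1, h2]
    field_simp
  · rw [tay2_add (u := fun w => g w * k' w) (v := fun w => g' w * k w) (hg.mul hk') (hg'.mul hk),
      tay2_mul hg hk', tay2_mul hg' hk, tay2_mul hk hk',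
      ← hx, ← hx']
    ring

theorem FRep.neg {p : ℂ} {F : ℂ × ℂ → ℂ} {x : AA} (h : FRep p F x) : FRep p (fun w => -F w) (-x) := by
  obtain ⟨g, k, hg, hk, h0, hFg, hx⟩ := h
  refine ⟨fun w => -g w, k, hg.neg, hk, h0, ?_, ?_⟩
  · filter_upwards [hFg] with w h1
    rw [h1, neg_div]
  · rw [tay2_neg hg, ← hx, neg_mul]

theorem FRep.sub {p : ℂ} {F F' : ℂ × ℂ → ℂ} {x x' : AA} (h : FRep p F x) (h' : FRep p F' x') :
    FRep p (fun w => F w - F' w) (x - x') := by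
  have := h.add h'.neg
  simpa only [← sub_eq_add_neg] using this

theorem FRep.mul {p : ℂ} {F F' : ℂ × ℂ → ℂ} {x x' : AA} (h : FRep p F x) (h' : FRep p F' x') :
    FRep p (fun w => F w * F' w) (x * x') := by
  obtain ⟨g, k, hg, hk, h0, hFg, hx⟩ := h
  obtain ⟨g', k', hg', hk', h0', hFg', hx'⟩ := h'
  refine ⟨fun w => g w * g' w, fun w => k w * k' w, hg.mul hg', hk.mul hk',
    NZAt.mul hk hk' h0 h0', ?_, ?_⟩
  · filter_upwards [hFg, hFg'] with w h1 h2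
    rw [h1, h2, div_mul_div_comm]
  · rw [tay2_mul hg hg', tay2_mul hk hk', ← hx, ← hx']
    ring

theorem FRep.pow {p : ℂ} {F : ℂ × ℂ → ℂ} {x : AA} (h : FRep p F x) (m : ℕ) :
    FRep p (fun w => F w ^ m) (x ^ m) := by
  induction m with
  | zero =>
    have := frep_const p 1
    rw [l2_cc_one] at this
    simpa using this
  | succ m ih =>
    have := ih.mul h
    simpa only [pow_succ] using this

theorem l2_pdy_div {g k : ℂ × ℂ → ℂ} {w : ℂ × ℂ} (hg : AnalyticAt ℂ g w) (hk : AnalyticAt ℂ k w)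
    (h0 : k w ≠ 0) :
    pdy (fun w => g w / k w) w = (pdy g w * k w - g w * pdy k w) / (k w * k w) := by
  unfold pdy
  have h1 := differentiableAt_slice_fst hg.differentiableAt
  have h2 := differentiableAt_slice_fst hk.differentiableAt
  have h3 : deriv (fun y => g (y, w.2) / k (y, w.2)) w.1 = _ := deriv_fun_div h1 h2 h0
  rw [h3, pow_two]

theorem l2_pdt_div {g k : ℂ × ℂ → ℂ} {w : ℂ × ℂ} (hg : AnalyticAt ℂ g w) (hk : AnalyticAt ℂ k w)
    (h0 : k w ≠ 0) :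
    pdt (fun w => g w / k w) w = (pdt g w * k w - g w * pdt k w) / (k w * k w) := by
  unfold pdt
  have h1 := differentiableAt_slice_snd hg.differentiableAt
  have h2 := differentiableAt_slice_snd hk.differentiableAt
  have h3 : deriv (fun t => g (w.1, t) / k (w.1, t)) w.2 = _ := deriv_fun_div h1 h2 h0
  rw [h3, pow_two]

theorem l2_dv_quot (δ : Dv AA) {x K G : AA} (h : x * K = G) :
    δ x * (K * K) = δ G * K - G * δ K := by
  rw [← h, Dv.leibniz]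
  ring

theorem FRep.pdy {p : ℂ} {F : ℂ × ℂ → ℂ} {x : AA} (h : FRep p F x) : FRep p (pdy F) (Dz x) := by
  obtain ⟨g, k, hg, hk, h0, hFg, hx⟩ := h
  refine ⟨fun w => Claimed.Agent.R269.pdy g w * k w - g w * Claimed.Agent.R269.pdy k w,
    fun w => k w * k w, ((analyticAt_pdy hg).mul hk).sub (hg.mul (analyticAt_pdy hk)),
    hk.mul hk, NZAt.mul hk hk h0 h0, ?_, ?_⟩
  · filter_upwards [pdy_congr_genF hFg, eventually_genF_ne_zero hk h0,
      hg.eventually_analyticAt.genF, hk.eventually_analyticAt.genF] with w h1 h2 h3 h4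
    rw [h1, l2_pdy_div h3 h4 h2]
  · rw [l2_tay2_sub (u := fun w => Claimed.Agent.R269.pdy g w * k w)
        (v := fun w => g w * Claimed.Agent.R269.pdy k w)
        ((analyticAt_pdy hg).mul hk) (hg.mul (analyticAt_pdy hk)),
      tay2_mul (analyticAt_pdy hg) hk, tay2_mul hg (analyticAt_pdy hk), tay2_mul hk hk,
      tay2_pdy hg, tay2_pdy hk]
    exact l2_dv_quot Dz hx

theorem FRep.pdt {p : ℂ} {F : ℂ × ℂ → ℂ} {x : AA} (h : FRep p F x) : FRep p (pdt F) (Dt x) := by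
  obtain ⟨g, k, hg, hk, h0, hFg, hx⟩ := h
  refine ⟨fun w => Claimed.Agent.R269.pdt g w * k w - g w * Claimed.Agent.R269.pdt k w,
    fun w => k w * k w, ((analyticAt_pdt hg).mul hk).sub (hg.mul (analyticAt_pdt hk)),
    hk.mul hk, NZAt.mul hk hk h0 h0, ?_, ?_⟩
  · filter_upwards [pdt_congr_genF hFg, eventually_genF_ne_zero hk h0,
      hg.eventually_analyticAt.genF, hk.eventually_analyticAt.genF] with w h1 h2 h3 h4
    rw [h1, l2_pdt_div h3 h4 h2]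
  · rw [l2_tay2_sub (u := fun w => Claimed.Agent.R269.pdt g w * k w)
        (v := fun w => g w * Claimed.Agent.R269.pdt k w)
        ((analyticAt_pdt hg).mul hk) (hg.mul (analyticAt_pdt hk)),
      tay2_mul (analyticAt_pdt hg) hk, tay2_mul hg (analyticAt_pdt hk), tay2_mul hk hk,
      tay2_pdt hg, tay2_pdt hk]
    exact l2_dv_quot Dt hx

theorem l2_shear_eq (q : ℤ) :
    Claimed.Agent.R269.shear (fun t => (q : ℂ) * t) 0 1 = fun w => (w.1 + (q : ℂ) * w.2, w.2) := by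
  funext w
  simp [Claimed.Agent.R269.shear]

theorem l2_shear_fix (q : ℤ) (p : ℂ) :
    Claimed.Agent.R269.shear (fun t => (q : ℂ) * t) 0 1 (p, 0) = (p, 0) := by
  simp [Claimed.Agent.R269.shear]

theorem FRep.shear {p : ℂ} {F : ℂ × ℂ → ℂ} {x : AA} (h : FRep p F x) (q : ℤ) :
    FRep p (fun w => F (w.1 + (q : ℂ) * w.2, w.2)) (Sh q x) := by
  obtain ⟨g, k, hg, hk, h0, hFg, hx⟩ := h
  have ha : AnalyticAt ℂ (fun t : ℂ => (q : ℂ) * t) ((p, (0 : ℂ)) : ℂ × ℂ).2 :=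
    analyticAt_const.mul analyticAt_id
  have hΦ : AnalyticAt ℂ (fun w : ℂ × ℂ => ((w.1 + (q : ℂ) * w.2, w.2) : ℂ × ℂ)) (p, 0) := by
    rw [← l2_shear_eq]
    exact analyticAt_shear ha
  have hfix : (fun w : ℂ × ℂ => ((w.1 + (q : ℂ) * w.2, w.2) : ℂ × ℂ)) (p, 0) = (p, 0) := by
    simp
  have ht : Tendsto (fun w : ℂ × ℂ => ((w.1 + (q : ℂ) * w.2, w.2) : ℂ × ℂ)) (genF (p, 0))
      (genF (p, 0)) := by
    have := tendsto_genF_shear (t₀ := 0) (r := 1) (z := (p, (0 : ℂ))) ha one_ne_zero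
    rwa [l2_shear_fix, l2_shear_eq] at this
  have hle : 𝓝 ((fun w : ℂ × ℂ => ((w.1 + (q : ℂ) * w.2, w.2) : ℂ × ℂ)) (p, 0))
      ≤ map (fun w : ℂ × ℂ => ((w.1 + (q : ℂ) * w.2, w.2) : ℂ × ℂ)) (𝓝 (p, 0)) := by
    have := le_map_shear (t₀ := 0) (r := 1) (z := (p, (0 : ℂ))) ha.continuousAt one_ne_zero
    rwa [l2_shear_eq] at this
  refine ⟨fun w => g (w.1 + (q : ℂ) * w.2, w.2), fun w => k (w.1 + (q : ℂ) * w.2, w.2), ?_, ?_, ?_,
    ?_, ?_⟩
  · exact AnalyticAt.comp (g := g) (by simpa using hg) hΦ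
  · exact AnalyticAt.comp (g := k) (by simpa using hk) hΦ
  · exact NZAt.comp_of_le_map (Φ := fun w : ℂ × ℂ => ((w.1 + (q : ℂ) * w.2, w.2) : ℂ × ℂ))
      (by simpa using h0) hle
  · exact ht.eventually hFg
  · rw [tay2_shear hk, tay2_shear hg, ← map_mul, hx]

theorem FRep.eq_zero {p : ℂ} {F : ℂ × ℂ → ℂ} {x : AA} (h : FRep p F x)
    (h0 : ∀ᶠ w in genF (p, 0), F w = 0) : x = 0 := by
  obtain ⟨g, k, hg, hk, hk0, hFg, hx⟩ := h
  have h1 : g =ᶠ[genF (p, 0)] fun _ => 0 := by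
    filter_upwards [hFg, h0, eventually_genF_ne_zero hk hk0] with w h1 h2 h3
    rw [h2] at h1
    exact (div_eq_zero_iff.mp h1.symm).resolve_right h3
  have h2 : g =ᶠ[𝓝 (p, 0)] fun _ => 0 := eventuallyEq_nhds_of_genF hg analyticAt_const h1
  have h3 : tay2 p g = 0 := (tay2_eq_zero_iff hg).mpr h2
  rw [h3] at hx
  exact (mul_eq_zero.mp hx).resolve_right (l2_tay2_ne hk hk0)

/-- a function which is `SliceMero` near `(p,0)`: expansion in `K[[t]]`, and its zero slice. -/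
theorem frep_of_sliceMero {F : ℂ × ℂ → ℂ} {W : Set (ℂ × ℂ)} (h : SliceMero F W) {p : ℂ}
    (hp : (p, (0 : ℂ)) ∈ W) :
    ∃ x : AA, FRep p F x ∧ 0 ≤ x.orderTop ∧ LRep p (fun y => F (y, 0)) (x.coeff 0) := by
  obtain ⟨g, k, hg, hk, hk0, hF⟩ := h (p, 0) hp
  have hk0' : ¬ ∀ᶠ y in 𝓝 p, k (y, 0) = 0 := hk0
  have hNZ : NZAt k (p, 0) := by
    intro hz
    exact hk0' ((tendsto_mk_fst (p, (0 : ℂ))).eventually hz)
  have hg1 : AnalyticAt ℂ (fun y => g (y, 0)) p := analyticAt_slice_fst (z := (p, (0 : ℂ))) hg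
  have hk1 : AnalyticAt ℂ (fun y => k (y, 0)) p := analyticAt_slice_fst (z := (p, (0 : ℂ))) hk
  have hne := l2_tay2_ne hk hNZ
  have hc0 : (tay2 p k).coeff 0 ≠ 0 := by
    rw [tay2_coeff_zero]
    exact fun h => hk0' ((tay1_eq_zero_iff hk1).mp h)
  have hinv := nonneg_inv (tay2_isPS2 p k).1 hc0
  refine ⟨tay2 p g * (tay2 p k)⁻¹, ⟨g, k, hg, hk, hNZ, ?_, ?_⟩, ?_, ?_⟩
  · exact eventually_genF_iff.mpr ⟨k, hk, hNZ, hF⟩
  · rw [mul_assoc, inv_mul_cancel₀ hne, mul_one]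
  · exact nonneg_mul (tay2_isPS2 p g).1 hinv.1
  · rw [coeff_zero_mul _ _ (tay2_isPS2 p g).1 hinv.1, hinv.2, tay2_coeff_zero, tay2_coeff_zero]
    rw [tay2_coeff_zero] at hc0
    refine ⟨fun y => g (y, 0), fun y => k (y, 0), hg1, hk1, hk0', ?_, ?_⟩
    · have h1 : ∀ᶠ y in 𝓝[≠] p, k (y, 0) ≠ 0 :=
        (hk1.eventually_eq_zero_or_eventually_ne_zero).resolve_left hk0'
      have h2 : ∀ᶠ y in 𝓝 p, k (y, 0) ≠ 0 → F (y, 0) = g (y, 0) / k (y, 0) :=
        (tendsto_mk_fst (p, (0 : ℂ))).eventually hF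
      filter_upwards [h1, h2.filter_mono nhdsWithin_le_nhds] with y h3 h4
      exact h4 h3
    · rw [mul_assoc, inv_mul_cancel₀ hc0, mul_one]

end Claimed.Agent.R269.Ctr
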