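/-
Row 269, P1 Section 5.1 (block S5a), leaf LF-S5a-real.   Statements: helper134.
Near the real axis the meromorphic normal of (5.2) is the actual one:  (5.1).
Only the fields of `Glance`, `Sec4.X_base` and the definitions are used.   Fill the `sorry`s IN PLACE (prefix `nb_`).

PLAN.  * `Γ_base`: `S.X_base` at `(y,0)`.   `Γ0_eq`: unfold `Γ0`, `X0`; `y - 0/2 = y`, `(θ + θ)/2 = θ`.
 * `φ₀ = Θ(·,0)` is holomorphic on `hstrip (2s)` (restrict `Θ_diff`), maps it into `hstrip σ` where `hc` is holomorphic.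
 * for `x = suppPt h ψ`:  `x₁ + i x₂ = (h + i h')(ψ) e^{iψ}`, derivative in `ψ`: `i (h + h'')(ψ) e^{iψ}`;  `x₁ - i x₂ = (h - i h')(ψ) e^{-iψ}`, derivative `-i (h + h'')(ψ) e^{-iψ}`.
 * `normalised_nhds`: `y ↦ (hc + hc'')(φ₀ y) φ₀'(y)³ - c` is analytic on the connected open set `hstrip (2 s)` and vanishes on the real axis (`G.normalised`), which accumulates: identity theorem
   (`AnalyticOnNhd.eqOn_zero_of_preconnected_of_frequently_eq_zero`).   In particular `φ₀' ≠ 0` and `(hc + hc'')(φ₀) ≠ 0` on `hstrip (2s)` (`c > 0`).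
 * then `Zc' = i c e^{iφ₀}/φ₀'²`, `Wc' = -i c e^{-iφ₀}/φ₀'²` on `hstrip (s/2)` (`EventuallyEq.deriv_eq`), `a2 = e^{2iφ₀}`, `fm = φ₀'`, `am = e^{iφ₀}`.
-/
import Claimed.Agent.R269.S5.Pre

set_option autoImplicit false

namespace Claimed.Agent.R269

open Complex ComplexConjugate Filter Topology
open scoped ENNReal Real

theorem nb_isOpen_hstrip (s : ℝ) : IsOpen (hstrip s) :=
  isOpen_lt (continuous_abs.comp Complex.continuous_im) continuous_const

theorem nb_convex_hstrip (s : ℝ) : Convex ℝ (hstrip s) := by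
  have h1 : hstrip s = Complex.imCLM ⁻¹' (Set.Ioo (-s) s) := by
    ext z
    simp [hstrip, abs_lt]
  rw [h1]
  exact (convex_Ioo (-s) s).linear_preimage Complex.imCLM.toLinearMap

theorem nb_hstrip_mono {s s' : ℝ} (h : s ≤ s') : hstrip s ⊆ hstrip s' :=
  fun _ hz => lt_of_lt_of_le hz h

theorem nb_ofReal_mem_hstrip {s : ℝ} (hs : 0 < s) (x : ℝ) : (x : ℂ) ∈ hstrip s := by
  simpa [hstrip] using hs

/-- the real axis accumulates at `0`. -/
theorem nb_frequently_real {p : ℂ → Prop} (h : ∀ x : ℝ, p x) : ∃ᶠ z in 𝓝[≠] (0 : ℂ), p z := by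
  have ht : Tendsto (fun x : ℝ => (x : ℂ)) (𝓝[≠] 0) (𝓝[≠] 0) := by
    refine tendsto_nhdsWithin_of_tendsto_nhds_of_eventually_within _ ?_ ?_
    · exact (Complex.continuous_ofReal.tendsto' 0 0 (by simp)).mono_left nhdsWithin_le_nhds
    · filter_upwards [self_mem_nhdsWithin] with x hx
      simpa using hx
  exact ht.frequently (Eventually.of_forall fun x => h x).frequently

/-- the isotropic coordinate `x₁ + i x₂` of a support point and its derivative. -/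
theorem nb_hasDerivAt_Z {h : ℂ → ℂ} {σ : ℝ} (hd : DifferentiableOn ℂ h (hstrip σ)) {ψ : ℂ}
    (hψ : ψ ∈ hstrip σ) :
    HasDerivAt (fun ψ => (suppPt h ψ).1 + I * (suppPt h ψ).2)
      (I * (h ψ + deriv (deriv h) ψ) * Complex.exp (I * ψ)) ψ := by
  have ho := nb_isOpen_hstrip σ
  have h0 : HasDerivAt h (deriv h ψ) ψ := (hd.differentiableAt (ho.mem_nhds hψ)).hasDerivAt
  have h1 : HasDerivAt (deriv h) (deriv (deriv h) ψ) ψ :=
    ((hd.deriv ho).differentiableAt (ho.mem_nhds hψ)).hasDerivAt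
  have hc := Complex.hasDerivAt_cos ψ
  have hs := Complex.hasDerivAt_sin ψ
  have h2 := ((h0.mul hc).sub (h1.mul hs)).add (((h0.mul hs).add (h1.mul hc)).const_mul I)
  refine h2.congr_deriv ?_
  have he : Complex.exp (I * ψ) = Complex.cos ψ + Complex.sin ψ * I := by
    rw [mul_comm]; exact Complex.exp_mul_I ψ
  rw [he]
  linear_combination (-(h ψ) * Complex.sin ψ - deriv (deriv h) ψ * Complex.sin ψ) * Complex.I_sq

/-- the isotropic coordinate `x₁ - i x₂` of a support point and its derivative. -/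
theorem nb_hasDerivAt_W {h : ℂ → ℂ} {σ : ℝ} (hd : DifferentiableOn ℂ h (hstrip σ)) {ψ : ℂ}
    (hψ : ψ ∈ hstrip σ) :
    HasDerivAt (fun ψ => (suppPt h ψ).1 - I * (suppPt h ψ).2)
      (-I * (h ψ + deriv (deriv h) ψ) * Complex.exp (-(I * ψ))) ψ := by
  have ho := nb_isOpen_hstrip σ
  have h0 : HasDerivAt h (deriv h ψ) ψ := (hd.differentiableAt (ho.mem_nhds hψ)).hasDerivAt
  have h1 : HasDerivAt (deriv h) (deriv (deriv h) ψ) ψ :=
    ((hd.deriv ho).differentiableAt (ho.mem_nhds hψ)).hasDerivAt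
  have hc := Complex.hasDerivAt_cos ψ
  have hs := Complex.hasDerivAt_sin ψ
  have h2 := ((h0.mul hc).sub (h1.mul hs)).sub (((h0.mul hs).add (h1.mul hc)).const_mul I)
  refine h2.congr_deriv ?_
  have he : Complex.exp (-(I * ψ)) = Complex.cos ψ - Complex.sin ψ * I := by
    have := Complex.exp_mul_I (-ψ)
    rw [Complex.cos_neg, Complex.sin_neg] at this
    rw [show -(I * ψ) = -ψ * I by ring, this]
    ring
  rw [he]
  linear_combination (-(h ψ) * Complex.sin ψ - deriv (deriv h) ψ * Complex.sin ψ) * Complex.I_sq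

namespace Glance

variable (G : Glance)

theorem nb_s_pos : 0 < G.s := G.r₁_pos.trans G.r₁_lt

theorem Γ0_eq (y : ℂ) : G.Γ0 y = suppPt G.hc (G.φ₀ y) := by
  unfold Γ0 X0 φ₀
  congr 1
  simp

theorem φ₀_diff : DifferentiableOn ℂ G.φ₀ (hstrip (2 * G.s)) := by
  have h1 : DifferentiableOn ℂ (fun y : ℂ => ((y, (0 : ℂ)) : ℂ × ℂ)) (hstrip (2 * G.s)) :=
    (differentiable_id.prodMk (differentiable_const 0)).differentiableOn
  exact G.Θ_diff.comp h1 fun y hy => ⟨hy, Metric.mem_ball_self G.r₁_pos⟩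

theorem nb_φ₀_mem {y : ℂ} (hy : y ∈ hstrip (2 * G.s)) : G.φ₀ y ∈ hstrip G.σ :=
  G.Θ_mem y hy 0 (Metric.mem_ball_self G.r₁_pos)

/-- the Lazutkin normalisation on the whole initial strip. -/
theorem normalised_strip (y : ℂ) (hy : y ∈ hstrip (2 * G.s)) :
    (G.hc (G.φ₀ y) + deriv (deriv G.hc) (G.φ₀ y)) * deriv G.φ₀ y ^ 3 = G.c := by
  have ho := nb_isOpen_hstrip (2 * G.s)
  have hoσ := nb_isOpen_hstrip G.σ
  have hmaps : Set.MapsTo G.φ₀ (hstrip (2 * G.s)) (hstrip G.σ) := fun y hy => G.nb_φ₀_mem hy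
  have d1 : DifferentiableOn ℂ (fun y => G.hc (G.φ₀ y)) (hstrip (2 * G.s)) :=
    G.hc_diff.comp G.φ₀_diff hmaps
  have d2 : DifferentiableOn ℂ (fun y => deriv (deriv G.hc) (G.φ₀ y)) (hstrip (2 * G.s)) :=
    ((G.hc_diff.deriv hoσ).deriv hoσ).comp G.φ₀_diff hmaps
  have d3 : DifferentiableOn ℂ (deriv G.φ₀) (hstrip (2 * G.s)) := G.φ₀_diff.deriv ho
  have d : DifferentiableOn ℂ (fun y => (G.hc (G.φ₀ y) + deriv (deriv G.hc) (G.φ₀ y))
      * deriv G.φ₀ y ^ 3 - G.c) (hstrip (2 * G.s)) :=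
    ((d1.add d2).mul (d3.pow 3)).sub (differentiableOn_const _)
  have h0 : (0 : ℂ) ∈ hstrip (2 * G.s) := by
    have := nb_ofReal_mem_hstrip (s := 2 * G.s) (by have := G.nb_s_pos; positivity) 0
    simpa using this
  have key := (d.analyticOnNhd ho).eqOn_zero_of_preconnected_of_frequently_eq_zero
    (nb_convex_hstrip _).isPreconnected h0
    (nb_frequently_real fun x => by
      have := G.normalised x
      show (G.hc (G.φ₀ x) + deriv (deriv G.hc) (G.φ₀ x)) * deriv G.φ₀ x ^ 3 - G.c = 0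
      exact sub_eq_zero.2 this)
  exact sub_eq_zero.1 (key hy)

theorem dφ₀_ne_zero (y : ℂ) (hy : y ∈ hstrip (2 * G.s)) : deriv G.φ₀ y ≠ 0 := by
  intro h
  have h1 := G.normalised_strip y hy
  rw [h] at h1
  have h2 : (G.c : ℂ) = 0 := by rw [← h1]; simp
  exact G.c_pos.ne' (by exact_mod_cast h2)

theorem nb_half_sub : hstrip (G.s / 2) ⊆ hstrip (2 * G.s) :=
  nb_hstrip_mono (by have := G.nb_s_pos; linarith)

theorem nb_hasDerivAt_φ₀ (y : ℂ) (hy : y ∈ hstrip (G.s / 2)) :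
    HasDerivAt G.φ₀ (deriv G.φ₀ y) y :=
  (G.φ₀_diff.differentiableAt
    ((nb_isOpen_hstrip (2 * G.s)).mem_nhds (G.nb_half_sub hy))).hasDerivAt

end Glance

namespace Sec4

variable {G : Glance} (S : Sec4 G)

theorem Γ_base (y : ℂ) (hy : y ∈ hstrip (G.s / 2)) : S.Γ y = G.Γ0 y :=
  S.X_base (y, 0) ⟨hy, Metric.mem_ball_self S.ρ_pos⟩

theorem nb_Zc_eventually (y : ℂ) (hy : y ∈ hstrip (G.s / 2)) :
    S.Zc =ᶠ[𝓝 y] fun y => (suppPt G.hc (G.φ₀ y)).1 + I * (suppPt G.hc (G.φ₀ y)).2 := by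
  filter_upwards [(nb_isOpen_hstrip (G.s / 2)).mem_nhds hy] with z hz
  unfold Zc
  rw [S.Γ_base z hz, G.Γ0_eq]

theorem nb_Wc_eventually (y : ℂ) (hy : y ∈ hstrip (G.s / 2)) :
    S.Wc =ᶠ[𝓝 y] fun y => (suppPt G.hc (G.φ₀ y)).1 - I * (suppPt G.hc (G.φ₀ y)).2 := by
  filter_upwards [(nb_isOpen_hstrip (G.s / 2)).mem_nhds hy] with z hz
  unfold Wc
  rw [S.Γ_base z hz, G.Γ0_eq]

theorem dZc_base (y : ℂ) (hy : y ∈ hstrip (G.s / 2)) :
    deriv S.Zc y = I * G.c * Complex.exp (I * G.φ₀ y) / deriv G.φ₀ y ^ 2 := by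
  have hy2 := G.nb_half_sub hy
  rw [(S.nb_Zc_eventually y hy).deriv_eq]
  have h1 := (nb_hasDerivAt_Z G.hc_diff (G.nb_φ₀_mem hy2)).comp y (G.nb_hasDerivAt_φ₀ y hy)
  have h2 : deriv (fun y => (suppPt G.hc (G.φ₀ y)).1 + I * (suppPt G.hc (G.φ₀ y)).2) y = _ :=
    h1.deriv
  rw [h2, eq_div_iff (pow_ne_zero 2 (G.dφ₀_ne_zero y hy2)), ← G.normalised_strip y hy2]
  ring

theorem dWc_base (y : ℂ) (hy : y ∈ hstrip (G.s / 2)) :
    deriv S.Wc y = -I * G.c * Complex.exp (-(I * G.φ₀ y)) / deriv G.φ₀ y ^ 2 := by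
  have hy2 := G.nb_half_sub hy
  rw [(S.nb_Wc_eventually y hy).deriv_eq]
  have h1 := (nb_hasDerivAt_W G.hc_diff (G.nb_φ₀_mem hy2)).comp y (G.nb_hasDerivAt_φ₀ y hy)
  have h2 : deriv (fun y => (suppPt G.hc (G.φ₀ y)).1 - I * (suppPt G.hc (G.φ₀ y)).2) y = _ :=
    h1.deriv
  rw [h2, eq_div_iff (pow_ne_zero 2 (G.dφ₀_ne_zero y hy2)), ← G.normalised_strip y hy2]
  ring

theorem a2_base (y : ℂ) (hy : y ∈ hstrip (G.s / 2)) : S.a2 y = Complex.exp (2 * I * G.φ₀ y) := by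
  have hy2 := G.nb_half_sub hy
  have hφ := G.dφ₀_ne_zero y hy2
  have hc : (G.c : ℂ) ≠ 0 := by exact_mod_cast G.c_pos.ne'
  unfold a2
  rw [S.dZc_base y hy, S.dWc_base y hy]
  have he : Complex.exp (2 * I * G.φ₀ y) = Complex.exp (I * G.φ₀ y) * Complex.exp (I * G.φ₀ y) := by
    rw [← Complex.exp_add]; congr 1; ring
  have hn : Complex.exp (-(I * G.φ₀ y)) = (Complex.exp (I * G.φ₀ y))⁻¹ := Complex.exp_neg _
  have hE := Complex.exp_ne_zero (I * G.φ₀ y)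
  rw [he, hn]
  field_simp

theorem fm_base (y : ℂ) (hy : y ∈ hstrip (G.s / 2)) : S.fm y = deriv G.φ₀ y := by
  have h1 : S.a2 =ᶠ[𝓝 y] fun y => Complex.exp (2 * I * G.φ₀ y) := by
    filter_upwards [(nb_isOpen_hstrip (G.s / 2)).mem_nhds hy] with z hz
    exact S.a2_base z hz
  have h2 : HasDerivAt (fun y => Complex.exp (2 * I * G.φ₀ y))
      (Complex.exp (2 * I * G.φ₀ y) * (2 * I * deriv G.φ₀ y)) y :=
    ((G.nb_hasDerivAt_φ₀ y hy).const_mul (2 * I)).cexp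
  unfold fm
  rw [h1.deriv_eq, h2.deriv, S.a2_base y hy]
  have hE := Complex.exp_ne_zero (2 * I * G.φ₀ y)
  field_simp

theorem am_base (y : ℂ) (hy : y ∈ hstrip (G.s / 2)) : S.am y = Complex.exp (I * G.φ₀ y) := by
  have hy2 := G.nb_half_sub hy
  have hφ := G.dφ₀_ne_zero y hy2
  have hc : (G.c : ℂ) ≠ 0 := by exact_mod_cast G.c_pos.ne'
  unfold am
  rw [S.fm_base y hy, S.dZc_base y hy]
  field_simp

/-- near the real axis the meromorphic normal is the actual one. -/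
theorem am_real (x : ℝ) : ∀ᶠ y in 𝓝 (x : ℂ), S.am y = Complex.exp (I * G.φ₀ y) ∧
    S.fm y = deriv G.φ₀ y := by
  have hx : (x : ℂ) ∈ hstrip (G.s / 2) :=
    nb_ofReal_mem_hstrip (by have := G.nb_s_pos; positivity) x
  filter_upwards [(nb_isOpen_hstrip (G.s / 2)).mem_nhds hx] with z hz
  exact ⟨S.am_base z hz, S.fm_base z hz⟩

end Sec4

end Claimed.Agent.R269
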