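/-
Row 269, P1 Section 5.1 (block S5a), leaf LF-S5a-id.   Statements: helper134.
The identities (5.1)-(5.2) and the symmetries, continued to the whole shape strip `D_H` by the identity theorem for meromorphic functions of one variable.
Black boxes: `NormalA.lean`, `NormalB.lean`, `mero_identity`, `mero_eventually_ne` (`Lib/CA1Top.lean`), `isOpen_estrip`, `convex_estrip`, `estrip_add_real`, `estrip_conj` (`LiftBasic.lean`), `Glance.le_hX` (`LiftWidth.lean`).
Fill the `sorry`s IN PLACE (auxiliary lemmas above the statements, prefix `nc_`).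

PLAN.  `D_H` is open, convex (so preconnected) and contains `0`; a neighbourhood of `0` lies in `hstrip (s/2) ∩ D_H`.  Every identity is of the form `f = g` with `f, g` meromorphic on `D_H`
 (`MeromorphicOn` closure; `NormalA`), true near `0` by `NormalB`; apply `mero_identity`.
 * `am_order_ne_top`, `fm_order_ne_top`: `am = exp(iφ₀) ≠ 0`, `fm = φ₀' ≠ 0` near `0`; `MeromorphicOn.meromorphicOrderAt_ne_top_of_isPreconnected`.
 * period: `s ↦ f (s + 2π)` is meromorphic on `D_H` (`MeromorphicAt.comp_analyticAt`); near `0`: `Θ_per`, `hc_per` give `Γ0 (y + 2π) = Γ0 y` (`suppPt` is `2π`-periodic for periodic `h`; `deriv hc` is periodic too).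
 * conjugation: `s ↦ conj (f (conj s))` is meromorphic on `D_H` (`nc_mero_conj`: from the definition of `MeromorphicAt` and `AnalyticAt` of `conj ∘ g ∘ conj`, e.g. via `DifferentiableOn`/`HasDerivAt.conj_conj`-type lemmas); near `0`: `Θ_conj`, `hc_conj`.
   `am (conj s) = (conj (am s))⁻¹`, `fm (conj s) = conj (fm s)`: near `0` from `am = exp(iφ₀)`, `φ₀ (conj y) = conj (φ₀ y)`.
 * `real_not_center`: `am = exp(iφ₀)` is analytic and nonzero at real points (`am_real`).
-/
import Claimed.Agent.R269.S5.NormalA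
import Claimed.Agent.R269.S5.NormalB
import Claimed.Agent.R269.Lib.CA1
import Claimed.Agent.R269.S5.LiftWidth

set_option autoImplicit false

namespace Claimed.Agent.R269

open Complex ComplexConjugate Filter Topology
open scoped ENNReal Real

theorem nc_tendsto_conj (p : ℂ) : Tendsto (fun s : ℂ => conj s) (𝓝 p) (𝓝 (conj p)) :=
  Complex.continuous_conj.tendsto p

theorem nc_tendsto_conj_ne (p : ℂ) : Tendsto (fun s : ℂ => conj s) (𝓝[≠] p) (𝓝[≠] (conj p)) := by
  refine tendsto_nhdsWithin_of_tendsto_nhds_of_eventually_within _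
    ((nc_tendsto_conj p).mono_left nhdsWithin_le_nhds) ?_
  filter_upwards [self_mem_nhdsWithin] with s hs
  intro h
  exact hs ((starRingEnd ℂ).injective h)

/-- Schwarz reflection of an analytic function. -/
theorem nc_analyticAt_conj_conj {f : ℂ → ℂ} {p : ℂ} (hf : AnalyticAt ℂ f (conj p)) :
    AnalyticAt ℂ (fun s => conj (f (conj s))) p := by
  rw [analyticAt_iff_eventually_differentiableAt] at hf ⊢
  filter_upwards [(nc_tendsto_conj p).eventually hf] with s hs
  exact differentiableAt_conj_conj_iff.2 hs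

/-- Schwarz reflection of a meromorphic function. -/
theorem meromorphicAt_conj_conj {f : ℂ → ℂ} {p : ℂ} (hf : MeromorphicAt f (conj p)) :
    MeromorphicAt (fun s => conj (f (conj s))) p := by
  obtain ⟨n, hn⟩ := hf
  refine ⟨n, ?_⟩
  have h1 := nc_analyticAt_conj_conj hn
  refine h1.congr (Eventually.of_forall fun s => ?_)
  simp

theorem meromorphicOrderAt_conj_conj {f : ℂ → ℂ} {p : ℂ} (hf : MeromorphicAt f (conj p)) :
    meromorphicOrderAt (fun s => conj (f (conj s))) p = meromorphicOrderAt f (conj p) := by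
  induction ho : meromorphicOrderAt f (conj p) with
  | top =>
    rw [meromorphicOrderAt_eq_top_iff] at ho ⊢
    filter_upwards [(nc_tendsto_conj_ne p).eventually ho] with s hs
    rw [hs, map_zero]
  | coe n =>
    obtain ⟨g, hg, hg0, hfg⟩ := (meromorphicOrderAt_eq_int_iff hf).1 ho
    rw [meromorphicOrderAt_eq_int_iff (meromorphicAt_conj_conj hf)]
    refine ⟨fun s => conj (g (conj s)), nc_analyticAt_conj_conj hg, ?_, ?_⟩
    · simpa using hg0
    · filter_upwards [(nc_tendsto_conj_ne p).eventually hfg] with s hs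
      rw [hs]
      simp [map_zpow₀]

/-- translation of a meromorphic function. -/
theorem nc_meromorphicAt_add {f : ℂ → ℂ} {p a : ℂ} (hf : MeromorphicAt f (p + a)) :
    MeromorphicAt (fun s => f (s + a)) p :=
  MeromorphicAt.comp_analyticAt (g := fun s => s + a) hf (by fun_prop)

/-- periodic functions have periodic derivatives. -/
theorem nc_deriv_per {f : ℂ → ℂ} {U : Set ℂ} (hU : IsOpen U) {a b : ℂ}
    (h : ∀ z ∈ U, f (z + a) = f z + b) {z : ℂ} (hz : z ∈ U) : deriv f (z + a) = deriv f z := by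
  have h1 : (fun z => f (z + a)) =ᶠ[𝓝 z] fun z => f z + b := by
    filter_upwards [hU.mem_nhds hz] with w hw using h w hw
  have h2 := h1.deriv_eq
  rw [deriv_comp_add_const, deriv_add_const] at h2
  exact h2

/-- real functions have real derivatives. -/
theorem nc_deriv_conj {f : ℂ → ℂ} {U : Set ℂ} (hU : IsOpen U)
    (h : ∀ z ∈ U, f (conj z) = conj (f z)) {z : ℂ} (hz : z ∈ U) :
    deriv f (conj z) = conj (deriv f z) := by
  have h1 : (conj ∘ f ∘ conj) =ᶠ[𝓝 z] f := by
    filter_upwards [hU.mem_nhds hz] with w hw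
    simp [h w hw]
  have h2 := h1.deriv_eq
  rw [deriv_conj_conj] at h2
  simp only [Function.comp_apply] at h2
  rw [← h2, Complex.conj_conj]

theorem nc_conj_mem_hstrip {s : ℝ} {z : ℂ} (hz : z ∈ hstrip s) : conj z ∈ hstrip s := by
  simpa [hstrip] using hz

theorem nc_add_mem_hstrip {s : ℝ} {z : ℂ} (hz : z ∈ hstrip s) : z + 2 * π ∈ hstrip s := by
  simpa [hstrip] using hz

theorem nc_suppPt_per {h : ℂ → ℂ} {σ : ℝ} (hp : ∀ z ∈ hstrip σ, h (z + 2 * π) = h z) {ψ : ℂ}
    (hψ : ψ ∈ hstrip σ) : suppPt h (ψ + 2 * π) = suppPt h ψ := by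
  have h1 : deriv h (ψ + 2 * π) = deriv h ψ :=
    nc_deriv_per (nb_isOpen_hstrip σ) (b := 0) (fun z hz => by rw [hp z hz, add_zero]) hψ
  unfold suppPt
  rw [hp ψ hψ, h1, Complex.cos_add_two_pi, Complex.sin_add_two_pi]

theorem nc_suppPt_conj {h : ℂ → ℂ} {σ : ℝ} (hp : ∀ z ∈ hstrip σ, h (conj z) = conj (h z)) {ψ : ℂ}
    (hψ : ψ ∈ hstrip σ) :
    suppPt h (conj ψ) = (conj (suppPt h ψ).1, conj (suppPt h ψ).2) := by
  have h1 : deriv h (conj ψ) = conj (deriv h ψ) := nc_deriv_conj (nb_isOpen_hstrip σ) hp hψ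
  unfold suppPt
  rw [hp ψ hψ, h1]
  simp [Complex.cos_conj, Complex.sin_conj]

namespace Glance

variable (G : Glance)

theorem nc_φ₀_per {y : ℂ} (hy : y ∈ hstrip (2 * G.s)) : G.φ₀ (y + 2 * π) = G.φ₀ y + 2 * π :=
  G.Θ_per y hy 0 (Metric.mem_ball_self G.r₁_pos)

theorem nc_φ₀_conj {y : ℂ} (hy : y ∈ hstrip (2 * G.s)) : G.φ₀ (conj y) = conj (G.φ₀ y) := by
  have := G.Θ_conj y hy 0 (Metric.mem_ball_self G.r₁_pos)
  simpa [φ₀] using this

theorem nc_Γ0_per {y : ℂ} (hy : y ∈ hstrip (2 * G.s)) : G.Γ0 (y + 2 * π) = G.Γ0 y := by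
  rw [G.Γ0_eq, G.Γ0_eq, G.nc_φ₀_per hy, nc_suppPt_per G.hc_per (G.nb_φ₀_mem hy)]

theorem nc_Γ0_conj {y : ℂ} (hy : y ∈ hstrip (2 * G.s)) :
    G.Γ0 (conj y) = (conj (G.Γ0 y).1, conj (G.Γ0 y).2) := by
  rw [G.Γ0_eq, G.Γ0_eq, G.nc_φ₀_conj hy, nc_suppPt_conj G.hc_conj (G.nb_φ₀_mem hy)]

end Glance

namespace Sec4

variable {G : Glance} (S : Sec4 G)

theorem zero_mem_estrip : (0 : ℂ) ∈ estrip G.Hs := by
  have h1 := G.le_hX (t := 0) (Metric.mem_ball_self G.r₁_pos)
  have h2 : 0 < ENNReal.ofReal G.s := ENNReal.ofReal_pos.2 G.nb_s_pos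
  show ENNReal.ofReal |(0 : ℂ).im| < G.hX 0
  simpa using lt_of_lt_of_le h2 h1

/-- the identity theorem in the form used below. -/
theorem nc_ident {f g : ℂ → ℂ} (hf : MeromorphicOn f (estrip G.Hs))
    (hg : MeromorphicOn g (estrip G.Hs)) (h : ∀ y ∈ hstrip (G.s / 2), f y = g y) (p : ℂ)
    (hp : p ∈ estrip G.Hs) : ∀ᶠ s in 𝓝[≠] p, f s = g s := by
  have h0 : (0 : ℂ) ∈ hstrip (G.s / 2) := by
    have := nb_ofReal_mem_hstrip (s := G.s / 2) (by have := G.nb_s_pos; positivity) 0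
    simpa using this
  have h1 : f =ᶠ[𝓝[≠] (0 : ℂ)] g := by
    refine Filter.Eventually.filter_mono nhdsWithin_le_nhds ?_
    filter_upwards [(nb_isOpen_hstrip (G.s / 2)).mem_nhds h0] with y hy using h y hy
  exact mero_identity hf hg (isOpen_estrip _) (convex_estrip _).isPreconnected
    (zero_mem_estrip (G := G)) h1 p hp

theorem nc_order_ne_top {f : ℂ → ℂ} (hf : MeromorphicOn f (estrip G.Hs))
    (h : ∀ y ∈ hstrip (G.s / 2), f y ≠ 0) (p : ℂ) (hp : p ∈ estrip G.Hs) :
    meromorphicOrderAt f p ≠ ⊤ := by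
  refine hf.meromorphicOrderAt_ne_top_of_isPreconnected (convex_estrip _).isPreconnected
    (zero_mem_estrip (G := G)) hp ?_
  intro htop
  rw [meromorphicOrderAt_eq_top_iff] at htop
  have h0 : (0 : ℂ) ∈ hstrip (G.s / 2) := by
    have := nb_ofReal_mem_hstrip (s := G.s / 2) (by have := G.nb_s_pos; positivity) 0
    simpa using this
  have h1 : ∀ᶠ y in 𝓝[≠] (0 : ℂ), f y ≠ 0 := by
    refine Filter.Eventually.filter_mono nhdsWithin_le_nhds ?_
    filter_upwards [(nb_isOpen_hstrip (G.s / 2)).mem_nhds h0] with y hy using h y hy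
  obtain ⟨y, hy1, hy2⟩ := (htop.and h1).exists
  exact hy2 hy1

theorem am_order_ne_top (p : ℂ) (hp : p ∈ estrip G.Hs) : meromorphicOrderAt S.am p ≠ ⊤ :=
  nc_order_ne_top S.am_mero (fun y hy => by rw [S.am_base y hy]; exact Complex.exp_ne_zero _) p hp

theorem fm_order_ne_top (p : ℂ) (hp : p ∈ estrip G.Hs) : meromorphicOrderAt S.fm p ≠ ⊤ :=
  nc_order_ne_top S.fm_mero
    (fun y hy => by rw [S.fm_base y hy]; exact G.dφ₀_ne_zero y (G.nb_half_sub hy)) p hp

theorem am_sq (p : ℂ) (hp : p ∈ estrip G.Hs) : ∀ᶠ s in 𝓝[≠] p, S.am s ^ 2 = S.a2 s :=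
  nc_ident (f := fun s => S.am s ^ 2) (fun z hz => (S.am_mero z hz).pow 2) S.a2_mero
    (fun y hy => by
      simp only [S.am_base y hy, S.a2_base y hy, ← Complex.exp_nat_mul]
      congr 1
      push_cast
      ring) p hp

theorem am_deriv (p : ℂ) (hp : p ∈ estrip G.Hs) :
    ∀ᶠ s in 𝓝[≠] p, deriv S.am s = I * S.fm s * S.am s :=
  nc_ident (g := fun s => I * S.fm s * S.am s) (fun z hz => (S.am_mero z hz).deriv)
    (fun z hz => ((MeromorphicAt.const I z).mul (S.fm_mero z hz)).mul (S.am_mero z hz))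
    (fun y hy => by
      have h1 : S.am =ᶠ[𝓝 y] fun y => Complex.exp (I * G.φ₀ y) := by
        filter_upwards [(nb_isOpen_hstrip (G.s / 2)).mem_nhds hy] with z hz
        exact S.am_base z hz
      have h2 : HasDerivAt (fun y => Complex.exp (I * G.φ₀ y))
          (Complex.exp (I * G.φ₀ y) * (I * deriv G.φ₀ y)) y :=
        ((G.nb_hasDerivAt_φ₀ y hy).const_mul I).cexp
      simp only [h1.deriv_eq, h2.deriv, S.fm_base y hy, S.am_base y hy]
      ring) p hp

theorem dZc_eq (p : ℂ) (hp : p ∈ estrip G.Hs) :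
    ∀ᶠ s in 𝓝[≠] p, deriv S.Zc s = I * G.c * S.am s / S.fm s ^ 2 :=
  nc_ident (g := fun s => I * G.c * S.am s / S.fm s ^ 2) S.dZc_mero
    (fun z hz => ((MeromorphicAt.const (I * G.c) z).mul (S.am_mero z hz)).div
      ((S.fm_mero z hz).pow 2))
    (fun y hy => by simp only [S.dZc_base y hy, S.fm_base y hy, S.am_base y hy]) p hp

theorem dWc_eq (p : ℂ) (hp : p ∈ estrip G.Hs) :
    ∀ᶠ s in 𝓝[≠] p, deriv S.Wc s = -I * G.c / (S.am s * S.fm s ^ 2) :=
  nc_ident (g := fun s => -I * G.c / (S.am s * S.fm s ^ 2)) S.dWc_mero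
    (fun z hz => (MeromorphicAt.const (-I * G.c) z).div
      ((S.am_mero z hz).mul ((S.fm_mero z hz).pow 2)))
    (fun y hy => by
      simp only [S.dWc_base y hy, S.fm_base y hy, S.am_base y hy, Complex.exp_neg]
      have hE := Complex.exp_ne_zero (I * G.φ₀ y)
      have hφ := G.dφ₀_ne_zero y (G.nb_half_sub hy)
      field_simp) p hp

theorem nc_add_mem {p : ℂ} (hp : p ∈ estrip G.Hs) : p + 2 * π ∈ estrip G.Hs := by
  have := estrip_add_real hp (2 * π)
  simpa using this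

theorem Γ_per (p : ℂ) (hp : p ∈ estrip G.Hs) : ∀ᶠ s in 𝓝[≠] p, S.Γ (s + 2 * π) = S.Γ s := by
  have hb : ∀ y ∈ hstrip (G.s / 2), S.Γ (y + 2 * π) = S.Γ y := fun y hy => by
    rw [S.Γ_base _ (nc_add_mem_hstrip hy), S.Γ_base y hy, G.nc_Γ0_per (G.nb_half_sub hy)]
  have h1 := nc_ident (f := fun s => (S.Γ (s + 2 * π)).1) (g := fun s => (S.Γ s).1)
    (fun z hz => nc_meromorphicAt_add (f := fun s => (S.Γ s).1) (S.Γ_mero.1 _ (nc_add_mem hz)))
    S.Γ_mero.1 (fun y hy => by simp only [hb y hy]) p hp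
  have h2 := nc_ident (f := fun s => (S.Γ (s + 2 * π)).2) (g := fun s => (S.Γ s).2)
    (fun z hz => nc_meromorphicAt_add (f := fun s => (S.Γ s).2) (S.Γ_mero.2 _ (nc_add_mem hz)))
    S.Γ_mero.2 (fun y hy => by simp only [hb y hy]) p hp
  filter_upwards [h1, h2] with s e1 e2
  exact Prod.ext e1 e2

theorem Γ_conj (p : ℂ) (hp : p ∈ estrip G.Hs) :
    ∀ᶠ s in 𝓝[≠] p, S.Γ (conj s) = (conj (S.Γ s).1, conj (S.Γ s).2) := by
  have hb : ∀ y ∈ hstrip (G.s / 2), S.Γ (conj y) = (conj (S.Γ y).1, conj (S.Γ y).2) :=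
    fun y hy => by
      rw [S.Γ_base _ (nc_conj_mem_hstrip hy), S.Γ_base y hy, G.nc_Γ0_conj (G.nb_half_sub hy)]
  have h1 := nc_ident (f := fun s => conj (S.Γ (conj s)).1) (g := fun s => (S.Γ s).1)
    (fun z hz => meromorphicAt_conj_conj (f := fun s => (S.Γ s).1) (S.Γ_mero.1 _ (estrip_conj hz)))
    S.Γ_mero.1 (fun y hy => by simp only [hb y hy, Complex.conj_conj]) p hp
  have h2 := nc_ident (f := fun s => conj (S.Γ (conj s)).2) (g := fun s => (S.Γ s).2)
    (fun z hz => meromorphicAt_conj_conj (f := fun s => (S.Γ s).2) (S.Γ_mero.2 _ (estrip_conj hz)))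
    S.Γ_mero.2 (fun y hy => by simp only [hb y hy, Complex.conj_conj]) p hp
  filter_upwards [h1, h2] with s e1 e2
  refine Prod.ext ?_ ?_
  · simp only [← e1, Complex.conj_conj]
  · simp only [← e2, Complex.conj_conj]

theorem am_per (p : ℂ) (hp : p ∈ estrip G.Hs) : ∀ᶠ s in 𝓝[≠] p, S.am (s + 2 * π) = S.am s :=
  nc_ident (f := fun s => S.am (s + 2 * π))
    (fun z hz => nc_meromorphicAt_add (S.am_mero _ (nc_add_mem hz))) S.am_mero
    (fun y hy => by
      simp only [S.am_base _ (nc_add_mem_hstrip hy), S.am_base y hy,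
        G.nc_φ₀_per (G.nb_half_sub hy)]
      rw [mul_add, Complex.exp_add, show I * (2 * (π : ℂ)) = 2 * π * I by ring,
        Complex.exp_two_pi_mul_I, mul_one]) p hp

theorem fm_per (p : ℂ) (hp : p ∈ estrip G.Hs) : ∀ᶠ s in 𝓝[≠] p, S.fm (s + 2 * π) = S.fm s :=
  nc_ident (f := fun s => S.fm (s + 2 * π))
    (fun z hz => nc_meromorphicAt_add (S.fm_mero _ (nc_add_mem hz))) S.fm_mero
    (fun y hy => by
      simp only [S.fm_base _ (nc_add_mem_hstrip hy), S.fm_base y hy]
      exact nc_deriv_per (nb_isOpen_hstrip (2 * G.s)) (fun z hz => G.nc_φ₀_per hz)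
        (G.nb_half_sub hy)) p hp

theorem nc_am_conj' (p : ℂ) (hp : p ∈ estrip G.Hs) :
    ∀ᶠ s in 𝓝[≠] p, conj (S.am (conj s)) = (S.am s)⁻¹ :=
  nc_ident (f := fun s => conj (S.am (conj s))) (g := fun s => (S.am s)⁻¹)
    (fun z hz => meromorphicAt_conj_conj (S.am_mero _ (estrip_conj hz)))
    (fun z hz => (S.am_mero z hz).inv)
    (fun y hy => by
      simp only [S.am_base _ (nc_conj_mem_hstrip hy), S.am_base y hy,
        G.nc_φ₀_conj (G.nb_half_sub hy), ← Complex.exp_conj, ← Complex.exp_neg]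
      congr 1
      simp) p hp

theorem am_conj (p : ℂ) (hp : p ∈ estrip G.Hs) :
    ∀ᶠ s in 𝓝[≠] p, S.am (conj s) = (conj (S.am s))⁻¹ := by
  filter_upwards [S.nc_am_conj' p hp] with s hs
  rw [← map_inv₀, ← hs, Complex.conj_conj]

theorem fm_conj (p : ℂ) (hp : p ∈ estrip G.Hs) : ∀ᶠ s in 𝓝[≠] p, S.fm (conj s) = conj (S.fm s) := by
  have h1 := nc_ident (f := fun s => conj (S.fm (conj s))) (g := S.fm)
    (fun z hz => meromorphicAt_conj_conj (S.fm_mero _ (estrip_conj hz))) S.fm_mero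
    (fun y hy => by
      simp only [S.fm_base _ (nc_conj_mem_hstrip hy), S.fm_base y hy]
      rw [nc_deriv_conj (nb_isOpen_hstrip (2 * G.s)) (fun z hz => G.nc_φ₀_conj hz)
        (G.nb_half_sub hy), Complex.conj_conj]) p hp
  filter_upwards [h1] with s hs
  rw [← hs, Complex.conj_conj]

/-- a centre is not real. -/
theorem center_im_ne_zero (p : ℂ) (hp : S.IsCenter p) : p.im ≠ 0 := by
  intro him
  have hpx : p = ((p.re : ℝ) : ℂ) := Complex.ext (by simp) (by simpa using him)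
  apply hp.2
  have hmem : p ∈ hstrip (G.s / 2) := by
    rw [hpx]
    exact nb_ofReal_mem_hstrip (by have := G.nb_s_pos; positivity) _
  have han : AnalyticAt ℂ (fun y => Complex.exp (I * G.φ₀ y)) p := by
    have h1 : AnalyticAt ℂ G.φ₀ p :=
      G.φ₀_diff.analyticAt ((nb_isOpen_hstrip (2 * G.s)).mem_nhds (G.nb_half_sub hmem))
    exact (analyticAt_const.mul h1).cexp
  have hcast : meromorphicOrderAt S.am p = ((0 : ℤ) : WithTop ℤ) := by
    rw [meromorphicOrderAt_eq_int_iff (S.am_mero p hp.1)]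
    refine ⟨fun y => Complex.exp (I * G.φ₀ y), han, Complex.exp_ne_zero _, ?_⟩
    refine Filter.Eventually.filter_mono nhdsWithin_le_nhds ?_
    filter_upwards [(nb_isOpen_hstrip (G.s / 2)).mem_nhds hmem] with y hy
    rw [S.am_base y hy]
    simp
  simpa using hcast

/-- the conjugate of a centre is a centre. -/
theorem center_conj (p : ℂ) (hp : S.IsCenter p) : S.IsCenter (conj p) := by
  refine ⟨estrip_conj hp.1, ?_⟩
  have h1 := meromorphicOrderAt_conj_conj (S.am_mero _ (estrip_conj hp.1))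
  have h2 : meromorphicOrderAt (fun s => conj (S.am (conj s))) p
      = meromorphicOrderAt (S.am⁻¹) p := meromorphicOrderAt_congr (S.nc_am_conj' p hp.1)
  rw [← h1, h2, meromorphicOrderAt_inv]
  intro h
  exact hp.2 (by simpa using h)

end Sec4

end Claimed.Agent.R269
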