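/-
Row 269, P1 Lemmas 5.1-5.2, the analytic bridge, leaf LF-S5b-datum.   Statements and proofs: helper134.
FROM THE ANALYSIS TO THE FORMAL CENTRE DATUM, and back: every centre is simple; no odd orders.
Black boxes: `CenterRep1/2.lean`, `CenterId.lean`, `NormalC.lean` (`am_sq`, `am_order_ne_top`), `CenterCore.lean` (`FCtr.n_eq`, `FCtr.no_odd`, `FCtr.no_odd'`), `CenterOps.lean`.
Fill the `sorry`s IN PLACE (auxiliary lemmas above the statements, prefix `cd_`).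

PLAN.  * `exists_formal`: `frep_of_sliceMero` for `S.XZ`, `S.XW` at `(p,0)` (`XZ_sliceMero`, `mem_tube_zero`).  `FRep` closure gives `FRep p (rkF S.XZ S.XW) (Dz Zx * Dt Wx - Dt Zx * Dz Wx)` and the analogue for `rfF`
     (`FRep.pdy/pdt/shear/mul/sub/pow`; unfold `rkF`, `rfF`); `FRep.eq_zero` with `rank_at`, `refl_at`; `sub_eq_zero`.   `S.XZ (y,0) = S.Zc y` is `rfl`.
 * `orders_of_am` (FORMAL, in `K`): `A2 := -Z'/W'`, `F := A2'/(2 i A2)`, `Am := F² Z'/(i c)`.  `ord Am = n ≠ 0` and `Am² = A2` give `ord A2 = 2n ≠ 0`, so `ord A2' = 2n - 1` (`orderTop_dz`), `ord F = -1`,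
     `n = -2 + ord Z'`, `ord W' = ord Z' - 2n`.
 * `orderTop_of_dz`: coefficientwise (`dz_coeff`); `a ≠ -1` by `dz_coeff_neg_one`.
 * `exists_fctr`: `LRep` closure (`LRep.deriv/div/mul/pow/neg`, `lrep_const`) shows `LRep p S.a2 A2`, `LRep p S.fm F`, `LRep p S.am Am` (unfold `Sec4.a2, fm, am`); `LRep.order`; `Am² = A2` by `LRep.unique` and `am_sq`.
     `Φ := ⟨Zx - cc Z₀, Wx - cc W₀, …⟩`, `Z₀ := (Zx_0).coeff 0`; rank and reflection are not affected by constants (`Dz_cc`, `Dt_cc`, `Sh_cc`); `IsFrac.sub`, `isPS2_cc`.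
-/
import Claimed.Agent.R269.S5.CenterRep2
import Claimed.Agent.R269.S5.CenterId
import Claimed.Agent.R269.S5.NormalC
import Claimed.Agent.R269.S5.CenterCore

set_option autoImplicit false
set_option maxSynthPendingDepth 3

namespace Claimed.Agent.R269

open Complex Filter Topology HahnSeries Lau Ctr

theorem Ctr.cd_exists_ord {x : KK} (hx : x ≠ 0) : ∃ a : ℤ, x.orderTop = (a : WithTop ℤ) := by
  obtain ⟨b, hb⟩ := WithTop.ne_top_iff_exists.1 (HahnSeries.orderTop_ne_top.2 hx)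
  exact ⟨b, hb.symm⟩

theorem Ctr.cd_ne_zero {x : KK} {a : ℤ} (hx : x.orderTop = (a : WithTop ℤ)) : x ≠ 0 := by
  intro h
  rw [h, HahnSeries.orderTop_zero] at hx
  exact WithTop.top_ne_coe hx

theorem Ctr.cd_ord_mul {x y : KK} {a b : ℤ} (hx : x.orderTop = (a : WithTop ℤ))
    (hy : y.orderTop = (b : WithTop ℤ)) : (x * y).orderTop = ((a + b : ℤ) : WithTop ℤ) := by
  rw [orderTop_mul_eq, hx, hy]
  rfl

theorem Ctr.cd_ord_div {x y : KK} {a b : ℤ} (hx : x.orderTop = (a : WithTop ℤ))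
    (hy : y.orderTop = (b : WithTop ℤ)) : (x / y).orderTop = ((a - b : ℤ) : WithTop ℤ) := by
  rw [div_eq_mul_inv, sub_eq_add_neg]
  exact Ctr.cd_ord_mul hx (orderTop_inv_eq hy)

theorem Ctr.cd_ord_C {c : ℂ} (hc : c ≠ 0) : (HahnSeries.C c : KK).orderTop = ((0 : ℤ) : WithTop ℤ) :=
  HahnSeries.orderTop_single hc

/-- formal: the orders of `Z'`, `W'` at a centre of order `n`. -/
theorem Ctr.orders_of_am (Z W : KK) (c : ℂ) (hc : c ≠ 0) (n : ℤ) (hn : n ≠ 0)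
    (hord : ((dz (-dz Z / dz W) / (2 * HahnSeries.C I * (-dz Z / dz W))) ^ 2 * dz Z /
      (HahnSeries.C I * HahnSeries.C c)).orderTop = (n : WithTop ℤ))
    (hsq : ((dz (-dz Z / dz W) / (2 * HahnSeries.C I * (-dz Z / dz W))) ^ 2 * dz Z /
      (HahnSeries.C I * HahnSeries.C c)) ^ 2 = -dz Z / dz W) :
    (dz Z).orderTop = ((n + 2 : ℤ) : WithTop ℤ) ∧ (dz W).orderTop = ((2 - n : ℤ) : WithTop ℤ) := by
  set A2 : KK := -dz Z / dz W with hA2
  set F : KK := dz A2 / (2 * HahnSeries.C I * A2) with hF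
  have h1 : A2.orderTop = ((n + n : ℤ) : WithTop ℤ) := by
    rw [← hsq, pow_two]
    exact Ctr.cd_ord_mul hord hord
  have h2 : (dz A2).orderTop = ((n + n - 1 : ℤ) : WithTop ℤ) := orderTop_dz h1 (by omega)
  have h2I : (2 * HahnSeries.C I : KK).orderTop = ((0 : ℤ) : WithTop ℤ) := by
    have e : (2 * HahnSeries.C I : KK) = HahnSeries.C (2 * I) := by
      rw [map_mul, map_ofNat]
    rw [e]
    exact Ctr.cd_ord_C (by simp)
  have h3 : F.orderTop = ((n + n - 1 - (0 + (n + n)) : ℤ) : WithTop ℤ) :=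
    Ctr.cd_ord_div h2 (Ctr.cd_ord_mul h2I h1)
  have hZ0 : dz Z ≠ 0 := by
    intro h
    apply Ctr.cd_ne_zero h1
    rw [hA2, h]
    simp
  have hW0 : dz W ≠ 0 := by
    intro h
    apply Ctr.cd_ne_zero h1
    rw [hA2, h]
    simp
  obtain ⟨a, ha⟩ := Ctr.cd_exists_ord hZ0
  obtain ⟨b, hb⟩ := Ctr.cd_exists_ord hW0
  have h3' : (F ^ 2).orderTop =
      ((n + n - 1 - (0 + (n + n)) + (n + n - 1 - (0 + (n + n))) : ℤ) : WithTop ℤ) := by
    rw [pow_two]
    exact Ctr.cd_ord_mul h3 h3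
  have h4 := Ctr.cd_ord_div (Ctr.cd_ord_mul h3' ha)
    (Ctr.cd_ord_mul (Ctr.cd_ord_C I_ne_zero) (Ctr.cd_ord_C hc))
  rw [hord] at h4
  have h5 : n = n + n - 1 - (0 + (n + n)) + (n + n - 1 - (0 + (n + n))) + a - (0 + 0) := by
    exact_mod_cast h4
  have h6 : A2.orderTop = ((a - b : ℤ) : WithTop ℤ) := by
    rw [hA2]
    exact Ctr.cd_ord_div (by rw [HahnSeries.orderTop_neg]; exact ha) hb
  rw [h1] at h6
  have h7 : n + n = a - b := by exact_mod_cast h6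
  have ea : a = n + 2 := by omega
  have eb : b = 2 - n := by omega
  rw [ha, hb, ea, eb]
  exact ⟨rfl, rfl⟩

/-- formal: integration. -/
theorem Ctr.orderTop_of_dz (c : KK) (a : ℤ) (h : (dz c).orderTop = (a : WithTop ℤ)) :
    a ≠ -1 ∧ (c - HahnSeries.C (c.coeff 0)).orderTop = ((a + 1 : ℤ) : WithTop ℤ) := by
  have hne : (dz c).coeff a ≠ 0 := HahnSeries.coeff_orderTop_ne h
  have ha : a ≠ -1 := by
    rintro rfl
    exact hne (dz_coeff_neg_one c)
  refine ⟨ha, ?_⟩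
  set c' : KK := c - HahnSeries.C (c.coeff 0) with hc'
  have hd : dz c' = dz c := by
    rw [hc', map_sub, dz_C, sub_zero]
  have h0 : c'.coeff 0 = 0 := by
    rw [hc', HahnSeries.coeff_sub]
    have : (HahnSeries.C (c.coeff 0) : KK).coeff 0 = c.coeff 0 := coeff_single_same 0 _
    rw [this, sub_self]
  refine le_antisymm ?_ ?_
  · apply HahnSeries.orderTop_le_of_coeff_ne_zero
    intro h1
    apply hne
    rw [← hd, dz_coeff, h1, mul_zero]
  · rw [le_orderTop_iff]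
    intro i hi
    by_cases hi0 : i = 0
    · rw [hi0, h0]
    · have h1 : (dz c').coeff (i - 1) = 0 := by
        rw [hd]
        exact (le_orderTop_iff _ a).1 h.ge (i - 1) (by omega)
      rw [dz_coeff, sub_add_cancel] at h1
      have h2 : ((i - 1 : ℤ) : ℂ) + 1 ≠ 0 := by
        have : ((i - 1 : ℤ) : ℂ) + 1 = (i : ℂ) := by push_cast; ring
        rw [this]
        exact_mod_cast hi0
      exact (mul_eq_zero.1 h1).resolve_left h2

namespace Sec4

variable {G : Glance} (S : Sec4 G)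

/-- the formal expansions of the isotropic coordinates of the impact map at `(p,0)`. -/
theorem exists_formal (p : ℂ) (hp : p ∈ estrip G.Hs) :
    ∃ Zx Wx : AA, 0 ≤ Zx.orderTop ∧ 0 ≤ Wx.orderTop ∧ IsFrac Zx ∧ IsFrac Wx ∧
      Dz Zx * Dt Wx = Dt Zx * Dz Wx ∧
      (Sh 1 Zx - Zx) * (Sh (-1) Zx - Zx) * Dz Wx ^ 2 = (Sh 1 Wx - Wx) * (Sh (-1) Wx - Wx) * Dz Zx ^ 2 ∧
      LRep p S.Zc (Zx.coeff 0) ∧ LRep p S.Wc (Wx.coeff 0) := by
  obtain ⟨Zx, hZr, hZ0, hZl⟩ := frep_of_sliceMero S.XZ_sliceMero (S.mem_tube_zero hp)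
  obtain ⟨Wx, hWr, hW0, hWl⟩ := frep_of_sliceMero S.XW_sliceMero (S.mem_tube_zero hp)
  refine ⟨Zx, Wx, hZ0, hW0, hZr.isFrac, hWr.isFrac, ?_, ?_, hZl, hWl⟩
  · have h : FRep p (rkF S.XZ S.XW) (Dz Zx * Dt Wx - Dt Zx * Dz Wx) :=
      (hZr.pdy.mul hWr.pdt).sub (hZr.pdt.mul hWr.pdy)
    exact sub_eq_zero.1 (h.eq_zero (S.rank_at p hp))
  · have h : FRep p (rfF S.XZ S.XW)
        ((Sh 1 Zx - Zx) * (Sh (-1) Zx - Zx) * Dz Wx ^ 2 -
          (Sh 1 Wx - Wx) * (Sh (-1) Wx - Wx) * Dz Zx ^ 2) :=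
      ((((hZr.shear 1).sub hZr).mul ((hZr.shear (-1)).sub hZr)).mul (hWr.pdy.pow 2)).sub
        ((((hWr.shear 1).sub hWr).mul ((hWr.shear (-1)).sub hWr)).mul (hZr.pdy.pow 2))
    exact sub_eq_zero.1 (h.eq_zero (S.refl_at p hp))

/-- the formal centre datum of a centre. -/
theorem exists_fctr (p : ℂ) (hp : p ∈ estrip G.Hs) (n : ℤ) (hn : n ≠ 0)
    (hord : meromorphicOrderAt S.am p = (n : WithTop ℤ)) :
    ∃ (Φ : FCtr) (Z₀ W₀ : ℂ), Φ.n = n ∧ LRep p (fun s => S.Zc s - Z₀) Φ.Z ∧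
      LRep p (fun s => S.Wc s - W₀) Φ.W := by
  obtain ⟨Zx, Wx, hZ0, hW0, hZF, hWF, hrank, hrefl, hZl, hWl⟩ := S.exists_formal p hp
  set Z : KK := Zx.coeff 0 with hZ
  set W : KK := Wx.coeff 0 with hW
  have hA2 : LRep p S.a2 (-dz Z / dz W) := hZl.deriv.neg.div hWl.deriv
  have e2 : (HahnSeries.C (2 : ℂ) : KK) = 2 := map_ofNat _ 2
  have hF : LRep p S.fm (dz (-dz Z / dz W) / (2 * HahnSeries.C I * (-dz Z / dz W))) := by
    have := hA2.deriv.div (((lrep_const p 2).mul (lrep_const p I)).mul hA2)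
    rw [e2] at this
    exact this
  have hAm : LRep p S.am ((dz (-dz Z / dz W) / (2 * HahnSeries.C I * (-dz Z / dz W))) ^ 2 * dz Z /
      (HahnSeries.C I * HahnSeries.C (G.c : ℂ))) :=
    ((hF.pow 2).mul hZl.deriv).div ((lrep_const p I).mul (lrep_const p (G.c : ℂ)))
  have ho := hAm.order
  rw [hord] at ho
  have hsq := (hAm.pow 2).unique hA2 (S.am_sq p hp)
  have hc : (G.c : ℂ) ≠ 0 := by exact_mod_cast G.c_pos.ne'
  obtain ⟨hdZ, hdW⟩ := Ctr.orders_of_am Z W (G.c : ℂ) hc n hn ho.symm hsq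
  obtain ⟨hn3', hoZ⟩ := Ctr.orderTop_of_dz Z _ hdZ
  obtain ⟨hn3, hoW⟩ := Ctr.orderTop_of_dz W _ hdW
  have cZ : (Zx - cc (Z.coeff 0)).coeff 0 = Z - HahnSeries.C (Z.coeff 0) := by
    rw [HahnSeries.coeff_sub, co_cc_coeff_zero]
  have cW : (Wx - cc (W.coeff 0)).coeff 0 = W - HahnSeries.C (W.coeff 0) := by
    rw [HahnSeries.coeff_sub, co_cc_coeff_zero]
  refine ⟨{ Zx := Zx - cc (Z.coeff 0)
            Wx := Wx - cc (W.coeff 0)
            Zx_nonneg := nonneg_sub hZ0 (co_nonneg_cc _)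
            Wx_nonneg := nonneg_sub hW0 (co_nonneg_cc _)
            rank := by
              simp only [map_sub, Dz_cc, Dt_cc, sub_zero]
              exact hrank
            refl := by
              simp only [map_sub, Dz_cc, Sh_cc, sub_zero, sub_sub_sub_cancel_right]
              exact hrefl
            fracZ := hZF.sub (isPS2_cc _).isFrac
            fracW := hWF.sub (isPS2_cc _).isFrac
            n := n
            n_ne := hn
            n_ne3 := by omega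
            n_ne3' := by omega
            ordZ := by
              rw [cZ, hoZ]
              congr 1
              ring
            ordW := by
              rw [cW, hoW]
              congr 1
              ring }, Z.coeff 0, W.coeff 0, rfl, ?_, ?_⟩
  · show LRep p _ ((Zx - cc (Z.coeff 0)).coeff 0)
    rw [cZ]
    exact hZl.sub (lrep_const p _)
  · show LRep p _ ((Wx - cc (W.coeff 0)).coeff 0)
    rw [cW]
    exact hWl.sub (lrep_const p _)

theorem cd_half (p : ℂ) (Zc Wc : ℂ → ℂ) (Z₀ W₀ : ℂ) (cZ cW : KK)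
    (hZ : LRep p (fun s => Zc s - Z₀) cZ) (hW : LRep p (fun s => Wc s - W₀) cW)
    (hZ1 : ((1 : ℤ) : WithTop ℤ) ≤ cZ.orderTop) (hW2 : cW.orderTop = ((2 : ℤ) : WithTop ℤ))
    (hodd : ∀ (N : ℕ) (e : ℕ → ℂ) (j : ℤ),
      (cZ - ∑ i ∈ Finset.range N, HahnSeries.C (e i) * cW ^ i).orderTop = (j : WithTop ℤ) → Even j) :
    ∃ Zh Wh : ℂ → ℂ, AnalyticAt ℂ Zh p ∧ AnalyticAt ℂ Wh p ∧ Zc =ᶠ[𝓝[≠] p] Zh ∧ Wc =ᶠ[𝓝[≠] p] Wh ∧
      meromorphicOrderAt (fun s => Wh s - Wh p) p = 2 ∧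
          ∀ (N : ℕ) (e : ℕ → ℂ) (j : ℤ),
            meromorphicOrderAt (fun s => Zh s - ∑ i ∈ Finset.range N, e i * (Wh s - Wh p) ^ i) p = (j : WithTop ℤ) →
              Even j := by
  have hZ0 : 0 ≤ cZ.orderTop := le_trans (by exact_mod_cast (zero_le_one : (0 : ℤ) ≤ 1)) hZ1
  have hW0 : 0 ≤ cW.orderTop := by
    rw [hW2]
    exact_mod_cast (zero_le_two : (0 : ℤ) ≤ 2)
  obtain ⟨fh, hfa, hfe, hft, hfp⟩ := hZ.exists_analytic hZ0
  obtain ⟨gh, hga, hge, hgt, hgp⟩ := hW.exists_analytic hW0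
  have hgp0 : gh p = 0 := by
    rw [hgp]
    exact (le_orderTop_iff cW 2).1 hW2.ge 0 (by norm_num)
  have hfr : LRep p fh cZ := hft ▸ lrep_of_analyticAt hfa
  have hgr : LRep p gh cW := hgt ▸ lrep_of_analyticAt hga
  refine ⟨fun s => fh s + Z₀, fun s => gh s + W₀, hfa.add analyticAt_const, hga.add analyticAt_const,
    ?_, ?_, ?_, ?_⟩
  · filter_upwards [hfe] with s hs
    rw [← hs]
    ring
  · filter_upwards [hge] with s hs
    rw [← hs]
    ring
  · have e : (fun s => gh s + W₀ - (gh p + W₀)) = gh := by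
      funext s
      rw [hgp0]
      ring
    rw [e, hgr.order, hW2]
    rfl
  · intro N e j hj
    let e' : ℕ → ℂ := fun i => (if i < N then e i else 0) - (if i = 0 then Z₀ else 0)
    refine hodd (N + 1) e' j ?_
    have hr : LRep p (fun s => fh s - ∑ i ∈ Finset.range (N + 1), e' i * gh s ^ i)
        (cZ - ∑ i ∈ Finset.range (N + 1), HahnSeries.C (e' i) * cW ^ i) :=
      hfr.sub (LRep.sum _ _ _ fun i _ => (lrep_const p (e' i)).mul (hgr.pow i))
    rw [← hr.order, ← hj]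
    congr 1
    funext s
    have h1 : ∑ i ∈ Finset.range (N + 1), e' i * gh s ^ i =
        ∑ i ∈ Finset.range N, e i * gh s ^ i - Z₀ := by
      have h2 : ∀ i, e' i * gh s ^ i = (if i < N then e i else 0) * gh s ^ i -
          (if i = 0 then Z₀ else 0) * gh s ^ i := fun i => sub_mul _ _ _
      rw [Finset.sum_congr rfl (fun i _ => h2 i), Finset.sum_sub_distrib, Finset.sum_range_succ]
      congr 1
      · rw [if_neg (lt_irrefl N), zero_mul, add_zero]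
        refine Finset.sum_congr rfl fun i hi => ?_
        rw [if_pos (Finset.mem_range.1 hi)]
      · rw [Finset.sum_eq_single 0]
        · simp
        · intro i _ hi
          rw [if_neg hi, zero_mul]
        · intro h
          exact absurd (Finset.mem_range.2 (Nat.succ_pos N)) h
    rw [h1]
    have h3 : ∀ i, e i * (gh s + W₀ - (gh p + W₀)) ^ i = e i * gh s ^ i := by
      intro i
      rw [hgp0]
      congr 2
      ring
    rw [Finset.sum_congr rfl (fun i _ => h3 i)]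
    ring

/-- **Lemma 5.2, first half, and the input of the evenness argument.** -/
theorem center_core (p : ℂ) (hp : S.IsCenter p) :
    ∃ Zh Wh : ℂ → ℂ, AnalyticAt ℂ Zh p ∧ AnalyticAt ℂ Wh p ∧ S.Zc =ᶠ[𝓝[≠] p] Zh ∧ S.Wc =ᶠ[𝓝[≠] p] Wh ∧
      ((meromorphicOrderAt S.am p = 1 ∧ meromorphicOrderAt (fun s => Wh s - Wh p) p = 2 ∧
          ∀ (N : ℕ) (e : ℕ → ℂ) (j : ℤ),
            meromorphicOrderAt (fun s => Zh s - ∑ i ∈ Finset.range N, e i * (Wh s - Wh p) ^ i) p = (j : WithTop ℤ) →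
              Even j) ∨
        (meromorphicOrderAt S.am p = -1 ∧ meromorphicOrderAt (fun s => Zh s - Zh p) p = 2 ∧
          ∀ (N : ℕ) (e : ℕ → ℂ) (j : ℤ),
            meromorphicOrderAt (fun s => Wh s - ∑ i ∈ Finset.range N, e i * (Zh s - Zh p) ^ i) p = (j : WithTop ℤ) →
              Even j)) := by
  obtain ⟨hpe, hp0⟩ := hp
  obtain ⟨n, hn⟩ := WithTop.ne_top_iff_exists.1 (S.am_order_ne_top p hpe)
  have hn0 : n ≠ 0 := by
    rintro rfl
    exact hp0 hn.symm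
  obtain ⟨Φ, Z₀, W₀, hΦ, hZ, hW⟩ := S.exists_fctr p hpe n hn0 hn.symm
  have oZ : Φ.Z.orderTop = ((3 + Φ.n : ℤ) : WithTop ℤ) := Φ.ordZ
  have oW : Φ.W.orderTop = ((3 - Φ.n : ℤ) : WithTop ℤ) := Φ.ordW
  rcases Φ.n_eq with h1 | h1
  · rw [h1] at oZ oW
    obtain ⟨Zh, Wh, a1, a2, a3, a4, a5, a6⟩ := cd_half p S.Zc S.Wc Z₀ W₀ Φ.Z Φ.W hZ hW
      (by rw [oZ]; exact_mod_cast (by norm_num : (1 : ℤ) ≤ 3 + 1)) (by rw [oW]; rfl) Φ.no_odd
    refine ⟨Zh, Wh, a1, a2, a3, a4, Or.inl ⟨?_, a5, a6⟩⟩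
    rw [← hn, ← hΦ, h1]
    rfl
  · rw [h1] at oZ oW
    obtain ⟨Wh, Zh, a1, a2, a3, a4, a5, a6⟩ := cd_half p S.Wc S.Zc W₀ Z₀ Φ.W Φ.Z hW hZ
      (by rw [oW]; exact_mod_cast (by norm_num : (1 : ℤ) ≤ 3 - -1)) (by rw [oZ]; rfl) Φ.no_odd'
    refine ⟨Zh, Wh, a2, a1, a4, a3, Or.inr ⟨?_, a5, a6⟩⟩
    rw [← hn, ← hΦ, h1]
    rfl

end Sec4

end Claimed.Agent.R269
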