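/-
Row 269, P1 Lemma 5.2 (second half), leaf LF-S5b-evenA (HOST-FREE one-variable complex analysis).   Statements: helper134.
If `W - W(p)` has order two and no combination `Z - ∑ e_i (W - W(p))^i` has odd order, there is a local holomorphic involution `σ`, `σ(0) = 0`, `σ'(0) = -1`, with `Z(p+σ z) = Z(p+z)`, `W(p + σ z) = W(p+z)`.
Black boxes allowed: `Lib/CA1Prim.lean` (`exists_local_inverse`, `ca_exists_log`…).   Fill the `sorry`s IN PLACE (auxiliary lemmas above the statements, prefix `ea_`).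

PLAN.  1. `exists_sqrt_coord`: `W(p+z) - W(p) = z² u(z)`, `u` analytic, `u(0) ≠ 0` (order two); `r := ` an analytic square root of `u` near `0` (`exp (log u / 2)`; `u` maps a neighbourhood of `0` into a disc avoiding `0`, e.g. use `Complex.log (u z / u 0)` in the slit plane);
      `ζ(z) := z r(z)`: analytic, `ζ(0) = 0`, `ζ'(0) = r(0) ≠ 0`, `ζ² = W(p + z) - W(p)`.   Local inverse `χ` (`exists_local_inverse` or `HasStrictDerivAt.to_localInverse` + analyticity `AnalyticAt` of the inverse).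
   2. `Zt(ζ) := Z(p + χ(ζ))` is analytic at `0`.  CLAIM: `Zt` is even.  Otherwise some Taylor coefficient of odd index is nonzero; `j` := the least such index, `e_i` := the Taylor coefficient of index `2i`.
      `Zt(ζ) - ∑_{2i < j} e_i ζ^{2i}` has order exactly `j` at `0`; composing with `ζ(z)` (order one) `Z(p+z) - ∑_{2i<j} e_i (W(p+z) - W(p))^i` has order `j` at `z = 0`: contradiction with `hodd`.
      (orders under composition with a local biholomorphism: `analyticOrderAt_comp_of_deriv_ne_zero` / `meromorphicOrderAt_comp_of_deriv_ne_zero` if available; otherwise factor `f = ζ^j g`.)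
      An analytic function all of whose odd Taylor coefficients vanish is even near `0` (compare `Zt(ζ)` and `Zt(-ζ)`: same Taylor series; identity theorem).
   3. `σ(z) := χ(-ζ(z))`.
-/
import Claimed.Agent.R269.Lib.CA1

set_option autoImplicit false

namespace Claimed.Agent.R269

open Complex Filter Topology

/-- meromorphic order and analytic order of an analytic germ. -/
theorem ea_order_nat {f : ℂ → ℂ} {x : ℂ} (hf : AnalyticAt ℂ f x) (n : ℕ) :
    meromorphicOrderAt f x = ((n : ℤ) : WithTop ℤ) ↔ analyticOrderAt f x = n := by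
  rw [hf.meromorphicOrderAt_eq]
  cases h : analyticOrderAt f x with
  | top => simp
  | coe m =>
    simp only [ENat.map_natCast, Nat.cast_inj]
    constructor
    · intro h1
      have h2 : ((m : ℤ) : WithTop ℤ) = ((n : ℤ) : WithTop ℤ) := h1
      have h3 : (m : ℤ) = (n : ℤ) := WithTop.coe_injective h2
      exact_mod_cast h3
    · intro h1
      rw [h1]

/-- a square-root coordinate. -/
theorem exists_sqrt_coord (V : ℂ → ℂ) (hV : AnalyticAt ℂ V 0) (h2 : meromorphicOrderAt V 0 = 2) :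
    ∃ ζ χ : ℂ → ℂ, AnalyticAt ℂ ζ 0 ∧ AnalyticAt ℂ χ 0 ∧ ζ 0 = 0 ∧ χ 0 = 0 ∧ deriv ζ 0 ≠ 0 ∧
      (∀ᶠ z in 𝓝 0, ζ z ^ 2 = V z) ∧ (∀ᶠ z in 𝓝 0, χ (ζ z) = z) ∧ (∀ᶠ w in 𝓝 0, ζ (χ w) = w) := by
  have hord : analyticOrderAt V 0 = ((2 : ℕ) : ℕ∞) := (ea_order_nat hV 2).mp (by rw [h2]; rfl)
  obtain ⟨u, hu, hu0, hVu⟩ := hV.analyticOrderAt_eq_natCast.mp hord
  -- a square root of `u`
  have h1 : AnalyticAt ℂ (fun z => u z / u 0) 0 := hu.div analyticAt_const hu0
  have h1s : u 0 / u 0 ∈ Complex.slitPlane := by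
    rw [div_self hu0]
    exact Complex.one_mem_slitPlane
  have hl : AnalyticAt ℂ (fun z => Complex.log (u z / u 0)) 0 := h1.clog h1s
  set r : ℂ → ℂ := fun z => Complex.exp (Complex.log (u 0) / 2) * Complex.exp (Complex.log (u z / u 0) / 2)
    with hr
  have hra : AnalyticAt ℂ r 0 :=
    analyticAt_const.mul ((hl.div analyticAt_const two_ne_zero).cexp)
  have hr0 : r 0 ≠ 0 := mul_ne_zero (Complex.exp_ne_zero _) (Complex.exp_ne_zero _)
  have hr2 : ∀ᶠ z in 𝓝 (0 : ℂ), r z ^ 2 = u z := by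
    filter_upwards [hu.continuousAt.eventually_ne hu0] with z hz
    have e1 : Complex.exp (Complex.log (u 0) / 2) ^ 2 = u 0 := by
      rw [← Complex.exp_nat_mul]
      have : ((2 : ℕ) : ℂ) * (Complex.log (u 0) / 2) = Complex.log (u 0) := by push_cast; ring
      rw [this, Complex.exp_log hu0]
    have e2 : Complex.exp (Complex.log (u z / u 0) / 2) ^ 2 = u z / u 0 := by
      rw [← Complex.exp_nat_mul]
      have : ((2 : ℕ) : ℂ) * (Complex.log (u z / u 0) / 2) = Complex.log (u z / u 0) := by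
        push_cast; ring
      rw [this, Complex.exp_log (div_ne_zero hz hu0)]
    show (Complex.exp (Complex.log (u 0) / 2) * Complex.exp (Complex.log (u z / u 0) / 2)) ^ 2 = u z
    rw [mul_pow, e1, e2]
    field_simp
  set ζ : ℂ → ℂ := fun z => z * r z with hζ
  have hζa : AnalyticAt ℂ ζ 0 := analyticAt_id.mul hra
  have hζ0 : ζ 0 = 0 := by simp [hζ]
  have hζd : deriv ζ 0 = r 0 := by
    have := (hasDerivAt_id (0 : ℂ)).fun_mul hra.differentiableAt.hasDerivAt
    have h3 : HasDerivAt ζ (r 0) 0 := by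
      refine this.congr_deriv ?_
      simp
    exact h3.deriv
  have hζd0 : deriv ζ 0 ≠ 0 := by rw [hζd]; exact hr0
  obtain ⟨χ, hχa, hχ0, hχL, hχR⟩ := exists_local_inverse hζa hζd0
  rw [hζ0] at hχa hχ0 hχR
  refine ⟨ζ, χ, hζa, hχa, hζ0, hχ0, hζd0, ?_, hχL, hχR⟩
  filter_upwards [hr2, hVu] with z a b
  show (z * r z) ^ 2 = V z
  rw [mul_pow, a, b]
  simp

/-- an analytic germ which is not even has a first odd Taylor coefficient. -/
theorem exists_first_odd (F : ℂ → ℂ) (hF : AnalyticAt ℂ F 0) (hne : ¬ ∀ᶠ w in 𝓝 0, F (-w) = F w) :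
    ∃ (N : ℕ) (e : ℕ → ℂ) (j : ℕ), Odd j ∧
      meromorphicOrderAt (fun w => F w - ∑ i ∈ Finset.range N, e i * (w ^ 2) ^ i) 0 = ((j : ℤ) : WithTop ℤ) := by
  classical
  -- some odd derivative is nonzero
  have hex : ∃ j, Odd j ∧ iteratedDeriv j F 0 ≠ 0 := by
    by_contra hcon
    push Not at hcon
    apply hne
    have hFn : AnalyticAt ℂ (fun w => F (-w)) 0 :=
      AnalyticAt.comp (g := F) (f := fun w : ℂ => -w) (by simpa using hF) analyticAt_id.neg
    have hG : AnalyticAt ℂ (fun w => F (-w) - F w) 0 := hFn.sub hF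
    have htop : analyticOrderAt (fun w => F (-w) - F w) 0 = ⊤ := by
      rw [ENat.eq_top_iff_forall_ge]
      intro n
      rw [natCast_le_analyticOrderAt_iff_iteratedDeriv_eq_zero hG]
      intro i _
      rw [iteratedDeriv_fun_sub hFn.contDiffAt hF.contDiffAt, iteratedDeriv_comp_neg]
      simp only [neg_zero, smul_eq_mul]
      rcases Nat.even_or_odd i with he | ho
      · rw [he.neg_one_pow]; ring
      · rw [hcon i ho]; ring
    have := analyticOrderAt_eq_top.mp htop
    filter_upwards [this] with w hw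
    exact sub_eq_zero.mp hw
  obtain ⟨hjodd, hjne⟩ := Nat.find_spec hex
  have hjmin : ∀ k < Nat.find hex, Odd k → iteratedDeriv k F 0 = 0 := by
    intro k hk hko
    by_contra h
    exact Nat.find_min hex hk ⟨hko, h⟩
  set j := Nat.find hex with hj
  obtain ⟨m, hm⟩ := hjodd
  set e : ℕ → ℂ := fun i => iteratedDeriv (2 * i) F 0 / ((2 * i).factorial : ℂ) with he
  refine ⟨m + 1, e, j, ⟨m, hm⟩, ?_⟩
  have hPa : AnalyticAt ℂ (fun w : ℂ => ∑ i ∈ Finset.range (m + 1), e i * (w ^ 2) ^ i) 0 := by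
    refine Finset.analyticAt_fun_sum _ fun i _ => ?_
    fun_prop
  have hHa : AnalyticAt ℂ (fun w => F w - ∑ i ∈ Finset.range (m + 1), e i * (w ^ 2) ^ i) 0 := hF.sub hPa
  rw [ea_order_nat hHa j, analyticOrderAt_eq_nat_iff_iteratedDeriv_eq_zero hHa]
  have hPd : ∀ k : ℕ, iteratedDeriv k (fun w : ℂ => ∑ i ∈ Finset.range (m + 1), e i * (w ^ 2) ^ i) 0
      = ∑ i ∈ Finset.range (m + 1), e i * (if k = 2 * i then ((2 * i).factorial : ℂ) else 0) := by
    intro k
    rw [iteratedDeriv_fun_sum (fun i _ => by fun_prop)]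
    refine Finset.sum_congr rfl fun i _ => ?_
    have : (fun w : ℂ => e i * (w ^ 2) ^ i) = fun w : ℂ => e i * w ^ (2 * i) := by
      funext w
      rw [pow_mul]
    rw [this, iteratedDeriv_const_mul_field, iteratedDeriv_fun_pow_zero]
    push_cast
    rfl
  have hHd : ∀ k : ℕ, iteratedDeriv k (fun w => F w - ∑ i ∈ Finset.range (m + 1), e i * (w ^ 2) ^ i) 0
      = iteratedDeriv k F 0
        - ∑ i ∈ Finset.range (m + 1), e i * (if k = 2 * i then ((2 * i).factorial : ℂ) else 0) := by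
    intro k
    rw [iteratedDeriv_fun_sub hF.contDiffAt hPa.contDiffAt, hPd]
  constructor
  · intro k hk
    rw [hHd]
    rcases Nat.even_or_odd' k with ⟨i₀, hi | hi⟩
    · -- even index
      have hi₀ : i₀ ∈ Finset.range (m + 1) := by
        rw [Finset.mem_range]
        omega
      rw [Finset.sum_eq_single_of_mem i₀ hi₀]
      · rw [if_pos hi, he]
        simp only
        rw [hi]
        have : ((2 * i₀).factorial : ℂ) ≠ 0 := Nat.cast_ne_zero.mpr (Nat.factorial_ne_zero _)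
        field_simp
        ring
      · intro b _ hb
        rw [if_neg (by omega), mul_zero]
    · -- odd index
      rw [hjmin k hk ⟨i₀, hi⟩, zero_sub, neg_eq_zero]
      refine Finset.sum_eq_zero fun b _ => ?_
      rw [if_neg (by omega), mul_zero]
  · rw [hHd]
    have : ∑ i ∈ Finset.range (m + 1), e i * (if j = 2 * i then ((2 * i).factorial : ℂ) else 0) = 0 := by
      refine Finset.sum_eq_zero fun b _ => ?_
      rw [if_neg (by omega), mul_zero]
    rw [this, sub_zero]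
    exact hjne

/-- the local involution. -/
theorem exists_involution (Z W : ℂ → ℂ) (p : ℂ) (hZ : AnalyticAt ℂ Z p) (hW : AnalyticAt ℂ W p)
    (hW2 : meromorphicOrderAt (fun s => W s - W p) p = 2)
    (hodd : ∀ (N : ℕ) (e : ℕ → ℂ) (j : ℤ),
      meromorphicOrderAt (fun s => Z s - ∑ i ∈ Finset.range N, e i * (W s - W p) ^ i) p = (j : WithTop ℤ) →
        Even j) :
    ∃ σ : ℂ → ℂ, AnalyticAt ℂ σ 0 ∧ σ 0 = 0 ∧ deriv σ 0 = -1 ∧
      (∀ᶠ z in 𝓝 0, Z (p + σ z) = Z (p + z)) ∧ (∀ᶠ z in 𝓝 0, W (p + σ z) = W (p + z)) := by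
  -- translate to `0`
  set V : ℂ → ℂ := fun z => W (p + z) - W p with hV
  have hsh : AnalyticAt ℂ (fun z : ℂ => p + z) 0 := analyticAt_const.add analyticAt_id
  have hshd : deriv (fun z : ℂ => p + z) 0 ≠ 0 := by
    have : HasDerivAt (fun z : ℂ => p + z) 1 0 := (hasDerivAt_id (0 : ℂ)).const_add p
    rw [this.deriv]
    exact one_ne_zero
  have hWs : AnalyticAt ℂ (fun z => W (p + z)) 0 :=
    AnalyticAt.comp (g := W) (f := fun z : ℂ => p + z) (by rw [add_zero]; exact hW) hsh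
  have hZs : AnalyticAt ℂ (fun z => Z (p + z)) 0 :=
    AnalyticAt.comp (g := Z) (f := fun z : ℂ => p + z) (by rw [add_zero]; exact hZ) hsh
  have hVa : AnalyticAt ℂ V 0 := hWs.sub analyticAt_const
  have hV2 : meromorphicOrderAt V 0 = 2 := by
    have h := meromorphicOrderAt_comp_of_deriv_ne_zero (f := fun s => W s - W p) hsh hshd
    rw [add_zero, hW2] at h
    exact h
  obtain ⟨ζ, χ, hζa, hχa, hζ0, hχ0, hζd, hζ2, hχL, hχR⟩ := exists_sqrt_coord V hVa hV2
  set Zt : ℂ → ℂ := fun w => Z (p + χ w) with hZt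
  have hZta : AnalyticAt ℂ Zt 0 :=
    AnalyticAt.comp (g := fun z => Z (p + z)) (f := χ) (by rw [hχ0]; exact hZs) hχa
  have heven : ∀ᶠ w in 𝓝 0, Zt (-w) = Zt w := by
    by_contra hne
    obtain ⟨N, e, j, hjodd, hord⟩ := exists_first_odd Zt hZta hne
    have h1 := meromorphicOrderAt_comp_of_deriv_ne_zero
      (f := fun w => Zt w - ∑ i ∈ Finset.range N, e i * (w ^ 2) ^ i) hζa hζd
    rw [hζ0, hord] at h1
    have h2 : ((fun w => Zt w - ∑ i ∈ Finset.range N, e i * (w ^ 2) ^ i) ∘ ζ) =ᶠ[𝓝[≠] 0]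
        ((fun s => Z s - ∑ i ∈ Finset.range N, e i * (W s - W p) ^ i) ∘ fun z : ℂ => p + z) := by
      have : ∀ᶠ z in 𝓝 (0 : ℂ), ((fun w => Zt w - ∑ i ∈ Finset.range N, e i * (w ^ 2) ^ i) ∘ ζ) z =
          ((fun s => Z s - ∑ i ∈ Finset.range N, e i * (W s - W p) ^ i) ∘ fun z : ℂ => p + z) z := by
        filter_upwards [hζ2, hχL] with z a b
        simp only [Function.comp, hZt]
        rw [b, a]
      exact this.filter_mono nhdsWithin_le_nhds
    rw [meromorphicOrderAt_congr h2, meromorphicOrderAt_comp_of_deriv_ne_zero hsh hshd, add_zero] at h1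
    have h3 := hodd N e j h1
    exact (Int.not_even_iff_odd.mpr ((Int.odd_coe_nat j).mpr hjodd)) h3
  have hσa : AnalyticAt ℂ (fun z => χ (-ζ z)) 0 :=
    AnalyticAt.comp (g := χ) (f := fun z => -ζ z) (by rw [hζ0, neg_zero]; exact hχa) hζa.neg
  refine ⟨fun z => χ (-ζ z), hσa, ?_, ?_, ?_, ?_⟩
  · show χ (-ζ 0) = 0
    rw [hζ0, neg_zero, hχ0]
  · have d1 : HasDerivAt ζ (deriv ζ 0) 0 := hζa.differentiableAt.hasDerivAt
    have d2 : HasDerivAt χ (deriv χ 0) 0 := hχa.differentiableAt.hasDerivAt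
    have d2' : HasDerivAt χ (deriv χ 0) (ζ 0) := by rw [hζ0]; exact d2
    have d3 : HasDerivAt (fun z => χ (ζ z)) (deriv χ 0 * deriv ζ 0) 0 :=
      HasDerivAt.comp (h₂ := χ) (h := ζ) 0 d2' d1
    have d4 : HasDerivAt (fun z => χ (ζ z)) 1 0 := (hasDerivAt_id (0 : ℂ)).congr_of_eventuallyEq hχL
    have e1 : deriv χ 0 * deriv ζ 0 = 1 := d3.unique d4
    have d2'' : HasDerivAt χ (deriv χ 0) (-ζ 0) := by rw [hζ0, neg_zero]; exact d2
    have d5 : HasDerivAt (fun z => χ (-ζ z)) (deriv χ 0 * -deriv ζ 0) 0 :=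
      HasDerivAt.comp (h₂ := χ) (h := fun z => -ζ z) 0 d2'' d1.neg
    rw [d5.deriv]
    linear_combination -e1
  · have h1 : ∀ᶠ z in 𝓝 (0 : ℂ), Zt (-ζ z) = Zt (ζ z) :=
      hζa.continuousAt.eventually (by rw [hζ0]; exact heven)
    filter_upwards [h1, hχL] with z a b
    have : Z (p + χ (-ζ z)) = Z (p + χ (ζ z)) := a
    rw [this, b]
  · have h1 : ∀ᶠ z in 𝓝 (0 : ℂ), ζ (χ (-ζ z)) ^ 2 = V (χ (-ζ z)) :=
      hσa.continuousAt.eventually (by
        show ∀ᶠ y in 𝓝 (χ (-ζ 0)), ζ y ^ 2 = V y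
        rw [hζ0, neg_zero, hχ0]
        exact hζ2)
    have h2 : ∀ᶠ z in 𝓝 (0 : ℂ), ζ (χ (-ζ z)) = -ζ z :=
      hζa.continuousAt.neg.eventually (by
        show ∀ᶠ y in 𝓝 (-ζ 0), ζ (χ y) = y
        rw [hζ0, neg_zero]
        exact hχR)
    filter_upwards [h1, h2, hζ2] with z a b c
    have h3 : V (χ (-ζ z)) = V z := by
      rw [← a, b, ← c]
      ring
    have h4 : W (p + χ (-ζ z)) - W p = W (p + z) - W p := h3
    linear_combination h4

end Claimed.Agent.R269
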