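/-
Row 269, P1 Lemma 5.2 (second half), leaf LF-S5b-evenB (HOST-FREE one-variable complex analysis).   Statements: helper134.
The intrinsic normalisation (5.4) forces a local symmetry `σ` of the curve with `σ'(0) = -1` to be `z ↦ -z`.
Fill the `sorry`s IN PLACE (auxiliary lemmas above the statements, prefix `eb_`).

PLAN.  `Zs(z) := Z(p + z)`, `Ws(z) := W(p+z)`; `J(z) := Zs' Ws'' - Zs'' Ws'`, `Q(z) := Zs' Ws'`; `hint : J⁴ = κ Q³` near `0`.   From `Zs ∘ σ = Zs`, `Ws ∘ σ = Ws` near `0` (analytic identities, differentiate twice):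
   `Zs'(σ) σ' = Zs'`,  `Zs''(σ) σ'² + Zs'(σ) σ'' = Zs''`, the same for `Ws`;   hence `Q = σ'² Q(σ)`, `J = σ'³ J(σ)`.
   `κ Q³ = J⁴ = σ'¹² J(σ)⁴ = σ'¹² κ Q(σ)³ = σ'⁶ κ Q³`  (`hint` at `σ z`, which tends to `0`).   `Q` is not identically zero near `0` (`hQ`), so `Q ≠ 0` on a punctured neighbourhood and `σ'⁶ = 1` there, hence near `0` by continuity.
   Differentiate: `6 σ'⁵ σ'' = 0`, `σ' ≠ 0`: `σ'' = 0` near `0`, `σ'` is constant `= σ'(0) = -1`, `σ(z) = -z` near `0` (`σ + id` has zero derivative on a ball and vanishes at `0`).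
-/
import Mathlib

set_option autoImplicit false

namespace Claimed.Agent.R269

open Complex Filter Topology

/-- first and second derivative of a symmetry relation `Z (p + σ z) = Z (p + z)`. -/
theorem eb_diff_rel (Z : ℂ → ℂ) (p : ℂ) (hZ : AnalyticAt ℂ Z p) (σ : ℂ → ℂ) (hσ : AnalyticAt ℂ σ 0)
    (hσ0 : σ 0 = 0) (hZσ : ∀ᶠ z in 𝓝 0, Z (p + σ z) = Z (p + z)) :
    (∀ᶠ z in 𝓝 0, deriv Z (p + σ z) * deriv σ z = deriv Z (p + z)) ∧
    (∀ᶠ z in 𝓝 0, deriv (deriv Z) (p + σ z) * deriv σ z ^ 2 + deriv Z (p + σ z) * deriv (deriv σ) z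
      = deriv (deriv Z) (p + z)) := by
  have hc1 : ContinuousAt (fun z : ℂ => p + σ z) 0 := continuousAt_const.add hσ.continuousAt
  have hc2 : ContinuousAt (fun z : ℂ => p + z) 0 := by fun_prop
  have h10 : (fun z : ℂ => p + σ z) 0 = p := by simp [hσ0]
  have h20 : (fun z : ℂ => p + z) 0 = p := by simp
  have aσ : ∀ᶠ z in 𝓝 (0 : ℂ), AnalyticAt ℂ σ z := hσ.eventually_analyticAt
  have aZ1 : ∀ᶠ z in 𝓝 (0 : ℂ), AnalyticAt ℂ Z (p + σ z) :=
    hc1.eventually (by rw [h10]; exact hZ.eventually_analyticAt)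
  have aZ2 : ∀ᶠ z in 𝓝 (0 : ℂ), AnalyticAt ℂ Z (p + z) :=
    hc2.eventually (by rw [h20]; exact hZ.eventually_analyticAt)
  have E1 : ∀ᶠ z in 𝓝 (0 : ℂ), deriv Z (p + σ z) * deriv σ z = deriv Z (p + z) := by
    have hd : deriv (fun z => Z (p + σ z)) =ᶠ[𝓝 0] deriv (fun z => Z (p + z)) :=
      Filter.EventuallyEq.deriv hZσ
    filter_upwards [hd, aσ, aZ1, aZ2] with z h1 h2 h3 h4
    have e1 : HasDerivAt (fun z => Z (p + σ z)) (deriv Z (p + σ z) * deriv σ z) z :=
      HasDerivAt.comp (h₂ := Z) (h := fun z => p + σ z) z h3.differentiableAt.hasDerivAt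
        (h2.differentiableAt.hasDerivAt.const_add p)
    have e2 : HasDerivAt (fun z => Z (p + z)) (deriv Z (p + z) * 1) z :=
      HasDerivAt.comp (h₂ := Z) (h := fun z => p + z) z h4.differentiableAt.hasDerivAt
        ((hasDerivAt_id z).const_add p)
    rw [e1.deriv, e2.deriv, mul_one] at h1
    exact h1
  refine ⟨E1, ?_⟩
  have hd : deriv (fun z => deriv Z (p + σ z) * deriv σ z) =ᶠ[𝓝 0] deriv (fun z => deriv Z (p + z)) :=
    Filter.EventuallyEq.deriv E1
  filter_upwards [hd, aσ, aZ1, aZ2] with z h1 h2 h3 h4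
  have e1 : HasDerivAt (fun z => deriv Z (p + σ z)) (deriv (deriv Z) (p + σ z) * deriv σ z) z :=
    HasDerivAt.comp (h₂ := deriv Z) (h := fun z => p + σ z) z h3.deriv.differentiableAt.hasDerivAt
      (h2.differentiableAt.hasDerivAt.const_add p)
  have e2 : HasDerivAt (fun z => deriv Z (p + z)) (deriv (deriv Z) (p + z) * 1) z :=
    HasDerivAt.comp (h₂ := deriv Z) (h := fun z => p + z) z h4.deriv.differentiableAt.hasDerivAt
      ((hasDerivAt_id z).const_add p)
  have e3 : HasDerivAt (deriv σ) (deriv (deriv σ) z) z := h2.deriv.differentiableAt.hasDerivAt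
  rw [(e1.fun_mul e3).deriv, e2.deriv, mul_one] at h1
  rw [← h1]
  ring

theorem involution_eq_neg (Z W : ℂ → ℂ) (p : ℂ) (hZ : AnalyticAt ℂ Z p) (hW : AnalyticAt ℂ W p)
    (κ : ℂ) (hκ : κ ≠ 0)
    (hint : ∀ᶠ s in 𝓝 p, (deriv Z s * deriv (deriv W) s - deriv (deriv Z) s * deriv W s) ^ 4 =
      κ * (deriv Z s * deriv W s) ^ 3)
    (hQ : ¬ ∀ᶠ s in 𝓝 p, deriv Z s * deriv W s = 0)
    (σ : ℂ → ℂ) (hσ : AnalyticAt ℂ σ 0) (hσ0 : σ 0 = 0) (hσ1 : deriv σ 0 = -1)
    (hZσ : ∀ᶠ z in 𝓝 0, Z (p + σ z) = Z (p + z)) (hWσ : ∀ᶠ z in 𝓝 0, W (p + σ z) = W (p + z)) :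
    ∀ᶠ z in 𝓝 0, σ z = -z := by
  obtain ⟨Z1, Z2⟩ := eb_diff_rel Z p hZ σ hσ hσ0 hZσ
  obtain ⟨W1, W2⟩ := eb_diff_rel W p hW σ hσ hσ0 hWσ
  have hc1 : ContinuousAt (fun z : ℂ => p + σ z) 0 := continuousAt_const.add hσ.continuousAt
  have hc2 : ContinuousAt (fun z : ℂ => p + z) 0 := by fun_prop
  have h10 : (fun z : ℂ => p + σ z) 0 = p := by simp [hσ0]
  have h20 : (fun z : ℂ => p + z) 0 = p := by simp
  have I1 := hc1.eventually (by rw [h10]; exact hint)
  have I2 := hc2.eventually (by rw [h20]; exact hint)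
  -- the key relation
  have key : ∀ᶠ z in 𝓝 (0 : ℂ), (deriv σ z ^ 6 - 1) * (deriv Z (p + z) * deriv W (p + z)) ^ 3 = 0 := by
    filter_upwards [Z1, Z2, W1, W2, I1, I2] with z z1 z2 w1 w2 i1 i2
    have hJ : deriv Z (p + z) * deriv (deriv W) (p + z) - deriv (deriv Z) (p + z) * deriv W (p + z)
        = deriv σ z ^ 3 * (deriv Z (p + σ z) * deriv (deriv W) (p + σ z)
          - deriv (deriv Z) (p + σ z) * deriv W (p + σ z)) := by
      rw [← z1, ← z2, ← w1, ← w2]
      ring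
    have hQ' : deriv Z (p + z) * deriv W (p + z)
        = deriv σ z ^ 2 * (deriv Z (p + σ z) * deriv W (p + σ z)) := by
      rw [← z1, ← w1]
      ring
    rw [hJ, mul_pow, i1] at i2
    have h3 : κ * ((deriv σ z ^ 6 - 1) * (deriv Z (p + z) * deriv W (p + z)) ^ 3) = 0 := by
      rw [hQ'] at i2 ⊢
      linear_combination i2
    exact (mul_eq_zero.mp h3).resolve_left hκ
  -- `Q` does not vanish on a punctured neighbourhood
  have hQa : AnalyticAt ℂ (fun z : ℂ => deriv Z (p + z) * deriv W (p + z)) 0 := by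
    have a1 : AnalyticAt ℂ (fun z : ℂ => deriv Z (p + z)) 0 :=
      AnalyticAt.comp (g := deriv Z) (f := fun z : ℂ => p + z) (by rw [add_zero]; exact hZ.deriv)
        (analyticAt_const.add analyticAt_id)
    have a2 : AnalyticAt ℂ (fun z : ℂ => deriv W (p + z)) 0 :=
      AnalyticAt.comp (g := deriv W) (f := fun z : ℂ => p + z) (by rw [add_zero]; exact hW.deriv)
        (analyticAt_const.add analyticAt_id)
    exact a1.mul a2
  have hQne : ∀ᶠ z in 𝓝[≠] (0 : ℂ), deriv Z (p + z) * deriv W (p + z) ≠ 0 := by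
    rcases hQa.eventually_eq_zero_or_eventually_ne_zero with h | h
    · exfalso
      apply hQ
      have hc3 : ContinuousAt (fun s : ℂ => s - p) p := by fun_prop
      have := hc3.eventually (by simpa using h)
      filter_upwards [this] with s hs
      simpa using hs
    · exact h
  have hσ6a : AnalyticAt ℂ (fun z : ℂ => deriv σ z ^ 6 - 1) 0 := (hσ.deriv.pow 6).sub analyticAt_const
  have hσ6 : ∀ᶠ z in 𝓝 (0 : ℂ), deriv σ z ^ 6 - 1 = 0 := by
    rcases hσ6a.eventually_eq_zero_or_eventually_ne_zero with h | h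
    · exact h
    · exfalso
      have h4 : ∀ᶠ z in 𝓝[≠] (0 : ℂ), False := by
        filter_upwards [h, hQne, key.filter_mono nhdsWithin_le_nhds] with z a b c
        rcases mul_eq_zero.mp c with d | d
        · exact a d
        · exact b (pow_eq_zero_iff (by norm_num) |>.mp d)
      exact (Filter.eventually_false_iff_eq_bot.mp h4 ▸ (inferInstance : (𝓝[≠] (0 : ℂ)).NeBot)).ne rfl
  -- `σ' = -1`
  have hfac : ∀ᶠ z in 𝓝 (0 : ℂ),
      deriv σ z ^ 5 - deriv σ z ^ 4 + deriv σ z ^ 3 - deriv σ z ^ 2 + deriv σ z - 1 ≠ 0 := by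
    have hc : ContinuousAt (fun z : ℂ =>
        deriv σ z ^ 5 - deriv σ z ^ 4 + deriv σ z ^ 3 - deriv σ z ^ 2 + deriv σ z - 1) 0 := by
      have := hσ.deriv.continuousAt
      fun_prop
    refine hc.eventually_ne ?_
    rw [hσ1]
    norm_num
  have hσ' : ∀ᶠ z in 𝓝 (0 : ℂ), AnalyticAt ℂ σ z ∧ deriv σ z = -1 := by
    filter_upwards [hσ6, hfac, hσ.eventually_analyticAt] with z a b c
    refine ⟨c, ?_⟩
    have : (deriv σ z + 1) *
        (deriv σ z ^ 5 - deriv σ z ^ 4 + deriv σ z ^ 3 - deriv σ z ^ 2 + deriv σ z - 1) = 0 := by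
      linear_combination a
    have := (mul_eq_zero.mp this).resolve_right b
    linear_combination this
  obtain ⟨r, hr, hball⟩ := Metric.eventually_nhds_iff_ball.mp hσ'
  have heq : Set.EqOn σ (fun z => -z) (Metric.ball (0 : ℂ) r) := by
    refine IsOpen.eqOn_of_deriv_eq Metric.isOpen_ball (convex_ball (0 : ℂ) r).isPreconnected
      (fun z hz => (hball z hz).1.differentiableAt.differentiableWithinAt)
      (differentiable_id.neg.differentiableOn) ?_ (Metric.mem_ball_self hr) (by simp [hσ0])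
    intro z hz
    rw [(hball z hz).2]
    have : HasDerivAt (fun z : ℂ => -z) (-1) z := (hasDerivAt_id z).neg
    exact this.deriv.symm
  filter_upwards [Metric.ball_mem_nhds (0 : ℂ) hr] with z hz
  exact heq hz

end Claimed.Agent.R269
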