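/-
Row 269, P1 Lemmas 5.1-5.2, leaf LF-S5b-main: EXPORT `Sec4.center_symm'` (= the statement `Sec4.center_symm` of `S5/Main.lean`).   Statements and proofs: helper134.
Black boxes: `CenterDatum.lean` (`center_core`), `CenterEvenA/B.lean`, `NormalC.lean` (`am_sq`, `am_order_ne_top`, `fm_order_ne_top`).   Fill the `sorry`s IN PLACE (prefix `cm_`).

PLAN.  * `intrinsic`: on a punctured neighbourhood of `p`: `am² = a2` with `a2 = -Z'/W'`, `fm = a2'/(2i a2) = (Z''/Z' - W''/W')/(2i)`, `am = fm² Z'/(i c)` gives `fm⁴ Z' W' = c²`, i.e. `(Z'W'' - Z''W')⁴ = 16 c² (Z'W')³`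
     (at points where `Z', W'` are analytic and nonzero: generic; `deriv a2` by the quotient rule).  Transfer to the analytic representatives `Zh, Wh` (equal on a punctured neighbourhood, so are all derivatives there), then to `𝓝 p` by continuity (both sides analytic).
     `Zh' Wh'` is not identically zero: otherwise `a2` or its inverse vanishes identically, against `am_order_ne_top`.
 * `symm_of_core`: `exists_involution` + `involution_eq_neg` (in the second case of `center_core` with the roles of `Z, W` interchanged; the intrinsic identity is symmetric: `(-x)⁴ = x⁴`).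
     `Zc (p - z) = Zc (p + z)`, `Wc (p - z) = Wc(p + z)` for `z` in a punctured neighbourhood of `0`.
 * `Γ`: `x₁ = (Zc + Wc)/2`, `x₂ = (Zc - Wc)/(2i)`.
 * `am`: `R(s) := 2p - s`.  `Zc ∘ R = Zc` on a punctured neighbourhood `U` of `p` (open, `R`-invariant) ⇒ `deriv Zc (R s) = - deriv Zc s` on `U`, same for `Wc`; `a2 ∘ R = a2`; `deriv a2 (R s) = - deriv a2 s`; `fm ∘ R = -fm`; `am ∘ R = fm² · (-Zc')/(ic) = -am`.
-/
import Claimed.Agent.R269.S5.CenterDatum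
import Claimed.Agent.R269.S5.CenterEvenA
import Claimed.Agent.R269.S5.CenterEvenB

set_option autoImplicit false

namespace Claimed.Agent.R269

open Complex Filter Topology


theorem cm_alg (i c a f f1 : ℂ) (hi : i ^ 2 = -1) (ha : a ≠ 0) (hf : f ≠ 0) :
    (i * c * a / f ^ 2 * ((0 * (a * f ^ 2) - -i * c * ((i * f * a) * f ^ 2 +
        a * (2 * f * f1))) / (a * f ^ 2) ^ 2) - ((i * c * (i * f * a) * f ^ 2 -
        i * c * a * (2 * f * f1)) / (f ^ 2) ^ 2) * (-i * c / (a * f ^ 2))) ^ 4 =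
      16 * c ^ 2 * (i * c * a / f ^ 2 * (-i * c / (a * f ^ 2))) ^ 3 := by
  have e1 : i * c * a / f ^ 2 * ((0 * (a * f ^ 2) - -i * c * ((i * f * a) * f ^ 2 +
        a * (2 * f * f1))) / (a * f ^ 2) ^ 2) - ((i * c * (i * f * a) * f ^ 2 -
        i * c * a * (2 * f * f1)) / (f ^ 2) ^ 2) * (-i * c / (a * f ^ 2)) = -2 * i * c ^ 2 / f ^ 3 := by
    field_simp
    grind
  have e2 : i * c * a / f ^ 2 * (-i * c / (a * f ^ 2)) = c ^ 2 / f ^ 4 := by
    field_simp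
    grind
  rw [e1, e2]
  field_simp
  grind

namespace Sec4

variable {G : Glance} (S : Sec4 G)

/-- generic points: everything is analytic and nonzero, and the formulas of (5.1) hold near the point. -/
theorem cm_generic (p : ℂ) (hp : p ∈ estrip G.Hs) :
    ∀ᶠ s in 𝓝[≠] p, AnalyticAt ℂ S.am s ∧ AnalyticAt ℂ S.fm s ∧ S.am s ≠ 0 ∧ S.fm s ≠ 0 ∧
      deriv S.am s = I * S.fm s * S.am s ∧
      (deriv S.Zc =ᶠ[𝓝 s] fun s => I * G.c * S.am s / S.fm s ^ 2) ∧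
      (deriv S.Wc =ᶠ[𝓝 s] fun s => -I * G.c / (S.am s * S.fm s ^ 2)) := by
  have h1 := (S.am_mero p hp).eventually_analyticAt
  have h2 := (S.fm_mero p hp).eventually_analyticAt
  have h3 := (meromorphicOrderAt_ne_top_iff_eventually_ne_zero (S.am_mero p hp)).1
    (S.am_order_ne_top p hp)
  have h4 := (meromorphicOrderAt_ne_top_iff_eventually_ne_zero (S.fm_mero p hp)).1
    (S.fm_order_ne_top p hp)
  have h5 := S.am_deriv p hp
  have h6 := eventually_nhdsNE_eventually_nhds_iff.2 (S.dZc_eq p hp)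
  have h7 := eventually_nhdsNE_eventually_nhds_iff.2 (S.dWc_eq p hp)
  filter_upwards [h1, h2, h3, h4, h5, h6, h7] with s a1 a2 a3 a4 a5 a6 a7
  exact ⟨a1, a2, a3, a4, a5, a6, a7⟩

/-- the intrinsic normalisation (5.4) in isotropic coordinates. -/
theorem intrinsic (p : ℂ) (hp : p ∈ estrip G.Hs) :
    ∀ᶠ s in 𝓝[≠] p, (deriv S.Zc s * deriv (deriv S.Wc) s - deriv (deriv S.Zc) s * deriv S.Wc s) ^ 4 =
      16 * (G.c : ℂ) ^ 2 * (deriv S.Zc s * deriv S.Wc s) ^ 3 := by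
  filter_upwards [S.cm_generic p hp] with s ⟨a1, a2, a3, a4, a5, a6, a7⟩
  have da : HasDerivAt S.am (I * S.fm s * S.am s) s := a5 ▸ a1.differentiableAt.hasDerivAt
  have df : HasDerivAt S.fm (deriv S.fm s) s := a2.differentiableAt.hasDerivAt
  have hf2 : S.fm s ^ 2 ≠ 0 := pow_ne_zero 2 a4
  have df2 : HasDerivAt (fun s => S.fm s ^ 2) (2 * S.fm s * deriv S.fm s) s := by
    have := df.fun_pow 2
    simpa using this
  have dZ : HasDerivAt (fun s => I * G.c * S.am s / S.fm s ^ 2)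
      ((I * G.c * (I * S.fm s * S.am s) * S.fm s ^ 2 -
        I * G.c * S.am s * (2 * S.fm s * deriv S.fm s)) / (S.fm s ^ 2) ^ 2) s :=
    (da.const_mul (I * G.c)).div df2 hf2
  have dW : HasDerivAt (fun s => -I * G.c / (S.am s * S.fm s ^ 2))
      ((0 * (S.am s * S.fm s ^ 2) - -I * G.c * ((I * S.fm s * S.am s) * S.fm s ^ 2 +
        S.am s * (2 * S.fm s * deriv S.fm s))) / (S.am s * S.fm s ^ 2) ^ 2) s :=
    (hasDerivAt_const s (-I * (G.c : ℂ))).div (da.mul df2) (mul_ne_zero a3 hf2)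
  rw [a6.deriv_eq, a7.deriv_eq, dZ.deriv, dW.deriv, a6.eq_of_nhds, a7.eq_of_nhds]
  exact cm_alg I G.c (S.am s) (S.fm s) (deriv S.fm s) I_sq a3 a4

theorem dZc_dWc_ne_zero (p : ℂ) (hp : p ∈ estrip G.Hs) :
    ∀ᶠ s in 𝓝[≠] p, deriv S.Zc s * deriv S.Wc s ≠ 0 := by
  filter_upwards [S.cm_generic p hp] with s ⟨a1, a2, a3, a4, a5, a6, a7⟩
  rw [a6.eq_of_nhds, a7.eq_of_nhds]
  have hc : (G.c : ℂ) ≠ 0 := by exact_mod_cast G.c_pos.ne'
  have hf2 : S.fm s ^ 2 ≠ 0 := pow_ne_zero 2 a4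
  exact mul_ne_zero (div_ne_zero (mul_ne_zero (mul_ne_zero I_ne_zero hc) a3) hf2)
    (div_ne_zero (mul_ne_zero (neg_ne_zero.2 I_ne_zero) hc) (mul_ne_zero a3 hf2))

theorem cm_tendsto_add (p : ℂ) : Tendsto (fun z : ℂ => p + z) (𝓝[≠] 0) (𝓝[≠] p) := by
  refine tendsto_nhdsWithin_iff.2 ⟨?_, ?_⟩
  · have : Tendsto (fun z : ℂ => p + z) (𝓝 0) (𝓝 (p + 0)) :=
      (continuous_const.add continuous_id).tendsto 0
    rw [add_zero] at this
    exact this.mono_left nhdsWithin_le_nhds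
  · filter_upwards [self_mem_nhdsWithin] with z hz
    intro h
    exact hz (by simpa using h)

theorem cm_tendsto_sub (p : ℂ) : Tendsto (fun z : ℂ => p - z) (𝓝[≠] 0) (𝓝[≠] p) := by
  refine tendsto_nhdsWithin_iff.2 ⟨?_, ?_⟩
  · have : Tendsto (fun z : ℂ => p - z) (𝓝 0) (𝓝 (p - 0)) :=
      (continuous_const.sub continuous_id).tendsto 0
    rw [sub_zero] at this
    exact this.mono_left nhdsWithin_le_nhds
  · filter_upwards [self_mem_nhdsWithin] with z hz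
    intro h
    exact hz (by simpa using h)

/-- the analytic half of the symmetry statement. -/
theorem cm_symm_half (p : ℂ) (Zc Wc Zh Wh : ℂ → ℂ) (κ : ℂ) (hκ : κ ≠ 0)
    (hZ : AnalyticAt ℂ Zh p) (hW : AnalyticAt ℂ Wh p) (eZ : Zc =ᶠ[𝓝[≠] p] Zh) (eW : Wc =ᶠ[𝓝[≠] p] Wh)
    (hint : ∀ᶠ s in 𝓝[≠] p, (deriv Zc s * deriv (deriv Wc) s - deriv (deriv Zc) s * deriv Wc s) ^ 4 =
      κ * (deriv Zc s * deriv Wc s) ^ 3)
    (hQ : ∀ᶠ s in 𝓝[≠] p, deriv Zc s * deriv Wc s ≠ 0)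
    (hW2 : meromorphicOrderAt (fun s => Wh s - Wh p) p = 2)
    (hodd : ∀ (N : ℕ) (e : ℕ → ℂ) (j : ℤ),
      meromorphicOrderAt (fun s => Zh s - ∑ i ∈ Finset.range N, e i * (Wh s - Wh p) ^ i) p = (j : WithTop ℤ) →
        Even j) :
    ∀ᶠ z in 𝓝[≠] (0 : ℂ), Zc (p - z) = Zc (p + z) ∧ Wc (p - z) = Wc (p + z) := by
  have eZ1 := eZ.nhdsNE_deriv
  have eW1 := eW.nhdsNE_deriv
  have eZ2 := eZ1.nhdsNE_deriv
  have eW2 := eW1.nhdsNE_deriv
  have hint' : ∀ᶠ s in 𝓝 p, (deriv Zh s * deriv (deriv Wh) s - deriv (deriv Zh) s * deriv Wh s) ^ 4 =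
      κ * (deriv Zh s * deriv Wh s) ^ 3 := by
    have hl : AnalyticAt ℂ
        (fun s => (deriv Zh s * deriv (deriv Wh) s - deriv (deriv Zh) s * deriv Wh s) ^ 4) p :=
      ((hZ.deriv.mul hW.deriv.deriv).sub (hZ.deriv.deriv.mul hW.deriv)).pow 4
    have hr : AnalyticAt ℂ (fun s => κ * (deriv Zh s * deriv Wh s) ^ 3) p :=
      analyticAt_const.mul ((hZ.deriv.mul hW.deriv).pow 3)
    refine (hl.frequently_eq_iff_eventually_eq hr).1 (Eventually.frequently ?_)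
    filter_upwards [hint, eZ1, eW1, eZ2, eW2] with s h a1 a2 a3 a4
    rw [← a1, ← a2, ← a3, ← a4]
    exact h
  have hQ' : ¬ ∀ᶠ s in 𝓝 p, deriv Zh s * deriv Wh s = 0 := by
    intro h
    have h' := h.filter_mono (nhdsWithin_le_nhds (s := {p}ᶜ))
    have : ∀ᶠ s in 𝓝[≠] p, False := by
      filter_upwards [h', hQ, eZ1, eW1] with s b1 b2 b3 b4
      rw [b3, b4] at b2
      exact b2 b1
    exact (this.exists).elim fun _ h => h
  obtain ⟨σ, hσ, hσ0, hσ1, hZσ, hWσ⟩ := exists_involution Zh Wh p hZ hW hW2 hodd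
  have hneg := involution_eq_neg Zh Wh p hZ hW κ hκ hint' hQ' σ hσ hσ0 hσ1 hZσ hWσ
  have h1 : ∀ᶠ z in 𝓝[≠] (0 : ℂ), Zh (p - z) = Zh (p + z) ∧ Wh (p - z) = Wh (p + z) := by
    refine Eventually.filter_mono nhdsWithin_le_nhds ?_
    filter_upwards [hneg, hZσ, hWσ] with z c1 c2 c3
    rw [c1] at c2 c3
    exact ⟨by rw [sub_eq_add_neg]; exact c2, by rw [sub_eq_add_neg]; exact c3⟩
  filter_upwards [h1, (cm_tendsto_add p).eventually eZ, (cm_tendsto_sub p).eventually eZ,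
    (cm_tendsto_add p).eventually eW, (cm_tendsto_sub p).eventually eW] with z d1 d2 d3 d4 d5
  rw [d2, d3, d4, d5]
  exact d1

theorem symm_of_core (p : ℂ) (hp : S.IsCenter p) :
    ∀ᶠ z in 𝓝[≠] (0 : ℂ), S.Zc (p - z) = S.Zc (p + z) ∧ S.Wc (p - z) = S.Wc (p + z) := by
  obtain ⟨Zh, Wh, hZ, hW, eZ, eW, h⟩ := S.center_core p hp
  have hc : (G.c : ℂ) ≠ 0 := by exact_mod_cast G.c_pos.ne'
  have hκ : 16 * (G.c : ℂ) ^ 2 ≠ 0 := mul_ne_zero (by norm_num) (pow_ne_zero 2 hc)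
  rcases h with ⟨-, h2, hodd⟩ | ⟨-, h2, hodd⟩
  · exact cm_symm_half p S.Zc S.Wc Zh Wh _ hκ hZ hW eZ eW (S.intrinsic p hp.1)
      (S.dZc_dWc_ne_zero p hp.1) h2 hodd
  · have hint : ∀ᶠ s in 𝓝[≠] p,
        (deriv S.Wc s * deriv (deriv S.Zc) s - deriv (deriv S.Wc) s * deriv S.Zc s) ^ 4 =
          16 * (G.c : ℂ) ^ 2 * (deriv S.Wc s * deriv S.Zc s) ^ 3 := by
      filter_upwards [S.intrinsic p hp.1] with s hs
      linear_combination hs
    have hQ : ∀ᶠ s in 𝓝[≠] p, deriv S.Wc s * deriv S.Zc s ≠ 0 := by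
      filter_upwards [S.dZc_dWc_ne_zero p hp.1] with s hs
      rwa [mul_comm]
    filter_upwards [cm_symm_half p S.Wc S.Zc Wh Zh _ hκ hW hZ eW eZ hint hQ h2 hodd] with z hz
    exact ⟨hz.2, hz.1⟩

/-- a local symmetry of the curve is an antisymmetry of the normal. -/
theorem am_symm (p : ℂ)
    (h : ∀ᶠ z in 𝓝[≠] (0 : ℂ), S.Zc (p - z) = S.Zc (p + z) ∧ S.Wc (p - z) = S.Wc (p + z)) :
    ∀ᶠ z in 𝓝[≠] (0 : ℂ), S.am (p - z) = - S.am (p + z) := by
  have ht : Tendsto (fun s : ℂ => s - p) (𝓝[≠] p) (𝓝[≠] 0) := by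
    refine tendsto_nhdsWithin_iff.2 ⟨?_, ?_⟩
    · have : Tendsto (fun s : ℂ => s - p) (𝓝 p) (𝓝 (p - p)) :=
        (continuous_id.sub continuous_const).tendsto p
      rw [sub_self] at this
      exact this.mono_left nhdsWithin_le_nhds
    · filter_upwards [self_mem_nhdsWithin] with s hs
      intro h
      exact hs (sub_eq_zero.1 h)
  have h' := ht.eventually h
  have hZ : (fun s => S.Zc (2 * p - s)) =ᶠ[𝓝[≠] p] S.Zc := by
    filter_upwards [h'] with s hs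
    have := hs.1
    rw [show p - (s - p) = 2 * p - s by ring, show p + (s - p) = s by ring] at this
    exact this
  have hW : (fun s => S.Wc (2 * p - s)) =ᶠ[𝓝[≠] p] S.Wc := by
    filter_upwards [h'] with s hs
    have := hs.2
    rw [show p - (s - p) = 2 * p - s by ring, show p + (s - p) = s by ring] at this
    exact this
  have hZ1 : ∀ᶠ s in 𝓝[≠] p, deriv S.Zc (2 * p - s) = - deriv S.Zc s := by
    filter_upwards [hZ.nhdsNE_deriv] with s hs
    rw [deriv_comp_const_sub] at hs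
    rw [← hs, neg_neg]
  have hW1 : ∀ᶠ s in 𝓝[≠] p, deriv S.Wc (2 * p - s) = - deriv S.Wc s := by
    filter_upwards [hW.nhdsNE_deriv] with s hs
    rw [deriv_comp_const_sub] at hs
    rw [← hs, neg_neg]
  have hA : (fun s => S.a2 (2 * p - s)) =ᶠ[𝓝[≠] p] S.a2 := by
    filter_upwards [hZ1, hW1] with s a1 a2
    show - deriv S.Zc (2 * p - s) / deriv S.Wc (2 * p - s) = - deriv S.Zc s / deriv S.Wc s
    rw [a1, a2, neg_div_neg_eq]
  have hA1 : ∀ᶠ s in 𝓝[≠] p, deriv S.a2 (2 * p - s) = - deriv S.a2 s := by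
    filter_upwards [hA.nhdsNE_deriv] with s hs
    rw [deriv_comp_const_sub] at hs
    rw [← hs, neg_neg]
  have hM : ∀ᶠ s in 𝓝[≠] p, S.am (2 * p - s) = - S.am s := by
    filter_upwards [hZ1, hA, hA1] with s a1 a2 a3
    have a2' : S.a2 (2 * p - s) = S.a2 s := a2
    show (deriv S.a2 (2 * p - s) / (2 * I * S.a2 (2 * p - s))) ^ 2 * deriv S.Zc (2 * p - s) / (I * G.c) =
      - ((deriv S.a2 s / (2 * I * S.a2 s)) ^ 2 * deriv S.Zc s / (I * G.c))
    rw [a1, a2', a3]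
    ring
  filter_upwards [(cm_tendsto_add p).eventually hM] with z hz
  rw [show 2 * p - (p + z) = p - z by ring] at hz
  exact hz

/-- EXPORT S5b (Lemmas 5.1, 5.2). -/
theorem center_symm' (p : ℂ) (hp : S.IsCenter p) :
    (meromorphicOrderAt S.am p = 1 ∨ meromorphicOrderAt S.am p = -1) ∧
      (∀ᶠ z in 𝓝[≠] (0 : ℂ), S.Γ (p - z) = S.Γ (p + z)) ∧
      (∀ᶠ z in 𝓝[≠] (0 : ℂ), S.am (p - z) = - S.am (p + z)) := by
  have hs := S.symm_of_core p hp
  refine ⟨?_, ?_, S.am_symm p hs⟩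
  · obtain ⟨Zh, Wh, -, -, -, -, h⟩ := S.center_core p hp
    rcases h with ⟨h, -, -⟩ | ⟨h, -, -⟩
    · exact Or.inl h
    · exact Or.inr h
  · filter_upwards [hs] with z ⟨h1, h2⟩
    have h1' : (S.Γ (p - z)).1 + I * (S.Γ (p - z)).2 = (S.Γ (p + z)).1 + I * (S.Γ (p + z)).2 := h1
    have h2' : (S.Γ (p - z)).1 - I * (S.Γ (p - z)).2 = (S.Γ (p + z)).1 - I * (S.Γ (p + z)).2 := h2
    have e1 : (S.Γ (p - z)).1 = (S.Γ (p + z)).1 := by linear_combination (h1' + h2') / 2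
    have e2 : (S.Γ (p - z)).2 = (S.Γ (p + z)).2 := by
      have : I * (S.Γ (p - z)).2 = I * (S.Γ (p + z)).2 := by linear_combination (h1' - h2') / 2
      exact mul_left_cancel₀ I_ne_zero this
    exact Prod.ext e1 e2

end Sec4

end Claimed.Agent.R269
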