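/-
Row 269, P1 Theorem 5.3, leaf LF-S5c-top.   Statements: helper134.
A centre forces `H = ∞`:  for `H < ∞` the reflected curve `Γ(2p - s)` is a meromorphic patch through an edge of `D_H`, against `S.nat_bdry`.
Black boxes: `CenterMain.lean` (`center_symm'`), `NormalA/C.lean` (`Γ_mero`, `center_im_ne_zero`), `mero_identity` (`Lib/CA1Top.lean`), `LiftBasic.lean`.   Fill the `sorry`s IN PLACE (prefix `ca5_`).

PLAN.  Suppose `G.Hs = ENNReal.ofReal H`-like finite value `H` (`G.Hs ≠ ⊤`; `H := G.Hs.toReal`, `0 ≤ |Im p| < H`).  `Im p ≠ 0`.  Say `Im p > 0` (the other case: lower edge, `s₀ = Re p - i H`).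
 `R(s) := 2p - s`.  `O := D_H ∩ R⁻¹(D_H) = {s : |Im s| < H, |2 Im p - Im s| < H}` is open, convex, contains `p`.  Both `Γ_i` and `Γ_i ∘ R` are meromorphic on `O` (`MeromorphicAt.comp_analyticAt`), and agree on a punctured neighbourhood of `p`
 (`center_symm'`: `Γ(p - z) = Γ(p+z)`, `z = s - p`).  `mero_identity`: they agree near every point of `O`.
 `s₀ := Re p + i H`; `|2 Im p - H| < H`, so for small `ε` the ball `B(s₀,ε)` lies in `R⁻¹(D_H)`.  `P := Γ ∘ R` is meromorphic on it; for `s ∈ B(s₀,ε) ∩ D_H ⊆ O`: `P =ᶠ[𝓝[≠] s] Γ = X(·,0)`.  `S.nat_bdry s₀`.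
-/
import Claimed.Agent.R269.S5.CenterMain

set_option autoImplicit false

namespace Claimed.Agent.R269

open Complex ComplexConjugate Filter Topology
open scoped ENNReal Real

namespace Sec4

variable {G : Glance} (S : Sec4 G)

theorem Hs_eq_top (p : ℂ) (hp : S.IsCenter p) : G.Hs = ⊤ := by
  by_contra hH
  obtain ⟨H, hHdef⟩ : ∃ H, H = G.Hs.toReal := ⟨_, rfl⟩
  have hmem : ∀ s : ℂ, s ∈ estrip G.Hs ↔ |s.im| < H := by
    intro s
    rw [hHdef]
    exact ENNReal.ofReal_lt_iff_lt_toReal (abs_nonneg _) hH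
  have hpH : |p.im| < H := (hmem p).1 hp.1
  have hp0 : p.im ≠ 0 := S.center_im_ne_zero p hp
  have hH0 : 0 < H := lt_of_le_of_lt (abs_nonneg _) hpH
  obtain ⟨η, hη1, hη2⟩ : ∃ η : ℝ, |η| = H ∧ |2 * p.im - η| < H := by
    rw [abs_lt] at hpH
    rcases lt_or_gt_of_ne hp0 with h | h
    · refine ⟨-H, by rw [abs_neg, abs_of_pos hH0], ?_⟩
      rw [abs_lt]; constructor <;> linarith [hpH.1]
    · refine ⟨H, abs_of_pos hH0, ?_⟩
      rw [abs_lt]; constructor <;> linarith [hpH.2]
  obtain ⟨R, hR⟩ : ∃ R : ℂ → ℂ, R = fun s => 2 * p - s := ⟨_, rfl⟩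
  have hRan : ∀ s, AnalyticAt ℂ R s := by
    intro s; rw [hR]; fun_prop
  have hRc : Continuous R := by rw [hR]; fun_prop
  have hRim : ∀ s, (R s).im = 2 * p.im - s.im := by
    intro s; rw [hR]; simp
  -- the domain `O`
  have hOopen : IsOpen (estrip G.Hs ∩ R ⁻¹' estrip G.Hs) :=
    (isOpen_estrip _).inter ((isOpen_estrip _).preimage hRc)
  have hOconv : Convex ℝ (estrip G.Hs ∩ R ⁻¹' estrip G.Hs) := by
    apply (convex_estrip _).inter
    intro x hx y hy a b ha hb hab
    have e : R (a • x + b • y) = a • R x + b • R y := by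
      rw [hR]
      simp only [Complex.real_smul]
      have : (b : ℂ) = 1 - a := by
        have : (a : ℂ) + b = 1 := by exact_mod_cast hab
        linear_combination this
      rw [this]; ring
    show R (a • x + b • y) ∈ estrip G.Hs
    rw [e]
    exact convex_estrip _ hx hy ha hb hab
  have hpO : p ∈ estrip G.Hs ∩ R ⁻¹' estrip G.Hs := by
    refine ⟨hp.1, ?_⟩
    show R p ∈ estrip G.Hs
    have : R p = p := by rw [hR]; ring
    rw [this]; exact hp.1
  have hsymm : ∀ᶠ s in 𝓝[≠] p, S.Γ (R s) = S.Γ s := by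
    have h1 := (S.center_symm' p hp).2.1
    have ht : Tendsto (fun s : ℂ => s - p) (𝓝[≠] p) (𝓝[≠] 0) := by
      refine tendsto_nhdsWithin_iff.2 ⟨?_, ?_⟩
      · have : Tendsto (fun s : ℂ => s - p) (𝓝 p) (𝓝 (p - p)) :=
          (continuous_id.sub continuous_const).tendsto p
        rw [sub_self] at this
        exact this.mono_left nhdsWithin_le_nhds
      · filter_upwards [self_mem_nhdsWithin] with s hs
        intro h
        exact hs (sub_eq_zero.1 h)
    filter_upwards [ht.eventually h1] with s hs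
    have e1 : p - (s - p) = R s := by rw [hR]; ring
    have e2 : p + (s - p) = s := by ring
    rw [e1, e2] at hs
    exact hs
  have hm1 : MeromorphicOn (fun s => (S.Γ s).1) (estrip G.Hs ∩ R ⁻¹' estrip G.Hs) :=
    fun s hs => S.Γ_mero.1 s hs.1
  have hm2 : MeromorphicOn (fun s => (S.Γ s).2) (estrip G.Hs ∩ R ⁻¹' estrip G.Hs) :=
    fun s hs => S.Γ_mero.2 s hs.1
  have hc1 : ∀ s, R s ∈ estrip G.Hs → MeromorphicAt (fun s => (S.Γ (R s)).1) s :=
    fun s hs => (S.Γ_mero.1 (R s) hs).comp_analyticAt (hRan s)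
  have hc2 : ∀ s, R s ∈ estrip G.Hs → MeromorphicAt (fun s => (S.Γ (R s)).2) s :=
    fun s hs => (S.Γ_mero.2 (R s) hs).comp_analyticAt (hRan s)
  have hid1 := mero_identity (f := fun s => (S.Γ (R s)).1) (g := fun s => (S.Γ s).1)
    (fun s hs => hc1 s hs.2) hm1 hOopen hOconv.isPreconnected hpO
    (by filter_upwards [hsymm] with s hs; simp only [hs])
  have hid2 := mero_identity (f := fun s => (S.Γ (R s)).2) (g := fun s => (S.Γ s).2)
    (fun s hs => hc2 s hs.2) hm2 hOopen hOconv.isPreconnected hpO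
    (by filter_upwards [hsymm] with s hs; simp only [hs])
  -- the edge point
  have hball : ∀ s ∈ Metric.ball (⟨p.re, η⟩ : ℂ) (H - |2 * p.im - η|), R s ∈ estrip G.Hs := by
    intro s hs
    rw [hmem, hRim]
    rw [Metric.mem_ball, dist_eq_norm] at hs
    have h1 : |(s - ⟨p.re, η⟩ : ℂ).im| < H - |2 * p.im - η| :=
      lt_of_le_of_lt (Complex.abs_im_le_norm _) hs
    simp only [Complex.sub_im] at h1
    calc |2 * p.im - s.im| = |(2 * p.im - η) + -(s.im - η)| := by ring_nf
      _ ≤ |2 * p.im - η| + |-(s.im - η)| := abs_add_le _ _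
      _ = |2 * p.im - η| + |s.im - η| := by rw [abs_neg]
      _ < H := by linarith
  apply S.nat_bdry (⟨p.re, η⟩ : ℂ)
  · show ENNReal.ofReal |η| = G.Hs
    rw [hη1, hHdef, ENNReal.ofReal_toReal hH]
  · refine ⟨H - |2 * p.im - η|, fun s => S.Γ (R s), by linarith, fun s hs => hc1 s (hball s hs),
      fun s hs => hc2 s (hball s hs), ?_⟩
    intro s hs
    have hsO : s ∈ estrip G.Hs ∩ R ⁻¹' estrip G.Hs := ⟨hs.2, hball s hs.1⟩
    filter_upwards [hid1 s hsO, hid2 s hsO] with s' h1 h2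
    exact Prod.ext h1 h2

theorem estrip_top : estrip (⊤ : ℝ≥0∞) = Set.univ := by
  ext s
  simp [estrip]

end Sec4

end Claimed.Agent.R269
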