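/-
Row 269, P1 Theorem 5.3, leaf LF-S5c-quartic.   Statements: helper134.
With a centre the normal `a` is elliptic and satisfies `a'² = c₄ a⁴ + c₂ a² + c₀`; on the real axis `φ₀'² = -c₂ - c₄ e^{2iφ₀} - c₀ e^{-2iφ₀}`.
Black boxes: `ClassA.lean`, `CenterMain.lean`, `NormalA/B/C.lean`, `Lib/EllPerC.lean` (`ellper_quartic_real`, PROVED by helper283).   PROVED by helper283 (prefix `cb5_`).

PLAN.  `G.Hs = ⊤`, `estrip ⊤ = univ`: `Meromorphic S.am` (`am_mero`), every `p'` with `meromorphicOrderAt S.am p' ≠ 0` is a centre: `center_symm'`.  `T = 2π`, `s₁ = 0` (`am_per`; mind the cast `((2 * π : ℝ) : ℂ) = 2 * π`).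
 Second centre `conj p` (`center_conj`), `Im p ≠ - Im p` (`center_im_ne_zero`).
 For real `x`: `S.am = exp(i φ₀)` near `x` (`am_real`/`am_base`), so `S.am` is analytic at `x`, `deriv S.am x = i φ₀'(x) exp(iφ₀ x)`; divide the quartic relation by `exp(2iφ₀ x) ≠ 0`.
-/
import Claimed.Agent.R269.S5.ClassA
import Claimed.Agent.R269.Lib.EllPerC

set_option autoImplicit false

namespace Claimed.Agent.R269

open Complex ComplexConjugate Filter Topology
open scoped ENNReal Real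

namespace Sec4

variable {G : Glance} (S : Sec4 G)

theorem cb5_alg (d e e' c₀ c₂ c₄ : ℂ) (he : e * e' = 1)
    (h : (e * (I * d)) ^ 2 = c₄ * e ^ 4 + c₂ * e ^ 2 + c₀) :
    d ^ 2 = -c₂ - c₄ * e ^ 2 - c₀ * e' ^ 2 := by
  have hI : I ^ 2 = -1 := I_sq
  have h1 : -(e ^ 2 * d ^ 2) = c₄ * e ^ 4 + c₂ * e ^ 2 + c₀ := by
    rw [← h]; linear_combination (-(e ^ 2 * d ^ 2)) * hI
  have h2 : e ^ 2 * e' ^ 2 = 1 := by rw [← mul_pow, he, one_pow]
  linear_combination (-(e' ^ 2)) * h1 + (-d ^ 2 - c₄ * e ^ 2 - c₂) * h2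

theorem cb5_isOpen_hstrip (a : ℝ) : IsOpen (hstrip a) :=
  isOpen_lt (continuous_abs.comp Complex.continuous_im) continuous_const

theorem speed_quartic (p : ℂ) (hp : S.IsCenter p) :
    ∃ c₀ c₂ c₄ : ℂ, ∀ x : ℝ, deriv G.φ₀ x ^ 2 =
      -c₂ - c₄ * Complex.exp (2 * I * G.φ₀ x) - c₀ * Complex.exp (-(2 * I * G.φ₀ x)) := by
  have hH : G.Hs = ⊤ := S.Hs_eq_top p hp
  have huniv : ∀ s : ℂ, s ∈ estrip G.Hs := by
    intro s
    rw [hH, estrip_top]
    exact Set.mem_univ s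
  have ha : Meromorphic S.am := fun s => S.am_mero s (huniv s)
  have hper : ∀ᶠ s in 𝓝[≠] (0 : ℂ), S.am (s + ((2 * π : ℝ) : ℂ)) = S.am s := by
    have := S.am_per 0 (huniv 0)
    simpa using this
  have hc : ∀ p', meromorphicOrderAt S.am p' ≠ 0 →
      (meromorphicOrderAt S.am p' = 1 ∨ meromorphicOrderAt S.am p' = -1) ∧
        ∀ᶠ z in 𝓝[≠] (0 : ℂ), S.am (p' - z) = - S.am (p' + z) := by
    intro p' hp'
    have := S.center_symm' p' ⟨huniv p', hp'⟩
    exact ⟨this.1, this.2.2⟩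
  have him : p.im ≠ (conj p).im := by
    have := S.center_im_ne_zero p hp
    rw [conj_im]
    intro h
    apply this
    linarith
  obtain ⟨c₀, c₂, c₄, hq⟩ := ellper_quartic_real ha (T := 2 * π) (by positivity) hper hc hp.2
    (S.center_conj p hp).2 him
  refine ⟨c₀, c₂, c₄, fun x => ?_⟩
  have hs : 0 < G.s := G.s4c_s_pos
  have hx : (x : ℂ) ∈ hstrip (2 * G.s) := by
    show |(x : ℂ).im| < 2 * G.s
    rw [ofReal_im, abs_zero]
    linarith
  have hφ : AnalyticAt ℂ G.φ₀ x :=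
    (G.φ₀_diff.analyticOnNhd (cb5_isOpen_hstrip _)) x hx
  have hev : S.am =ᶠ[𝓝 (x : ℂ)] fun y => Complex.exp (I * G.φ₀ y) :=
    (S.am_real x).mono fun y hy => hy.1
  have hexp : AnalyticAt ℂ (fun y => Complex.exp (I * G.φ₀ y)) x :=
    (analyticAt_const.mul hφ).cexp
  have han : AnalyticAt ℂ S.am x := hexp.congr hev.symm
  have hd : deriv S.am x = Complex.exp (I * G.φ₀ x) * (I * deriv G.φ₀ x) := by
    rw [hev.deriv_eq]
    exact ((hφ.differentiableAt.hasDerivAt.const_mul I).cexp).deriv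
  have h := hq x han
  rw [hd, hev.eq_of_nhds] at h
  have e1 : Complex.exp (2 * I * G.φ₀ x) = Complex.exp (I * G.φ₀ x) ^ 2 := by
    rw [← Complex.exp_nat_mul]; congr 1; push_cast; ring
  have e2 : Complex.exp (-(2 * I * G.φ₀ x)) = Complex.exp (-(I * G.φ₀ x)) ^ 2 := by
    rw [← Complex.exp_nat_mul]; congr 1; push_cast; ring
  rw [e1, e2]
  exact cb5_alg _ _ _ _ _ _ (by rw [← Complex.exp_add, add_neg_cancel, Complex.exp_zero]) h

end Sec4

end Claimed.Agent.R269
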