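/-
Row 269, P1 Theorem 5.3 (last two paragraphs), leaf LF-S5c-real.   Statements: helper134.
`f² = C + B cos 2φ + D sin 2φ` ⇒ the support function is that of an ellipse.   Only the fields of `Glance` are used (real analysis).
Fill the `sorry`s IN PLACE (auxiliary lemmas above the statements, prefix `cc5_`).   The owner may split the file (`ClassC*.lean`).

PLAN.  1. `φ₀_real`, `dφ₀_real`, `hc_real`: `Θ_conj`, `hc_conj` at real points; the derivative of a holomorphic function which is real on the real axis is real there (difference quotients along `ℝ`, or `conj`-symmetry + `deriv`).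
    `φ₀_surj`: `x ↦ (φ₀ x).re` is continuous, `φ₀(x + 2π) = φ₀ x + 2π`: unbounded above and below, intermediate value theorem.
 2. `q θ := -c₂ - c₄ e^{2iθ} - c₀ e^{-2iθ}`; by `h` and 1. `q θ = f²` is real and positive for every real `θ` (`φ'_pos`).   `q θ = C + B cos 2θ + D sin 2θ`, `C = -c₂`, `B = -(c₄ + c₀)`, `D = -i (c₄ - c₀)`;
    `θ = 0, π/2, π/4` show that `C, B, D` are real.   `n₁ = C + B`, `n₂ = D`, `n₃ = C - B`: `q = n₁ cos² + 2 n₂ cos sin + n₃ sin²`.   `n₁ = q 0 > 0`; `Δ := n₁ n₃ - n₂² = C² - B² - D² > 0`: choose `θ` with `B cos 2θ + D sin 2θ = -√(B²+D²)`; `C > √(B²+D²) ≥ 0`.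
 3. `ellipse_ode` (HOST-FREE): for `q` as above, `h₀ := √q` satisfies `h₀'' + h₀ = Δ / q^{3/2}` (`q' = 2(-n₁ cos sin + n₂ (cos² - sin²) + n₃ sin cos)`, `q'' = 2 (n₁ + n₃) - 4 q`; `2 q q'' - q'² + 4 q² = 4 Δ`).
 4. `harmonic_ode` (HOST-FREE): `u'' + u = 0` on `ℝ` ⇒ `u = u(0) cos + u'(0) sin` (the energy of the difference is constant).
 5. `G.normalised` + surjectivity: `(h + h'')(θ) = c / q(θ)^{3/2}` for all real `θ`, `h = hR` (real second derivative of `θ ↦ (hc θ).re` = real part of `hc''`).   `u := h - (c/Δ) √q`.   Final matrix `(c/Δ)² (n₁, n₂, n₃)`.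
-/
import Claimed.Agent.R269.Cplx

set_option autoImplicit false

namespace Claimed.Agent.R269

open Complex ComplexConjugate Filter Topology
open scoped Real

theorem cc5_q_pos (n₁ n₂ n₃ : ℝ) (h1 : 0 < n₁) (hΔ : 0 < n₁ * n₃ - n₂ ^ 2) (θ : ℝ) :
    0 < n₁ * Real.cos θ ^ 2 + 2 * n₂ * Real.cos θ * Real.sin θ + n₃ * Real.sin θ ^ 2 := by
  have hcs := Real.sin_sq_add_cos_sq θ
  have h2 : n₁ * (n₁ * Real.cos θ ^ 2 + 2 * n₂ * Real.cos θ * Real.sin θ + n₃ * Real.sin θ ^ 2)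
      = (n₁ * Real.cos θ + n₂ * Real.sin θ) ^ 2 + (n₁ * n₃ - n₂ ^ 2) * Real.sin θ ^ 2 := by ring
  have h3 : 0 < n₁ * (n₁ * Real.cos θ ^ 2 + 2 * n₂ * Real.cos θ * Real.sin θ + n₃ * Real.sin θ ^ 2) := by
    rw [h2]
    by_cases hs : Real.sin θ = 0
    · rw [hs] at hcs ⊢
      have hc : Real.cos θ ^ 2 = 1 := by linarith
      have : (n₁ * Real.cos θ + n₂ * 0) ^ 2 = n₁ ^ 2 := by
        calc (n₁ * Real.cos θ + n₂ * 0) ^ 2 = n₁ ^ 2 * Real.cos θ ^ 2 := by ring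
          _ = n₁ ^ 2 := by rw [hc, mul_one]
      rw [this]
      positivity
    · have : 0 < Real.sin θ ^ 2 := by positivity
      positivity
  exact (mul_pos_iff_of_pos_left h1).1 h3

theorem cc5_q_hasDerivAt (n₁ n₂ n₃ t : ℝ) :
    HasDerivAt (fun t : ℝ => n₁ * Real.cos t ^ 2 + 2 * n₂ * Real.cos t * Real.sin t + n₃ * Real.sin t ^ 2)
      (-2 * n₁ * Real.cos t * Real.sin t + 2 * n₂ * (Real.cos t ^ 2 - Real.sin t ^ 2)
        + 2 * n₃ * Real.sin t * Real.cos t) t := by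
  have hc := Real.hasDerivAt_cos t
  have hs := Real.hasDerivAt_sin t
  have h := (((hc.fun_pow 2).const_mul n₁).add (((hc.const_mul (2 * n₂)).fun_mul hs))).add
    ((hs.fun_pow 2).const_mul n₃)
  exact h.congr_deriv (by ring)

theorem cc5_q1_hasDerivAt (n₁ n₂ n₃ t : ℝ) :
    HasDerivAt (fun t : ℝ => -2 * n₁ * Real.cos t * Real.sin t + 2 * n₂ * (Real.cos t ^ 2 - Real.sin t ^ 2)
        + 2 * n₃ * Real.sin t * Real.cos t)
      (2 * (n₃ - n₁) * (Real.cos t ^ 2 - Real.sin t ^ 2) - 8 * n₂ * Real.cos t * Real.sin t) t := by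
  have hc := Real.hasDerivAt_cos t
  have hs := Real.hasDerivAt_sin t
  have h := (((hc.const_mul (-2 * n₁)).fun_mul hs).add
    (((hc.fun_pow 2).sub (hs.fun_pow 2)).const_mul (2 * n₂))).add ((hs.const_mul (2 * n₃)).fun_mul hc)
  exact h.congr_deriv (by ring)

/-- HOST-FREE: the support function `√q_N`. -/
theorem ellipse_ode (n₁ n₂ n₃ : ℝ) (h1 : 0 < n₁) (hΔ : 0 < n₁ * n₃ - n₂ ^ 2) (θ : ℝ) :
    0 < n₁ * Real.cos θ ^ 2 + 2 * n₂ * Real.cos θ * Real.sin θ + n₃ * Real.sin θ ^ 2 ∧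
    deriv (deriv fun t : ℝ => Real.sqrt (n₁ * Real.cos t ^ 2 + 2 * n₂ * Real.cos t * Real.sin t + n₃ * Real.sin t ^ 2)) θ +
        Real.sqrt (n₁ * Real.cos θ ^ 2 + 2 * n₂ * Real.cos θ * Real.sin θ + n₃ * Real.sin θ ^ 2) =
      (n₁ * n₃ - n₂ ^ 2) /
        Real.sqrt (n₁ * Real.cos θ ^ 2 + 2 * n₂ * Real.cos θ * Real.sin θ + n₃ * Real.sin θ ^ 2) ^ 3 := by
  refine ⟨cc5_q_pos n₁ n₂ n₃ h1 hΔ θ, ?_⟩
  have hpos := cc5_q_pos n₁ n₂ n₃ h1 hΔ
  have hd1 : ∀ t : ℝ, HasDerivAt (fun t : ℝ => Real.sqrt (n₁ * Real.cos t ^ 2 + 2 * n₂ * Real.cos t * Real.sin t + n₃ * Real.sin t ^ 2))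
      ((-2 * n₁ * Real.cos t * Real.sin t + 2 * n₂ * (Real.cos t ^ 2 - Real.sin t ^ 2)
        + 2 * n₃ * Real.sin t * Real.cos t) /
        (2 * Real.sqrt (n₁ * Real.cos t ^ 2 + 2 * n₂ * Real.cos t * Real.sin t + n₃ * Real.sin t ^ 2))) t :=
    fun t => (cc5_q_hasDerivAt n₁ n₂ n₃ t).sqrt (hpos t).ne'
  have e1 : (deriv fun t : ℝ => Real.sqrt (n₁ * Real.cos t ^ 2 + 2 * n₂ * Real.cos t * Real.sin t + n₃ * Real.sin t ^ 2))
      = fun t => (-2 * n₁ * Real.cos t * Real.sin t + 2 * n₂ * (Real.cos t ^ 2 - Real.sin t ^ 2)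
        + 2 * n₃ * Real.sin t * Real.cos t) /
        (2 * Real.sqrt (n₁ * Real.cos t ^ 2 + 2 * n₂ * Real.cos t * Real.sin t + n₃ * Real.sin t ^ 2)) :=
    funext fun t => (hd1 t).deriv
  rw [e1]
  have hw : 0 < Real.sqrt (n₁ * Real.cos θ ^ 2 + 2 * n₂ * Real.cos θ * Real.sin θ + n₃ * Real.sin θ ^ 2) :=
    Real.sqrt_pos.2 (hpos θ)
  have hd2 := (cc5_q1_hasDerivAt n₁ n₂ n₃ θ).fun_div ((hd1 θ).const_mul 2) (by positivity)
  rw [hd2.deriv]
  have hw2 := Real.sq_sqrt (hpos θ).le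
  have hcs := Real.sin_sq_add_cos_sq θ
  generalize Real.sqrt (n₁ * Real.cos θ ^ 2 + 2 * n₂ * Real.cos θ * Real.sin θ + n₃ * Real.sin θ ^ 2) = w at *
  generalize Real.cos θ = c at *
  generalize Real.sin θ = s at *
  have key : 2 * w ^ 2 * (2 * (n₃ - n₁) * (c ^ 2 - s ^ 2) - 8 * n₂ * c * s)
      - (-2 * n₁ * c * s + 2 * n₂ * (c ^ 2 - s ^ 2) + 2 * n₃ * s * c) ^ 2 + 4 * w ^ 4
      = 4 * (n₁ * n₃ - n₂ ^ 2) := by
    rw [show w ^ 4 = (w ^ 2) ^ 2 by ring, hw2]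
    linear_combination (4 * (n₁ * n₃ - n₂ ^ 2) * (s ^ 2 + c ^ 2 + 1)) * hcs
  field_simp
  linear_combination (1 / 2) * key

/-- HOST-FREE: `u'' + u = 0`. -/
theorem harmonic_ode (u : ℝ → ℝ) (hu : ContDiff ℝ 2 u) (h : ∀ θ, deriv (deriv u) θ + u θ = 0) :
    ∀ θ, u θ = u 0 * Real.cos θ + deriv u 0 * Real.sin θ := by
  have hu1 : Differentiable ℝ u := hu.differentiable (by norm_num)
  have hu2 : Differentiable ℝ (deriv u) :=
    (((contDiff_succ_iff_deriv (n := 1)).1 hu).2.2).differentiable one_ne_zero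
  have d1 : ∀ t, HasDerivAt u (deriv u t) t := fun t => (hu1 t).hasDerivAt
  have d2 : ∀ t, HasDerivAt (deriv u) (deriv (deriv u) t) t := fun t => (hu2 t).hasDerivAt
  have hA : ∀ t, HasDerivAt (fun t => u t * Real.cos t - deriv u t * Real.sin t) 0 t := by
    intro t
    have := ((d1 t).fun_mul (Real.hasDerivAt_cos t)).fun_sub ((d2 t).fun_mul (Real.hasDerivAt_sin t))
    exact this.congr_deriv (by linear_combination (-Real.sin t) * h t)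
  have hB : ∀ t, HasDerivAt (fun t => u t * Real.sin t + deriv u t * Real.cos t) 0 t := by
    intro t
    have := ((d1 t).fun_mul (Real.hasDerivAt_sin t)).fun_add ((d2 t).fun_mul (Real.hasDerivAt_cos t))
    exact this.congr_deriv (by linear_combination (Real.cos t) * h t)
  intro θ
  have eA := is_const_of_deriv_eq_zero (fun t => (hA t).differentiableAt) (fun t => (hA t).deriv) θ 0
  have eB := is_const_of_deriv_eq_zero (fun t => (hB t).differentiableAt) (fun t => (hB t).deriv) θ 0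
  simp only [Real.cos_zero, Real.sin_zero, mul_one, mul_zero, sub_zero, zero_add] at eA eB
  have hcs := Real.sin_sq_add_cos_sq θ
  rw [← eA, ← eB]
  linear_combination (-u θ) * hcs

theorem cc5_real_deriv {F : ℂ → ℂ} (hF : ∀ t : ℝ, DifferentiableAt ℂ F t)
    (hre : ∀ t : ℝ, (F t).im = 0) (t : ℝ) :
    HasDerivAt (fun t : ℝ => (F t).re) (deriv F t).re t ∧ (deriv F t).im = 0 := by
  have h1 : HasDerivAt (fun t : ℝ => F t) (deriv F t) t := (hF t).hasDerivAt.comp_ofReal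
  refine ⟨(hF t).hasDerivAt.real_of_complex, ?_⟩
  have h3 : HasDerivAt (fun t : ℝ => (F t).im) (deriv F t).im t :=
    Complex.imCLM.hasFDerivAt.comp_hasDerivAt t h1
  have h4 : (fun t : ℝ => (F t).im) = fun _ => 0 := funext hre
  rw [h4] at h3
  exact h3.unique (hasDerivAt_const t 0)

theorem cc5_real_mem {s : ℝ} (hs : 0 < s) (x : ℝ) : (x : ℂ) ∈ hstrip s := by
  simp [hstrip, hs]

theorem cc5_isOpen_hstrip (s : ℝ) : IsOpen (hstrip s) :=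
  isOpen_lt (continuous_abs.comp Complex.continuous_im) continuous_const

namespace Glance

variable (G : Glance)

theorem cc5_s_pos : 0 < G.s := G.r₁_pos.trans G.r₁_lt

theorem cc5_mem (x : ℝ) : (x : ℂ) ∈ hstrip (2 * G.s) :=
  cc5_real_mem (by have := G.cc5_s_pos; positivity) x

theorem cc5_zero_mem : (0 : ℂ) ∈ Metric.ball (0 : ℂ) G.r₁ := Metric.mem_ball_self G.r₁_pos

theorem cc5_φ₀_diff (x : ℝ) : DifferentiableAt ℂ G.φ₀ x := by
  have hopen : IsOpen (hstrip (2 * G.s) ×ˢ Metric.ball (0 : ℂ) G.r₁) :=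
    (cc5_isOpen_hstrip _).prod Metric.isOpen_ball
  have hmem : ((x : ℂ), (0 : ℂ)) ∈ hstrip (2 * G.s) ×ˢ Metric.ball (0 : ℂ) G.r₁ :=
    ⟨G.cc5_mem x, G.cc5_zero_mem⟩
  have h1 : DifferentiableAt ℂ (fun z : ℂ × ℂ => G.Θ z.1 z.2) ((x : ℂ), (0 : ℂ)) :=
    (G.Θ_diff _ hmem).differentiableAt (hopen.mem_nhds hmem)
  have h2 : DifferentiableAt ℂ (fun y : ℂ => (y, (0 : ℂ))) (x : ℂ) :=
    differentiableAt_id.prodMk (differentiableAt_const 0)
  exact DifferentiableAt.comp (x : ℂ) (g := fun z : ℂ × ℂ => G.Θ z.1 z.2) h1 h2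

theorem φ₀_real (x : ℝ) : (G.φ₀ x).im = 0 := by
  have h := G.Θ_conj x (G.cc5_mem x) 0 G.cc5_zero_mem
  rw [Complex.conj_ofReal, map_zero] at h
  exact Complex.conj_eq_iff_im.1 h.symm

theorem dφ₀_real (x : ℝ) : (deriv G.φ₀ x).im = 0 :=
  (cc5_real_deriv G.cc5_φ₀_diff G.φ₀_real x).2

theorem cc5_φ₀_per (x : ℝ) : (G.φ₀ ((x + 2 * π : ℝ) : ℂ)).re = (G.φ₀ x).re + 2 * π := by
  have h := G.Θ_per x (G.cc5_mem x) 0 G.cc5_zero_mem
  have e : ((x + 2 * π : ℝ) : ℂ) = (x : ℂ) + 2 * π := by push_cast; ring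
  show (G.Θ ((x + 2 * π : ℝ) : ℂ) 0).re = (G.Θ x 0).re + 2 * π
  rw [e, h]
  simp

theorem cc5_φ₀_per_nat (n : ℕ) (x : ℝ) :
    (G.φ₀ ((x + 2 * π * n : ℝ) : ℂ)).re = (G.φ₀ x).re + 2 * π * n := by
  induction n with
  | zero => simp
  | succ n ih =>
    have e : x + 2 * π * ((n + 1 : ℕ) : ℝ) = (x + 2 * π * n) + 2 * π := by push_cast; ring
    rw [e, G.cc5_φ₀_per, ih]
    push_cast
    ring

theorem φ₀_surj (θ : ℝ) : ∃ x : ℝ, G.φ₀ x = θ := by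
  have hc : Continuous fun x : ℝ => (G.φ₀ x).re := by
    refine continuous_iff_continuousAt.2 fun x => ?_
    exact (cc5_real_deriv G.cc5_φ₀_diff G.φ₀_real x).1.continuousAt
  have hπ : 0 < 2 * π := by positivity
  have h1 : ∃ a : ℝ, (G.φ₀ a).re ≤ θ := by
    obtain ⟨n, hn⟩ := exists_nat_ge (((G.φ₀ (0 : ℝ)).re - θ) / (2 * π))
    refine ⟨-(2 * π * n), ?_⟩
    have h := G.cc5_φ₀_per_nat n (-(2 * π * n))
    rw [neg_add_cancel] at h
    rw [div_le_iff₀ hπ] at hn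
    linarith
  have h2 : ∃ b : ℝ, θ ≤ (G.φ₀ b).re := by
    obtain ⟨n, hn⟩ := exists_nat_ge ((θ - (G.φ₀ (0 : ℝ)).re) / (2 * π))
    refine ⟨0 + 2 * π * n, ?_⟩
    rw [G.cc5_φ₀_per_nat n 0]
    rw [div_le_iff₀ hπ] at hn
    linarith
  obtain ⟨x, hx⟩ := mem_range_of_exists_le_of_exists_ge hc h1 h2
  refine ⟨x, Complex.ext ?_ ?_⟩
  · simpa using hx
  · simpa using G.φ₀_real x

theorem cc5_hc_diff (x : ℝ) : DifferentiableAt ℂ G.hc x :=
  (G.hc_diff _ (cc5_real_mem G.σ_pos x)).differentiableAt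
    ((cc5_isOpen_hstrip _).mem_nhds (cc5_real_mem G.σ_pos x))

theorem cc5_dhc_diff (x : ℝ) : DifferentiableAt ℂ (deriv G.hc) x :=
  ((G.hc_diff.deriv (cc5_isOpen_hstrip _)) _ (cc5_real_mem G.σ_pos x)).differentiableAt
    ((cc5_isOpen_hstrip _).mem_nhds (cc5_real_mem G.σ_pos x))

theorem cc5_hc_real (x : ℝ) : (G.hc x).im = 0 := by
  have h := G.hc_conj x (cc5_real_mem G.σ_pos x)
  rw [Complex.conj_ofReal] at h
  exact Complex.conj_eq_iff_im.1 h.symm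

theorem cc5_dhc_real (x : ℝ) : (deriv G.hc x).im = 0 :=
  (cc5_real_deriv G.cc5_hc_diff G.cc5_hc_real x).2

theorem cc5_deriv_hR : deriv G.hR = fun t : ℝ => (deriv G.hc t).re :=
  funext fun t => (cc5_real_deriv G.cc5_hc_diff G.cc5_hc_real t).1.deriv

theorem cc5_deriv2_hR (t : ℝ) : deriv (deriv G.hR) t = (deriv (deriv G.hc) t).re := by
  rw [G.cc5_deriv_hR]
  exact (cc5_real_deriv G.cc5_dhc_diff G.cc5_dhc_real t).1.deriv

/-- the real support function is smooth and its radius of curvature is the real part of `hc + hc''`. -/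
theorem hR_contDiff : ContDiff ℝ 2 G.hR := by
  refine contDiff_iff_contDiffAt.2 fun x => ?_
  have h1 : AnalyticAt ℂ G.hc x :=
    (G.hc_diff.analyticOnNhd (cc5_isOpen_hstrip _)) _ (cc5_real_mem G.σ_pos x)
  have h2 : AnalyticAt ℝ G.hc x := h1.restrictScalars
  have h3 : AnalyticAt ℝ (fun t : ℝ => G.hc t) x :=
    AnalyticAt.comp (g := G.hc) (f := fun t : ℝ => (t : ℂ)) h2 (Complex.ofRealCLM.analyticAt x)
  have h4 : AnalyticAt ℝ (fun t : ℝ => (G.hc t).re) x :=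
    AnalyticAt.comp (g := fun z : ℂ => z.re) (f := fun t : ℝ => G.hc t)
      (Complex.reCLM.analyticAt _) h3
  exact h4.contDiffAt

theorem hR_radius (θ : ℝ) :
    ((deriv (deriv G.hR) θ + G.hR θ : ℝ) : ℂ) = G.hc θ + deriv (deriv G.hc) θ := by
  have h1 := (cc5_real_deriv G.cc5_dhc_diff G.cc5_dhc_real θ).2
  have h2 := G.cc5_hc_real θ
  rw [G.cc5_deriv2_hR]
  refine Complex.ext ?_ ?_
  · simp [hR, add_comm]
  · simp [h1, h2]

theorem cc5_exp_re (c₀ c₂ c₄ : ℂ) (θ : ℝ) :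
    (-c₂ - c₄ * Complex.exp (2 * I * θ) - c₀ * Complex.exp (-(2 * I * θ))).re
      = ((-c₂.re - (c₄.re + c₀.re)) * Real.cos θ ^ 2 + 2 * (c₄.im - c₀.im) * Real.cos θ * Real.sin θ
        + (-c₂.re + (c₄.re + c₀.re)) * Real.sin θ ^ 2) := by
  have e1 : 2 * I * (θ : ℂ) = ((2 * θ : ℝ) : ℂ) * I := by push_cast; ring
  have e2 : -(((2 * θ : ℝ) : ℂ) * I) = ((-(2 * θ) : ℝ) : ℂ) * I := by push_cast; ring
  rw [e1, e2, Complex.exp_mul_I, Complex.exp_mul_I, ← Complex.ofReal_cos, ← Complex.ofReal_sin,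
    ← Complex.ofReal_cos, ← Complex.ofReal_sin, Real.cos_neg, Real.sin_neg, Real.cos_two_mul,
    Real.sin_two_mul]
  have hcs := Real.sin_sq_add_cos_sq θ
  simp only [Complex.sub_re, Complex.neg_re, Complex.mul_re, Complex.add_re, Complex.ofReal_re,
    Complex.ofReal_im, Complex.I_re, Complex.I_im, Complex.add_im, Complex.mul_im]
  linear_combination (c₂.re - c₄.re - c₀.re) * hcs

/-- a quadratic form which is positive on the unit circle is positive definite. -/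
theorem cc5_det_pos (n₁ n₂ n₃ : ℝ)
    (hq : ∀ θ : ℝ, 0 < n₁ * Real.cos θ ^ 2 + 2 * n₂ * Real.cos θ * Real.sin θ + n₃ * Real.sin θ ^ 2) :
    0 < n₁ ∧ 0 < n₁ * n₃ - n₂ ^ 2 := by
  have h1 : 0 < n₁ := by
    have := hq 0
    simpa using this
  refine ⟨h1, ?_⟩
  have hz : (⟨-n₂, n₁⟩ : ℂ) ≠ 0 := by
    intro h0
    have := congrArg Complex.im h0
    simp at this
    linarith
  have hR : 0 < ‖(⟨-n₂, n₁⟩ : ℂ)‖ := norm_pos_iff.2 hz
  have h2 := hq (Complex.arg ⟨-n₂, n₁⟩)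
  rw [Complex.cos_arg hz, Complex.sin_arg] at h2
  simp only at h2
  generalize ‖(⟨-n₂, n₁⟩ : ℂ)‖ = R at hR h2
  have h3 : n₁ * (-n₂ / R) ^ 2 + 2 * n₂ * (-n₂ / R) * (n₁ / R) + n₃ * (n₁ / R) ^ 2
      = n₁ * (n₁ * n₃ - n₂ ^ 2) / R ^ 2 := by
    field_simp
    ring
  rw [h3] at h2
  have h4 : 0 < n₁ * (n₁ * n₃ - n₂ ^ 2) := by
    have := mul_pos h2 (pow_pos hR 2)
    rwa [div_mul_cancel₀ _ (pow_pos hR 2).ne'] at this
  exact (mul_pos_iff_of_pos_left h1).1 h4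

/-- **The real part of Theorem 5.3.** -/
theorem ellipse_of_quartic (c₀ c₂ c₄ : ℂ)
    (h : ∀ x : ℝ, deriv G.φ₀ x ^ 2 =
      -c₂ - c₄ * Complex.exp (2 * I * G.φ₀ x) - c₀ * Complex.exp (-(2 * I * G.φ₀ x))) :
    IsEllipseSupport G.hR := by
  obtain ⟨n₁, hn₁⟩ : ∃ n₁ : ℝ, n₁ = -c₂.re - (c₄.re + c₀.re) := ⟨_, rfl⟩
  obtain ⟨n₂, hn₂⟩ : ∃ n₂ : ℝ, n₂ = c₄.im - c₀.im := ⟨_, rfl⟩
  obtain ⟨n₃, hn₃⟩ : ∃ n₃ : ℝ, n₃ = -c₂.re + (c₄.re + c₀.re) := ⟨_, rfl⟩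
  have key : ∀ θ : ℝ, ∃ d : ℝ, 0 < d ∧
      n₁ * Real.cos θ ^ 2 + 2 * n₂ * Real.cos θ * Real.sin θ + n₃ * Real.sin θ ^ 2 = d ^ 2 ∧
      (deriv (deriv G.hR) θ + G.hR θ) * d ^ 3 = G.c := by
    intro θ
    obtain ⟨x, hx⟩ := G.φ₀_surj θ
    have hd : deriv G.φ₀ x = ((deriv G.φ₀ x).re : ℂ) :=
      Complex.ext rfl (by simp [G.dφ₀_real x])
    refine ⟨(deriv G.φ₀ x).re, G.φ'_pos x, ?_, ?_⟩
    · have h1 := h x
      rw [hx] at h1
      have h2 := congrArg Complex.re h1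
      rw [cc5_exp_re, ← hn₁, ← hn₂, ← hn₃, hd] at h2
      rw [← h2]
      norm_cast
    · have hn : (G.hc (G.φ₀ x) + deriv (deriv G.hc) (G.φ₀ x)) * deriv G.φ₀ x ^ 3 = G.c :=
        G.normalised x
      rw [hx, ← G.hR_radius θ, hd] at hn
      exact_mod_cast hn
  have hq : ∀ θ : ℝ,
      0 < n₁ * Real.cos θ ^ 2 + 2 * n₂ * Real.cos θ * Real.sin θ + n₃ * Real.sin θ ^ 2 := by
    intro θ
    obtain ⟨d, hd, h1, -⟩ := key θ
    rw [h1]
    positivity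
  obtain ⟨h1, hΔ⟩ := cc5_det_pos n₁ n₂ n₃ hq
  obtain ⟨h₀, hh₀⟩ : ∃ h₀ : ℝ → ℝ, h₀ = fun t : ℝ =>
      Real.sqrt (n₁ * Real.cos t ^ 2 + 2 * n₂ * Real.cos t * Real.sin t + n₃ * Real.sin t ^ 2) :=
    ⟨_, rfl⟩
  have hode : ∀ θ, deriv (deriv h₀) θ + h₀ θ = (n₁ * n₃ - n₂ ^ 2) / h₀ θ ^ 3 := by
    intro θ
    rw [hh₀]
    exact (ellipse_ode n₁ n₂ n₃ h1 hΔ θ).2
  have hrad : ∀ θ, deriv (deriv G.hR) θ + G.hR θ = G.c / h₀ θ ^ 3 := by
    intro θ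
    obtain ⟨d, hd, h2, h3⟩ := key θ
    have h4 : h₀ θ = d := by
      rw [hh₀]
      show Real.sqrt _ = d
      rw [h2, Real.sqrt_sq hd.le]
    rw [h4, eq_div_iff (pow_pos hd 3).ne', h3]
  have hh₀pos : ∀ θ, 0 < h₀ θ := by
    intro θ
    rw [hh₀]
    exact Real.sqrt_pos.2 (hq θ)
  have hh₀c : ContDiff ℝ 2 h₀ := by
    rw [hh₀]
    refine ContDiff.sqrt ?_ fun t => (hq t).ne'
    fun_prop
  obtain ⟨κ, hκ⟩ : ∃ κ : ℝ, κ = G.c / (n₁ * n₃ - n₂ ^ 2) := ⟨_, rfl⟩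
  have hκpos : 0 < κ := by
    rw [hκ]
    exact div_pos G.c_pos hΔ
  have hRc := G.hR_contDiff
  have hu : ContDiff ℝ 2 (fun t => G.hR t - κ * h₀ t) := hRc.sub (contDiff_const.mul hh₀c)
  have dR1 : Differentiable ℝ G.hR := hRc.differentiable (by norm_num)
  have dR2 : Differentiable ℝ (deriv G.hR) :=
    (((contDiff_succ_iff_deriv (n := 1)).1 hRc).2.2).differentiable one_ne_zero
  have d01 : Differentiable ℝ h₀ := hh₀c.differentiable (by norm_num)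
  have d02 : Differentiable ℝ (deriv h₀) :=
    (((contDiff_succ_iff_deriv (n := 1)).1 hh₀c).2.2).differentiable one_ne_zero
  have e1 : deriv (fun t => G.hR t - κ * h₀ t) = fun t => deriv G.hR t - κ * deriv h₀ t := by
    funext t
    exact ((dR1 t).hasDerivAt.fun_sub ((d01 t).hasDerivAt.const_mul κ)).deriv
  have e2 : ∀ t, deriv (deriv (fun t => G.hR t - κ * h₀ t)) t
      = deriv (deriv G.hR) t - κ * deriv (deriv h₀) t := by
    intro t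
    rw [e1]
    exact ((dR2 t).hasDerivAt.fun_sub ((d02 t).hasDerivAt.const_mul κ)).deriv
  have hzero : ∀ θ, deriv (deriv (fun t => G.hR t - κ * h₀ t)) θ + (G.hR θ - κ * h₀ θ) = 0 := by
    intro θ
    rw [e2]
    have h5 := hrad θ
    have h6 := hode θ
    have h7 : κ * ((n₁ * n₃ - n₂ ^ 2) / h₀ θ ^ 3) = G.c / h₀ θ ^ 3 := by
      rw [hκ]
      have := hh₀pos θ
      field_simp
    linear_combination h5 - κ * h6 - h7
  have hsol := harmonic_ode _ hu hzero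
  refine ⟨κ ^ 2 * n₁, κ ^ 2 * n₂, κ ^ 2 * n₃, G.hR 0 - κ * h₀ 0,
    deriv (fun t => G.hR t - κ * h₀ t) 0, by positivity, ?_, fun θ => ?_⟩
  · have : κ ^ 2 * n₁ * (κ ^ 2 * n₃) - (κ ^ 2 * n₂) ^ 2 = κ ^ 4 * (n₁ * n₃ - n₂ ^ 2) := by ring
    rw [this]
    positivity
  · have h8 : κ ^ 2 * n₁ * Real.cos θ ^ 2 + 2 * (κ ^ 2 * n₂) * Real.cos θ * Real.sin θ
        + κ ^ 2 * n₃ * Real.sin θ ^ 2
        = κ ^ 2 * (n₁ * Real.cos θ ^ 2 + 2 * n₂ * Real.cos θ * Real.sin θ + n₃ * Real.sin θ ^ 2) := by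
      ring
    have h9 : Real.sqrt (κ ^ 2 * (n₁ * Real.cos θ ^ 2 + 2 * n₂ * Real.cos θ * Real.sin θ
        + n₃ * Real.sin θ ^ 2)) = κ * h₀ θ := by
      rw [Real.sqrt_mul (sq_nonneg κ), Real.sqrt_sq hκpos.le, hh₀]
    rw [h8, h9]
    have := hsol θ
    linarith

end Glance

end Claimed.Agent.R269
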