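/-
Row 269, Theorem 5.4, the SYMMETRY LEMMA (replaces all monodromy arguments).  Statements: helper264.  Proofs: helper255.  SORRY-FREE.
PACKAGES: LF-S5d-sym (this file; ONE OWNER).  Paper: 05-shapes.tex l.497-533.

`sym`: if `ω⁶ = 1` and `Γ(ω s + b) = Γ(s)` near one point (both arguments in the shape strip `D = estrip G.Hs`), then `ω = 1`, `b ∈ 2πℤ`.

PLAN.
* `sym_extend`: `O = {s ∈ D | ω s + b ∈ D}` is convex and open; both sides are meromorphic on `O` (`MeromorphicAt.comp_analyticAt`);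
  `mero_identity` coordinatewise.
* `sym_finite` (`H < ∞`): if `ω ∉ ℝ`, or `ω = ±1` and `Im b ≠ 0`, there is an edge point `s₁` (`|Im s₁| = H`) with `ω s₁ + b ∈ D` which is a limit of points of `O`
  (the strip `ω⁻¹(D - b)` has the same width `2H`, meets `D`, and is different from `D`); then `P s := Γ(ω s + b)` is meromorphic on a small ball about `s₁`,
  and `P = Γ` on `ball ∩ D ⊆ O`: contradiction with `nat_bdry`.   `ω⁶ = 1` and `ω ∈ ℝ` give `ω = ±1`.
* `no_period` (`H = ∞`): `Γ(s+τ) = Γ(s)` ⇒ derivatives agree ⇒ (`Γ_deriv`; `Z' = i c a/f²`, `W' = -i c/(a f²)`, `a = exp(iφ)`) `a²(s+τ) = a²(s)`; `a²` is entire with the periods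
  `2π` and `τ ∉ ℝ`, hence bounded, hence constant (Liouville): contradiction with `φ(s+2π) = φ(s)+2π`... (differentiate: `f = 0`, but `f > 0` on `ℝ`).
* `sym_infinite`: `ω ∉ ℝ`: `2πω` is a period.  `ω = 1`: `b` is a period.  `ω = -1`, `Im b ≠ 0`: `Γ(conj b - s) = Γ(s)` by `Γ_conj`, so `b - conj b` is a period.
* `sym_refl`: on the real axis `Γ(b - s) = Γ(s)` gives `-Γ'(b-s) = Γ'(s)`, so `a²(b-s) = a²(s)`, `φ(b-s) - φ(s) ∈ πℤ` is constant, derivative `-f(b-s) - f(s) = 0`; but `f > 0`.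
* `sym_trans`: `Γ'(s+b) = Γ'(s)` on `ℝ` ⇒ `f(s+b)⁻² e_{φ(s+b)} = f(s)⁻² e_{φ(s)}` with positive factors ⇒ `φ(s+b) - φ(s) ∈ 2πℤ`, `= 2πk`; `φ` strictly increasing and
  `φ(s + 2πk) = φ(s) + 2πk` ⇒ `b = 2πk`.
PROOF NOTES (helper255).  `sym_refl` uses only the fixed point `b/2` of the reflection (`Γ'(b/2) = -Γ'(b/2)`), `sym_trans` only the point `0`
(`φ(b) - φ(0) ∈ 2πℤ` + strict monotonicity).  Helpers have the prefix `s5ls_`: `s5ls_nhds` (a punctured symmetry is a symmetry at regular points),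
`s5ls_deriv_eq`, `s5ls_E_eq` (`exp(2iφ)` is invariant), `s5ls_doubly_periodic`, `s5ls_φ_per_int`, `s5ls_φ_strictMono`, `s5ls_affine_tendsto`.
-/
import Claimed.Agent.R269.S5.LiftWidth
import Claimed.Agent.R269.Lib.CA1

set_option autoImplicit false

namespace Claimed.Agent.R269

open Complex ComplexConjugate Filter Topology MeasureTheory
open scoped ENNReal Real

/-- pull back of a punctured neighbourhood under a nonconstant affine map. -/
theorem s5ls_affine_tendsto {ω : ℂ} (hω : ω ≠ 0) (b s : ℂ) :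
    Tendsto (fun s' : ℂ => ω * s' + b) (𝓝[≠] s) (𝓝[≠] (ω * s + b)) := by
  refine tendsto_nhdsWithin_of_tendsto_nhds_of_eventually_within _ ?_ ?_
  · have : Continuous fun s' : ℂ => ω * s' + b := by fun_prop
    exact (this.tendsto s).mono_left nhdsWithin_le_nhds
  · filter_upwards [self_mem_nhdsWithin] with s' hs'
    intro h
    apply hs'
    have h' : ω * s' + b = ω * s + b := h
    have : ω * s' = ω * s := by linear_combination h'
    exact mul_left_cancel₀ hω this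

namespace Glance

variable (G : Glance)

theorem s5ls_hstrip_sub : hstrip G.s ⊆ estrip G.Hs := by
  rw [← G.slice_zero]
  exact G.hstrip_subset_slice (Metric.mem_ball_self G.r₁_pos)

theorem s5ls_real_mem (x : ℝ) : (x : ℂ) ∈ estrip G.Hs := by
  apply G.s5ls_hstrip_sub
  have hs : 0 < G.s := G.r₁_pos.trans G.r₁_lt
  show |(x : ℂ).im| < G.s
  simpa using hs

theorem s5ls_real_mem_half (x : ℝ) : (x : ℂ) ∈ hstrip (G.s / 2) := by
  have hs : 0 < G.s := G.r₁_pos.trans G.r₁_lt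
  show |(x : ℂ).im| < G.s / 2
  simpa using hs

end Glance

theorem s5ls_isOpen_hstrip (a : ℝ) : IsOpen (hstrip a) :=
  isOpen_lt (continuous_abs.comp Complex.continuous_im) continuous_const

namespace Curve

variable {G : Glance} {S : Sec4 G} (C : Curve S)

/-- Corollary 4.9 for the normal form of the curve. -/
theorem nat_bdry (s₀ : ℂ) (h : ENNReal.ofReal |s₀.im| = G.Hs) :
    ¬ ∃ (ε : ℝ) (P : ℂ → ℂ × ℂ), 0 < ε ∧ MeromorphicOn (fun s => (P s).1) (Metric.ball s₀ ε) ∧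
      MeromorphicOn (fun s => (P s).2) (Metric.ball s₀ ε) ∧
      ∀ s ∈ Metric.ball s₀ ε ∩ estrip G.Hs, P =ᶠ[𝓝[≠] s] C.Γ := by
  rintro ⟨ε, P, hε, h1, h2, h3⟩
  exact S.nat_bdry s₀ h ⟨ε, P, hε, h1, h2, fun s hs => (h3 s hs).trans (C.Γ_eq s hs.2)⟩

theorem s5ls_φ_analytic : AnalyticOnNhd ℂ C.φ (estrip G.Hs) :=
  C.φ_diff.analyticOnNhd (isOpen_estrip _)

theorem s5ls_f_analytic : AnalyticOnNhd ℂ (deriv C.φ) (estrip G.Hs) :=
  C.s5ls_φ_analytic.deriv

theorem s5ls_φ_hasDerivAt {s : ℂ} (hs : s ∈ estrip G.Hs) : HasDerivAt C.φ (deriv C.φ s) s :=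
  (C.s5ls_φ_analytic s hs).differentiableAt.hasDerivAt

/-- `φ` is real on the real axis. -/
theorem s5ls_φ_real (x : ℝ) : (C.φ x).im = 0 := by
  have h := C.φ_conj x (G.s5ls_real_mem x)
  rw [Complex.conj_ofReal] at h
  exact Complex.conj_eq_iff_im.1 h.symm

/-- on the real axis `f = φ'` is real and positive. -/
theorem f_real_pos (x : ℝ) : 0 < (deriv C.φ x).re ∧ (deriv C.φ x).im = 0 := by
  constructor
  · have h1 : C.φ =ᶠ[𝓝 (x : ℂ)] fun y => G.Θ y 0 := by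
      filter_upwards [(s5ls_isOpen_hstrip (G.s / 2)).mem_nhds (G.s5ls_real_mem_half x)] with y hy
      exact C.φ_base y hy
    rw [h1.deriv_eq]
    exact G.φ'_pos x
  · have h1 : HasDerivAt (fun y : ℝ => C.φ y) (deriv C.φ x) x :=
      (C.s5ls_φ_hasDerivAt (G.s5ls_real_mem x)).comp_ofReal
    have h2 : HasDerivAt (fun y : ℝ => Complex.imCLM (C.φ y)) (Complex.imCLM (deriv C.φ x)) x :=
      Complex.imCLM.hasFDerivAt.comp_hasDerivAt x h1
    have h3 : (fun y : ℝ => Complex.imCLM (C.φ y)) = fun _ => (0 : ℝ) := by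
      funext y
      exact C.s5ls_φ_real y
    rw [h3] at h2
    exact h2.unique (hasDerivAt_const x (0 : ℝ))

theorem s5ls_f_real_ne (x : ℝ) : deriv C.φ x ≠ 0 := by
  intro h
  have := (C.f_real_pos x).1
  rw [h] at this
  simp at this

/-- the zeros of `f` are isolated. -/
theorem f_eventually_ne {s : ℂ} (hs : s ∈ estrip G.Hs) : ∀ᶠ s' in 𝓝[≠] s, deriv C.φ s' ≠ 0 := by
  rcases (C.s5ls_f_analytic s hs).eventually_eq_zero_or_eventually_ne_zero with h | h
  · exfalso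
    have h0 := C.s5ls_f_analytic.eqOn_zero_of_preconnected_of_eventuallyEq_zero
      (convex_estrip G.Hs).isPreconnected hs h
    exact C.s5ls_f_real_ne 0 (h0 (G.s5ls_real_mem 0))
  · exact h

theorem s5ls_mero_comp {ω b s : ℂ} (h2 : ω * s + b ∈ estrip G.Hs) :
    MeromorphicAt (fun s' => (C.Γ (ω * s' + b)).1) s ∧
      MeromorphicAt (fun s' => (C.Γ (ω * s' + b)).2) s := by
  have ha : AnalyticAt ℂ (fun s' : ℂ => ω * s' + b) s := by fun_prop
  exact ⟨MeromorphicAt.comp_analyticAt (f := fun u => (C.Γ u).1) (g := fun s' : ℂ => ω * s' + b)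
      (C.Γ_mero.1 _ h2) ha,
    MeromorphicAt.comp_analyticAt (f := fun u => (C.Γ u).2) (g := fun s' : ℂ => ω * s' + b)
      (C.Γ_mero.2 _ h2) ha⟩

theorem sym_extend {ω b s₀ : ℂ} (hω : ω ≠ 0) (h1 : s₀ ∈ estrip G.Hs) (h2 : ω * s₀ + b ∈ estrip G.Hs)
    (h : ∀ᶠ s in 𝓝[≠] s₀, C.Γ (ω * s + b) = C.Γ s) :
    ∀ s ∈ estrip G.Hs, ω * s + b ∈ estrip G.Hs → ∀ᶠ s' in 𝓝[≠] s, C.Γ (ω * s' + b) = C.Γ s' := by
  intro s hs hs2
  set O : Set ℂ := estrip G.Hs ∩ (fun s' : ℂ => ω * s' + b) ⁻¹' estrip G.Hs with hO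
  have hcont : Continuous fun s' : ℂ => ω * s' + b := by fun_prop
  have hOo : IsOpen O := (isOpen_estrip _).inter ((isOpen_estrip _).preimage hcont)
  have hOc : Convex ℝ O := by
    refine (convex_estrip _).inter ?_
    intro x hx y hy a c ha hc hac
    have hx' : ω * x + b ∈ estrip G.Hs := hx
    have hy' : ω * y + b ∈ estrip G.Hs := hy
    have := convex_estrip G.Hs hx' hy' ha hc hac
    have e : ω * (a • x + c • y) + b = a • (ω * x + b) + c • (ω * y + b) := by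
      have hc' : (c : ℂ) = 1 - a := by
        have : c = 1 - a := by linarith
        rw [this]; push_cast; ring
      simp only [Complex.real_smul, hc']
      ring
    show ω * (a • x + c • y) + b ∈ estrip G.Hs
    rw [e]
    exact this
  have m1 : MeromorphicOn (fun s' => (C.Γ (ω * s' + b)).1) O := fun z hz => (C.s5ls_mero_comp hz.2).1
  have m2 : MeromorphicOn (fun s' => (C.Γ (ω * s' + b)).2) O := fun z hz => (C.s5ls_mero_comp hz.2).2
  have n1 : MeromorphicOn (fun s' => (C.Γ s').1) O := fun z hz => C.Γ_mero.1 z hz.1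
  have n2 : MeromorphicOn (fun s' => (C.Γ s').2) O := fun z hz => C.Γ_mero.2 z hz.1
  have e1 := mero_identity m1 n1 hOo hOc.isPreconnected (z₀ := s₀) ⟨h1, h2⟩
    (h.mono fun z hz => by simp only [hz]) s ⟨hs, hs2⟩
  have e2 := mero_identity m2 n2 hOo hOc.isPreconnected (z₀ := s₀) ⟨h1, h2⟩
    (h.mono fun z hz => by simp only [hz]) s ⟨hs, hs2⟩
  filter_upwards [e1, e2] with z hz1 hz2
  exact Prod.ext hz1 hz2
/-! ### the finite case -/

theorem s5ls_mem_iff (hH : G.Hs ≠ ⊤) {s : ℂ} : s ∈ estrip G.Hs ↔ |s.im| < G.Hs.toReal :=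
  ENNReal.ofReal_lt_iff_lt_toReal (abs_nonneg _) hH

/-- a symmetry cannot map an edge point into the strip. -/
theorem s5ls_edge (hH : G.Hs ≠ ⊤) {ω b s₀ : ℂ} (hω : ω ≠ 0) (h1 : s₀ ∈ estrip G.Hs)
    (h2 : ω * s₀ + b ∈ estrip G.Hs) (h : ∀ᶠ s in 𝓝[≠] s₀, C.Γ (ω * s + b) = C.Γ s)
    {s₁ : ℂ} (he : |s₁.im| = G.Hs.toReal) (hs₁ : ω * s₁ + b ∈ estrip G.Hs) : False := by
  have hcont : Continuous fun s' : ℂ => ω * s' + b := by fun_prop
  have hop : IsOpen ((fun s' : ℂ => ω * s' + b) ⁻¹' estrip G.Hs) := (isOpen_estrip _).preimage hcont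
  obtain ⟨ε, hε, hball⟩ := Metric.isOpen_iff.1 hop s₁ hs₁
  refine C.nat_bdry s₁ (by rw [he, ENNReal.ofReal_toReal hH])
    ⟨ε, fun s => C.Γ (ω * s + b), hε, fun z hz => (C.s5ls_mero_comp (hball hz)).1,
      fun z hz => (C.s5ls_mero_comp (hball hz)).2, fun s hs => ?_⟩
  exact C.sym_extend hω h1 h2 h s hs.2 (hball hs.1)

theorem s5ls_real_edge {e β y₀ H : ℝ} (he : e = 1 ∨ e = -1) (hβ : β ≠ 0) (h1 : |y₀| < H)
    (h2 : |e * y₀ + β| < H) : ∃ y : ℝ, |y| = H ∧ |e * y + β| < H := by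
  have hH : 0 < H := lt_of_le_of_lt (abs_nonneg _) h1
  rw [abs_lt] at h1 h2
  rcases he with rfl | rfl
  · rcases lt_or_gt_of_ne hβ with hb | hb
    · exact ⟨H, abs_of_pos hH, by rw [abs_lt]; constructor <;> linarith⟩
    · exact ⟨-H, by rw [abs_neg, abs_of_pos hH], by rw [abs_lt]; constructor <;> linarith⟩
  · rcases lt_or_gt_of_ne hβ with hb | hb
    · exact ⟨-H, by rw [abs_neg, abs_of_pos hH], by rw [abs_lt]; constructor <;> linarith⟩
    · exact ⟨H, abs_of_pos hH, by rw [abs_lt]; constructor <;> linarith⟩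

theorem s5ls_root_real {ω : ℂ} (hω : ω ^ 6 = 1) (hi : ω.im = 0) : ω = 1 ∨ ω = -1 := by
  have hωr : ω = (ω.re : ℂ) := Complex.ext rfl (by simp [hi])
  have h6 : ω.re ^ 6 = 1 := by
    rw [hωr] at hω
    exact_mod_cast hω
  rcases pow_eq_one_iff_cases.1 h6 with h | h | h
  · omega
  · left; rw [hωr, h]; simp
  · right; rw [hωr, h.1]; simp

theorem s5ls_root_ne {ω : ℂ} (hω : ω ^ 6 = 1) : ω ≠ 0 := by
  rintro rfl
  simp at hω

theorem sym_finite (hH : G.Hs ≠ ⊤) {ω b s₀ : ℂ} (hω : ω ^ 6 = 1) (h1 : s₀ ∈ estrip G.Hs)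
    (h2 : ω * s₀ + b ∈ estrip G.Hs) (h : ∀ᶠ s in 𝓝[≠] s₀, C.Γ (ω * s + b) = C.Γ s) :
    (ω = 1 ∨ ω = -1) ∧ b.im = 0 := by
  have hω0 := s5ls_root_ne hω
  have h1' := (s5ls_mem_iff hH).1 h1
  have h2' := (s5ls_mem_iff hH).1 h2
  have hHpos : 0 < G.Hs.toReal := lt_of_le_of_lt (abs_nonneg _) h1'
  by_cases hi : ω.im = 0
  · have hpm := s5ls_root_real hω hi
    refine ⟨hpm, ?_⟩
    by_contra hb
    have hre : ω.re = 1 ∨ ω.re = -1 := by
      rcases hpm with rfl | rfl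
      · left; simp
      · right; simp
    have him : ∀ s : ℂ, (ω * s + b).im = ω.re * s.im + b.im := by
      intro s
      simp [Complex.add_im, Complex.mul_im, hi]
    rw [him] at h2'
    obtain ⟨y, hy1, hy2⟩ := s5ls_real_edge hre hb h1' h2'
    refine C.s5ls_edge hH hω0 h1 h2 h (s₁ := ⟨0, y⟩) hy1 ?_
    rw [s5ls_mem_iff hH, him]
    exact hy2
  · exfalso
    refine C.s5ls_edge hH hω0 h1 h2 h
      (s₁ := ⟨-(ω.re * G.Hs.toReal + b.im) / ω.im, G.Hs.toReal⟩) (abs_of_pos hHpos) ?_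
    rw [s5ls_mem_iff hH]
    have : (ω * (⟨-(ω.re * G.Hs.toReal + b.im) / ω.im, G.Hs.toReal⟩ : ℂ) + b).im = 0 := by
      simp only [Complex.add_im, Complex.mul_im]
      field_simp
      ring
    rw [this]
    simpa using hHpos
/-! ### pointwise consequences of a symmetry -/

/-- at a regular point with regular image a punctured symmetry is a symmetry. -/
theorem s5ls_nhds {ω b s : ℂ} (hs : s ∈ estrip G.Hs) (hs2 : ω * s + b ∈ estrip G.Hs)
    (hf : deriv C.φ s ≠ 0) (hf2 : deriv C.φ (ω * s + b) ≠ 0)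
    (h : ∀ᶠ s' in 𝓝[≠] s, C.Γ (ω * s' + b) = C.Γ s') :
    ∀ᶠ s' in 𝓝 s, C.Γ (ω * s' + b) = C.Γ s' := by
  have c1 : ContinuousAt C.Γ s := (C.Γ_deriv s hs hf).continuousAt
  have c2 : ContinuousAt C.Γ (ω * s + b) := (C.Γ_deriv _ hs2 hf2).continuousAt
  have c3 : ContinuousAt (fun s' : ℂ => C.Γ (ω * s' + b)) s :=
    ContinuousAt.comp (f := fun s' : ℂ => ω * s' + b) (g := C.Γ) c2 (by fun_prop)
  have hpt : C.Γ (ω * s + b) = C.Γ s :=
    tendsto_nhds_unique_of_eventuallyEq (c3.tendsto.mono_left nhdsWithin_le_nhds)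
      (c1.tendsto.mono_left nhdsWithin_le_nhds) h
  rw [eventually_nhdsWithin_iff] at h
  filter_upwards [h] with s' hs'
  by_cases hne : s' = s
  · rw [hne]; exact hpt
  · exact hs' hne

/-- the derivative of a symmetry at a regular point with regular image. -/
theorem s5ls_deriv_eq {ω b s : ℂ} (hs : s ∈ estrip G.Hs) (hs2 : ω * s + b ∈ estrip G.Hs)
    (hf : deriv C.φ s ≠ 0) (hf2 : deriv C.φ (ω * s + b) ≠ 0)
    (h : ∀ᶠ s' in 𝓝[≠] s, C.Γ (ω * s' + b) = C.Γ s') :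
    ω * (G.c / deriv C.φ (ω * s + b) ^ 2 * Complex.sin (C.φ (ω * s + b))) =
        G.c / deriv C.φ s ^ 2 * Complex.sin (C.φ s) ∧
      ω * (G.c / deriv C.φ (ω * s + b) ^ 2 * Complex.cos (C.φ (ω * s + b))) =
        G.c / deriv C.φ s ^ 2 * Complex.cos (C.φ s) := by
  have hn := C.s5ls_nhds hs hs2 hf hf2 h
  have d1 := C.Γ_deriv s hs hf
  have d2 := C.Γ_deriv _ hs2 hf2
  have da : HasDerivAt (fun s' : ℂ => ω * s' + b) ω s := by
    simpa using ((hasDerivAt_id s).const_mul ω).add_const b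
  have d3 := HasDerivAt.scomp s d2 da
  have d4 := d3.congr_of_eventuallyEq (f₁ := C.Γ) (hn.mono fun z hz => hz.symm)
  have e := d4.unique d1
  have e1 := congrArg Prod.fst e
  have e2 := congrArg Prod.snd e
  simp only [Prod.smul_fst, Prod.smul_snd, smul_eq_mul] at e1 e2
  constructor
  · linear_combination -e1
  · linear_combination e2

theorem s5ls_A_ne {s : ℂ} (hf : deriv C.φ s ≠ 0) : (G.c : ℂ) / deriv C.φ s ^ 2 ≠ 0 :=
  div_ne_zero (by exact_mod_cast G.c_pos.ne') (pow_ne_zero 2 hf)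

theorem sym_refl {b : ℝ} {s₀ : ℂ} (h1 : s₀ ∈ estrip G.Hs)
    (h : ∀ᶠ s in 𝓝[≠] s₀, C.Γ (-1 * s + b) = C.Γ s) : False := by
  have h2 : -1 * s₀ + (b : ℂ) ∈ estrip G.Hs := by
    have : (-1 * s₀ + (b : ℂ)).im = -s₀.im := by simp
    show ENNReal.ofReal |(-1 * s₀ + (b : ℂ)).im| < G.Hs
    rw [this, abs_neg]
    exact h1
  have hm : (((b / 2 : ℝ) : ℂ)) ∈ estrip G.Hs := G.s5ls_real_mem _
  have e : -1 * (((b / 2 : ℝ) : ℂ)) + (b : ℂ) = ((b / 2 : ℝ) : ℂ) := by
    push_cast; ring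
  have hext := C.sym_extend (by norm_num) h1 h2 h _ hm (by rw [e]; exact hm)
  have hf := C.s5ls_f_real_ne (b / 2)
  obtain ⟨e1, e2⟩ := C.s5ls_deriv_eq hm (by rw [e]; exact hm) hf (by rw [e]; exact hf) hext
  rw [e] at e1 e2
  have hA := C.s5ls_A_ne hf
  have z1 : Complex.sin (C.φ ((b / 2 : ℝ) : ℂ)) = 0 := by
    have : (G.c : ℂ) / deriv C.φ ((b / 2 : ℝ) : ℂ) ^ 2 * Complex.sin (C.φ ((b / 2 : ℝ) : ℂ)) = 0 := by
      linear_combination (-1 / 2 : ℂ) * e1
    exact (mul_eq_zero.1 this).resolve_left hA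
  have z2 : Complex.cos (C.φ ((b / 2 : ℝ) : ℂ)) = 0 := by
    have : (G.c : ℂ) / deriv C.φ ((b / 2 : ℝ) : ℂ) ^ 2 * Complex.cos (C.φ ((b / 2 : ℝ) : ℂ)) = 0 := by
      linear_combination (-1 / 2 : ℂ) * e2
    exact (mul_eq_zero.1 this).resolve_left hA
  have := Complex.sin_sq_add_cos_sq (C.φ ((b / 2 : ℝ) : ℂ))
  rw [z1, z2] at this
  norm_num at this
/-! ### real translations -/

theorem s5ls_φ_per_int {s : ℂ} (hs : s ∈ estrip G.Hs) (k : ℤ) :
    C.φ (s + 2 * π * k) = C.φ s + 2 * π * k := by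
  have hmem : ∀ j : ℤ, s + 2 * π * j ∈ estrip G.Hs := by
    intro j
    have := estrip_add_real hs (2 * π * j)
    push_cast at this
    exact this
  induction k using Int.induction_on with
  | zero => simp
  | succ n ih =>
    have := C.φ_per _ (hmem n)
    have e : s + 2 * π * ((n : ℤ) + 1 : ℤ) = s + 2 * π * (n : ℤ) + 2 * π := by push_cast; ring
    rw [e, this, ih]
    push_cast; ring
  | pred n ih =>
    have := C.φ_per _ (hmem (-(n : ℤ) - 1))
    have e : s + 2 * π * ((-(n : ℤ) - 1 : ℤ) : ℂ) + 2 * π = s + 2 * π * ((-(n : ℤ) : ℤ) : ℂ) := by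
      push_cast; ring
    rw [e, ih] at this
    have e2 : C.φ (s + 2 * π * ((-(n : ℤ) - 1 : ℤ) : ℂ)) = C.φ s + 2 * π * ((-(n : ℤ) : ℤ) : ℂ) - 2 * π := by
      rw [this]; ring
    rw [e2]
    push_cast; ring

theorem s5ls_φ_strictMono : StrictMono fun x : ℝ => (C.φ x).re := by
  apply strictMono_of_deriv_pos
  intro x
  have h1 : HasDerivAt (fun y : ℝ => C.φ y) (deriv C.φ x) x :=
    (C.s5ls_φ_hasDerivAt (G.s5ls_real_mem x)).comp_ofReal
  have h2 : HasDerivAt (fun y : ℝ => Complex.reCLM (C.φ y)) (Complex.reCLM (deriv C.φ x)) x :=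
    Complex.reCLM.hasFDerivAt.comp_hasDerivAt x h1
  have h3 : deriv (fun y : ℝ => (C.φ y).re) x = (deriv C.φ x).re := h2.deriv
  rw [h3]
  exact (C.f_real_pos x).1

theorem s5ls_φ_ofReal (x : ℝ) : C.φ x = (((C.φ x).re : ℝ) : ℂ) :=
  Complex.ext rfl (by simp [C.s5ls_φ_real x])

theorem s5ls_f_ofReal (x : ℝ) : deriv C.φ x = (((deriv C.φ x).re : ℝ) : ℂ) :=
  Complex.ext rfl (by simp [(C.f_real_pos x).2])

theorem sym_trans {b : ℝ} {s₀ : ℂ} (h1 : s₀ ∈ estrip G.Hs)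
    (h : ∀ᶠ s in 𝓝[≠] s₀, C.Γ (1 * s + b) = C.Γ s) : ∃ k : ℤ, b = 2 * π * k := by
  have h2 : 1 * s₀ + (b : ℂ) ∈ estrip G.Hs := by
    rw [one_mul]; exact estrip_add_real h1 b
  have hm : (((0 : ℝ) : ℂ)) ∈ estrip G.Hs := G.s5ls_real_mem _
  have e : 1 * (((0 : ℝ) : ℂ)) + (b : ℂ) = (b : ℂ) := by
    push_cast; ring
  have hmb : (b : ℂ) ∈ estrip G.Hs := G.s5ls_real_mem _
  have hext := C.sym_extend one_ne_zero h1 h2 h _ hm (by rw [e]; exact hmb)
  obtain ⟨e1, e2⟩ := C.s5ls_deriv_eq hm (by rw [e]; exact hmb) (C.s5ls_f_real_ne 0)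
    (by rw [e]; exact C.s5ls_f_real_ne b) hext
  rw [e, one_mul, C.s5ls_φ_ofReal b, C.s5ls_φ_ofReal 0, C.s5ls_f_ofReal b, C.s5ls_f_ofReal 0] at e1 e2
  set pb := (C.φ b).re with hpb
  set p0 := (C.φ ((0 : ℝ) : ℂ)).re with hp0
  set fb := (deriv C.φ b).re with hfb
  set f0 := (deriv C.φ ((0 : ℝ) : ℂ)).re with hf0
  have hfbpos : 0 < fb := (C.f_real_pos b).1
  have hf0pos : 0 < f0 := (C.f_real_pos 0).1
  have r1 : G.c / fb ^ 2 * Real.sin pb = G.c / f0 ^ 2 * Real.sin p0 := by exact_mod_cast e1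
  have r2 : G.c / fb ^ 2 * Real.cos pb = G.c / f0 ^ 2 * Real.cos p0 := by exact_mod_cast e2
  have hA : 0 < G.c / fb ^ 2 := div_pos G.c_pos (pow_pos hfbpos 2)
  have hB : 0 < G.c / f0 ^ 2 := div_pos G.c_pos (pow_pos hf0pos 2)
  have hAB : G.c / fb ^ 2 = G.c / f0 ^ 2 := by
    have hsq : (G.c / fb ^ 2) ^ 2 = (G.c / f0 ^ 2) ^ 2 := by
      have s1 := Real.sin_sq_add_cos_sq pb
      have s0 := Real.sin_sq_add_cos_sq p0
      calc (G.c / fb ^ 2) ^ 2 = (G.c / fb ^ 2 * Real.sin pb) ^ 2 + (G.c / fb ^ 2 * Real.cos pb) ^ 2 := by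
            rw [mul_pow, mul_pow, ← mul_add, s1, mul_one]
        _ = (G.c / f0 ^ 2 * Real.sin p0) ^ 2 + (G.c / f0 ^ 2 * Real.cos p0) ^ 2 := by rw [r1, r2]
        _ = (G.c / f0 ^ 2) ^ 2 := by rw [mul_pow, mul_pow, ← mul_add, s0, mul_one]
    exact (pow_left_inj₀ hA.le hB.le (by norm_num)).1 hsq
  rw [hAB] at r1 r2
  have hs : Real.sin pb = Real.sin p0 := mul_left_cancel₀ hB.ne' r1
  have hc : Real.cos pb = Real.cos p0 := mul_left_cancel₀ hB.ne' r2
  obtain ⟨k, hk⟩ := Real.Angle.angle_eq_iff_two_pi_dvd_sub.1 (Real.Angle.cos_sin_inj hc hs)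
  refine ⟨k, ?_⟩
  have hper := C.s5ls_φ_per_int hm k
  have hre : (C.φ (((2 * π * k : ℝ)) : ℂ)).re = p0 + 2 * π * k := by
    have e3 : (((2 * π * k : ℝ)) : ℂ) = ((0 : ℝ) : ℂ) + 2 * π * k := by push_cast; ring
    rw [e3, hper]
    simp [hp0]
  apply C.s5ls_φ_strictMono.injective
  show (C.φ b).re = (C.φ (((2 * π * k : ℝ)) : ℂ)).re
  rw [hre, ← hpb]
  linarith
/-! ### the infinite case -/

theorem s5ls_univ (hH : G.Hs = ⊤) (s : ℂ) : s ∈ estrip G.Hs := by
  show ENNReal.ofReal |s.im| < G.Hs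
  rw [hH]
  exact ENNReal.ofReal_lt_top

/-- `exp (2 i φ)` is invariant under a symmetry (at regular points with regular image). -/
theorem s5ls_E_eq {ω b s : ℂ} (hω : ω ≠ 0) (hs : s ∈ estrip G.Hs) (hs2 : ω * s + b ∈ estrip G.Hs)
    (hf : deriv C.φ s ≠ 0) (hf2 : deriv C.φ (ω * s + b) ≠ 0)
    (h : ∀ᶠ s' in 𝓝[≠] s, C.Γ (ω * s' + b) = C.Γ s') :
    Complex.exp (2 * I * C.φ (ω * s + b)) = Complex.exp (2 * I * C.φ s) := by
  obtain ⟨e1, e2⟩ := C.s5ls_deriv_eq hs hs2 hf hf2 h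
  have hA1 := C.s5ls_A_ne hf2
  have hA0 := C.s5ls_A_ne hf
  set A1 := (G.c : ℂ) / deriv C.φ (ω * s + b) ^ 2
  set A0 := (G.c : ℂ) / deriv C.φ s ^ 2
  set φ1 := C.φ (ω * s + b)
  set φ0 := C.φ s
  have hp : ∀ z : ℂ, Complex.exp (I * z) = Complex.cos z + I * Complex.sin z := by
    intro z
    rw [mul_comm I z, Complex.exp_mul_I]; ring
  have hm : ∀ z : ℂ, Complex.exp (-(I * z)) = Complex.cos z - I * Complex.sin z := by
    intro z
    have : -(I * z) = (-z) * I := by ring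
    rw [this, Complex.exp_mul_I, Complex.cos_neg, Complex.sin_neg]; ring
  have hpm : ∀ z : ℂ, Complex.exp (I * z) * Complex.exp (-(I * z)) = 1 := by
    intro z
    rw [← Complex.exp_add]; simp
  have q1 : ω * A1 * Complex.exp (I * φ1) = A0 * Complex.exp (I * φ0) := by
    rw [hp, hp]; linear_combination e2 + I * e1
  have q2 : ω * A1 * Complex.exp (-(I * φ1)) = A0 * Complex.exp (-(I * φ0)) := by
    rw [hm, hm]; linear_combination e2 - I * e1
  have q3 : ω * A1 * Complex.exp (I * φ0) = A0 * Complex.exp (I * φ1) := by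
    linear_combination (Complex.exp (I * φ1) * Complex.exp (I * φ0)) * q2
      - ω * A1 * Complex.exp (I * φ0) * (hpm φ1) + A0 * Complex.exp (I * φ1) * (hpm φ0)
  have hsq : ∀ z : ℂ, Complex.exp (2 * I * z) = Complex.exp (I * z) ^ 2 := by
    intro z
    rw [sq, ← Complex.exp_add]; congr 1; ring
  rw [hsq, hsq]
  have hne : ω * A1 * A0 ≠ 0 := mul_ne_zero (mul_ne_zero hω hA1) hA0
  apply mul_left_cancel₀ hne
  linear_combination (A0 * Complex.exp (I * φ1)) * q1 - (A0 * Complex.exp (I * φ0)) * q3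

/-- an entire function with the periods `2π` and `τ ∉ ℝ` is constant. -/
theorem s5ls_doubly_periodic {E : ℂ → ℂ} (hE : Differentiable ℂ E) {τ : ℂ} (hτ : τ.im ≠ 0)
    (h1 : Function.Periodic E (2 * π)) (h2 : Function.Periodic E τ) (z w : ℂ) : E z = E w := by
  apply hE.apply_eq_apply_of_bounded
  have hcont : Continuous fun p : ℝ × ℝ => E ((p.1 : ℂ) * (2 * π) + (p.2 : ℂ) * τ) :=
    hE.continuous.comp (by fun_prop)
  have hK : IsCompact ((fun p : ℝ × ℝ => E ((p.1 : ℂ) * (2 * π) + (p.2 : ℂ) * τ)) ''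
      (Set.Icc (0 : ℝ) 1 ×ˢ Set.Icc (0 : ℝ) 1)) :=
    (isCompact_Icc.prod isCompact_Icc).image hcont
  refine hK.isBounded.subset ?_
  rintro _ ⟨s, rfl⟩
  set y : ℝ := s.im / τ.im with hy
  set x : ℝ := (s.re - y * τ.re) / (2 * π) with hx
  have hs : s = (x : ℂ) * (2 * π) + (y : ℂ) * τ := by
    apply Complex.ext
    · simp only [Complex.add_re, Complex.mul_re, Complex.ofReal_re, Complex.ofReal_im, zero_mul,
        sub_zero, Complex.re_ofNat, Complex.im_ofNat, mul_zero]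
      rw [hx]
      field_simp
      ring
    · simp only [Complex.add_im, Complex.mul_im, Complex.ofReal_re, Complex.ofReal_im, zero_mul,
        add_zero, Complex.re_ofNat, Complex.im_ofNat, mul_zero]
      rw [hy]
      field_simp
      simp
  refine ⟨(Int.fract x, Int.fract y), ⟨⟨Int.fract_nonneg x, (Int.fract_lt_one x).le⟩,
    ⟨Int.fract_nonneg y, (Int.fract_lt_one y).le⟩⟩, ?_⟩
  have e : ((Int.fract x : ℝ) : ℂ) * (2 * π) + ((Int.fract y : ℝ) : ℂ) * τ =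
      s - ⌊x⌋ • (2 * π : ℂ) - ⌊y⌋ • τ := by
    rw [← Int.self_sub_floor, ← Int.self_sub_floor]
    conv_rhs => rw [hs]
    push_cast
    simp only [zsmul_eq_mul]
    ring
  show E (((Int.fract x : ℝ) : ℂ) * (2 * π) + ((Int.fract y : ℝ) : ℂ) * τ) = E s
  rw [e, h2.sub_zsmul_eq, h1.sub_zsmul_eq]

/-- for `H = ∞` the curve has no nonreal period. -/
theorem no_period (hH : G.Hs = ⊤) {τ s₀ : ℂ} (hτ : τ.im ≠ 0)
    (h : ∀ᶠ s in 𝓝[≠] s₀, C.Γ (s + τ) = C.Γ s) : False := by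
  have hD := s5ls_univ hH
  have h' : ∀ᶠ s in 𝓝[≠] s₀, C.Γ (1 * s + τ) = C.Γ s := by simpa using h
  have hext := C.sym_extend one_ne_zero (hD _) (hD _) h'
  have hφ : Differentiable ℂ C.φ := fun s => (C.s5ls_φ_hasDerivAt (hD s)).differentiableAt
  set E : ℂ → ℂ := fun s => Complex.exp (2 * I * C.φ s) with hEdef
  have hE : Differentiable ℂ E := by
    intro s
    exact ((hφ s).const_mul (2 * I)).cexp
  have p1 : Function.Periodic E (2 * π) := by
    intro s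
    show Complex.exp (2 * I * C.φ (s + 2 * π)) = Complex.exp (2 * I * C.φ s)
    rw [C.φ_per s (hD s)]
    have : 2 * I * (C.φ s + 2 * π) = 2 * I * C.φ s + (2 : ℤ) * (2 * π * I) := by push_cast; ring
    rw [this, Complex.exp_add, Complex.exp_int_mul_two_pi_mul_I, mul_one]
  have p2 : Function.Periodic E τ := by
    intro s
    have ev1 : ∀ᶠ s' in 𝓝[≠] s, deriv C.φ s' ≠ 0 := C.f_eventually_ne (hD s)
    have ev2 : ∀ᶠ s' in 𝓝[≠] s, deriv C.φ (1 * s' + τ) ≠ 0 :=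
      (s5ls_affine_tendsto one_ne_zero τ s).eventually (C.f_eventually_ne (hD _))
    have ev : ∀ᶠ s' in 𝓝[≠] s, E (s' + τ) = E s' := by
      filter_upwards [ev1, ev2] with s' a1 a2
      have := C.s5ls_E_eq one_ne_zero (hD s') (hD _) a1 a2 (hext s' (hD _) (hD _))
      rw [one_mul] at this
      exact this
    have c1 : ContinuousAt E s := hE.continuous.continuousAt
    have c2 : ContinuousAt (fun s' => E (s' + τ)) s :=
      (hE.continuous.comp (continuous_id.add continuous_const)).continuousAt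
    exact tendsto_nhds_unique_of_eventuallyEq (c2.tendsto.mono_left nhdsWithin_le_nhds)
      (c1.tendsto.mono_left nhdsWithin_le_nhds) ev
  have hconst : ∀ s, E s = E 0 := fun s => s5ls_doubly_periodic hE hτ p1 p2 s 0
  have d1 : HasDerivAt E (Complex.exp (2 * I * C.φ 0) * (2 * I * deriv C.φ 0)) 0 :=
    ((C.s5ls_φ_hasDerivAt (hD 0)).const_mul (2 * I)).cexp
  have d2 : HasDerivAt E 0 0 := by
    have : E = fun _ => E 0 := funext hconst
    rw [this]
    exact hasDerivAt_const _ _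
  have e := d1.unique d2
  have hf0 : deriv C.φ 0 ≠ 0 := by
    have := C.s5ls_f_real_ne 0
    simpa using this
  exact (mul_ne_zero (Complex.exp_ne_zero _) (mul_ne_zero (mul_ne_zero two_ne_zero I_ne_zero) hf0)) e
theorem s5ls_conj_tendsto (s : ℂ) :
    Tendsto (fun s' : ℂ => conj s') (𝓝[≠] s) (𝓝[≠] (conj s)) := by
  refine tendsto_nhdsWithin_of_tendsto_nhds_of_eventually_within _ ?_ ?_
  · exact (Complex.continuous_conj.tendsto s).mono_left nhdsWithin_le_nhds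
  · filter_upwards [self_mem_nhdsWithin] with s' hs'
    intro h
    apply hs'
    have h' : conj s' = conj s := h
    exact (starRingEnd ℂ).injective h'

theorem sym_infinite (hH : G.Hs = ⊤) {ω b s₀ : ℂ} (hω : ω ^ 6 = 1)
    (h : ∀ᶠ s in 𝓝[≠] s₀, C.Γ (ω * s + b) = C.Γ s) : (ω = 1 ∨ ω = -1) ∧ b.im = 0 := by
  have hD := s5ls_univ hH
  have hω0 := s5ls_root_ne hω
  have hext := C.sym_extend hω0 (hD _) (hD _) h
  have hpt : ∀ s, deriv C.φ s ≠ 0 → deriv C.φ (ω * s + b) ≠ 0 → C.Γ (ω * s + b) = C.Γ s :=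
    fun s a1 a2 => (C.s5ls_nhds (hD s) (hD _) a1 a2 (hext s (hD _) (hD _))).self_of_nhds
  have hev : ∀ (α β u : ℂ), α ≠ 0 → ∀ᶠ u' in 𝓝[≠] u, deriv C.φ (α * u' + β) ≠ 0 :=
    fun α β u hα => (s5ls_affine_tendsto hα β u).eventually (C.f_eventually_ne (hD _))
  by_cases hi : ω.im = 0
  · have hpm := s5ls_root_real hω hi
    refine ⟨hpm, ?_⟩
    by_contra hb
    rcases hpm with rfl | rfl
    · exact C.no_period hH hb (s₀ := s₀) (by simpa using h)
    · -- the period `b - conj b`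
      have hτ : (b - conj b).im ≠ 0 := by
        simp only [Complex.sub_im, Complex.conj_im]
        intro h0
        apply hb
        linarith
      have hevc : ∀ (α β u : ℂ), α ≠ 0 → ∀ᶠ u' in 𝓝[≠] u, deriv C.φ (α * conj u' + β) ≠ 0 :=
        fun α β u hα => (s5ls_conj_tendsto u).eventually (hev α β (conj u) hα)
      refine C.no_period hH hτ (s₀ := 0) ?_
      filter_upwards [hev (-1) (conj b) 0 (by norm_num), hev 1 (b - conj b) 0 one_ne_zero,
        hevc (-1) b 0 (by norm_num), hevc 1 0 0 one_ne_zero, hev 1 0 0 one_ne_zero]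
        with u a1 a2 a3 a4 a5
      rw [one_mul, add_zero] at a4 a5
      rw [one_mul] at a2
      -- `v = conj b - u`
      have s1 : C.Γ (-1 * (-1 * u + conj b) + b) = C.Γ (-1 * u + conj b) :=
        hpt _ a1 (by
          have : -1 * (-1 * u + conj b) + b = u + (b - conj b) := by ring
          rw [this]; exact a2)
      have s2 : C.Γ (-1 * conj u + b) = C.Γ (conj u) := hpt _ a4 a3
      have s3 := C.Γ_conj _ (hD _) a3
      have s4 := C.Γ_conj _ (hD _) a5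
      have e1 : conj (-1 * conj u + b) = -1 * u + conj b := by simp
      have e2 : -1 * (-1 * u + conj b) + b = u + (b - conj b) := by ring
      rw [e1, s2, s4] at s3
      rw [e2, s3] at s1
      rw [s1]
      simp
  · exfalso
    have hτ : (2 * π * ω).im ≠ 0 := by
      have : (2 * π * ω).im = 2 * π * ω.im := by
        simp [Complex.mul_im]
      rw [this]
      exact mul_ne_zero (by positivity) hi
    have hωi : ω⁻¹ ≠ 0 := inv_ne_zero hω0
    refine C.no_period hH hτ (s₀ := 0) ?_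
    filter_upwards [hev ω⁻¹ (-(ω⁻¹ * b)) 0 hωi, hev ω⁻¹ (-(ω⁻¹ * b) + 2 * π) 0 hωi,
      hev 1 0 0 one_ne_zero, hev 1 (2 * π * ω) 0 one_ne_zero] with u a1 a2 a3 a4
    rw [one_mul] at a3 a4
    rw [add_zero] at a3
    set s := ω⁻¹ * u + -(ω⁻¹ * b) with hs
    have e1 : ω * s + b = u := by
      rw [hs]; field_simp; ring
    have e2 : ω * (s + 2 * π) + b = u + 2 * π * ω := by
      rw [mul_add, add_right_comm, e1]; ring
    have e3 : ω⁻¹ * u + (-(ω⁻¹ * b) + 2 * π) = s + 2 * π := by rw [hs]; ring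
    rw [e3] at a2
    have s1 : C.Γ (ω * (s + 2 * π) + b) = C.Γ (s + 2 * π) := hpt _ a2 (by rw [e2]; exact a4)
    have s2 : C.Γ (ω * s + b) = C.Γ s := hpt _ a1 (by rw [e1]; exact a3)
    have s3 := C.Γ_per s (hD s) a1
    rw [e2, s3, ← s2, e1] at s1
    exact s1

/-- **The symmetry lemma.** -/
theorem sym {ω b s₀ : ℂ} (hω : ω ^ 6 = 1) (h1 : s₀ ∈ estrip G.Hs) (h2 : ω * s₀ + b ∈ estrip G.Hs)
    (h : ∀ᶠ s in 𝓝[≠] s₀, C.Γ (ω * s + b) = C.Γ s) : ω = 1 ∧ ∃ k : ℤ, b = 2 * π * k := by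
  have key : (ω = 1 ∨ ω = -1) ∧ b.im = 0 := by
    by_cases hH : G.Hs = ⊤
    · exact C.sym_infinite hH hω h
    · exact C.sym_finite hH hω h1 h2 h
  obtain ⟨hω', hb⟩ := key
  have hbr : b = ((b.re : ℝ) : ℂ) := by
    apply Complex.ext <;> simp [hb]
  rcases hω' with rfl | rfl
  · refine ⟨rfl, ?_⟩
    rw [hbr] at h
    obtain ⟨k, hk⟩ := C.sym_trans h1 h
    refine ⟨k, ?_⟩
    rw [hbr, hk]
    push_cast
    ring
  · exfalso
    rw [hbr] at h
    exact C.sym_refl h1 h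

end Curve

end Claimed.Agent.R269
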