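/-
Row 269, Theorem 5.4, LIFT GERMS on one slice.  Statements: helper264.  Proofs (germ1): helper255.  SORRY-FREE.
PACKAGES: LF-S5d-germ1 = `lift_regular … lift_unique`;  LF-S5d-germ2 = `rsix_analytic … lift_extend_ball` (file LiftGerm2.lean).
Paper: (5.18) and 05-shapes.tex l.470-496.   Notation: `x = K.S.xs t = X(·,t)`, `Γ = K.C.Γ`, `f = deriv K.C.φ`, `D = estrip G.Hs`.

PLAN (germ1).  Let `lam` be a lift germ at a regular point `y` (`y ∈ Good t`: `X` analytic at `(y,t)`, so `x` analytic at `y`; `x'·x' ≠ 0`, `det(x',x'') ≠ 0`).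
* `lam` is not locally constant (else `x` is, against `x'·x' ≠ 0`).  If `f (lam y) = 0` then `‖Γ(lam y')‖ → ∞` as `y' → y` (`Γ_pole`, `lam` open/nonconstant), but `= ‖x y'‖` is bounded.
  So `f (lam y) ≠ 0`, `Γ` is differentiable, hence continuous, at `lam y`; `Γ(lam y) = x y` by continuity.  `x' = Γ'(lam) lam'` and `x'·x' ≠ 0` give `lam' y ≠ 0`.
* `lift_eventually`: all three clauses are open conditions.
* `lift_deriv_six`: near `y`: `x = Γ∘lam`, `Γ' = (c/f²) e_φ`, `Γ'' = c(-2f'/f³ e_φ - (1/f) n_φ)`, so `Γ'·Γ' = c²/f⁴`, `det(Γ',Γ'') = c²/f³`;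
  `x'·x' = (c²/f⁴) lam'²`, `det(x',x'') = (c²/f³) lam'³`; `rsix = lam'⁶`.
* `lift_unique`: `(lam₂'/lam₁')⁶ = 1` near `y`, a continuous function with values in a finite set is locally constant `= ω`; `lam₂ = ω lam₁ + b` near `y`;
  `lam₁` is an open map, so `Γ(ω s + b) = Γ(s)` for `s` near `lam₁ y`; `Curve.sym`.
Helpers (prefix `s5lg_`): `s5lg_affine_of_six` (two analytic germs with `a'⁶ = σ'⁶` differ by `ω · + b`), `Sec4.s5lg_xs_analytic`, `Curve.s5lg_f_per`, `Curve.s5lg_per_int`,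
`s5lg_nhds` (the lift equation on a full neighbourhood), `s5lg_deriv_xs` (chain rule), `s5lg_six_pt`.
-/
import Claimed.Agent.R269.S5.LiftSym

set_option autoImplicit false

namespace Claimed.Agent.R269

open Complex ComplexConjugate Filter Topology MeasureTheory
open scoped ENNReal Real

/-- two analytic germs whose derivatives have the same sixth power differ by an affine map `ω · + b`, `ω⁶ = 1`. -/
theorem s5lg_affine_of_six {a σ : ℂ → ℂ} {y : ℂ} (ha : AnalyticAt ℂ a y) (hσ : AnalyticAt ℂ σ y)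
    (hne : deriv σ y ≠ 0) (h6 : ∀ᶠ y' in 𝓝 y, deriv a y' ^ 6 = deriv σ y' ^ 6) :
    ∃ ω b : ℂ, ω ^ 6 = 1 ∧ ∀ᶠ y' in 𝓝 y, a y' = ω * σ y' + b := by
  have hne' : ∀ᶠ y' in 𝓝 y, deriv σ y' ≠ 0 := hσ.deriv.continuousAt.eventually_ne hne
  obtain ⟨ε, hε, hball⟩ := Metric.eventually_nhds_iff_ball.1
    (ha.eventually_analyticAt.and (hσ.eventually_analyticAt.and (hne'.and h6)))
  set g : ℂ → ℂ := fun y' => deriv a y' / deriv σ y' with hg
  have hg6 : ∀ y' ∈ Metric.ball y ε, g y' ^ 6 = 1 := by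
    intro y' hy'
    obtain ⟨-, -, h3, h4⟩ := hball y' hy'
    rw [hg]
    simp only
    rw [div_pow, h4, div_self (pow_ne_zero 6 h3)]
  have hgd : ∀ y' ∈ Metric.ball y ε, DifferentiableAt ℂ g y' := by
    intro y' hy'
    obtain ⟨h1, h2, h3, -⟩ := hball y' hy'
    exact h1.deriv.differentiableAt.div h2.deriv.differentiableAt h3
  have hg' : Set.EqOn (deriv g) 0 (Metric.ball y ε) := by
    intro y' hy'
    have d1 : HasDerivAt (fun z => g z ^ 6) ((6 : ℕ) * g y' ^ (6 - 1) * deriv g y') y' :=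
      (hgd y' hy').hasDerivAt.fun_pow 6
    have d2 : HasDerivAt (fun z => g z ^ 6) 0 y' := by
      refine (hasDerivAt_const y' (1 : ℂ)).congr_of_eventuallyEq ?_
      filter_upwards [Metric.isOpen_ball.mem_nhds hy'] with z hz
      exact hg6 z hz
    have e := d1.unique d2
    have hgne : g y' ≠ 0 := by
      intro h0
      have := hg6 y' hy'
      rw [h0] at this
      norm_num at this
    have : ((6 : ℕ) : ℂ) * g y' ^ (6 - 1) ≠ 0 := mul_ne_zero (by norm_num) (pow_ne_zero _ hgne)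
    exact (mul_eq_zero.1 e).resolve_left this
  have hyb : y ∈ Metric.ball y ε := Metric.mem_ball_self hε
  have hgc : ∀ y' ∈ Metric.ball y ε, g y' = g y := fun y' hy' =>
    Metric.isOpen_ball.is_const_of_deriv_eq_zero (convex_ball y ε).isPreconnected
      (fun z hz => (hgd z hz).differentiableWithinAt) hg' hy' hyb
  set ω := g y with hω
  set d : ℂ → ℂ := fun y' => a y' - ω * σ y' with hd
  have hdd : ∀ y' ∈ Metric.ball y ε, HasDerivAt d 0 y' := by
    intro y' hy'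
    obtain ⟨h1, h2, h3, -⟩ := hball y' hy'
    have := h1.differentiableAt.hasDerivAt.sub (h2.differentiableAt.hasDerivAt.const_mul ω)
    refine this.congr_deriv ?_
    have e := hgc y' hy'
    rw [hg] at e
    simp only at e
    rw [div_eq_iff h3] at e
    rw [e]; ring
  have hdc : ∀ y' ∈ Metric.ball y ε, d y' = d y := fun y' hy' =>
    Metric.isOpen_ball.is_const_of_deriv_eq_zero (convex_ball y ε).isPreconnected
      (fun z hz => (hdd z hz).differentiableAt.differentiableWithinAt)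
      (fun z hz => (hdd z hz).deriv) hy' hyb
  refine ⟨ω, d y, hg6 y hyb, ?_⟩
  filter_upwards [Metric.ball_mem_nhds y hε] with y' hy'
  rw [← hdc y' hy', hd]
  ring

namespace Sec4

variable {G : Glance} (S : Sec4 G)

theorem s5lg_xs_analytic {t y : ℂ} (h : AnalyticAt ℂ S.X (y, t)) : AnalyticAt ℂ (S.xs t) y := by
  have h1 : AnalyticAt ℂ (fun y' : ℂ => (y', t)) y := analyticAt_id.prod analyticAt_const
  exact AnalyticAt.comp (g := S.X) (f := fun y' : ℂ => (y', t)) h h1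

end Sec4

namespace Curve

variable {G : Glance} {S : Sec4 G} (C : Curve S)

theorem s5lg_f_per {s : ℂ} (hs : s ∈ estrip G.Hs) : deriv C.φ (s + 2 * π) = deriv C.φ s := by
  have hs' : s + 2 * π ∈ estrip G.Hs := by
    have := estrip_add_real hs (2 * π)
    push_cast at this
    exact this
  have d1 : HasDerivAt (fun z => C.φ (z + 2 * π)) (deriv C.φ (s + 2 * π)) s :=
    (C.s5ls_φ_hasDerivAt hs').comp_add_const s (2 * π)
  have d2 : HasDerivAt (fun z => C.φ (z + 2 * π)) (deriv C.φ s) s := by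
    have := (C.s5ls_φ_hasDerivAt hs).add_const (2 * π : ℂ)
    refine this.congr_of_eventuallyEq ?_
    filter_upwards [(isOpen_estrip G.Hs).mem_nhds hs] with z hz
    exact C.φ_per z hz
  exact d1.unique d2

theorem s5lg_per_int {s : ℂ} (hs : s ∈ estrip G.Hs) (hf : deriv C.φ s ≠ 0) (k : ℤ) :
    deriv C.φ (s + 2 * π * k) = deriv C.φ s ∧ C.Γ (s + 2 * π * k) = C.Γ s := by
  have hmem : ∀ j : ℤ, s + 2 * π * j ∈ estrip G.Hs := by
    intro j
    have := estrip_add_real hs (2 * π * j)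
    push_cast at this
    exact this
  induction k using Int.induction_on with
  | zero => simp
  | succ n ih =>
    have e : s + 2 * π * ((n : ℤ) + 1 : ℤ) = s + 2 * π * (n : ℤ) + 2 * π := by push_cast; ring
    rw [e, C.s5lg_f_per (hmem n), C.Γ_per _ (hmem n) (by rw [ih.1]; exact hf)]
    exact ih
  | pred n ih =>
    have e : s + 2 * π * ((-(n : ℤ) - 1 : ℤ) : ℂ) + 2 * π = s + 2 * π * ((-(n : ℤ) : ℤ) : ℂ) := by
      push_cast; ring
    have h1 := C.s5lg_f_per (hmem (-(n : ℤ) - 1))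
    rw [e, ih.1] at h1
    have h2 := C.Γ_per _ (hmem (-(n : ℤ) - 1)) (by rw [← h1]; exact hf)
    rw [e, ih.2] at h2
    exact ⟨h1.symm, h2.symm⟩

end Curve
namespace LiftCtx

variable {G : Glance} (K : LiftCtx G)

theorem s5lg_bdot_zero (v : ℂ × ℂ) : bdot (0 : ℂ × ℂ) v = 0 := by simp [bdot]

/-- a lift germ at a regular point is not locally constant. -/
theorem s5lg_lam_ne {t y : ℂ} {lam : ℂ → ℂ} (hy : y ∈ K.S.Good t) (h : K.C.IsLiftAt t lam y) :
    ∀ᶠ y' in 𝓝[≠] y, lam y' ≠ lam y := by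
  obtain ⟨-, hX, hdot, -⟩ := hy
  obtain ⟨hl, -, hev⟩ := h
  have hx := K.S.s5lg_xs_analytic hX
  rcases hl.eventually_eq_or_eventually_ne (analyticAt_const (v := lam y)) with hc | hc
  · exfalso
    -- `x` is constant on a punctured neighbourhood
    have h1 : ∀ᶠ y' in 𝓝[≠] y, K.S.xs t y' = K.C.Γ (lam y) := by
      filter_upwards [hev, hc.filter_mono nhdsWithin_le_nhds] with y' a1 a2
      rw [← a2, a1]; rfl
    have h2 : K.S.xs t y = K.C.Γ (lam y) :=
      tendsto_nhds_unique_of_eventuallyEq (hx.continuousAt.tendsto.mono_left nhdsWithin_le_nhds)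
        tendsto_const_nhds h1
    have h3 : K.S.xs t =ᶠ[𝓝 y] fun _ => K.C.Γ (lam y) := by
      rw [eventually_nhdsWithin_iff] at h1
      filter_upwards [h1] with y' hy'
      by_cases hne : y' = y
      · rw [hne]; exact h2
      · exact hy' hne
    have h4 : deriv (K.S.xs t) y = 0 := by
      rw [h3.deriv_eq]; simp
    rw [h4] at hdot
    exact hdot (s5lg_bdot_zero _)
  · exact hc

theorem s5lg_lam_tendsto {t y : ℂ} {lam : ℂ → ℂ} (hy : y ∈ K.S.Good t) (h : K.C.IsLiftAt t lam y) :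
    Tendsto lam (𝓝[≠] y) (𝓝[≠] (lam y)) :=
  tendsto_nhdsWithin_of_tendsto_nhds_of_eventually_within _
    (h.1.continuousAt.tendsto.mono_left nhdsWithin_le_nhds) (K.s5lg_lam_ne hy h)

theorem s5lg_f_ne {t y : ℂ} {lam : ℂ → ℂ} (hy : y ∈ K.S.Good t) (h : K.C.IsLiftAt t lam y) :
    deriv K.C.φ (lam y) ≠ 0 := by
  intro h0
  have hx := K.S.s5lg_xs_analytic hy.2.1
  have h1 := (K.C.Γ_pole _ h.2.1 h0).comp (K.s5lg_lam_tendsto hy h)
  have h2 : Tendsto (fun y' => ‖K.S.xs t y'‖) (𝓝[≠] y) atTop := by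
    refine h1.congr' ?_
    filter_upwards [h.2.2] with y' a1
    show ‖K.C.Γ (lam y')‖ = ‖K.S.xs t y'‖
    rw [a1]; rfl
  have h3 : Tendsto (fun y' => ‖K.S.xs t y'‖) (𝓝[≠] y) (𝓝 ‖K.S.xs t y‖) :=
    (hx.continuousAt.norm.tendsto).mono_left nhdsWithin_le_nhds
  exact not_tendsto_atTop_of_tendsto_nhds h3 h2

/-- the lift equation holds on a full neighbourhood. -/
theorem s5lg_nhds {t y : ℂ} {lam : ℂ → ℂ} (hy : y ∈ K.S.Good t) (h : K.C.IsLiftAt t lam y) :
    ∀ᶠ y' in 𝓝 y, K.C.Γ (lam y') = K.S.X (y', t) := by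
  have hx := K.S.s5lg_xs_analytic hy.2.1
  have hf := K.s5lg_f_ne hy h
  have c2 : ContinuousAt K.C.Γ (lam y) := (K.C.Γ_deriv _ h.2.1 hf).continuousAt
  have c3 : ContinuousAt (fun y' => K.C.Γ (lam y')) y :=
    ContinuousAt.comp (f := lam) (g := K.C.Γ) c2 h.1.continuousAt
  have hpt : K.C.Γ (lam y) = K.S.xs t y :=
    tendsto_nhds_unique_of_eventuallyEq (c3.tendsto.mono_left nhdsWithin_le_nhds)
      (hx.continuousAt.tendsto.mono_left nhdsWithin_le_nhds) h.2.2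
  have h' := h.2.2
  rw [eventually_nhdsWithin_iff] at h'
  filter_upwards [h'] with y' hy'
  by_cases hne : y' = y
  · rw [hne]; exact hpt
  · exact hy' hne

/-- the chain rule for a lift germ. -/
theorem s5lg_deriv_xs {t y : ℂ} {lam : ℂ → ℂ} (hy : y ∈ K.S.Good t) (h : K.C.IsLiftAt t lam y) :
    deriv (K.S.xs t) y = deriv lam y •
      ((G.c / deriv K.C.φ (lam y) ^ 2 : ℂ) • (-Complex.sin (K.C.φ (lam y)), Complex.cos (K.C.φ (lam y)))) := by
  have hf := K.s5lg_f_ne hy h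
  have d := HasDerivAt.scomp y (K.C.Γ_deriv _ h.2.1 hf) h.1.differentiableAt.hasDerivAt
  have e : K.S.xs t =ᶠ[𝓝 y] K.C.Γ ∘ lam := (K.s5lg_nhds hy h).mono fun z hz => hz.symm
  rw [e.deriv_eq, d.deriv]

theorem lift_regular {t y : ℂ} {lam : ℂ → ℂ} (hy : y ∈ K.S.Good t) (h : K.C.IsLiftAt t lam y) :
    deriv K.C.φ (lam y) ≠ 0 ∧ deriv lam y ≠ 0 ∧ K.C.Γ (lam y) = K.S.X (y, t) := by
  refine ⟨K.s5lg_f_ne hy h, ?_, (K.s5lg_nhds hy h).self_of_nhds⟩
  intro h0
  have e := K.s5lg_deriv_xs hy h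
  rw [h0, zero_smul] at e
  have := hy.2.2.1
  rw [e] at this
  exact this (s5lg_bdot_zero _)

/-- `Good t` is open (also used in LiftSlice). -/
theorem good_isOpen (t : ℂ) : IsOpen (K.S.Good t) := by
  rw [isOpen_iff_mem_nhds]
  rintro y ⟨h1, h2, h3, h4⟩
  have hx := K.S.s5lg_xs_analytic h2
  have e1 : ∀ᶠ y' in 𝓝 y, y' ∈ G.slice t := (G.isOpen_slice t).mem_nhds h1
  have hc : ContinuousAt (fun y' : ℂ => (y', t)) y := by fun_prop
  have e2 : ∀ᶠ y' in 𝓝 y, AnalyticAt ℂ K.S.X (y', t) := hc.eventually h2.eventually_analyticAt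
  have c1 : ContinuousAt (deriv (K.S.xs t)) y := hx.deriv.continuousAt
  have c2 : ContinuousAt (deriv (deriv (K.S.xs t))) y := hx.deriv.deriv.continuousAt
  have c3 : ContinuousAt (fun y' => bdot (deriv (K.S.xs t) y') (deriv (K.S.xs t) y')) y := by
    unfold bdot
    exact (c1.fst.mul c1.fst).add (c1.snd.mul c1.snd)
  have c4 : ContinuousAt (fun y' => bdet (deriv (K.S.xs t) y') (deriv (deriv (K.S.xs t)) y')) y := by
    unfold bdet
    exact (c1.fst.mul c2.snd).sub (c1.snd.mul c2.fst)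
  filter_upwards [e1, e2, c3.eventually_ne h3, c4.eventually_ne h4] with y' a1 a2 a3 a4
  exact ⟨a1, a2, a3, a4⟩

theorem lift_eventually {t y : ℂ} {lam : ℂ → ℂ} (hy : y ∈ K.S.Good t) (h : K.C.IsLiftAt t lam y) :
    ∀ᶠ y' in 𝓝 y, K.C.IsLiftAt t lam y' := by
  have e1 := h.1.eventually_analyticAt
  have e2 : ∀ᶠ y' in 𝓝 y, lam y' ∈ estrip G.Hs :=
    h.1.continuousAt.eventually ((isOpen_estrip _).mem_nhds h.2.1)
  have e3 := (K.s5lg_nhds hy h).eventually_nhds
  filter_upwards [e1, e2, e3] with y' a1 a2 a3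
  exact ⟨a1, a2, a3.filter_mono nhdsWithin_le_nhds⟩
/-- (5.18), pointwise. -/
theorem s5lg_six_pt {t y : ℂ} {lam : ℂ → ℂ} (hy : y ∈ K.S.Good t) (h : K.C.IsLiftAt t lam y) :
    deriv lam y ^ 6 = K.S.rsix t y := by
  obtain ⟨hF, hl, -⟩ := K.lift_regular hy h
  set m : ℂ → ℂ := fun y' => deriv lam y' * (G.c / deriv K.C.φ (lam y') ^ 2) with hm
  set ψ : ℂ → ℂ := fun y' => K.C.φ (lam y') with hψ
  have hev : ∀ᶠ y' in 𝓝 y, y' ∈ K.S.Good t ∧ K.C.IsLiftAt t lam y' :=
    Filter.Eventually.and ((K.good_isOpen t).mem_nhds hy) (K.lift_eventually hy h)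
  have e1 : deriv (K.S.xs t) =ᶠ[𝓝 y] fun y' => (-(m y' * Complex.sin (ψ y')), m y' * Complex.cos (ψ y')) := by
    filter_upwards [hev] with y' hy'
    rw [K.s5lg_deriv_xs hy'.1 hy'.2]
    simp only [hm, hψ, Prod.smul_mk, smul_eq_mul]
    ext <;> simp <;> ring
  have hfa : AnalyticAt ℂ (fun y' => deriv K.C.φ (lam y')) y :=
    AnalyticAt.comp (g := deriv K.C.φ) (f := lam) (K.C.s5ls_f_analytic _ h.2.1) h.1
  have hma : AnalyticAt ℂ m y :=
    h.1.deriv.mul (analyticAt_const.div (hfa.pow 2) (pow_ne_zero 2 hF))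
  have dm : HasDerivAt m (deriv m y) y := hma.differentiableAt.hasDerivAt
  have dψ : HasDerivAt ψ (deriv K.C.φ (lam y) * deriv lam y) y :=
    (K.C.s5ls_φ_hasDerivAt h.2.1).comp y h.1.differentiableAt.hasDerivAt
  have d1 : HasDerivAt (fun y' => -(m y' * Complex.sin (ψ y')))
      (-(deriv m y * Complex.sin (ψ y) + m y * (Complex.cos (ψ y) * (deriv K.C.φ (lam y) * deriv lam y)))) y :=
    (dm.mul dψ.csin).neg
  have d2 : HasDerivAt (fun y' => m y' * Complex.cos (ψ y'))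
      (deriv m y * Complex.cos (ψ y) + m y * (-Complex.sin (ψ y) * (deriv K.C.φ (lam y) * deriv lam y))) y :=
    dm.mul dψ.ccos
  have e2 : deriv (deriv (K.S.xs t)) y =
      (-(deriv m y * Complex.sin (ψ y) + m y * (Complex.cos (ψ y) * (deriv K.C.φ (lam y) * deriv lam y))),
        deriv m y * Complex.cos (ψ y) + m y * (-Complex.sin (ψ y) * (deriv K.C.φ (lam y) * deriv lam y))) := by
    rw [e1.deriv_eq]
    exact (d1.prodMk d2).deriv
  have e1' := e1.self_of_nhds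
  have hsc := Complex.sin_sq_add_cos_sq (ψ y)
  have hdot : bdot (deriv (K.S.xs t) y) (deriv (K.S.xs t) y) = m y ^ 2 := by
    rw [e1']
    simp only [bdot]
    linear_combination m y ^ 2 * hsc
  have hdet : bdet (deriv (K.S.xs t) y) (deriv (deriv (K.S.xs t)) y) =
      m y ^ 2 * (deriv K.C.φ (lam y) * deriv lam y) := by
    rw [e1', e2]
    simp only [bdet]
    linear_combination m y ^ 2 * (deriv K.C.φ (lam y) * deriv lam y) * hsc
  have hc : (G.c : ℂ) ≠ 0 := by exact_mod_cast G.c_pos.ne'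
  unfold Sec4.rsix
  rw [hdot, hdet]
  simp only [hm]
  field_simp

theorem lift_deriv_six {t y : ℂ} {lam : ℂ → ℂ} (hy : y ∈ K.S.Good t) (h : K.C.IsLiftAt t lam y) :
    ∀ᶠ y' in 𝓝 y, deriv lam y' ^ 6 = K.S.rsix t y' := by
  filter_upwards [(K.good_isOpen t).mem_nhds hy, K.lift_eventually hy h] with y' a1 a2
  exact K.s5lg_six_pt a1 a2

theorem lift_unique {t y : ℂ} {lam₁ lam₂ : ℂ → ℂ} (hy : y ∈ K.S.Good t)
    (h₁ : K.C.IsLiftAt t lam₁ y) (h₂ : K.C.IsLiftAt t lam₂ y) :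
    ∃ k : ℤ, ∀ᶠ y' in 𝓝 y, lam₂ y' = lam₁ y' + 2 * π * k := by
  obtain ⟨-, hl1, -⟩ := K.lift_regular hy h₁
  have h6 : ∀ᶠ y' in 𝓝 y, deriv lam₂ y' ^ 6 = deriv lam₁ y' ^ 6 := by
    filter_upwards [K.lift_deriv_six hy h₁, K.lift_deriv_six hy h₂] with y' a1 a2
    rw [a1, a2]
  obtain ⟨ω, b, hω, hab⟩ := s5lg_affine_of_six h₂.1 h₁.1 hl1 h6
  obtain ⟨mu, hmu, hmu0, -, hright⟩ := exists_local_inverse h₁.1 hl1
  have hcont : Tendsto mu (𝓝 (lam₁ y)) (𝓝 y) := by
    have := hmu.continuousAt.tendsto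
    rwa [hmu0] at this
  have hsym : ∀ᶠ s in 𝓝 (lam₁ y), K.C.Γ (ω * s + b) = K.C.Γ s := by
    filter_upwards [hright, hcont.eventually hab, hcont.eventually (K.s5lg_nhds hy h₁),
      hcont.eventually (K.s5lg_nhds hy h₂)] with s a1 a2 a3 a4
    rw [a1] at a2 a3
    rw [← a2, a4, ← a3]
  have hmem : ω * lam₁ y + b ∈ estrip G.Hs := by
    rw [← hab.self_of_nhds]; exact h₂.2.1
  obtain ⟨rfl, k, rfl⟩ := K.C.sym hω h₁.2.1 hmem (hsym.filter_mono nhdsWithin_le_nhds)
  refine ⟨k, ?_⟩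
  filter_upwards [hab] with y' hy'
  rw [hy', one_mul]

/-- adding a multiple of `2π` to a lift germ gives a lift germ. -/
theorem lift_add_period {t y : ℂ} {lam : ℂ → ℂ} (hy : y ∈ K.S.Good t) (h : K.C.IsLiftAt t lam y)
    (k : ℤ) : K.C.IsLiftAt t (fun y' => lam y' + 2 * π * k) y := by
  refine ⟨h.1.add analyticAt_const, ?_, ?_⟩
  · have := estrip_add_real h.2.1 (2 * π * k)
    push_cast at this
    exact this
  · have hF := K.s5lg_f_ne hy h
    have hfa : ContinuousAt (fun y' => deriv K.C.φ (lam y')) y :=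
      ContinuousAt.comp (g := deriv K.C.φ) (f := lam) (K.C.s5ls_f_analytic _ h.2.1).continuousAt
        h.1.continuousAt
    have e1 : ∀ᶠ y' in 𝓝 y, deriv K.C.φ (lam y') ≠ 0 := hfa.eventually_ne hF
    have e2 : ∀ᶠ y' in 𝓝 y, lam y' ∈ estrip G.Hs :=
      h.1.continuousAt.eventually ((isOpen_estrip _).mem_nhds h.2.1)
    filter_upwards [h.2.2, e1.filter_mono nhdsWithin_le_nhds, e2.filter_mono nhdsWithin_le_nhds]
      with y' a1 a2 a3
    rw [(K.C.s5lg_per_int a3 a2 k).2, a1]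

end LiftCtx

end Claimed.Agent.R269
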