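/-
Row 269, Theorem 5.4, continuation of a lift germ over a disc of regular points.  Statements: helper264.  Proofs: helper255.  SORRY-FREE.
PACKAGE LF-S5d-germ2 (this file; ONE OWNER).  Paper: 05-shapes.tex l.478-496 ("it cannot first reach an edge of that strip").

PLAN.  `Δ = ball y₀ ε ⊆ Good t`.
* `rsix_analytic`: `x = X(·,t)` is analytic at `y`, numerator and denominator are nonzero.
* `exists_sigma`: `exists_root_primitive` (Lib/CA1Prim) with `n = 6`.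
* `lift_affine`: `(lam₁'/σ')⁶ = 1` near `y₁` ⇒ locally constant `ω` ⇒ `lam₁ - ω σ` has zero derivative near `y₁`.
* `edge_patch`: `lam := ω σ + b`, `lam' ≠ 0` on `Δ`.  Suppose `y* ∈ Δ` is a limit of points where `lam` is a lift germ, but `s* := lam y* ∉ D`.  Then `s* ∈ closure D`, so
  `|Im s*| = H` (`estrip_frontier`).  `mu :=` analytic local inverse of `lam` at `y*` (`exists_local_inverse`), `P := x ∘ mu`, analytic on a small ball `b(s*,δ)`.
  `P = Γ` near some point of `b(s*,δ) ∩ D` (image of a lift point), `b(s*,δ) ∩ D` is convex: `mero_identity` ⇒ `P =ᶠ Γ` at every point of it.  Contradiction with `Curve.nat_bdry`.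
* `lift_extend_ball`: `A := {y ∈ Δ | IsLiftAt t lam y}` is open (`lift_eventually`), nonempty (`y₁`), closed in `Δ`: for `y* ∈ Δ ∩ closure A`, `lam y* ∈ D` by `edge_patch`;
  `Γ∘lam` and `x` are meromorphic at `y*` and agree frequently ⇒ eventually (`MeromorphicAt.frequently_eq_iff_eventuallyEq`, coordinatewise).  `Δ` is connected.
Helpers (prefix `s5lh_`): `s5lh_fst`, `s5lh_snd` (coordinates of an analytic pair), `Curve.IsLiftAt.s5lh_congr`, `s5lh_sigma`.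
-/
import Claimed.Agent.R269.S5.LiftGerm

set_option autoImplicit false

namespace Claimed.Agent.R269

open Complex ComplexConjugate Filter Topology MeasureTheory
open scoped ENNReal Real

theorem s5lh_fst {f : ℂ → ℂ × ℂ} {y : ℂ} (h : AnalyticAt ℂ f y) : AnalyticAt ℂ (fun z => (f z).1) y :=
  AnalyticAt.comp (g := fun p : ℂ × ℂ => p.1) (f := f) analyticAt_fst h

theorem s5lh_snd {f : ℂ → ℂ × ℂ} {y : ℂ} (h : AnalyticAt ℂ f y) : AnalyticAt ℂ (fun z => (f z).2) y :=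
  AnalyticAt.comp (g := fun p : ℂ × ℂ => p.2) (f := f) analyticAt_snd h

namespace Curve

variable {G : Glance} {S : Sec4 G} (C : Curve S)

/-- lift germs only depend on the germ. -/
theorem IsLiftAt.s5lh_congr {C : Curve S} {t y : ℂ} {lam lam' : ℂ → ℂ} (h : C.IsLiftAt t lam y)
    (he : lam' =ᶠ[𝓝 y] lam) : C.IsLiftAt t lam' y := by
  refine ⟨h.1.congr he.symm, ?_, ?_⟩
  · rw [he.self_of_nhds]; exact h.2.1
  · filter_upwards [h.2.2, he.filter_mono nhdsWithin_le_nhds] with y' a1 a2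
    rw [a2, a1]

end Curve

namespace LiftCtx

variable {G : Glance} (K : LiftCtx G)

theorem rsix_analytic {t y : ℂ} (hy : y ∈ K.S.Good t) :
    AnalyticAt ℂ (K.S.rsix t) y ∧ K.S.rsix t y ≠ 0 := by
  obtain ⟨-, hX, hdot, hdet⟩ := hy
  have hx := K.S.s5lg_xs_analytic hX
  have h1 := hx.deriv
  have h2 := hx.deriv.deriv
  have hc : (G.c : ℂ) ≠ 0 := by exact_mod_cast G.c_pos.ne'
  have a1 : AnalyticAt ℂ (fun y' => bdot (deriv (K.S.xs t) y') (deriv (K.S.xs t) y')) y := by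
    unfold bdot
    exact ((s5lh_fst h1).mul (s5lh_fst h1)).add ((s5lh_snd h1).mul (s5lh_snd h1))
  have a2 : AnalyticAt ℂ (fun y' => bdet (deriv (K.S.xs t) y') (deriv (deriv (K.S.xs t)) y')) y := by
    unfold bdet
    exact ((s5lh_fst h1).mul (s5lh_snd h2)).sub ((s5lh_snd h1).mul (s5lh_fst h2))
  have hden : (G.c : ℂ) ^ 2 * bdot (deriv (K.S.xs t) y) (deriv (K.S.xs t) y) ^ 3 ≠ 0 :=
    mul_ne_zero (pow_ne_zero 2 hc) (pow_ne_zero 3 hdot)
  constructor
  · unfold Sec4.rsix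
    exact (a2.pow 4).div (analyticAt_const.mul (a1.pow 3)) hden
  · unfold Sec4.rsix
    exact div_ne_zero (pow_ne_zero 4 hdet) hden

theorem exists_sigma {t y₀ : ℂ} {ε : ℝ} (hb : Metric.ball y₀ ε ⊆ K.S.Good t) :
    ∃ σ : ℂ → ℂ, DifferentiableOn ℂ σ (Metric.ball y₀ ε) ∧
      ∀ y ∈ Metric.ball y₀ ε, deriv σ y ^ 6 = K.S.rsix t y :=
  exists_root_primitive (by norm_num)
    (fun y hy => (K.rsix_analytic (hb hy)).1.differentiableAt.differentiableWithinAt)
    (fun y hy => (K.rsix_analytic (hb hy)).2)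

theorem s5lh_sigma {t y₀ y : ℂ} {ε : ℝ} {σ : ℂ → ℂ} (hb : Metric.ball y₀ ε ⊆ K.S.Good t)
    (hσ : DifferentiableOn ℂ σ (Metric.ball y₀ ε))
    (hσ6 : ∀ y ∈ Metric.ball y₀ ε, deriv σ y ^ 6 = K.S.rsix t y) (hy : y ∈ Metric.ball y₀ ε) :
    AnalyticAt ℂ σ y ∧ deriv σ y ≠ 0 := by
  refine ⟨hσ.analyticAt (Metric.isOpen_ball.mem_nhds hy), ?_⟩
  intro h0
  have := hσ6 y hy
  rw [h0] at this
  exact (K.rsix_analytic (hb hy)).2 (by rw [← this]; norm_num)

theorem lift_affine {t y₀ y₁ : ℂ} {ε : ℝ} {σ lam₁ : ℂ → ℂ} (hb : Metric.ball y₀ ε ⊆ K.S.Good t)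
    (hσ : DifferentiableOn ℂ σ (Metric.ball y₀ ε))
    (hσ6 : ∀ y ∈ Metric.ball y₀ ε, deriv σ y ^ 6 = K.S.rsix t y)
    (hy₁ : y₁ ∈ Metric.ball y₀ ε) (h₁ : K.C.IsLiftAt t lam₁ y₁) :
    ∃ ω b : ℂ, ω ^ 6 = 1 ∧ ∀ᶠ y in 𝓝 y₁, lam₁ y = ω * σ y + b := by
  obtain ⟨ha, hne⟩ := K.s5lh_sigma hb hσ hσ6 hy₁
  refine s5lg_affine_of_six h₁.1 ha hne ?_
  filter_upwards [K.lift_deriv_six (hb hy₁) h₁, Metric.isOpen_ball.mem_nhds hy₁] with y a1 a2
  rw [a1, hσ6 y a2]

theorem edge_patch {t y₀ ys ω b : ℂ} {ε : ℝ} {σ : ℂ → ℂ} (hb : Metric.ball y₀ ε ⊆ K.S.Good t)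
    (hσ : DifferentiableOn ℂ σ (Metric.ball y₀ ε))
    (hσ6 : ∀ y ∈ Metric.ball y₀ ε, deriv σ y ^ 6 = K.S.rsix t y) (hω : ω ^ 6 = 1)
    (hys : ys ∈ Metric.ball y₀ ε)
    (hfr : ∃ᶠ y in 𝓝 ys, K.C.IsLiftAt t (fun y' => ω * σ y' + b) y)
    (hout : ω * σ ys + b ∉ estrip G.Hs) : False := by
  obtain ⟨ha, hne⟩ := K.s5lh_sigma hb hσ hσ6 hys
  have hω0 := Curve.s5ls_root_ne hω
  set lam : ℂ → ℂ := fun y' => ω * σ y' + b with hlam
  have hla : AnalyticAt ℂ lam ys := (analyticAt_const.mul ha).add analyticAt_const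
  have hld : deriv lam ys ≠ 0 := by
    have : HasDerivAt lam (ω * deriv σ ys) ys :=
      (ha.differentiableAt.hasDerivAt.const_mul ω).add_const b
    rw [this.deriv]
    exact mul_ne_zero hω0 hne
  -- the edge
  have hcl : lam ys ∈ closure (estrip G.Hs) := by
    rw [mem_closure_iff_frequently]
    exact hla.continuousAt.tendsto.frequently (hfr.mono fun y hy => hy.2.1)
  have hedge := estrip_frontier hcl hout
  obtain ⟨mu, hmu, hmu0, hleft, hright⟩ := exists_local_inverse hla hld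
  have hx : AnalyticAt ℂ (K.S.xs t) (mu (lam ys)) := by
    rw [hmu0]; exact K.S.s5lg_xs_analytic (hb hys).2.1
  have hP : AnalyticAt ℂ (fun s => K.S.xs t (mu s)) (lam ys) :=
    AnalyticAt.comp (g := K.S.xs t) (f := mu) hx hmu
  obtain ⟨δ, hδ, hball⟩ := Metric.eventually_nhds_iff_ball.1
    (hP.eventually_analyticAt.and (hmu.eventually_analyticAt.and hright))
  -- a lift point whose image lies in the ball
  have hev : ∀ᶠ y in 𝓝 ys, lam y ∈ Metric.ball (lam ys) δ ∧ mu (lam y) = y ∧ y ∈ Metric.ball y₀ ε :=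
    (hla.continuousAt.eventually (Metric.ball_mem_nhds _ hδ)).and
      (hleft.and (Metric.isOpen_ball.mem_nhds hys))
  obtain ⟨y₁, hy₁l, hy₁b, hy₁m, hy₁Δ⟩ := (hfr.and_eventually hev).exists
  have hbase : (fun s => K.S.xs t (mu s)) =ᶠ[𝓝 (lam y₁)] K.C.Γ := by
    have hc : Tendsto mu (𝓝 (lam y₁)) (𝓝 y₁) := by
      have := (hball _ hy₁b).2.1.continuousAt.tendsto
      rwa [hy₁m] at this
    filter_upwards [hc.eventually (K.s5lg_nhds (hb hy₁Δ) hy₁l), Metric.isOpen_ball.mem_nhds hy₁b]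
      with s a1 a2
    have a3 : lam (mu s) = s := (hball s a2).2.2
    rw [a3] at a1
    rw [a1]; rfl
  set U : Set ℂ := Metric.ball (lam ys) δ ∩ estrip G.Hs with hU
  have hUo : IsOpen U := Metric.isOpen_ball.inter (isOpen_estrip _)
  have hUc : IsPreconnected U := ((convex_ball _ _).inter (convex_estrip _)).isPreconnected
  have m1 : MeromorphicOn (fun s => (K.S.xs t (mu s)).1) (Metric.ball (lam ys) δ) :=
    fun s hs => (s5lh_fst (hball s hs).1).meromorphicAt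
  have m2 : MeromorphicOn (fun s => (K.S.xs t (mu s)).2) (Metric.ball (lam ys) δ) :=
    fun s hs => (s5lh_snd (hball s hs).1).meromorphicAt
  have hz₀ : lam y₁ ∈ U := ⟨hy₁b, hy₁l.2.1⟩
  refine K.C.nat_bdry (lam ys) hedge ⟨δ, fun s => K.S.xs t (mu s), hδ, m1, m2, fun s hs => ?_⟩
  have e1 := mero_identity (fun z hz => m1 z hz.1) (fun z hz => K.C.Γ_mero.1 z hz.2) hUo hUc hz₀
    ((hbase.filter_mono nhdsWithin_le_nhds).mono fun z hz => by simp only [hz]) s hs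
  have e2 := mero_identity (fun z hz => m2 z hz.1) (fun z hz => K.C.Γ_mero.2 z hz.2) hUo hUc hz₀
    ((hbase.filter_mono nhdsWithin_le_nhds).mono fun z hz => by simp only [hz]) s hs
  filter_upwards [e1, e2] with z hz1 hz2
  exact Prod.ext hz1 hz2

theorem lift_extend_ball {t y₀ y₁ : ℂ} {ε : ℝ} {lam₁ : ℂ → ℂ}
    (hb : Metric.ball y₀ ε ⊆ K.S.Good t) (hy₁ : y₁ ∈ Metric.ball y₀ ε)
    (h₁ : K.C.IsLiftAt t lam₁ y₁) :
    ∃ lam : ℂ → ℂ, (∀ y ∈ Metric.ball y₀ ε, K.C.IsLiftAt t lam y) ∧ lam =ᶠ[𝓝 y₁] lam₁ := by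
  obtain ⟨σ, hσ, hσ6⟩ := K.exists_sigma hb
  obtain ⟨ω, b, hω, hab⟩ := K.lift_affine hb hσ hσ6 hy₁ h₁
  set lam : ℂ → ℂ := fun y' => ω * σ y' + b with hlam
  have hle : lam =ᶠ[𝓝 y₁] lam₁ := hab.mono fun y hy => hy.symm
  refine ⟨lam, ?_, hle⟩
  set A : Set ℂ := {y | y ∈ Metric.ball y₀ ε ∧ K.C.IsLiftAt t lam y} with hA
  have hAo : IsOpen A := by
    rw [isOpen_iff_mem_nhds]
    rintro y ⟨hy1, hy2⟩
    filter_upwards [Metric.isOpen_ball.mem_nhds hy1, K.lift_eventually (hb hy1) hy2] with y' a1 a2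
    exact ⟨a1, a2⟩
  have hne : (Metric.ball y₀ ε ∩ A).Nonempty := ⟨y₁, hy₁, hy₁, h₁.s5lh_congr hle⟩
  have hcl : closure A ∩ Metric.ball y₀ ε ⊆ A := by
    rintro ys ⟨hys1, hys2⟩
    refine ⟨hys2, ?_⟩
    by_contra hnl
    have hfr : ∃ᶠ y in 𝓝 ys, y ∈ A := mem_closure_iff_frequently.1 hys1
    have hfr1 : ∃ᶠ y in 𝓝 ys, K.C.IsLiftAt t lam y := hfr.mono fun y hy => hy.2
    have hmem : lam ys ∈ estrip G.Hs := by
      by_contra hout
      exact K.edge_patch hb hσ hσ6 hω hys2 hfr1 hout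
    have hla : AnalyticAt ℂ lam ys :=
      (analyticAt_const.mul (K.s5lh_sigma hb hσ hσ6 hys2).1).add analyticAt_const
    have hfr2 : ∃ᶠ y in 𝓝[≠] ys, y ∈ A := by
      rw [← nhdsNE_sup_pure, Filter.frequently_sup] at hfr
      rcases hfr with h | h
      · exact h
      · rw [Filter.frequently_pure] at h
        exact absurd h.2 hnl
    have hfr3 : ∃ᶠ y in 𝓝[≠] ys, K.C.Γ (lam y) = K.S.xs t y :=
      hfr2.mono fun y hy => (K.lift_regular (hb hy.1) hy.2).2.2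
    have hx := K.S.s5lg_xs_analytic (hb hys2).2.1
    have m1 : MeromorphicAt (fun y => (K.C.Γ (lam y)).1) ys :=
      MeromorphicAt.comp_analyticAt (f := fun u => (K.C.Γ u).1) (g := lam) (K.C.Γ_mero.1 _ hmem) hla
    have m2 : MeromorphicAt (fun y => (K.C.Γ (lam y)).2) ys :=
      MeromorphicAt.comp_analyticAt (f := fun u => (K.C.Γ u).2) (g := lam) (K.C.Γ_mero.2 _ hmem) hla
    have e1 := (m1.frequently_eq_iff_eventuallyEq (s5lh_fst hx).meromorphicAt).1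
      (hfr3.mono fun y hy => by simp only [hy])
    have e2 := (m2.frequently_eq_iff_eventuallyEq (s5lh_snd hx).meromorphicAt).1
      (hfr3.mono fun y hy => by simp only [hy])
    apply hnl
    refine ⟨hla, hmem, ?_⟩
    filter_upwards [e1, e2] with z hz1 hz2
    exact Prod.ext hz1 hz2
  have hsub := (convex_ball y₀ ε).isPreconnected.subset_of_closure_inter_subset hAo hne hcl
  exact fun y hy => (hsub hy).2

end LiftCtx

end Claimed.Agent.R269
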