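/-
Row 269, Theorem 5.4, every regular point of every slice carries a lift germ.  Statements: helper264.  Proofs: helper255.  SORRY-FREE.
PACKAGE LF-S5d-slice (this file; ONE OWNER).

PLAN.  `t ∈ ball 0 K.r` (so `(y,t) ∈ G.tube K.S.ρ` for `y ∈ G.slice t`).
* `analytic_codiscrete`, `xs_mero`: from `K.S.X_mero₁/₂ : SliceMero`: near `(y,t)`, `X_i = g/k`, `k(·,t)` is analytic at `y` and not locally zero, so its zeros near `y` are isolated;
  where `k ≠ 0`, `X_i = g/k` on a neighbourhood, so `X_i` is analytic there; `x_i = g(·,t)/k(·,t)` off the zeros: meromorphic at `y`.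
* `good_codiscrete`: `Q₁ = x'·x'`, `Q₂ = det(x',x'')` are meromorphic on the connected slice, nonzero at the regular point `0` (`K.good0`), so (`mero_eventually_ne`) eventually nonzero near every point.
* `good_preconnected`: `Good t = slice t \ E`, `isPreconnected_diff_discrete`, `convex_slice`.
* `base_lift`: `Γ(ℓ(y,t)) = Γ0(ℓ(y,t)) = X0(y,t) = X(y,t)` (`Γ_base`, `B.mem`, `B.eq`, `S.X_base`); analyticity of `ℓ(·,t)` from `B.diff`.
* `all_good_lift`: `U := {y ∈ Good t | ∃ lam, IsLiftAt t lam y}` is open in `Good t` (`lift_eventually`), closed in `Good t` (`lift_extend_ball` on a ball about the limit point), contains `0`.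
Helpers (prefix `s5lc_`): `s5lc_local` (SliceMero ⇒ jointly analytic off an isolated point of the slice + slice function meromorphic), `s5lc_deriv_pair`, `s5lc_deriv2_pair`, `s5lc_mem_tube`.
-/
import Claimed.Agent.R269.S5.LiftGerm2
import Claimed.Agent.R269.S5.LiftWidth

set_option autoImplicit false

namespace Claimed.Agent.R269

open Complex ComplexConjugate Filter Topology MeasureTheory
open scoped ENNReal Real

/-- local consequences of `SliceMero`: on the slice through a point, `F` is jointly analytic off an isolated point, and the slice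
function is meromorphic. -/
theorem s5lc_local {F : ℂ × ℂ → ℂ} {W : Set (ℂ × ℂ)} (hF : SliceMero F W) {y t : ℂ} (hz : (y, t) ∈ W) :
    (∀ᶠ y' in 𝓝[≠] y, AnalyticAt ℂ F (y', t)) ∧ MeromorphicAt (fun y' => F (y', t)) y := by
  obtain ⟨g, k, hg, hk, hk0, hev⟩ := hF (y, t) hz
  have hin : AnalyticAt ℂ (fun y' : ℂ => (y', t)) y := analyticAt_id.prod analyticAt_const
  have hc : ContinuousAt (fun y' : ℂ => (y', t)) y := hin.continuousAt
  have hgs : AnalyticAt ℂ (fun y' => g (y', t)) y :=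
    AnalyticAt.comp (g := g) (f := fun y' : ℂ => (y', t)) hg hin
  have hks : AnalyticAt ℂ (fun y' => k (y', t)) y :=
    AnalyticAt.comp (g := k) (f := fun y' : ℂ => (y', t)) hk hin
  have hkne : ∀ᶠ y' in 𝓝[≠] y, k (y', t) ≠ 0 :=
    (hks.eventually_eq_zero_or_eventually_ne_zero).resolve_left hk0
  have e1 : ∀ᶠ y' in 𝓝 y, AnalyticAt ℂ g (y', t) := hc.eventually hg.eventually_analyticAt
  have e2 : ∀ᶠ y' in 𝓝 y, AnalyticAt ℂ k (y', t) := hc.eventually hk.eventually_analyticAt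
  have e3 : ∀ᶠ y' in 𝓝 y, ∀ᶠ w in 𝓝 (y', t), k w ≠ 0 → F w = g w / k w :=
    hc.eventually hev.eventually_nhds
  constructor
  · filter_upwards [hkne, e1.filter_mono nhdsWithin_le_nhds, e2.filter_mono nhdsWithin_le_nhds,
      e3.filter_mono nhdsWithin_le_nhds] with y' a0 a1 a2 a3
    have : (fun w => g w / k w) =ᶠ[𝓝 (y', t)] F := by
      filter_upwards [a3, a2.continuousAt.eventually_ne a0] with w b1 b2
      exact (b1 b2).symm
    exact (a1.div a2 a0).congr this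
  · refine (hgs.meromorphicAt.div hks.meromorphicAt).congr ?_
    filter_upwards [hkne, e3.filter_mono nhdsWithin_le_nhds] with y' a0 a3
    exact (a3.self_of_nhds a0).symm

/-- derivatives of an analytic pair, coordinatewise. -/
theorem s5lc_deriv_pair {x : ℂ → ℂ × ℂ} {y : ℂ} (hx : AnalyticAt ℂ x y) :
    deriv x y = (deriv (fun z => (x z).1) y, deriv (fun z => (x z).2) y) :=
  ((s5lh_fst hx).differentiableAt.hasDerivAt.prodMk (s5lh_snd hx).differentiableAt.hasDerivAt).deriv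

theorem s5lc_deriv2_pair {x : ℂ → ℂ × ℂ} {y : ℂ} (hx : AnalyticAt ℂ x y) :
    deriv (deriv x) y = (deriv (deriv fun z => (x z).1) y, deriv (deriv fun z => (x z).2) y) := by
  have e : deriv x =ᶠ[𝓝 y] fun y' => (deriv (fun z => (x z).1) y', deriv (fun z => (x z).2) y') := by
    filter_upwards [hx.eventually_analyticAt] with y' hy'
    exact s5lc_deriv_pair hy'
  rw [e.deriv_eq]
  exact ((s5lh_fst hx).deriv.differentiableAt.hasDerivAt.prodMk
    (s5lh_snd hx).deriv.differentiableAt.hasDerivAt).deriv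

namespace LiftCtx

variable {G : Glance} (K : LiftCtx G)

theorem s5lc_mem_tube {t : ℂ} (ht : t ∈ Metric.ball (0 : ℂ) K.r) {y : ℂ} (hy : y ∈ G.slice t) :
    (y, t) ∈ G.tube K.S.ρ :=
  G.mem_tube_iff.2 ⟨Metric.ball_subset_ball K.r_le ht, hy⟩

theorem analytic_codiscrete {t : ℂ} (ht : t ∈ Metric.ball (0 : ℂ) K.r) :
    ∀ y ∈ G.slice t, ∀ᶠ y' in 𝓝[≠] y, AnalyticAt ℂ K.S.X (y', t) := by
  intro y hy
  filter_upwards [(s5lc_local K.S.X_mero₁ (K.s5lc_mem_tube ht hy)).1,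
    (s5lc_local K.S.X_mero₂ (K.s5lc_mem_tube ht hy)).1] with y' a1 a2
  exact a1.prod a2

theorem xs_mero {t : ℂ} (ht : t ∈ Metric.ball (0 : ℂ) K.r) :
    MeromorphicOn (fun y => (K.S.xs t y).1) (G.slice t) ∧
      MeromorphicOn (fun y => (K.S.xs t y).2) (G.slice t) :=
  ⟨fun _ hy => (s5lc_local K.S.X_mero₁ (K.s5lc_mem_tube ht hy)).2,
    fun _ hy => (s5lc_local K.S.X_mero₂ (K.s5lc_mem_tube ht hy)).2⟩

theorem good_codiscrete {t : ℂ} (ht : t ∈ Metric.ball (0 : ℂ) K.r) :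
    ∀ y ∈ G.slice t, ∀ᶠ y' in 𝓝[≠] y, y' ∈ K.S.Good t := by
  obtain ⟨m1, m2⟩ := K.xs_mero ht
  set x1 : ℂ → ℂ := fun y => (K.S.xs t y).1 with hx1
  set x2 : ℂ → ℂ := fun y => (K.S.xs t y).2 with hx2
  set q1 : ℂ → ℂ := fun y => deriv x1 y * deriv x1 y + deriv x2 y * deriv x2 y with hq1
  set q2 : ℂ → ℂ := fun y => deriv x1 y * deriv (deriv x2) y - deriv x2 y * deriv (deriv x1) y with hq2
  have mq1 : MeromorphicOn q1 (G.slice t) := fun y hy =>
    ((m1 y hy).deriv.mul (m1 y hy).deriv).add ((m2 y hy).deriv.mul (m2 y hy).deriv)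
  have mq2 : MeromorphicOn q2 (G.slice t) := fun y hy =>
    ((m1 y hy).deriv.mul (m2 y hy).deriv.deriv).sub ((m2 y hy).deriv.mul (m1 y hy).deriv.deriv)
  have hd1 : ∀ y, AnalyticAt ℂ K.S.X (y, t) →
      bdot (deriv (K.S.xs t) y) (deriv (K.S.xs t) y) = q1 y := by
    intro y hy
    rw [s5lc_deriv_pair (K.S.s5lg_xs_analytic hy)]
    rfl
  have hd2 : ∀ y, AnalyticAt ℂ K.S.X (y, t) →
      bdet (deriv (K.S.xs t) y) (deriv (deriv (K.S.xs t)) y) = q2 y := by
    intro y hy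
    rw [s5lc_deriv_pair (K.S.s5lg_xs_analytic hy), s5lc_deriv2_pair (K.S.s5lg_xs_analytic hy)]
    rfl
  have h0 : (0 : ℂ) ∈ K.S.Good t := K.good0 t ht
  have hg0 : ∀ᶠ y in 𝓝[≠] (0 : ℂ), y ∈ K.S.Good t :=
    Filter.Eventually.filter_mono nhdsWithin_le_nhds ((K.good_isOpen t).mem_nhds h0)
  have n1 : ¬ q1 =ᶠ[𝓝[≠] (0 : ℂ)] 0 := by
    intro h
    obtain ⟨y, hy1, hy2⟩ := (hg0.and h).exists
    exact hy1.2.2.1 (by rw [hd1 y hy1.2.1]; exact hy2)
  have n2 : ¬ q2 =ᶠ[𝓝[≠] (0 : ℂ)] 0 := by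
    intro h
    obtain ⟨y, hy1, hy2⟩ := (hg0.and h).exists
    exact hy1.2.2.2 (by rw [hd2 y hy1.2.1]; exact hy2)
  intro y hy
  have hpc := (G.convex_slice t).isPreconnected
  filter_upwards [ca_mero_eventually_ne' mq1 hpc h0.1 n1 y hy, ca_mero_eventually_ne' mq2 hpc h0.1 n2 y hy,
    K.analytic_codiscrete ht y hy,
    Filter.Eventually.filter_mono nhdsWithin_le_nhds ((G.isOpen_slice t).mem_nhds hy)] with y' a1 a2 a3 a4
  exact ⟨a4, a3, by rw [hd1 y' a3]; exact a1, by rw [hd2 y' a3]; exact a2⟩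

theorem good_preconnected {t : ℂ} (ht : t ∈ Metric.ball (0 : ℂ) K.r) :
    IsPreconnected (K.S.Good t) := by
  have h := isPreconnected_diff_discrete (E := (K.S.Good t)ᶜ) (G.isOpen_slice t)
    (G.convex_slice t).isPreconnected
    (fun y hy => (K.good_codiscrete ht y hy).mono fun y' hy' => not_not.2 hy')
  have e : G.slice t \ (K.S.Good t)ᶜ = K.S.Good t := by
    ext y
    simp only [Set.mem_sdiff, Set.mem_compl_iff, not_not]
    exact ⟨fun h => h.2, fun h => ⟨h.1, h⟩⟩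
  rwa [e] at h

theorem base_lift {t : ℂ} (ht : t ∈ Metric.ball (0 : ℂ) K.r) {y : ℂ} (hy : y ∈ hstrip K.B.w) :
    K.C.IsLiftAt t (fun y' => K.B.ℓ (y', t)) y := by
  have ht0 : t ∈ Metric.ball (0 : ℂ) K.B.ρ₀ := Metric.ball_subset_ball K.r_le' ht
  have htρ : t ∈ Metric.ball (0 : ℂ) K.S.ρ := Metric.ball_subset_ball K.r_le ht
  have hs : 0 < G.s := G.r₁_pos.trans G.r₁_lt
  have hd : DifferentiableOn ℂ (fun y' => K.B.ℓ (y', t)) (hstrip K.B.w) := by
    have h1 : DifferentiableOn ℂ (fun y' : ℂ => (y', t)) (hstrip K.B.w) :=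
      (differentiable_id.prodMk (differentiable_const t)).differentiableOn
    exact K.B.diff.comp h1 fun y' hy' => ⟨hy', ht0⟩
  have hsub : hstrip (G.s / 2) ⊆ estrip G.Hs := by
    intro z hz
    apply G.s5ls_hstrip_sub
    have hz' : |z.im| < G.s / 2 := hz
    show |z.im| < G.s
    linarith
  refine ⟨hd.analyticAt ((s5ls_isOpen_hstrip _).mem_nhds hy), hsub (K.B.mem _ ⟨hy, ht0⟩), ?_⟩
  filter_upwards [Filter.Eventually.filter_mono nhdsWithin_le_nhds
    ((s5ls_isOpen_hstrip K.B.w).mem_nhds hy)] with y' hy0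
  have hy' : y' ∈ hstrip K.B.w := hy0
  have hy'' : y' ∈ hstrip (G.s / 2) := by
    have h1 : |y'.im| < K.B.w := hy0
    have h2 := K.B.w_le
    show |y'.im| < G.s / 2
    linarith
  have hm : ((y', t) : ℂ × ℂ) ∈ hstrip K.B.w ×ˢ Metric.ball (0 : ℂ) K.B.ρ₀ := ⟨hy', ht0⟩
  have hm2 : ((y', t) : ℂ × ℂ) ∈ hstrip (G.s / 2) ×ˢ Metric.ball (0 : ℂ) K.S.ρ := ⟨hy'', htρ⟩
  rw [K.C.Γ_base _ (K.B.mem _ hm), ← K.B.eq _ hm, K.S.X_base _ hm2]

theorem all_good_lift {t : ℂ} (ht : t ∈ Metric.ball (0 : ℂ) K.r) :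
    ∀ y ∈ K.S.Good t, ∃ lam : ℂ → ℂ, K.C.IsLiftAt t lam y := by
  set U : Set ℂ := {y | y ∈ K.S.Good t ∧ ∃ lam : ℂ → ℂ, K.C.IsLiftAt t lam y} with hU
  have hUo : IsOpen U := by
    rw [isOpen_iff_mem_nhds]
    rintro y ⟨hy1, lam, hy2⟩
    filter_upwards [(K.good_isOpen t).mem_nhds hy1, K.lift_eventually hy1 hy2] with y' a1 a2
    exact ⟨a1, lam, a2⟩
  have h0 : (0 : ℂ) ∈ K.S.Good t := K.good0 t ht
  have h0w : (0 : ℂ) ∈ hstrip K.B.w := by
    show |(0 : ℂ).im| < K.B.w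
    simpa using K.B.w_pos
  have hne : (K.S.Good t ∩ U).Nonempty := ⟨0, h0, h0, _, K.base_lift ht h0w⟩
  have hcl : closure U ∩ K.S.Good t ⊆ U := by
    rintro ys ⟨hys1, hys2⟩
    obtain ⟨ε, hε, hball⟩ := Metric.isOpen_iff.1 (K.good_isOpen t) ys hys2
    obtain ⟨y₁, hy₁U, hy₁b⟩ := Metric.mem_closure_iff.1 hys1 ε hε
    obtain ⟨-, lam₁, h₁⟩ := hy₁U
    have hy₁ : y₁ ∈ Metric.ball ys ε := by rwa [Metric.mem_ball, dist_comm]
    obtain ⟨lam, hlam, -⟩ := K.lift_extend_ball hball hy₁ h₁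
    exact ⟨hys2, lam, hlam ys (Metric.mem_ball_self hε)⟩
  have hsub := (K.good_preconnected ht).subset_of_closure_inter_subset hUo hne hcl
  exact fun y hy => (hsub hy).2

end LiftCtx

end Claimed.Agent.R269
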