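/-
Row 269, Theorem 5.4: the single-valued function `v = exp(i·lift)` on a slice.  Statements: helper264.
PACKAGE LF-S5d-v (this file; ONE OWNER): `vfun_eq … vfun_ext_finite`.   (`vfun_ext_infinite` is proved in LiftInf.lean; `slice_lift` in LiftLog.lean.)

PLAN.
* `vfun_eq`: for `y'` near `y`, `lam` is a lift germ at `y'` (`lift_eventually`) and `y' ∈ Good t` (`good_isOpen`); the chosen germ at `y'` differs from `lam` by `2πk` near `y'`
  (`lift_unique`), in particular at `y'`; `exp (I (s + 2πk)) = exp (I s)`.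
* `vfun_diff`, `vfun_ne_zero`, `vfun_bound`: from `vfun_eq` + `all_good_lift`; `log ‖exp (I s)‖ = - Im s`, `lam y ∈ estrip G.Hs`.
* `vfun_ext_finite` (`H < ∞`): `e^{-H} < ‖v‖ < e^{H}` on `Good t`; `removable_discrete` (Lib/CA1Sing) for `v`; the extension `v'` satisfies `e^{-H} ≤ ‖v'‖ ≤ e^{H}` by continuity and density of `Good t`;
  strictness: if `‖v' y‖ = e^{H}` at one point, `‖v'‖` has a maximum there, so `v'` is constant on the connected slice (`Complex.eqOn_of_isPreconnected_of_isMaxOn_norm`); same for `1/v'`;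
  but `v'` is not constant: near `0` it is `exp (I ℓ(y,t))` and `∂_y ℓ ≠ 0` at `0` (`lift_regular`).
-/
import Claimed.Agent.R269.S5.LiftSlice
import Claimed.Agent.R269.Lib.CA1Sing

set_option autoImplicit false

namespace Claimed.Agent.R269

open Complex ComplexConjugate Filter Topology MeasureTheory
open scoped ENNReal Real

namespace LiftCtx

variable {G : Glance} (K : LiftCtx G)

open Classical in
/-- `v(y) = exp(i lam(y))` for any lift germ `lam` at `y`. -/
noncomputable def vfun (t y : ℂ) : ℂ :=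
  if h : ∃ lam : ℂ → ℂ, K.C.IsLiftAt t lam y then Complex.exp (I * (Classical.choose h) y) else 0

theorem s5lv_exp_period (s : ℂ) (k : ℤ) :
    Complex.exp (I * (s + 2 * π * k)) = Complex.exp (I * s) := by
  have e : I * (s + 2 * π * k) = I * s + k * (2 * π * I) := by ring
  rw [e, Complex.exp_add, Complex.exp_int_mul_two_pi_mul_I, mul_one]

theorem s5lv_vfun_pt {t y : ℂ} {lam : ℂ → ℂ} (hy : y ∈ K.S.Good t) (h : K.C.IsLiftAt t lam y) :
    K.vfun t y = Complex.exp (I * lam y) := by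
  classical
  have hex : ∃ lam : ℂ → ℂ, K.C.IsLiftAt t lam y := ⟨lam, h⟩
  unfold vfun
  rw [dif_pos hex]
  obtain ⟨k, hk⟩ := K.lift_unique hy h (Classical.choose_spec hex)
  rw [hk.self_of_nhds, s5lv_exp_period]

theorem vfun_eq {t y : ℂ} {lam : ℂ → ℂ} (hy : y ∈ K.S.Good t) (h : K.C.IsLiftAt t lam y) :
    ∀ᶠ y' in 𝓝 y, K.vfun t y' = Complex.exp (I * lam y') := by
  filter_upwards [K.lift_eventually hy h, (K.good_isOpen t).mem_nhds hy] with y' h1 h2
  exact K.s5lv_vfun_pt h2 h1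

theorem vfun_diff {t : ℂ} (ht : t ∈ Metric.ball (0 : ℂ) K.r) :
    DifferentiableOn ℂ (K.vfun t) (K.S.Good t) := by
  intro y hy
  obtain ⟨lam, h⟩ := K.all_good_lift ht y hy
  have h1 : DifferentiableAt ℂ (fun y' => Complex.exp (I * lam y')) y :=
    ((h.1.differentiableAt).const_mul I).cexp
  exact (h1.congr_of_eventuallyEq (K.vfun_eq hy h)).differentiableWithinAt

theorem vfun_ne_zero {t : ℂ} (ht : t ∈ Metric.ball (0 : ℂ) K.r) {y : ℂ} (hy : y ∈ K.S.Good t) :
    K.vfun t y ≠ 0 := by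
  obtain ⟨lam, h⟩ := K.all_good_lift ht y hy
  rw [K.s5lv_vfun_pt hy h]
  exact Complex.exp_ne_zero _

theorem vfun_bound {t : ℂ} (ht : t ∈ Metric.ball (0 : ℂ) K.r) {y : ℂ} (hy : y ∈ K.S.Good t) :
    ENNReal.ofReal |Real.log ‖K.vfun t y‖| < G.Hs := by
  obtain ⟨lam, h⟩ := K.all_good_lift ht y hy
  rw [K.s5lv_vfun_pt hy h, Complex.norm_exp, Real.log_exp]
  have e : (I * lam y).re = -(lam y).im := by simp
  rw [e, abs_neg]
  exact h.2.1

/-- the conclusion of the extension step. -/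
def VExt (t : ℂ) : Prop :=
  ∃ v : ℂ → ℂ, DifferentiableOn ℂ v (G.slice t) ∧ (∀ y ∈ K.S.Good t, v y = K.vfun t y) ∧
    ∀ y ∈ G.slice t, v y ≠ 0 ∧ ENNReal.ofReal |Real.log ‖v y‖| < G.Hs

theorem s5lv_abs_log_lt {x H : ℝ} (hx : 0 < x) :
    |Real.log x| < H ↔ Real.exp (-H) < x ∧ x < Real.exp H := by
  rw [abs_lt, Real.lt_log_iff_exp_lt hx, Real.log_lt_iff_lt_exp hx]

theorem vfun_ext_finite (hH : G.Hs ≠ ⊤) {t : ℂ} (ht : t ∈ Metric.ball (0 : ℂ) K.r) : K.VExt t := by
  set H : ℝ := G.Hs.toReal with hHdef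
  have hopen : IsOpen (G.slice t) := G.isOpen_slice t
  have hsub : K.S.Good t ⊆ G.slice t := fun y hy => hy.1
  -- bounds on the good set
  have hgood : ∀ y ∈ K.S.Good t, Real.exp (-H) < ‖K.vfun t y‖ ∧ ‖K.vfun t y‖ < Real.exp H := by
    intro y hy
    have h1 := K.vfun_bound ht hy
    rw [ENNReal.ofReal_lt_iff_lt_toReal (abs_nonneg _) hH] at h1
    exact (s5lv_abs_log_lt (norm_pos_iff.2 (K.vfun_ne_zero ht hy))).1 h1
  obtain ⟨v, hv, hvg⟩ := removable_discrete hopen (K.good_isOpen t) hsub (K.good_codiscrete ht)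
    (K.vfun_diff ht) (fun y hy => ⟨Real.exp H, by
      filter_upwards [K.good_codiscrete ht y hy] with y' hy'
      exact (hgood y' hy').2.le⟩)
  have hcont : ∀ y ∈ G.slice t, Tendsto (fun y' => ‖v y'‖) (𝓝[≠] y) (𝓝 ‖v y‖) := by
    intro y hy
    have : ContinuousAt v y := (hv.differentiableAt (hopen.mem_nhds hy)).continuousAt
    exact (this.norm.tendsto).mono_left nhdsWithin_le_nhds
  have hle : ∀ y ∈ G.slice t, Real.exp (-H) ≤ ‖v y‖ ∧ ‖v y‖ ≤ Real.exp H := by
    intro y hy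
    constructor
    · refine ge_of_tendsto (hcont y hy) ?_
      filter_upwards [K.good_codiscrete ht y hy] with y' hy'
      rw [hvg y' hy']
      exact (hgood y' hy').1.le
    · refine le_of_tendsto (hcont y hy) ?_
      filter_upwards [K.good_codiscrete ht y hy] with y' hy'
      rw [hvg y' hy']
      exact (hgood y' hy').2.le
  have hne : ∀ y ∈ G.slice t, v y ≠ 0 := by
    intro y hy
    exact norm_pos_iff.1 (lt_of_lt_of_le (Real.exp_pos _) (hle y hy).1)
  have h0 : (0 : ℂ) ∈ K.S.Good t := K.good0 t ht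
  have h0s : (0 : ℂ) ∈ G.slice t := hsub h0
  have hpre : IsPreconnected (G.slice t) := (G.convex_slice t).isPreconnected
  have hlt : ∀ y ∈ G.slice t, Real.exp (-H) < ‖v y‖ ∧ ‖v y‖ < Real.exp H := by
    intro y hy
    constructor
    · refine lt_of_le_of_ne (hle y hy).1 fun heq => ?_
      have hw : DifferentiableOn ℂ (fun z => (v z)⁻¹) (G.slice t) := hv.inv hne
      have hmax : IsMaxOn (norm ∘ fun z => (v z)⁻¹) (G.slice t) y := by
        intro z hz
        show ‖(v z)⁻¹‖ ≤ ‖(v y)⁻¹‖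
        rw [norm_inv, norm_inv, ← heq]
        exact inv_anti₀ (Real.exp_pos _) (hle z hz).1
      have hc := Complex.eqOn_of_isPreconnected_of_isMaxOn_norm hpre hopen hw hy hmax h0s
      have hc' : (v 0)⁻¹ = (v y)⁻¹ := hc
      have : v 0 = v y := inv_injective hc'
      have h1 := (hgood 0 h0).1
      rw [← hvg 0 h0, this, ← heq] at h1
      exact lt_irrefl _ h1
    · refine lt_of_le_of_ne (hle y hy).2 fun heq => ?_
      have hmax : IsMaxOn (norm ∘ v) (G.slice t) y := by
        intro z hz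
        show ‖v z‖ ≤ ‖v y‖
        rw [heq]
        exact (hle z hz).2
      have hc := Complex.eqOn_of_isPreconnected_of_isMaxOn_norm hpre hopen hv hy hmax h0s
      have hc' : v 0 = v y := hc
      have h1 := (hgood 0 h0).2
      rw [← hvg 0 h0, hc', heq] at h1
      exact lt_irrefl _ h1
  refine ⟨v, hv, hvg, fun y hy => ⟨hne y hy, ?_⟩⟩
  rw [ENNReal.ofReal_lt_iff_lt_toReal (abs_nonneg _) hH]
  exact (s5lv_abs_log_lt (norm_pos_iff.2 (hne y hy))).2 (hlt y hy)

end LiftCtx

end Claimed.Agent.R269
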