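/-
Row 269, Theorem 5.4, the case `H = ∞` of the extension of `v` over the exceptional points of a slice.  Statements: helper264.
PACKAGES: LF-S5d-inf1 = `not_essential`, `growth_of_order`;  LF-S5d-inf2 = `f_bounded_up`, `f_bounded`, `order_eq_zero`, `vfun_ext_infinite`.
Paper: 05-shapes.tex l.545-590, SIMPLIFIED: no rational functions; the end is "`f` is a bounded entire function".

Here `G.Hs = ⊤`, `estrip ⊤ = univ`, `φ` entire, `Γ` meromorphic on `ℂ`, `f = deriv K.C.φ`.  Fix `t` and `y₀ ∈ G.slice t`; `v = K.vfun t` is holomorphic and zero free on a punctured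
neighbourhood of `y₀` (`good_codiscrete`, `vfun_diff`), and `Γ(lam y) = x y` there for local logarithms `lam` of `v`.
* `not_essential`: if `v` is not meromorphic at `y₀`, take `s₁, s₂` with `f ≠ 0` and `Γ s₁ ≠ Γ s₂`.  By `casorati` there are `y_n → y₀` with `v y_n → exp(I s₁)`, so `lam(y_n) → s₁` mod `2π`,
  `x y_n = Γ(lam y_n) → Γ s₁` (`Γ_per`, continuity).  Same for `s₂`.  But each coordinate of `x` is meromorphic at `y₀`, so it has a limit in `ℂ ∪ {∞}` along `𝓝[≠] y₀`.  Contradiction.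
* `growth_of_order`: let `v` have order `k ≠ 0` at `y₀`.  By `Γ_conj`/real symmetry it suffices to get the bound in ONE of the half planes and we state the conclusion for the upper one after possibly
  conjugating: if `k > 0`: `v = (y-y₀)^k u`, `u(y₀) ≠ 0`; `v` maps every punctured neighbourhood onto a punctured neighbourhood of `0` with `|y-y₀| ≍ |w|^{1/k}`; `‖x y‖ ≤ C |y-y₀|^{-N}`;
  so for `Im s ≥ T`: `w = exp(I s)`, `Γ s = x y`, `‖Γ s‖ ≤ C' exp((N/k) Im s)`, in particular `Γ` has no pole there (`f s ≠ 0` by `Γ_pole`).  If `k < 0` the same in the lower half plane, then apply `Γ_conj`, `φ_conj`.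
* `f_bounded_up`: `Zc = Γ₁ + iΓ₂`, `Wc = Γ₁ - iΓ₂` are `2π`-periodic, holomorphic for `Im s > T`, `O(exp(M Im s))`.  With `q = exp(I s)` (Mathlib `Function.Periodic.cuspFunction`, Analysis/Complex/Periodic.lean):
  `q^{M'} Zc`, `q^{M'} Wc` extend analytically to `q = 0`.  `a² = -Zc'/Wc' = exp(2 i φ)` is then meromorphic at `q = 0`, zero free and pole free for `0 < |q| < δ`: `a² = q^m u(q)`, `u(0) ≠ 0`;
  `2 i f = (a²)'/a² = i (m + q u'(q)/u(q))` is bounded for `|q| ≤ δ/2`.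
* `f_bounded`: lower half plane by `φ_conj`; the middle band by periodicity and compactness.   Liouville: `f` is constant, against `K.nonconst` (`φ = φ₀` near the real axis).
* `vfun_ext_infinite`: order `0` at every point of the slice ⇒ `v` has a nonzero limit; `removable_discrete`.
-/
import Claimed.Agent.R269.S5.LiftV

set_option autoImplicit false

namespace Claimed.Agent.R269

open Complex ComplexConjugate Filter Topology MeasureTheory
open scoped ENNReal Real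

/-- a meromorphic germ has at most one finite cluster value. -/
theorem s5li_cluster_unique {g : ℂ → ℂ} {y₀ a b : ℂ} (hg : MeromorphicAt g y₀)
    (ha : ∀ U ∈ 𝓝 a, ∃ᶠ y in 𝓝[≠] y₀, g y ∈ U) (hb : ∀ U ∈ 𝓝 b, ∃ᶠ y in 𝓝[≠] y₀, g y ∈ U) :
    a = b := by
  rcases lt_or_ge (meromorphicOrderAt g y₀) 0 with ho | ho
  · exfalso
    have h1 := tendsto_cobounded_of_meromorphicOrderAt_neg ho
    have h2 : ∀ᶠ y in 𝓝[≠] y₀, g y ∈ (Metric.ball a 1)ᶜ :=
      h1.eventually (Bornology.isBounded_def.1 Metric.isBounded_ball)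
    obtain ⟨y, hy1, hy2⟩ := ((ha _ (Metric.ball_mem_nhds a one_pos)).and_eventually h2).exists
    exact hy2 hy1
  · obtain ⟨c, hc⟩ := tendsto_nhds_of_meromorphicOrderAt_nonneg hg ho
    have key : ∀ a' : ℂ, (∀ U ∈ 𝓝 a', ∃ᶠ y in 𝓝[≠] y₀, g y ∈ U) → a' = c := by
      intro a' ha'
      by_contra hne
      obtain ⟨U, hU, V, hV, hUV⟩ := Filter.disjoint_iff.1 (disjoint_nhds_nhds.2 hne)
      obtain ⟨y, hy1, hy2⟩ := ((ha' U hU).and_eventually (hc.eventually hV)).exists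
      exact Set.disjoint_left.1 hUV hy1 hy2
    rw [key a ha, key b hb]

/-- a meromorphic germ times a high power of a germ vanishing at the point is bounded. -/
theorem s5li_bdd_mul_pow {g h : ℂ → ℂ} {y₀ : ℂ} (hg : MeromorphicAt g y₀)
    (hpos : 0 < meromorphicOrderAt g y₀) (hh : MeromorphicAt h y₀) :
    ∃ N₀ : ℕ, ∀ N : ℕ, N₀ ≤ N → ∃ C : ℝ, ∀ᶠ y in 𝓝[≠] y₀, ‖h y‖ * ‖g y‖ ^ N ≤ C := by
  have main : ∀ N : ℕ, 0 ≤ meromorphicOrderAt h y₀ + N * meromorphicOrderAt g y₀ →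
      ∃ C : ℝ, ∀ᶠ y in 𝓝[≠] y₀, ‖h y‖ * ‖g y‖ ^ N ≤ C := by
    intro N hN
    have hm : MeromorphicAt (h * g ^ N) y₀ := hh.mul (hg.pow N)
    have ho : 0 ≤ meromorphicOrderAt (h * g ^ N) y₀ := by
      rw [meromorphicOrderAt_mul hh (hg.pow N), meromorphicOrderAt_pow hg]
      exact hN
    obtain ⟨c, hc⟩ := tendsto_nhds_of_meromorphicOrderAt_nonneg hm ho
    refine ⟨‖c‖ + 1, ?_⟩
    filter_upwards [hc.norm.eventually (eventually_le_nhds (lt_add_one ‖c‖))] with y hy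
    simpa using hy
  cases ha : meromorphicOrderAt h y₀ with
  | top =>
    refine ⟨0, fun N _ => main N ?_⟩
    rw [ha]
    simp
  | coe a =>
    cases hb : meromorphicOrderAt g y₀ with
    | top =>
      refine ⟨1, fun N hN => main N ?_⟩
      rw [ha, hb]
      have : (N : WithTop ℤ) ≠ 0 := by
        have : N ≠ 0 := by omega
        exact_mod_cast this
      rw [WithTop.mul_top this]
      simp
    | coe n =>
      have hn : 0 < n := by
        rw [hb] at hpos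
        exact_mod_cast hpos
      refine ⟨(-a).toNat, fun N hN => main N ?_⟩
      rw [ha, hb]
      have h1 : 0 ≤ a + (N : ℤ) * n := by
        have : -a ≤ N := by
          have := Int.self_le_toNat (-a)
          omega
        nlinarith
      exact_mod_cast h1

/-- a meromorphic germ with a zero takes all small nonzero values on every punctured neighbourhood. -/
theorem s5li_open_punctured {g : ℂ → ℂ} {y₀ : ℂ} (hg : MeromorphicAt g y₀)
    (hpos : 0 < meromorphicOrderAt g y₀) (hfin : meromorphicOrderAt g y₀ ≠ ⊤) {P : ℂ → Prop}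
    (hP : ∀ᶠ y in 𝓝[≠] y₀, P y) : ∀ᶠ w in 𝓝[≠] (0 : ℂ), ∃ y, P y ∧ g y = w := by
  obtain ⟨n, hn⟩ := WithTop.ne_top_iff_exists.1 hfin
  have hn0 : 0 < n := by
    rw [← hn] at hpos
    exact_mod_cast hpos
  obtain ⟨u, hu, hu0, hgu⟩ := (meromorphicOrderAt_eq_int_iff hg).1 hn.symm
  lift n to ℕ using hn0.le
  have hn1 : n ≠ 0 := by
    rintro rfl
    simp at hn0
  set g' : ℂ → ℂ := fun z => (z - y₀) ^ n * u z with hg'
  have hg'an : AnalyticAt ℂ g' y₀ := ((analyticAt_id.sub analyticAt_const).pow n).mul hu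
  have hg'0 : g' y₀ = 0 := by simp [hg', hn1]
  have hgg' : ∀ᶠ z in 𝓝[≠] y₀, g z = g' z := by
    filter_upwards [hgu] with z hz
    rw [hz]
    simp [hg']
  rcases hg'an.eventually_constant_or_nhds_le_map_nhds with hc | hc
  · exfalso
    apply hfin
    rw [meromorphicOrderAt_eq_top_iff]
    filter_upwards [hgg', hc.filter_mono nhdsWithin_le_nhds] with z h1 h2
    rw [h1, h2, hg'0]
  · have hQ : {z | z ≠ y₀ → P z ∧ g z = g' z} ∈ 𝓝 y₀ :=
      eventually_nhdsWithin_iff.1 (hP.and hgg')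
    have hI : g' '' {z | z ≠ y₀ → P z ∧ g z = g' z} ∈ 𝓝 (0 : ℂ) := by
      rw [← hg'0]
      exact hc (Filter.image_mem_map hQ)
    rw [eventually_nhdsWithin_iff]
    filter_upwards [hI] with w hw hw0
    obtain ⟨z, hz, rfl⟩ := hw
    have hzne : z ≠ y₀ := by
      rintro rfl
      exact hw0 hg'0
    exact ⟨z, (hz hzne).1, (hz hzne).2⟩

theorem s5li_growth_core {g x₁ x₂ : ℂ → ℂ} {y₀ : ℂ} (hg : MeromorphicAt g y₀)
    (hpos : 0 < meromorphicOrderAt g y₀) (hfin : meromorphicOrderAt g y₀ ≠ ⊤)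
    (h1 : MeromorphicAt x₁ y₀) (h2 : MeromorphicAt x₂ y₀) {P : ℂ → Prop}
    (hP : ∀ᶠ y in 𝓝[≠] y₀, P y) :
    ∃ (N : ℕ) (C δ : ℝ), 0 < δ ∧ ∀ w : ℂ, w ≠ 0 → ‖w‖ < δ →
      ∃ y, P y ∧ g y = w ∧ ‖x₁ y‖ * ‖w‖ ^ N ≤ C ∧ ‖x₂ y‖ * ‖w‖ ^ N ≤ C := by
  obtain ⟨N₁, hN₁⟩ := s5li_bdd_mul_pow hg hpos h1
  obtain ⟨N₂, hN₂⟩ := s5li_bdd_mul_pow hg hpos h2
  obtain ⟨C₁, hC₁⟩ := hN₁ (max N₁ N₂) (le_max_left _ _)
  obtain ⟨C₂, hC₂⟩ := hN₂ (max N₁ N₂) (le_max_right _ _)
  have hev := s5li_open_punctured hg hpos hfin (hP.and (hC₁.and hC₂))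
  obtain ⟨δ, hδ, hball⟩ := Metric.eventually_nhds_iff_ball.1 (eventually_nhdsWithin_iff.1 hev)
  refine ⟨max N₁ N₂, max C₁ C₂, δ, hδ, fun w hw0 hw => ?_⟩
  obtain ⟨y, ⟨hy1, hy2, hy3⟩, rfl⟩ := hball w (by simpa using hw) hw0
  exact ⟨y, hy1, rfl, hy2.trans (le_max_left _ _), hy3.trans (le_max_right _ _)⟩

theorem s5li_ev_iff {p : ℂ → Prop} :
    (∀ᶠ z in comap Complex.im atTop, p z) ↔ ∃ A : ℝ, ∀ z : ℂ, A ≤ z.im → p z := by
  rw [Filter.eventually_comap, eventually_atTop]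
  constructor
  · rintro ⟨A, hA⟩
    exact ⟨A, fun z hz => hA z.im hz z rfl⟩
  · rintro ⟨A, hA⟩
    exact ⟨A, fun b hb z hz => hA z (hz ▸ hb)⟩

theorem s5li_qParam (z : ℂ) : Function.Periodic.qParam (2 * π) z = Complex.exp (I * z) := by
  unfold Function.Periodic.qParam
  congr 1
  have : (π : ℂ) ≠ 0 := by exact_mod_cast Real.pi_ne_zero
  push_cast
  field_simp

/-- a `2π`-periodic function, holomorphic, zero free and of exponential growth in an upper half plane, is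
`exp (i m s) u (exp (i s))` with `u` analytic and nonzero at `0`. -/
theorem s5li_cusp_factor {B : ℂ → ℂ} (hper : ∀ s, B (s + 2 * π) = B s) {T C M : ℝ}
    (hd : ∀ s : ℂ, T ≤ s.im → DifferentiableAt ℂ B s)
    (hb : ∀ s : ℂ, T ≤ s.im → ‖B s‖ ≤ C * Real.exp (M * s.im))
    (hne : ∀ s : ℂ, T ≤ s.im → B s ≠ 0) :
    ∃ (m : ℤ) (u : ℂ → ℂ) (T' : ℝ), AnalyticAt ℂ u 0 ∧ u 0 ≠ 0 ∧
      ∀ s : ℂ, T' ≤ s.im → B s = Complex.exp (I * m * s) * u (Complex.exp (I * s)) := by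
  obtain ⟨N, hN⟩ := exists_nat_ge M
  set B' : ℂ → ℂ := fun s => Complex.exp (I * N * s) * B s with hB'
  have h2π : (0 : ℝ) < 2 * π := by positivity
  have hper' : Function.Periodic B' ((2 * π : ℝ) : ℂ) := by
    intro s
    simp only [hB']
    push_cast
    rw [hper s]
    congr 1
    have e : I * N * (s + 2 * π) = I * N * s + (N : ℤ) * (2 * π * I) := by push_cast; ring
    rw [e, Complex.exp_add, Complex.exp_int_mul_two_pi_mul_I, mul_one]
  have hhol : ∀ᶠ z in comap Complex.im atTop, DifferentiableAt ℂ B' z := by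
    rw [s5li_ev_iff]
    refine ⟨T, fun z hz => ?_⟩
    exact (((differentiableAt_id).const_mul (I * N)).cexp).mul (hd z hz)
  have hbd : BoundedAtFilter (comap Complex.im atTop) B' := by
    refine Asymptotics.IsBigO.of_bound |C| ?_
    rw [s5li_ev_iff]
    refine ⟨max T 0, fun z hz => ?_⟩
    have hz1 : T ≤ z.im := le_trans (le_max_left _ _) hz
    have hz0 : 0 ≤ z.im := le_trans (le_max_right _ _) hz
    simp only [hB', norm_mul, Pi.one_apply, norm_one, mul_one]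
    have hn : ‖Complex.exp (I * N * z)‖ = Real.exp (-(N * z.im)) := by
      rw [Complex.norm_exp]
      simp
    rw [hn]
    calc Real.exp (-(N * z.im)) * ‖B z‖ ≤ Real.exp (-(N * z.im)) * (C * Real.exp (M * z.im)) :=
          mul_le_mul_of_nonneg_left (hb z hz1) (Real.exp_pos _).le
      _ = C * Real.exp ((M - N) * z.im) := by
          rw [mul_left_comm, ← Real.exp_add]
          congr 2
          ring
      _ ≤ |C| * Real.exp ((M - N) * z.im) :=
          mul_le_mul_of_nonneg_right (le_abs_self C) (Real.exp_pos _).le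
      _ ≤ |C| * 1 := by
          refine mul_le_mul_of_nonneg_left ?_ (abs_nonneg C)
          rw [Real.exp_le_one_iff]
          exact mul_nonpos_of_nonpos_of_nonneg (by linarith) hz0
      _ = |C| := mul_one _
  set b : ℂ → ℂ := Function.Periodic.cuspFunction (2 * π) B' with hbdef
  have hb0 : DifferentiableAt ℂ b 0 :=
    Function.Periodic.differentiableAt_cuspFunction_zero h2π hper' hhol hbd
  have hb1 : ∀ᶠ q in 𝓝[≠] (0 : ℂ), DifferentiableAt ℂ b q :=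
    Function.Periodic.eventually_differentiableAt_cuspFunction_nhds_ne_zero h2π hper' hhol
  have hban : AnalyticAt ℂ b 0 := by
    rw [Complex.analyticAt_iff_eventually_differentiableAt]
    filter_upwards [eventually_nhdsWithin_iff.1 hb1] with q hq
    by_cases h0 : q = 0
    · rw [h0]; exact hb0
    · exact hq h0
  have hbq : ∀ z : ℂ, b (Complex.exp (I * z)) = B' z := by
    intro z
    rw [← s5li_qParam]
    exact Function.Periodic.eq_cuspFunction h2π.ne' hper' z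
  have htend : Tendsto (fun z : ℂ => Complex.exp (I * z)) (comap Complex.im atTop) (𝓝 0) := by
    have := (Function.Periodic.qParam_tendsto h2π).mono_right nhdsWithin_le_nhds
    refine this.congr fun z => s5li_qParam z
  have hnz : ¬ ∀ᶠ q in 𝓝 (0 : ℂ), b q = 0 := by
    intro h
    obtain ⟨A, hA⟩ := s5li_ev_iff.1 (htend.eventually h)
    have h1 := hA ((max A T : ℝ) * I) (by simp)
    rw [hbq] at h1
    exact mul_ne_zero (Complex.exp_ne_zero _) (hne _ (by simp)) h1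
  obtain ⟨n, u, hu, hu0, hbu⟩ := hban.exists_eventuallyEq_pow_smul_nonzero_iff.2 hnz
  obtain ⟨A, hA⟩ := s5li_ev_iff.1 (htend.eventually hbu)
  refine ⟨(n : ℤ) - N, u, A, hu, hu0, fun s hs => ?_⟩
  have h1 := hA s hs
  rw [hbq, sub_zero, smul_eq_mul] at h1
  have h2 : B s = Complex.exp (-(I * N * s)) * B' s := by
    simp only [hB']
    rw [← mul_assoc, ← Complex.exp_add]
    simp
  rw [h2, h1, ← Complex.exp_nat_mul, ← mul_assoc, ← Complex.exp_add]
  congr 2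
  push_cast
  ring

theorem s5li_logderiv {φ U : ℂ → ℂ} (hφ : Differentiable ℂ φ) (hU : AnalyticAt ℂ U 0)
    (hU0 : U 0 ≠ 0) {m : ℤ} {T : ℝ}
    (h : ∀ s : ℂ, T ≤ s.im → Complex.exp (2 * I * φ s - I * m * s) = U (Complex.exp (I * s))) :
    ∃ T' C₁ : ℝ, ∀ s : ℂ, T' ≤ s.im → ‖deriv φ s‖ ≤ C₁ := by
  have hR : ContinuousAt (fun q : ℂ => q * deriv U q / U q) 0 :=
    (continuousAt_id.mul hU.deriv.continuousAt).div hU.continuousAt hU0
  have hR1 : ∀ᶠ q in 𝓝 (0 : ℂ), ‖q * deriv U q / U q‖ < 1 := by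
    have h0 : ‖(0 : ℂ) * deriv U 0 / U 0‖ < 1 := by simp
    exact hR.norm.eventually_lt continuousAt_const h0
  have hev := hR1.and (hU.eventually_analyticAt.and (hU.continuousAt.eventually_ne hU0))
  obtain ⟨δ, hδ, hball⟩ := Metric.eventually_nhds_iff_ball.1 hev
  refine ⟨max T (-Real.log δ) + 1, (|(m : ℝ)| + 1) / 2, fun s hs => ?_⟩
  have hs1 : T < s.im := lt_of_le_of_lt (le_max_left _ _) (by linarith)
  have hs2 : -Real.log δ < s.im := lt_of_le_of_lt (le_max_right _ _) (by linarith)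
  set q : ℂ := Complex.exp (I * s) with hq
  have hqn : ‖q‖ < δ := by
    rw [hq, Complex.norm_exp]
    have : (I * s).re = -s.im := by simp
    rw [this, ← Real.lt_log_iff_exp_lt hδ]
    linarith
  obtain ⟨b1, b2, b3⟩ := hball q (by simpa using hqn)
  have d1 : HasDerivAt (fun z : ℂ => Complex.exp (2 * I * φ z - I * m * z))
      (Complex.exp (2 * I * φ s - I * m * s) * (2 * I * deriv φ s - I * m * 1)) s :=
    (((hφ s).hasDerivAt.const_mul (2 * I)).sub ((hasDerivAt_id s).const_mul (I * m))).cexp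
  have d2 : HasDerivAt (fun z : ℂ => U (Complex.exp (I * z)))
      (deriv U q * (Complex.exp (I * s) * (I * 1))) s :=
    b2.differentiableAt.hasDerivAt.comp s ((hasDerivAt_id s).const_mul I).cexp
  have hee : (fun z : ℂ => Complex.exp (2 * I * φ z - I * m * z)) =ᶠ[𝓝 s]
      fun z : ℂ => U (Complex.exp (I * z)) := by
    have hop : IsOpen {z : ℂ | T < z.im} := isOpen_lt continuous_const Complex.continuous_im
    filter_upwards [hop.mem_nhds hs1] with z hz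
    exact h z (le_of_lt hz)
  have e := d1.unique (d2.congr_of_eventuallyEq hee)
  rw [h s hs1.le, ← hq] at e
  have e2 : 2 * deriv φ s = m + q * deriv U q / U q := by
    field_simp
    have : I * (U q * (2 * deriv φ s) - (U q * m + q * deriv U q)) = 0 := by linear_combination e
    have h0 := (mul_eq_zero.1 this).resolve_left I_ne_zero
    linear_combination h0
  have e3 : ‖2 * deriv φ s‖ ≤ |(m : ℝ)| + 1 := by
    rw [e2]
    refine (norm_add_le _ _).trans (add_le_add ?_ b1.le)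
    rw [Complex.norm_intCast]
  rw [norm_mul] at e3
  have : ‖(2 : ℂ)‖ = 2 := by simp
  rw [this] at e3
  linarith

namespace LiftCtx

variable {G : Glance} (K : LiftCtx G)

/-- a point of the slice where `v = exp (I s)` gives the value of `Γ` at `s`. -/
theorem s5li_of_vfun_eq (hH : G.Hs = ⊤) {t : ℂ} (ht : t ∈ Metric.ball (0 : ℂ) K.r) {y s : ℂ}
    (hy : y ∈ K.S.Good t) (h : K.vfun t y = Complex.exp (I * s)) :
    deriv K.C.φ s ≠ 0 ∧ K.C.Γ s = K.S.xs t y := by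
  obtain ⟨lam, hl⟩ := K.all_good_lift ht y hy
  obtain ⟨h1, -, h3⟩ := K.lift_regular hy hl
  rw [K.s5lv_vfun_pt hy hl, Complex.exp_eq_exp_iff_exists_int] at h
  obtain ⟨n, hn⟩ := h
  have e : s = lam y + 2 * π * ((-n : ℤ) : ℂ) := by
    have : I * (lam y - s - 2 * π * n) = 0 := by linear_combination hn
    have h0 := (mul_eq_zero.1 this).resolve_left I_ne_zero
    push_cast
    linear_combination -h0
  obtain ⟨p1, p2⟩ := K.C.s5lg_per_int (Curve.s5ls_univ hH _) h1 (-n)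
  rw [e, p1, p2]
  exact ⟨h1, h3⟩

theorem s5li_vfun_diff_ev {t : ℂ} (ht : t ∈ Metric.ball (0 : ℂ) K.r) {y₀ : ℂ}
    (hy₀ : y₀ ∈ G.slice t) : ∀ᶠ y in 𝓝[≠] y₀, DifferentiableAt ℂ (K.vfun t) y := by
  filter_upwards [K.good_codiscrete ht y₀ hy₀] with y hy
  exact (K.vfun_diff ht).differentiableAt ((K.good_isOpen t).mem_nhds hy)

/-- at an essential singularity of `v` every regular value of `Γ` is a cluster value of the slice. -/
theorem s5li_cluster (hH : G.Hs = ⊤) {t : ℂ} (ht : t ∈ Metric.ball (0 : ℂ) K.r) {y₀ : ℂ}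
    (hy₀ : y₀ ∈ G.slice t) (hm : ¬ MeromorphicAt (K.vfun t) y₀) {s₁ : ℂ} (hs₁ : deriv K.C.φ s₁ ≠ 0) :
    ∀ U ∈ 𝓝 (K.C.Γ s₁), ∃ᶠ y in 𝓝[≠] y₀, K.S.xs t y ∈ U := by
  intro U hU
  have hc : ContinuousAt K.C.Γ s₁ := (K.C.Γ_deriv s₁ (Curve.s5ls_univ hH _) hs₁).continuousAt
  have hpre : K.C.Γ ⁻¹' U ∈ 𝓝 s₁ := hc hU
  have hd : HasStrictDerivAt (fun s : ℂ => Complex.exp (I * s)) (Complex.exp (I * s₁) * (I * 1)) s₁ :=
    ((hasStrictDerivAt_id s₁).const_mul I).cexp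
  have hmap := hd.map_nhds_eq (mul_ne_zero (Complex.exp_ne_zero _) (by simp))
  have hW : (fun s : ℂ => Complex.exp (I * s)) '' (K.C.Γ ⁻¹' U) ∈ 𝓝 (Complex.exp (I * s₁)) := by
    rw [← hmap]
    exact Filter.image_mem_map hpre
  have hcas := casorati (K.s5li_vfun_diff_ev ht hy₀) hm (Complex.exp (I * s₁))
  have hev : ∀ᶠ p : ℂ × ℂ in (𝓝[≠] y₀) ×ˢ 𝓝 (Complex.exp (I * s₁)), p.1 ∈ K.S.Good t ∧
      p.2 ∈ (fun s : ℂ => Complex.exp (I * s)) '' (K.C.Γ ⁻¹' U) :=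
    (Filter.tendsto_fst.eventually (K.good_codiscrete ht y₀ hy₀)).and (Filter.tendsto_snd.eventually hW)
  have hfr : ∃ᶠ p : ℂ × ℂ in (𝓝[≠] y₀) ×ˢ 𝓝 (Complex.exp (I * s₁)), K.S.xs t p.1 ∈ U := by
    refine (hcas.and_eventually hev).mono ?_
    rintro ⟨y, w⟩ ⟨h1, h2, s, hs, h3⟩
    simp only at h1 h2 h3
    have := (K.s5li_of_vfun_eq hH ht h2 (h1.trans h3.symm)).2
    show K.S.xs t y ∈ U
    rw [← this]
    exact hs
  exact Filter.tendsto_fst.frequently hfr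

/-- two regular parameters with different values of `Γ`. -/
theorem s5li_two_values (hH : G.Hs = ⊤) :
    ∃ s₁ s₂ : ℂ, deriv K.C.φ s₁ ≠ 0 ∧ deriv K.C.φ s₂ ≠ 0 ∧ K.C.Γ s₁ ≠ K.C.Γ s₂ := by
  have hf0 : deriv K.C.φ ((0 : ℝ) : ℂ) ≠ 0 := K.C.s5ls_f_real_ne 0
  set s₁ : ℂ := ((0 : ℝ) : ℂ) with hs₁
  by_contra hcon
  push Not at hcon
  have hfc : ContinuousAt (deriv K.C.φ) s₁ :=
    (K.C.s5ls_f_analytic s₁ (Curve.s5ls_univ hH _)).continuousAt
  have hev : ∀ᶠ s in 𝓝 s₁, K.C.Γ s = K.C.Γ s₁ := by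
    filter_upwards [hfc.eventually_ne hf0] with s hs
    exact (hcon s₁ s hf0 hs).symm
  have d1 := K.C.Γ_deriv s₁ (Curve.s5ls_univ hH _) hf0
  have d2 : HasDerivAt K.C.Γ 0 s₁ := (hasDerivAt_const s₁ (K.C.Γ s₁)).congr_of_eventuallyEq hev
  have e := d1.unique d2
  have hA := K.C.s5ls_A_ne hf0
  rw [smul_eq_zero] at e
  have e' := e.resolve_left hA
  have e1 : Complex.sin (K.C.φ s₁) = 0 := by
    have := congrArg Prod.fst e'
    simpa using this
  have e2 : Complex.cos (K.C.φ s₁) = 0 := by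
    have := congrArg Prod.snd e'
    simpa using this
  have := Complex.sin_sq_add_cos_sq (K.C.φ s₁)
  rw [e1, e2] at this
  norm_num at this

theorem not_essential (hH : G.Hs = ⊤) {t : ℂ} (ht : t ∈ Metric.ball (0 : ℂ) K.r) {y₀ : ℂ}
    (hy₀ : y₀ ∈ G.slice t) : MeromorphicAt (K.vfun t) y₀ := by
  by_contra hm
  obtain ⟨s₁, s₂, h1, h2, hne⟩ := K.s5li_two_values hH
  have c1 := K.s5li_cluster hH ht hy₀ hm h1
  have c2 := K.s5li_cluster hH ht hy₀ hm h2
  obtain ⟨m1, m2⟩ := K.xs_mero ht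
  apply hne
  have hfst : ∀ s : ℂ, (∀ U ∈ 𝓝 (K.C.Γ s), ∃ᶠ y in 𝓝[≠] y₀, K.S.xs t y ∈ U) →
      ∀ U ∈ 𝓝 (K.C.Γ s).1, ∃ᶠ y in 𝓝[≠] y₀, (K.S.xs t y).1 ∈ U := by
    intro s hs U hU
    exact hs (Prod.fst ⁻¹' U) (continuous_fst.continuousAt hU)
  have hsnd : ∀ s : ℂ, (∀ U ∈ 𝓝 (K.C.Γ s), ∃ᶠ y in 𝓝[≠] y₀, K.S.xs t y ∈ U) →
      ∀ U ∈ 𝓝 (K.C.Γ s).2, ∃ᶠ y in 𝓝[≠] y₀, (K.S.xs t y).2 ∈ U := by
    intro s hs U hU
    exact hs (Prod.snd ⁻¹' U) (continuous_snd.continuousAt hU)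
  exact Prod.ext (s5li_cluster_unique (m1 y₀ hy₀) (hfst s₁ c1) (hfst s₂ c2))
    (s5li_cluster_unique (m2 y₀ hy₀) (hsnd s₁ c1) (hsnd s₂ c2))

theorem s5li_growth_aux (hH : G.Hs = ⊤) {t : ℂ} (ht : t ∈ Metric.ball (0 : ℂ) K.r) {y₀ : ℂ}
    (hy₀ : y₀ ∈ G.slice t) {g : ℂ → ℂ} {ε : ℂ} (hg : MeromorphicAt g y₀)
    (hpos : 0 < meromorphicOrderAt g y₀) (hfin : meromorphicOrderAt g y₀ ≠ ⊤)
    (hgv : ∀ y ∈ K.S.Good t, ∀ s : ℂ, g y = Complex.exp (I * s) →
      K.vfun t y = Complex.exp (I * (ε * s))) :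
    ∃ (N : ℕ) (T C : ℝ), ∀ s : ℂ, T ≤ s.im →
      deriv K.C.φ (ε * s) ≠ 0 ∧ ‖K.C.Γ (ε * s)‖ ≤ C * Real.exp (N * s.im) := by
  obtain ⟨m1, m2⟩ := K.xs_mero ht
  obtain ⟨N, C, δ, hδ, hw⟩ := s5li_growth_core hg hpos hfin (m1 y₀ hy₀) (m2 y₀ hy₀)
    (K.good_codiscrete ht y₀ hy₀)
  refine ⟨N, -Real.log δ + 1, C, fun s hs => ?_⟩
  have hnorm : ‖Complex.exp (I * s)‖ = Real.exp (-s.im) := by
    rw [Complex.norm_exp]
    simp
  have hlt : ‖Complex.exp (I * s)‖ < δ := by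
    rw [hnorm, ← Real.lt_log_iff_exp_lt hδ]
    linarith
  obtain ⟨y, hy, hgy, b1, b2⟩ := hw _ (Complex.exp_ne_zero _) hlt
  obtain ⟨q1, q2⟩ := K.s5li_of_vfun_eq hH ht hy (hgv y hy s hgy)
  refine ⟨q1, ?_⟩
  rw [q2]
  have hpw : Real.exp (-s.im) ^ N * Real.exp (N * s.im) = 1 := by
    rw [← Real.exp_nat_mul, ← Real.exp_add]
    simp
  rw [hnorm] at b1 b2
  have hb : ∀ a : ℝ, a * Real.exp (-s.im) ^ N ≤ C → a ≤ C * Real.exp (N * s.im) := by
    intro a ha
    calc a = a * Real.exp (-s.im) ^ N * Real.exp (N * s.im) := by rw [mul_assoc, hpw, mul_one]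
      _ ≤ C * Real.exp (N * s.im) := mul_le_mul_of_nonneg_right ha (Real.exp_pos _).le
  exact max_le (hb _ b1) (hb _ b2)

theorem s5li_f_conj (hH : G.Hs = ⊤) (s : ℂ) : deriv K.C.φ (conj s) = conj (deriv K.C.φ s) := by
  have e : K.C.φ = conj ∘ K.C.φ ∘ conj := by
    funext z
    simp only [Function.comp_apply]
    rw [K.C.φ_conj z (Curve.s5ls_univ hH z), Complex.conj_conj]
  have h := congrFun (deriv_conj_conj (f := K.C.φ)) (conj s)
  rw [← e] at h
  simpa using h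

/-- exponential growth of the curve in the upper half plane. -/
def GrowthUp : Prop :=
  ∃ M T C₀ : ℝ, ∀ s : ℂ, T ≤ s.im → deriv K.C.φ s ≠ 0 ∧ ‖K.C.Γ s‖ ≤ C₀ * Real.exp (M * s.im)

theorem growth_of_order (hH : G.Hs = ⊤) {t : ℂ} (ht : t ∈ Metric.ball (0 : ℂ) K.r) {y₀ : ℂ}
    (hy₀ : y₀ ∈ G.slice t) (hm : MeromorphicAt (K.vfun t) y₀)
    (hk : meromorphicOrderAt (K.vfun t) y₀ ≠ 0) : K.GrowthUp := by
  have hfin : meromorphicOrderAt (K.vfun t) y₀ ≠ ⊤ := by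
    intro h
    rw [meromorphicOrderAt_eq_top_iff] at h
    obtain ⟨y, h1, h2⟩ := (h.and (K.good_codiscrete ht y₀ hy₀)).exists
    exact K.vfun_ne_zero ht h2 h1
  rcases lt_or_gt_of_ne hk with hneg | hpos
  · have hinv : meromorphicOrderAt (K.vfun t)⁻¹ y₀ = -meromorphicOrderAt (K.vfun t) y₀ :=
      meromorphicOrderAt_inv
    obtain ⟨n, hn⟩ := WithTop.ne_top_iff_exists.1 hfin
    have hn0 : n < 0 := by
      rw [← hn] at hneg
      exact_mod_cast hneg
    have hinv' : meromorphicOrderAt (K.vfun t)⁻¹ y₀ = ((-n : ℤ) : WithTop ℤ) := by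
      rw [hinv, ← hn]
      rfl
    obtain ⟨N, T, C, h⟩ := K.s5li_growth_aux hH ht hy₀ (g := (K.vfun t)⁻¹) (ε := -1) hm.inv
      (by rw [hinv']; exact_mod_cast (by omega : 0 < -n)) (by rw [hinv']; exact WithTop.coe_ne_top)
      (by
        intro y _ s hs
        have h1 : (K.vfun t y)⁻¹ = Complex.exp (I * s) := hs
        rw [← inv_inv (K.vfun t y), h1, ← Complex.exp_neg]
        congr 1
        ring)
    refine ⟨N, T, C, fun s hs => ?_⟩
    have h1 := h (-conj s) (by simpa using hs)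
    have e : (-1 : ℂ) * (-conj s) = conj s := by ring
    rw [e] at h1
    have him : (-conj s).im = s.im := by simp
    rw [him] at h1
    constructor
    · intro h0
      apply h1.1
      rw [K.s5li_f_conj hH, h0, map_zero]
    · have h2 := K.C.Γ_conj (conj s) (Curve.s5ls_univ hH _) h1.1
      rw [Complex.conj_conj] at h2
      rw [h2]
      refine le_trans (le_of_eq ?_) h1.2
      simp [Prod.norm_def]
  · obtain ⟨N, T, C, h⟩ := K.s5li_growth_aux hH ht hy₀ (g := K.vfun t) (ε := 1) hm hpos hfin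
      (by
        intro y _ s hs
        rw [one_mul]
        exact hs)
    refine ⟨N, T, C, fun s hs => ?_⟩
    have := h s hs
    rwa [one_mul] at this

theorem s5li_φ_diff (hH : G.Hs = ⊤) : Differentiable ℂ K.C.φ := fun s =>
  (K.C.s5ls_φ_hasDerivAt (Curve.s5ls_univ hH s)).differentiableAt

theorem s5li_f_diff (hH : G.Hs = ⊤) : Differentiable ℂ (deriv K.C.φ) := fun s =>
  (K.C.s5ls_f_analytic s (Curve.s5ls_univ hH s)).differentiableAt

/-- Cauchy estimate for `Γ'`. -/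
theorem s5li_deriv_bound (hH : G.Hs = ⊤) {M T C₀ : ℝ}
    (hg : ∀ s : ℂ, T ≤ s.im → deriv K.C.φ s ≠ 0 ∧ ‖K.C.Γ s‖ ≤ C₀ * Real.exp (M * s.im)) {s : ℂ}
    (hs : max (T + 1) 0 ≤ s.im) :
    ‖deriv K.C.Γ s‖ ≤ |C₀| * Real.exp |M| * Real.exp (|M| * s.im) := by
  have hs1 : T + 1 ≤ s.im := le_trans (le_max_left _ _) hs
  have hs0 : 0 ≤ s.im := le_trans (le_max_right _ _) hs
  have him : ∀ z ∈ Metric.closedBall s 1, |z.im - s.im| ≤ 1 := by
    intro z hz
    have h1 : ‖z - s‖ ≤ 1 := by simpa [dist_eq_norm] using hz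
    have h2 := Complex.abs_im_le_norm (z - s)
    rw [Complex.sub_im] at h2
    exact h2.trans h1
  have hdiff : DifferentiableOn ℂ K.C.Γ {z : ℂ | T ≤ z.im} := by
    intro z hz
    exact (K.C.Γ_deriv z (Curve.s5ls_univ hH z) (hg z hz).1).differentiableAt.differentiableWithinAt
  have hsub : Metric.closedBall s 1 ⊆ {z : ℂ | T ≤ z.im} := by
    intro z hz
    have := abs_le.1 (him z hz)
    show T ≤ z.im
    linarith [this.1]
  have hdc : DiffContOnCl ℂ K.C.Γ (Metric.ball s 1) := hdiff.diffContOnCl_ball hsub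
  have hC : ∀ z ∈ Metric.sphere s 1, ‖K.C.Γ z‖ ≤ |C₀| * Real.exp |M| * Real.exp (|M| * s.im) := by
    intro z hz
    have hz' := Metric.sphere_subset_closedBall hz
    have h1 := abs_le.1 (him z hz')
    refine ((hg z (hsub hz')).2).trans ?_
    rw [mul_assoc, ← Real.exp_add]
    refine mul_le_mul (le_abs_self _) ?_ (Real.exp_pos _).le (abs_nonneg _)
    rw [Real.exp_le_exp]
    have h2 : |z.im| ≤ s.im + 1 := abs_le.2 ⟨by linarith [h1.1], by linarith [h1.2]⟩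
    calc M * z.im ≤ |M * z.im| := le_abs_self _
      _ = |M| * |z.im| := abs_mul _ _
      _ ≤ |M| * (s.im + 1) := mul_le_mul_of_nonneg_left h2 (abs_nonneg _)
      _ = |M| + |M| * s.im := by ring
  have := Complex.norm_deriv_le_of_forall_mem_sphere_norm_le one_pos hdc hC
  simpa using this

theorem s5li_E_bound (hH : G.Hs = ⊤) {M T C₀ : ℝ}
    (hg : ∀ s : ℂ, T ≤ s.im → deriv K.C.φ s ≠ 0 ∧ ‖K.C.Γ s‖ ≤ C₀ * Real.exp (M * s.im)) {s : ℂ}
    (hs : max (T + 1) 0 ≤ s.im) (ε : ℂ) (hε : ε = 1 ∨ ε = -1) :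
    ‖Complex.exp (ε * I * K.C.φ s) / deriv K.C.φ s ^ 2‖ ≤
      2 * |C₀| * Real.exp |M| / G.c * Real.exp (|M| * s.im) := by
  have hs1 : T ≤ s.im := by
    have := le_trans (le_max_left _ _) hs
    linarith
  have hf := (hg s hs1).1
  have hb := K.s5li_deriv_bound hH hg hs
  rw [(K.C.Γ_deriv s (Curve.s5ls_univ hH s) hf).deriv] at hb
  set A : ℂ := (G.c : ℂ) / deriv K.C.φ s ^ 2 with hA
  set D : ℝ := |C₀| * Real.exp |M| * Real.exp (|M| * s.im) with hD
  have hb1 : ‖A * Complex.sin (K.C.φ s)‖ ≤ D := by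
    have := (norm_fst_le (A • (-Complex.sin (K.C.φ s), Complex.cos (K.C.φ s)))).trans hb
    simpa using this
  have hb2 : ‖A * Complex.cos (K.C.φ s)‖ ≤ D := by
    have := (norm_snd_le (A • (-Complex.sin (K.C.φ s), Complex.cos (K.C.φ s)))).trans hb
    simpa using this
  have hc : (G.c : ℂ) ≠ 0 := by exact_mod_cast G.c_pos.ne'
  have hexp : Complex.exp (ε * I * K.C.φ s) = Complex.cos (K.C.φ s) + ε * Complex.sin (K.C.φ s) * I := by
    rcases hε with rfl | rfl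
    · have : (1 : ℂ) * I * K.C.φ s = K.C.φ s * I := by ring
      rw [this, Complex.exp_mul_I]; ring
    · have : (-1 : ℂ) * I * K.C.φ s = (-K.C.φ s) * I := by ring
      rw [this, Complex.exp_mul_I, Complex.cos_neg, Complex.sin_neg]; ring
  have hεn : ‖ε‖ = 1 := by
    rcases hε with rfl | rfl <;> simp
  have e : Complex.exp (ε * I * K.C.φ s) / deriv K.C.φ s ^ 2 =
      (A * Complex.cos (K.C.φ s) + ε * I * (A * Complex.sin (K.C.φ s))) / G.c := by
    rw [hexp, hA]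
    field_simp
  rw [e, norm_div]
  have hcn : ‖(G.c : ℂ)‖ = G.c := by
    rw [Complex.norm_real, Real.norm_eq_abs, abs_of_pos G.c_pos]
  rw [hcn, div_le_iff₀ G.c_pos]
  have h3 : ‖A * Complex.cos (K.C.φ s) + ε * I * (A * Complex.sin (K.C.φ s))‖ ≤ D + D := by
    refine (norm_add_le _ _).trans (add_le_add hb2 ?_)
    rw [norm_mul, norm_mul, hεn, Complex.norm_I, one_mul, one_mul]
    exact hb1
  refine h3.trans (le_of_eq ?_)
  rw [hD]
  have hc' : G.c ≠ 0 := G.c_pos.ne'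
  field_simp
  ring

theorem s5li_E_factor (hH : G.Hs = ⊤) (hg : K.GrowthUp) (ε : ℂ) (hε : ε = 1 ∨ ε = -1) :
    ∃ (m : ℤ) (u : ℂ → ℂ) (T' : ℝ), AnalyticAt ℂ u 0 ∧ u 0 ≠ 0 ∧
      ∀ s : ℂ, T' ≤ s.im → deriv K.C.φ s ≠ 0 ∧ Complex.exp (ε * I * K.C.φ s) / deriv K.C.φ s ^ 2 =
        Complex.exp (I * m * s) * u (Complex.exp (I * s)) := by
  obtain ⟨M, T, C₀, hg⟩ := hg
  have hT : ∀ s : ℂ, max (T + 1) 0 ≤ s.im → T ≤ s.im := by
    intro s hs
    have := le_trans (le_max_left _ _) hs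
    linarith
  obtain ⟨m, u, T', hu, hu0, h⟩ := s5li_cusp_factor
    (B := fun s => Complex.exp (ε * I * K.C.φ s) / deriv K.C.φ s ^ 2) (T := max (T + 1) 0)
    (C := 2 * |C₀| * Real.exp |M| / G.c) (M := |M|)
    (by
      intro s
      rw [K.C.φ_per s (Curve.s5ls_univ hH s), K.C.s5lg_f_per (Curve.s5ls_univ hH s)]
      congr 1
      rcases hε with rfl | rfl
      · have e : (1 : ℂ) * I * (K.C.φ s + 2 * π) = 1 * I * K.C.φ s + (1 : ℤ) * (2 * π * I) := by
          push_cast; ring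
        rw [e, Complex.exp_add, Complex.exp_int_mul_two_pi_mul_I, mul_one]
      · have e : (-1 : ℂ) * I * (K.C.φ s + 2 * π) = -1 * I * K.C.φ s + (-1 : ℤ) * (2 * π * I) := by
          push_cast; ring
        rw [e, Complex.exp_add, Complex.exp_int_mul_two_pi_mul_I, mul_one])
    (by
      intro s hs
      exact (((K.s5li_φ_diff hH s).const_mul (ε * I)).cexp).div ((K.s5li_f_diff hH s).pow 2)
        (pow_ne_zero 2 (hg s (hT s hs)).1))
    (fun s hs => K.s5li_E_bound hH hg hs ε hε)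
    (fun s hs => div_ne_zero (Complex.exp_ne_zero _) (pow_ne_zero 2 (hg s (hT s hs)).1))
  refine ⟨m, u, max T' (max (T + 1) 0), hu, hu0, fun s hs => ?_⟩
  exact ⟨(hg s (hT s (le_trans (le_max_right _ _) hs))).1, h s (le_trans (le_max_left _ _) hs)⟩

theorem f_bounded_up (hH : G.Hs = ⊤) (hg : K.GrowthUp) :
    ∃ T C₁ : ℝ, ∀ s : ℂ, T ≤ s.im → ‖deriv K.C.φ s‖ ≤ C₁ := by
  obtain ⟨m₁, u₁, T₁, hu₁, hu₁0, h₁⟩ := K.s5li_E_factor hH hg 1 (Or.inl rfl)
  obtain ⟨m₂, u₂, T₂, hu₂, hu₂0, h₂⟩ := K.s5li_E_factor hH hg (-1) (Or.inr rfl)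
  refine s5li_logderiv (K.s5li_φ_diff hH) (U := fun q => u₁ q / u₂ q) (hu₁.div hu₂ hu₂0)
    (div_ne_zero hu₁0 hu₂0) (m := m₁ - m₂) (T := max T₁ T₂) ?_
  intro s hs
  obtain ⟨hf, e₁⟩ := h₁ s (le_trans (le_max_left _ _) hs)
  obtain ⟨-, e₂⟩ := h₂ s (le_trans (le_max_right _ _) hs)
  have hf2 : deriv K.C.φ s ^ 2 ≠ 0 := pow_ne_zero 2 hf
  set q : ℂ := Complex.exp (I * s) with hq
  have hu2q : u₂ q ≠ 0 := by
    intro h0
    rw [h0, mul_zero] at e₂
    exact div_ne_zero (Complex.exp_ne_zero _) hf2 e₂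
  have x1 : Complex.exp (1 * I * K.C.φ s) = Complex.exp (I * m₁ * s) * u₁ q * deriv K.C.φ s ^ 2 := by
    rw [← e₁]; field_simp
  have x2 : Complex.exp (-1 * I * K.C.φ s) = Complex.exp (I * m₂ * s) * u₂ q * deriv K.C.φ s ^ 2 := by
    rw [← e₂]; field_simp
  have x3 : Complex.exp (2 * I * K.C.φ s - I * ((m₁ - m₂ : ℤ) : ℂ) * s) * Complex.exp (-1 * I * K.C.φ s)
      * Complex.exp (I * m₁ * s) = Complex.exp (1 * I * K.C.φ s) * Complex.exp (I * m₂ * s) := by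
    rw [← Complex.exp_add, ← Complex.exp_add, ← Complex.exp_add]
    congr 1
    push_cast
    ring
  rw [x1, x2] at x3
  have hne : Complex.exp (I * m₁ * s) * Complex.exp (I * m₂ * s) * deriv K.C.φ s ^ 2 ≠ 0 :=
    mul_ne_zero (mul_ne_zero (Complex.exp_ne_zero _) (Complex.exp_ne_zero _)) hf2
  show _ = u₁ q / u₂ q
  rw [eq_div_iff hu2q]
  apply mul_left_cancel₀ hne
  linear_combination x3

theorem f_bounded (hH : G.Hs = ⊤) (hg : K.GrowthUp) : ∃ C₁ : ℝ, ∀ s : ℂ, ‖deriv K.C.φ s‖ ≤ C₁ := by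
  obtain ⟨T, C₁, h⟩ := K.f_bounded_up hH hg
  have hper : Function.Periodic (deriv K.C.φ) (2 * π : ℂ) := fun s =>
    K.C.s5lg_f_per (Curve.s5ls_univ hH s)
  have hK : IsCompact (Set.Icc (0 : ℝ) (2 * π) ×ℂ Set.Icc (-|T|) |T|) :=
    isCompact_Icc.reProdIm isCompact_Icc
  obtain ⟨C₂, hC₂⟩ := hK.exists_bound_of_continuousOn (K.s5li_f_diff hH).continuous.continuousOn
  refine ⟨max C₁ C₂, fun s => ?_⟩
  by_cases h1 : T ≤ s.im
  · exact (h s h1).trans (le_max_left _ _)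
  by_cases h2 : T ≤ -s.im
  · have := h (conj s) (by simpa using h2)
    rw [K.s5li_f_conj hH, Complex.norm_conj] at this
    exact this.trans (le_max_left _ _)
  push Not at h1 h2
  have h2π : (0 : ℝ) < 2 * π := by positivity
  set k : ℤ := ⌊s.re / (2 * π)⌋ with hk
  have e : deriv K.C.φ (s - k • (2 * π : ℂ)) = deriv K.C.φ s := hper.sub_zsmul_eq k
  rw [← e]
  refine (hC₂ _ ?_).trans (le_max_right _ _)
  rw [Complex.mem_reProdIm]
  have hre : (s - k • (2 * π : ℂ)).re = s.re - k * (2 * π) := by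
    simp
  have him : (s - k • (2 * π : ℂ)).im = s.im := by
    simp
  rw [hre, him]
  have f1 : (k : ℝ) ≤ s.re / (2 * π) := Int.floor_le _
  have f2 : s.re / (2 * π) < k + 1 := Int.lt_floor_add_one _
  rw [le_div_iff₀ h2π] at f1
  rw [div_lt_iff₀ h2π] at f2
  refine ⟨⟨by linarith, by linarith⟩, ⟨?_, ?_⟩⟩
  · have := le_abs_self T
    linarith
  · have := le_abs_self T
    linarith

theorem not_growthUp (hH : G.Hs = ⊤) : ¬ K.GrowthUp := by
  intro hg
  obtain ⟨C₁, h⟩ := K.f_bounded hH hg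
  have hb : Bornology.IsBounded (Set.range (deriv K.C.φ)) := by
    rw [isBounded_iff_forall_norm_le]
    refine ⟨C₁, ?_⟩
    rintro _ ⟨s, rfl⟩
    exact h s
  apply K.nonconst
  refine ⟨deriv K.C.φ 0, fun x => ?_⟩
  rw [← (K.s5li_f_diff hH).apply_eq_apply_of_bounded hb (x : ℂ) 0]
  apply Filter.EventuallyEq.deriv_eq
  filter_upwards [(s5ls_isOpen_hstrip (G.s / 2)).mem_nhds (G.s5ls_real_mem_half x)] with y hy
  exact (K.C.φ_base y hy).symm

theorem order_eq_zero (hH : G.Hs = ⊤) {t : ℂ} (ht : t ∈ Metric.ball (0 : ℂ) K.r) {y₀ : ℂ}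
    (hy₀ : y₀ ∈ G.slice t) : meromorphicOrderAt (K.vfun t) y₀ = 0 := by
  by_contra hk
  exact K.not_growthUp hH (K.growth_of_order hH ht hy₀ (K.not_essential hH ht hy₀) hk)

theorem vfun_ext_infinite (hH : G.Hs = ⊤) {t : ℂ} (ht : t ∈ Metric.ball (0 : ℂ) K.r) :
    K.VExt t := by
  have hlim : ∀ y ∈ G.slice t, ∃ c ≠ 0, Tendsto (K.vfun t) (𝓝[≠] y) (𝓝 c) := fun y hy =>
    tendsto_ne_zero_of_meromorphicOrderAt_eq_zero (K.not_essential hH ht hy) (K.order_eq_zero hH ht hy)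
  have hopen : IsOpen (G.slice t) := G.isOpen_slice t
  obtain ⟨v, hv, hvg⟩ := removable_discrete hopen (K.good_isOpen t) (fun y hy => hy.1)
    (K.good_codiscrete ht) (K.vfun_diff ht) (fun y hy => by
      obtain ⟨c, -, hc⟩ := hlim y hy
      exact ⟨‖c‖ + 1, hc.norm.eventually (eventually_le_nhds (lt_add_one ‖c‖))⟩)
  refine ⟨v, hv, hvg, fun y hy => ⟨?_, by rw [hH]; exact ENNReal.ofReal_lt_top⟩⟩
  obtain ⟨c, hc0, hc⟩ := hlim y hy
  have h1 : Tendsto v (𝓝[≠] y) (𝓝 (v y)) :=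
    ((hv.differentiableAt (hopen.mem_nhds hy)).continuousAt.tendsto).mono_left nhdsWithin_le_nhds
  have h2 : Tendsto v (𝓝[≠] y) (𝓝 c) := by
    refine hc.congr' ?_
    filter_upwards [K.good_codiscrete ht y hy] with y' hy'
    exact (hvg y' hy').symm
  rw [tendsto_nhds_unique h1 h2]
  exact hc0

theorem vfun_ext {t : ℂ} (ht : t ∈ Metric.ball (0 : ℂ) K.r) : K.VExt t := by
  by_cases hH : G.Hs = ⊤
  · exact K.vfun_ext_infinite hH ht
  · exact K.vfun_ext_finite hH ht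

end LiftCtx

end Claimed.Agent.R269
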