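/-
Row 269, Theorem 5.4: the lift on one slice, and the definition of the global lift.  Statements: helper264.
PACKAGE LF-S5d-log (this file; ONE OWNER).

PLAN.  `slice_lift`: take `v` from `K.vfun_ext ht`; `exists_log_convex` (Lib/CA1Prim) on the convex open `G.slice t` with `y₀ = 0`, `l₀ = ℓ(0,t)` (`vfun_eq` + `base_lift` give `exp(I ℓ(0,t)) = v 0`).
 * `lam y ∈ estrip G.Hs`: `log ‖exp(I lam y)‖ = - Im (lam y)`.
 * at `y ∈ Good t`: a lift germ `mu` exists; `exp(I lam) = v = exp(I mu)` near `y`, so `lam - mu ∈ 2πℤ` is continuous, hence locally constant `= 2πk`; `lift_add_period`.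
 * `lam = ℓ(·,t)` on `hstrip w`: both are holomorphic on the connected `hstrip w ⊆ slice t`, `exp(I lam) = exp(I ℓ)` on `hstrip w ∩ Good t` (dense), so `lam - ℓ(·,t)` is continuous with values in `2πℤ`,
   constant on the connected strip, and zero at `0`.
-/
import Claimed.Agent.R269.S5.LiftInf

set_option autoImplicit false

namespace Claimed.Agent.R269

open Complex ComplexConjugate Filter Topology MeasureTheory
open scoped ENNReal Real

/-- two continuous logarithms of the same function differ locally by a constant in `2πℤ`. -/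
theorem s5ll_exp_eq {a b : ℂ → ℂ} {y : ℂ} (ha : ContinuousAt a y) (hb : ContinuousAt b y)
    (h : ∀ᶠ y' in 𝓝 y, Complex.exp (I * a y') = Complex.exp (I * b y')) :
    ∃ k : ℤ, ∀ᶠ y' in 𝓝 y, a y' = b y' + 2 * π * k := by
  have hpt : ∀ y', Complex.exp (I * a y') = Complex.exp (I * b y') →
      ∃ n : ℤ, a y' = b y' + 2 * π * n := by
    intro y' hy'
    obtain ⟨n, hn⟩ := Complex.exp_eq_exp_iff_exists_int.1 hy'
    refine ⟨n, ?_⟩
    have hI : (I : ℂ) ≠ 0 := Complex.I_ne_zero
    have : I * a y' = I * (b y' + 2 * π * n) := by rw [hn]; ring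
    exact mul_left_cancel₀ hI this
  obtain ⟨k, hk⟩ := hpt y h.self_of_nhds
  refine ⟨k, ?_⟩
  have hd : ContinuousAt (fun y' => a y' - b y' - 2 * π * k) y := (ha.sub hb).sub continuousAt_const
  have hd0 : a y - b y - 2 * π * k = 0 := by rw [hk]; ring
  have hsmall : ∀ᶠ y' in 𝓝 y, ‖a y' - b y' - 2 * π * k‖ < 1 := by
    have := hd.norm
    apply this.eventually_lt continuousAt_const
    simp only [hd0, norm_zero]
    exact one_pos
  filter_upwards [h, hsmall] with y' h1 h2
  obtain ⟨n, hn⟩ := hpt y' h1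
  have e : a y' - b y' - 2 * π * k = ((2 * π * ((n - k : ℤ) : ℝ) : ℝ) : ℂ) := by
    rw [hn]; push_cast; ring
  rw [e, Complex.norm_real, Real.norm_eq_abs, abs_mul, abs_of_pos (by positivity : (0 : ℝ) < 2 * π)] at h2
  have hnk : n - k = 0 := by
    by_contra hne
    have h3 : (1 : ℝ) ≤ |((n - k : ℤ) : ℝ)| := by
      have := Int.one_le_abs hne
      exact_mod_cast this
    have h4 : (1 : ℝ) < 2 * π := by linarith [Real.pi_gt_three]
    nlinarith
  have : n = k := by omega
  rw [hn, this]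

namespace LiftCtx

variable {G : Glance} (K : LiftCtx G)

theorem slice_lift {t : ℂ} (ht : t ∈ Metric.ball (0 : ℂ) K.r) :
    ∃ lam : ℂ → ℂ, DifferentiableOn ℂ lam (G.slice t) ∧ (∀ y ∈ G.slice t, lam y ∈ estrip G.Hs) ∧
      (∀ y ∈ K.S.Good t, K.C.IsLiftAt t lam y) ∧ ∀ y ∈ hstrip K.B.w, lam y = K.B.ℓ (y, t) := by
  obtain ⟨v, hvd, hvG, hvb⟩ := K.vfun_ext ht
  have hopen : IsOpen (G.slice t) := G.isOpen_slice t
  have hg0 : (0 : ℂ) ∈ K.S.Good t := K.good0 t ht
  have h0s : (0 : ℂ) ∈ G.slice t := hg0.1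
  have h0w : (0 : ℂ) ∈ hstrip K.B.w := by
    show |(0 : ℂ).im| < K.B.w
    simpa using K.B.w_pos
  have hbase0 := K.base_lift ht h0w
  have hl : Complex.exp (I * K.B.ℓ (0, t)) = v 0 := by
    rw [hvG 0 hg0, K.s5lv_vfun_pt hg0 hbase0]
  obtain ⟨lam, hlamd, hlam0, hlamexp⟩ := exists_log_convex hopen (G.convex_slice t) hvd
    (fun y hy => (hvb y hy).1) h0s hl
  have hlamAn : ∀ y ∈ G.slice t, AnalyticAt ℂ lam y := fun y hy =>
    hlamd.analyticAt (hopen.mem_nhds hy)
  -- local comparison with a lift germ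
  have hcmp : ∀ y ∈ K.S.Good t, ∀ mu : ℂ → ℂ, K.C.IsLiftAt t mu y →
      ∃ k : ℤ, ∀ᶠ y' in 𝓝 y, lam y' = mu y' + 2 * π * k := by
    intro y hy mu hmu
    apply s5ll_exp_eq (hlamAn y hy.1).continuousAt hmu.1.continuousAt
    filter_upwards [K.vfun_eq hy hmu, (K.good_isOpen t).mem_nhds hy] with y' h1 h2
    rw [hlamexp y' h2.1, hvG y' h2, h1]
  refine ⟨lam, hlamd, ?_, ?_, ?_⟩
  · intro y hy
    have h1 := (hvb y hy).2
    rw [← hlamexp y hy, Complex.norm_exp, Real.log_exp] at h1
    have h2 : (I * lam y).re = -(lam y).im := by simp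
    rw [h2, abs_neg] at h1
    exact h1
  · intro y hy
    obtain ⟨mu, hmu⟩ := K.all_good_lift ht y hy
    obtain ⟨k, hk⟩ := hcmp y hy mu hmu
    exact (K.lift_add_period hy hmu k).s5lh_congr hk
  · obtain ⟨k, hk⟩ := hcmp 0 hg0 _ hbase0
    have hk0 : (2 * π * k : ℂ) = 0 := by
      have := hk.self_of_nhds
      rw [hlam0] at this
      have h2 : K.B.ℓ (0, t) + 0 = K.B.ℓ (0, t) + 2 * π * k := by rw [add_zero]; exact this
      exact (add_left_cancel h2).symm
    have hev : lam =ᶠ[𝓝 0] fun y => K.B.ℓ (y, t) := by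
      filter_upwards [hk] with y' hy'
      rw [hy', hk0, add_zero]
    have htρ : t ∈ Metric.ball (0 : ℂ) K.B.ρ₀ := Metric.ball_subset_ball K.r_le' ht
    have htr : t ∈ Metric.ball (0 : ℂ) G.r₁ := Metric.ball_subset_ball K.B.ρ₀_le htρ
    have hsub : hstrip K.B.w ⊆ G.slice t := by
      intro y hy
      apply G.hstrip_subset_slice htr
      have h1 : |y.im| < K.B.w := hy
      have h2 := K.B.w_le
      have h3 := K.B.w_pos
      show |y.im| < G.s
      linarith
    have hwo : IsOpen (hstrip K.B.w) :=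
      isOpen_lt (continuous_abs.comp Complex.continuous_im) continuous_const
    have hwc : IsPreconnected (hstrip K.B.w) := by
      apply Convex.isPreconnected
      have h1 : Convex ℝ {z : ℂ | -K.B.w < z.im} := convex_halfSpace_im_gt _
      have h2 : Convex ℝ {z : ℂ | z.im < K.B.w} := convex_halfSpace_im_lt _
      have : hstrip K.B.w = {z : ℂ | -K.B.w < z.im} ∩ {z : ℂ | z.im < K.B.w} := by
        ext z
        show |z.im| < K.B.w ↔ -K.B.w < z.im ∧ z.im < K.B.w
        exact abs_lt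
      rw [this]
      exact h1.inter h2
    have hℓd : DifferentiableOn ℂ (fun y => K.B.ℓ (y, t)) (hstrip K.B.w) := by
      have h2 : DifferentiableOn ℂ (fun y : ℂ => (y, t)) (hstrip K.B.w) := by fun_prop
      exact K.B.diff.comp h2 (fun y hy => ⟨hy, htρ⟩)
    have := ((hlamd.mono hsub).analyticOnNhd hwo).eqOn_of_preconnected_of_eventuallyEq
      (hℓd.analyticOnNhd hwo) hwc h0w hev
    exact fun y hy => this hy

open Classical in
/-- the global lift, defined slice by slice. -/
noncomputable def lift (z : ℂ × ℂ) : ℂ :=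
  if h : z.2 ∈ Metric.ball (0 : ℂ) K.r then Classical.choose (K.slice_lift h) z.1 else 0

theorem lift_spec {t : ℂ} (ht : t ∈ Metric.ball (0 : ℂ) K.r) :
    DifferentiableOn ℂ (fun y => K.lift (y, t)) (G.slice t) ∧
      (∀ y ∈ G.slice t, K.lift (y, t) ∈ estrip G.Hs) ∧
      (∀ y ∈ K.S.Good t, K.C.IsLiftAt t (fun y' => K.lift (y', t)) y) ∧
      ∀ y ∈ hstrip K.B.w, K.lift (y, t) = K.B.ℓ (y, t) := by
  have h := Classical.choose_spec (K.slice_lift ht)
  have e : (fun y => K.lift (y, t)) = Classical.choose (K.slice_lift ht) := by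
    funext y
    simp only [lift]
    rw [dif_pos ht]
  have e' : ∀ y, K.lift (y, t) = Classical.choose (K.slice_lift ht) y := fun y => congrFun e y
  refine ⟨e ▸ h.1, fun y hy => (e' y) ▸ h.2.1 y hy, fun y hy => e ▸ h.2.2.1 y hy,
    fun y hy => (e' y) ▸ h.2.2.2 y hy⟩

/-- uniqueness on a slice: a holomorphic function on the slice which agrees with the base lift near `0` and is a lift … is not
needed; we only use: two holomorphic functions on the slice which agree near `0` agree everywhere. -/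
theorem slice_identity {t : ℂ} {g₁ g₂ : ℂ → ℂ} (h₁ : DifferentiableOn ℂ g₁ (G.slice t))
    (h₂ : DifferentiableOn ℂ g₂ (G.slice t)) {y₀ : ℂ} (hy₀ : y₀ ∈ G.slice t) (h : g₁ =ᶠ[𝓝 y₀] g₂) :
    Set.EqOn g₁ g₂ (G.slice t) :=
  (h₁.analyticOnNhd (G.isOpen_slice t)).eqOn_of_preconnected_of_eventuallyEq
    (h₂.analyticOnNhd (G.isOpen_slice t)) (G.convex_slice t).isPreconnected hy₀ h

end LiftCtx

end Claimed.Agent.R269
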