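/-
Row 269, Theorem 5.4: JOINT analyticity of the slice-wise lift.  Statements: helper264.
PACKAGES: LF-S5d-joint1 = `good_isOpen₂`, `rank_one`, `joint_local`;  LF-S5d-joint2 (file LiftJoint2.lean) = `joint_base … lift_analytic`.

PLAN (joint1).
* `good_isOpen₂`: the tube is open (`isOpen_tube`, `K.S.lsc_X`), analyticity at a point is an open condition, and for `X` analytic near `(y,t)` the slice derivatives
  `deriv (xs t') y'`, `deriv (deriv (xs t')) y'` are the partial derivatives of `X`, continuous in `(y',t')`.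
* `rank_one`: fix `t`.  `g(y) := det(∂_y X, ∂_t X)(y,t)` is analytic on the open set `A_t = {y ∈ slice t | X analytic at (y,t)}`, which is connected (`analytic_codiscrete`,
  `isPreconnected_diff_discrete`), and vanishes on `hstrip (G.s/2)`: there `X = X0 = suppPt hc ∘ ψ` is a function of the single scalar `ψ(y,t)`.  Identity theorem.
* `joint_local` (RANK LEMMA).  `z₀ = (y,t)`, `s₀ = lift z₀`, `f s₀ ≠ 0`, `Γ' s₀ ≠ 0`: choose the coordinate `c` with `Γ_c'(s₀) ≠ 0`; then `∂_y X_c(z₀) = Γ_c'(s₀) lam'(y) ≠ 0`.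
  `exists_straighten` (Lib/SCVParam) for `u = X_c`: new coordinates `(w,t)`, `w = X_c`.  In them the other coordinate `Yo(w,t') := X_{c'}(Y(w,t'),t')` has `∂_{t'} Yo = 0` (chain rule + `rank_one` at the nearby
  analytic points), so `Yo(w,t') = Yo(w,t)` on a bidisc.  `ι :=` analytic local inverse of `Γ_c` at `s₀` (`exists_local_inverse`), `σ := ι ∘ X_c`.  Then `Γ_c(σ z) = X_c z`; on the slice `t`: `σ(y',t) = lift(y',t)`
  (both are `ι`-preimages near `s₀`: `Γ_c(lift(y',t)) = X_c(y',t)` and `lift(y',t) → s₀`); hence `Γ_{c'}(ι w) = Yo(w,t)` for `w` near `X_c z₀`, and `Γ_{c'}(σ z) = Yo(X_c z, t) = Yo(X_c z, z.2) = X_{c'} z`.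
-/
import Claimed.Agent.R269.S5.LiftLog
import Claimed.Agent.R269.Lib.SCVParam

set_option autoImplicit false

namespace Claimed.Agent.R269

open Complex ComplexConjugate Filter Topology MeasureTheory
open scoped ENNReal Real

section pd

variable {E : Type*} [NormedAddCommGroup E] [NormedSpace ℂ E]

theorem lj1_hasDerivAt_dy {F : ℂ × ℂ → E} {z : ℂ × ℂ} (hF : DifferentiableAt ℂ F z) :
    HasDerivAt (fun y => F (y, z.2)) (fderiv ℂ F z (1, 0)) z.1 := by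
  have hl : HasDerivAt (fun y : ℂ => ((y, z.2) : ℂ × ℂ)) (1, 0) z.1 :=
    (hasDerivAt_id _).prodMk (hasDerivAt_const _ _)
  exact HasFDerivAt.comp_hasDerivAt (f := fun y : ℂ => ((y, z.2) : ℂ × ℂ)) z.1 hF.hasFDerivAt hl

theorem lj1_hasDerivAt_dt {F : ℂ × ℂ → E} {z : ℂ × ℂ} (hF : DifferentiableAt ℂ F z) :
    HasDerivAt (fun t => F (z.1, t)) (fderiv ℂ F z (0, 1)) z.2 := by
  have hl : HasDerivAt (fun t : ℂ => ((z.1, t) : ℂ × ℂ)) (0, 1) z.2 :=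
    (hasDerivAt_const _ _).prodMk (hasDerivAt_id _)
  exact HasFDerivAt.comp_hasDerivAt (f := fun t : ℂ => ((z.1, t) : ℂ × ℂ)) z.2 hF.hasFDerivAt hl

variable [CompleteSpace E]

/-- the partial derivative in the first variable of an analytic function is analytic -/
theorem lj1_analyticAt_dy {F : ℂ × ℂ → E} {z₀ : ℂ × ℂ} (hF : AnalyticAt ℂ F z₀) :
    AnalyticAt ℂ (fun z : ℂ × ℂ => deriv (fun y => F (y, z.2)) z.1) z₀ := by
  have h1 : AnalyticAt ℂ (fun z => fderiv ℂ F z (1, 0)) z₀ :=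
    ((ContinuousLinearMap.apply ℂ E ((1 : ℂ), (0 : ℂ))).analyticAt _).comp hF.fderiv
  refine h1.congr ?_
  filter_upwards [hF.eventually_analyticAt] with z hz
  exact (lj1_hasDerivAt_dy hz.differentiableAt).deriv.symm

/-- the partial derivative in the second variable of an analytic function is analytic -/
theorem lj1_analyticAt_dt {F : ℂ × ℂ → E} {z₀ : ℂ × ℂ} (hF : AnalyticAt ℂ F z₀) :
    AnalyticAt ℂ (fun z : ℂ × ℂ => deriv (fun t => F (z.1, t)) z.2) z₀ := by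
  have h1 : AnalyticAt ℂ (fun z => fderiv ℂ F z (0, 1)) z₀ :=
    ((ContinuousLinearMap.apply ℂ E ((0 : ℂ), (1 : ℂ))).analyticAt _).comp hF.fderiv
  refine h1.congr ?_
  filter_upwards [hF.eventually_analyticAt] with z hz
  exact (lj1_hasDerivAt_dt hz.differentiableAt).deriv.symm

end pd

/-- a function of two variables, analytic near a point, whose second partial derivative vanishes nearby, does not depend
on the second variable -/
theorem lj1_const_snd {F : ℂ × ℂ → ℂ} {w₀ t : ℂ} (hF : AnalyticAt ℂ F (w₀, t))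
    (h0 : ∀ᶠ w in 𝓝 (w₀, t), fderiv ℂ F w (0, 1) = 0) : ∀ᶠ w in 𝓝 (w₀, t), F w = F (w.1, t) := by
  obtain ⟨ε, hε, hb⟩ := Metric.eventually_nhds_iff_ball.1 (hF.eventually_analyticAt.and h0)
  filter_upwards [Metric.ball_mem_nhds _ hε] with w hw
  have hw' : w.1 ∈ Metric.ball w₀ ε ∧ w.2 ∈ Metric.ball t ε := by
    rw [← ball_prod_same] at hw
    exact hw
  have hmem : ∀ t' ∈ Metric.ball t ε, ((w.1, t') : ℂ × ℂ) ∈ Metric.ball ((w₀, t) : ℂ × ℂ) ε := by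
    intro t' ht'
    rw [← ball_prod_same]
    exact ⟨hw'.1, ht'⟩
  have hd : ∀ t' ∈ Metric.ball t ε, HasDerivAt (fun s => F (w.1, s)) 0 t' := by
    intro t' ht'
    obtain ⟨a1, a2⟩ := hb _ (hmem t' ht')
    have hl : HasDerivAt (fun s : ℂ => ((w.1, s) : ℂ × ℂ)) (0, 1) t' :=
      (hasDerivAt_const _ _).prodMk (hasDerivAt_id _)
    have := HasFDerivAt.comp_hasDerivAt (f := fun s : ℂ => ((w.1, s) : ℂ × ℂ)) t'
      a1.differentiableAt.hasFDerivAt hl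
    rw [a2] at this
    exact this
  exact Metric.isOpen_ball.is_const_of_deriv_eq_zero (f := fun s => F (w.1, s))
    (convex_ball t ε).isPreconnected
    (fun s hs => (hd s hs).differentiableAt.differentiableWithinAt)
    (fun s hs => (hd s hs).deriv) hw'.2 (Metric.mem_ball_self hε)

/-- in the straightened coordinates the second function has vanishing `t`-derivative -/
theorem lj1_straight_dt {X₁ X₂ Y : ℂ × ℂ → ℂ} {w : ℂ × ℂ}
    (hY : DifferentiableAt ℂ Y w) (h₁ : DifferentiableAt ℂ X₁ (Y w, w.2))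
    (h₂ : DifferentiableAt ℂ X₂ (Y w, w.2))
    (hne : fderiv ℂ X₁ (Y w, w.2) (1, 0) ≠ 0)
    (hr : fderiv ℂ X₁ (Y w, w.2) (1, 0) * fderiv ℂ X₂ (Y w, w.2) (0, 1) =
      fderiv ℂ X₂ (Y w, w.2) (1, 0) * fderiv ℂ X₁ (Y w, w.2) (0, 1))
    (he : ∀ᶠ w' in 𝓝 w, X₁ (Y w', w'.2) = w'.1) :
    fderiv ℂ (fun w' : ℂ × ℂ => X₂ (Y w', w'.2)) w (0, 1) = 0 := by
  have hΨ : HasFDerivAt (fun w' : ℂ × ℂ => ((Y w', w'.2) : ℂ × ℂ))
      ((fderiv ℂ Y w).prod (ContinuousLinearMap.snd ℂ ℂ ℂ)) w :=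
    hY.hasFDerivAt.prodMk hasFDerivAt_snd
  have c₁ := HasFDerivAt.comp (g := X₁) (f := fun w' : ℂ × ℂ => ((Y w', w'.2) : ℂ × ℂ)) w
    h₁.hasFDerivAt hΨ
  have c₂ := HasFDerivAt.comp (g := X₂) (f := fun w' : ℂ × ℂ => ((Y w', w'.2) : ℂ × ℂ)) w
    h₂.hasFDerivAt hΨ
  have c₁' : HasFDerivAt (X₁ ∘ fun w' : ℂ × ℂ => ((Y w', w'.2) : ℂ × ℂ))
      (ContinuousLinearMap.fst ℂ ℂ ℂ) w :=
    (hasFDerivAt_fst (𝕜 := ℂ) (E := ℂ) (F := ℂ) (p := w)).congr_of_eventuallyEq he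
  have u := c₁.unique c₁'
  have u' := congrArg (fun L : ℂ × ℂ →L[ℂ] ℂ => L (0, 1)) u
  simp only [ContinuousLinearMap.comp_apply, ContinuousLinearMap.prod_apply,
    ContinuousLinearMap.coe_snd', ContinuousLinearMap.coe_fst'] at u'
  have e₂ : fderiv ℂ (fun w' : ℂ × ℂ => X₂ (Y w', w'.2)) w (0, 1) =
      fderiv ℂ X₂ (Y w, w.2) (fderiv ℂ Y w (0, 1), 1) := by
    have := c₂.fderiv
    have h3 : (X₂ ∘ fun w' : ℂ × ℂ => ((Y w', w'.2) : ℂ × ℂ)) =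
      fun w' : ℂ × ℂ => X₂ (Y w', w'.2) := rfl
    rw [h3] at this
    rw [this]
    simp only [ContinuousLinearMap.comp_apply, ContinuousLinearMap.prod_apply,
      ContinuousLinearMap.coe_snd']
  rw [e₂]
  set a := fderiv ℂ Y w (0, 1) with ha
  have dec : ((a, 1) : ℂ × ℂ) = a • ((1, 0) : ℂ × ℂ) + ((0, 1) : ℂ × ℂ) := by
    ext <;> simp
  rw [dec, map_add, map_smul, smul_eq_mul] at u' ⊢
  have : fderiv ℂ X₁ (Y w, w.2) (1, 0) *
      (a * fderiv ℂ X₂ (Y w, w.2) (1, 0) + fderiv ℂ X₂ (Y w, w.2) (0, 1)) = 0 := by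
    have : fderiv ℂ X₁ (Y w, w.2) (1, 0) *
      (a * fderiv ℂ X₂ (Y w, w.2) (1, 0) + fderiv ℂ X₂ (Y w, w.2) (0, 1)) =
      fderiv ℂ X₂ (Y w, w.2) (1, 0) *
        (a * fderiv ℂ X₁ (Y w, w.2) (1, 0) + fderiv ℂ X₁ (Y w, w.2) (0, 1)) := by
      linear_combination hr
    rw [this, u', mul_zero]
  exact (mul_eq_zero.1 this).resolve_left hne

/-- RANK LEMMA -/
theorem lj1_rank_lemma {X₁ X₂ : ℂ × ℂ → ℂ} {γ₁ γ₂ lam : ℂ → ℂ} {y t : ℂ}
    (hX₁ : AnalyticAt ℂ X₁ (y, t)) (hX₂ : AnalyticAt ℂ X₂ (y, t))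
    (hlam : AnalyticAt ℂ lam y) (hγ₁ : AnalyticAt ℂ γ₁ (lam y))
    (hd : deriv γ₁ (lam y) ≠ 0) (hl : deriv lam y ≠ 0)
    (e₁ : ∀ᶠ y' in 𝓝 y, γ₁ (lam y') = X₁ (y', t)) (e₂ : ∀ᶠ y' in 𝓝 y, γ₂ (lam y') = X₂ (y', t))
    (hr : ∀ᶠ z in 𝓝 (y, t), fderiv ℂ X₁ z (1, 0) * fderiv ℂ X₂ z (0, 1) =
      fderiv ℂ X₂ z (1, 0) * fderiv ℂ X₁ z (0, 1)) :
    ∃ σ : ℂ × ℂ → ℂ, AnalyticAt ℂ σ (y, t) ∧
      (∀ᶠ z in 𝓝 (y, t), γ₁ (σ z) = X₁ z ∧ γ₂ (σ z) = X₂ z) ∧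
      ∀ᶠ y' in 𝓝 y, σ (y', t) = lam y' := by
  have hw₀ : γ₁ (lam y) = X₁ (y, t) := e₁.self_of_nhds
  -- the `y`-derivative of `X₁`
  have hdy : fderiv ℂ X₁ (y, t) (1, 0) ≠ 0 := by
    have d1 : HasDerivAt (fun y' => X₁ (y', t)) (fderiv ℂ X₁ (y, t) (1, 0)) y :=
      lj1_hasDerivAt_dy (z := (y, t)) hX₁.differentiableAt
    have d2 : HasDerivAt (fun y' => γ₁ (lam y')) (deriv γ₁ (lam y) * deriv lam y) y :=
      HasDerivAt.comp (h₂ := γ₁) (h := lam) y hγ₁.differentiableAt.hasDerivAt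
        hlam.differentiableAt.hasDerivAt
    have d3 := d2.congr_of_eventuallyEq (e₁.mono fun y' h => h.symm)
    rw [d1.unique d3]
    exact mul_ne_zero hd hl
  have hdy' : deriv (fun y' => X₁ (y', ((y, t) : ℂ × ℂ).2)) ((y, t) : ℂ × ℂ).1 ≠ 0 := by
    rw [(lj1_hasDerivAt_dy (z := (y, t)) hX₁.differentiableAt).deriv]
    exact hdy
  obtain ⟨Y, hY, hY0, hYl, hYr⟩ := exists_straighten hX₁ hdy'
  simp only at hY hY0 hYr
  set w₀ := X₁ (y, t) with hw₀'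
  -- the straightening map
  have hΨc : ContinuousAt (fun w : ℂ × ℂ => ((Y w, w.2) : ℂ × ℂ)) (w₀, t) :=
    hY.continuousAt.prodMk continuousAt_snd
  have hΨ0 : ((Y (w₀, t), ((w₀, t) : ℂ × ℂ).2) : ℂ × ℂ) = (y, t) := by rw [hY0]
  have hΨt : Tendsto (fun w : ℂ × ℂ => ((Y w, w.2) : ℂ × ℂ)) (𝓝 (w₀, t)) (𝓝 (y, t)) := by
    have := hΨc.tendsto
    rwa [hΨ0] at this
  have hΨa : AnalyticAt ℂ (fun w : ℂ × ℂ => ((Y w, w.2) : ℂ × ℂ)) (w₀, t) := hY.prod analyticAt_snd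
  have hYo : AnalyticAt ℂ (fun w : ℂ × ℂ => X₂ (Y w, w.2)) (w₀, t) :=
    AnalyticAt.comp (g := X₂) (f := fun w : ℂ × ℂ => ((Y w, w.2) : ℂ × ℂ))
      (by rw [hΨ0]; exact hX₂) hΨa
  have hne : ∀ᶠ z in 𝓝 (y, t), fderiv ℂ X₁ z (1, 0) ≠ 0 := by
    have hc : ContinuousAt (fun z => fderiv ℂ X₁ z (1, 0)) (y, t) :=
      (((ContinuousLinearMap.apply ℂ ℂ ((1 : ℂ), (0 : ℂ))).analyticAt _).comp
        hX₁.fderiv).continuousAt
    exact hc.eventually_ne hdy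
  have hdt : ∀ᶠ w in 𝓝 (w₀, t), fderiv ℂ (fun w' : ℂ × ℂ => X₂ (Y w', w'.2)) w (0, 1) = 0 := by
    filter_upwards [hY.eventually_analyticAt, hΨt.eventually hX₁.eventually_analyticAt,
      hΨt.eventually hX₂.eventually_analyticAt, hΨt.eventually hne, hΨt.eventually hr,
      hYr.eventually_nhds] with w a1 a2 a3 a4 a5 a6
    exact lj1_straight_dt a1.differentiableAt a2.differentiableAt a3.differentiableAt a4 a5 a6
  have hconst := lj1_const_snd hYo hdt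
  simp only at hconst
  -- local inverse of `γ₁`
  obtain ⟨ι, hι, hι0, hιl, hιr⟩ := exists_local_inverse hγ₁ hd
  rw [hw₀] at hι hι0 hιr
  have hX₁t : Tendsto X₁ (𝓝 (y, t)) (𝓝 w₀) := hX₁.continuousAt.tendsto
  have hslice : Tendsto (fun y' : ℂ => ((y', t) : ℂ × ℂ)) (𝓝 y) (𝓝 (y, t)) :=
    (Continuous.prodMk_left t).tendsto y
  have hslice' : Tendsto (fun w₁ : ℂ => ((w₁, t) : ℂ × ℂ)) (𝓝 w₀) (𝓝 (w₀, t)) :=
    (Continuous.prodMk_left t).tendsto w₀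
  -- `Yo (·, t) = γ₂ ∘ ι`
  have hYt : Tendsto (fun w₁ : ℂ => Y (w₁, t)) (𝓝 w₀) (𝓝 y) := by
    have := hY.continuousAt.tendsto.comp hslice'
    rwa [hY0] at this
  have hkey : ∀ᶠ w₁ in 𝓝 w₀, X₂ (Y (w₁, t), t) = γ₂ (ι w₁) := by
    filter_upwards [hYt.eventually e₁, hYt.eventually e₂,
      (hlam.continuousAt.tendsto.comp hYt).eventually hιl, hslice'.eventually hYr]
      with w₁ a1 a2 a3 a4
    simp only [Function.comp] at a3
    have a4' : X₁ (Y (w₁, t), t) = w₁ := a4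
    have a5 : lam (Y (w₁, t)) = ι w₁ := by rw [← a3, a1, a4']
    rw [← a2, a5]
  refine ⟨fun z => ι (X₁ z), AnalyticAt.comp (g := ι) (f := X₁) hι hX₁, ?_, ?_⟩
  · have hpair : Tendsto (fun z : ℂ × ℂ => ((X₁ z, z.2) : ℂ × ℂ)) (𝓝 (y, t)) (𝓝 (w₀, t)) :=
      (hX₁.continuousAt.prodMk continuousAt_snd).tendsto
    filter_upwards [hX₁t.eventually hιr, hYl, hpair.eventually hconst, hX₁t.eventually hkey]
      with z a1 a2 a3 a4
    refine ⟨a1, ?_⟩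
    have a3' : X₂ (Y (X₁ z, z.2), z.2) = X₂ (Y (X₁ z, t), t) := a3
    rw [← a4, ← a3', a2]
  · filter_upwards [e₁, hlam.continuousAt.tendsto.eventually hιl] with y' a1 a2
    rw [← a1, a2]

theorem lj1_continuous_bdot : Continuous fun p : (ℂ × ℂ) × (ℂ × ℂ) => bdot p.1 p.2 := by
  unfold bdot
  fun_prop

theorem lj1_continuous_bdet : Continuous fun p : (ℂ × ℂ) × (ℂ × ℂ) => bdet p.1 p.2 := by
  unfold bdet
  fun_prop

/-- being a regular point of the slice is an open condition in `(y,t)` -/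
theorem Sec4.lj1_good_nhds {G : Glance} (S : Sec4 G) {z₀ : ℂ × ℂ} (h : z₀.1 ∈ S.Good z₀.2)
    (hT : ∀ᶠ z in 𝓝 z₀, z.1 ∈ G.slice z.2) : ∀ᶠ z in 𝓝 z₀, z.1 ∈ S.Good z.2 := by
  obtain ⟨-, ha, h1, h2⟩ := h
  have ha' : AnalyticAt ℂ S.X z₀ := ha
  have hxs : ∀ t, S.xs t = fun y => S.X (y, t) := fun t => rfl
  have hD1 : AnalyticAt ℂ (fun z : ℂ × ℂ => deriv (S.xs z.2) z.1) z₀ := by
    simp only [hxs]
    exact lj1_analyticAt_dy ha'
  have hD2 : AnalyticAt ℂ (fun z : ℂ × ℂ => deriv (deriv (S.xs z.2)) z.1) z₀ :=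
    lj1_analyticAt_dy (F := fun z : ℂ × ℂ => deriv (S.xs z.2) z.1) hD1
  have c1 : ContinuousAt (fun z : ℂ × ℂ => bdot (deriv (S.xs z.2) z.1) (deriv (S.xs z.2) z.1)) z₀ :=
    ContinuousAt.comp (g := fun p : (ℂ × ℂ) × (ℂ × ℂ) => bdot p.1 p.2)
      (f := fun z : ℂ × ℂ => (deriv (S.xs z.2) z.1, deriv (S.xs z.2) z.1))
      lj1_continuous_bdot.continuousAt (hD1.continuousAt.prodMk hD1.continuousAt)
  have c2 : ContinuousAt (fun z : ℂ × ℂ =>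
      bdet (deriv (S.xs z.2) z.1) (deriv (deriv (S.xs z.2)) z.1)) z₀ :=
    ContinuousAt.comp (g := fun p : (ℂ × ℂ) × (ℂ × ℂ) => bdet p.1 p.2)
      (f := fun z : ℂ × ℂ => (deriv (S.xs z.2) z.1, deriv (deriv (S.xs z.2)) z.1))
      lj1_continuous_bdet.continuousAt (hD1.continuousAt.prodMk hD2.continuousAt)
  filter_upwards [hT, ha'.eventually_analyticAt, c1.eventually_ne h1, c2.eventually_ne h2]
    with z a1 a2 a3 a4
  exact ⟨a1, a2, a3, a4⟩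


/-! ### the initial impact map factors through one scalar function -/

namespace Glance

variable (G : Glance)

/-- the mean angle -/
noncomputable def lj1ψ (z : ℂ × ℂ) : ℂ := (G.Θ (z.1 - z.2 / 2) z.2 + G.Θ (z.1 + z.2 / 2) z.2) / 2

theorem lj1ψ_forced : True := by
  have := @lj1ψ.eq_1
  have := @lj1ψ.eq_def
  trivial

theorem lj1_X0_eq (z : ℂ × ℂ) : G.X0 z = suppPt G.hc (G.lj1ψ z) := rfl

theorem lj1_s_pos : 0 < G.s := G.r₁_pos.trans G.r₁_lt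

theorem lj1_shift_mem {z : ℂ × ℂ} (hz : z ∈ hstrip G.s ×ˢ Metric.ball (0 : ℂ) G.r₁) (e : ℂ)
    (he : ‖e‖ ≤ 1 / 2) : z.1 + e * z.2 ∈ hstrip (2 * G.s) := by
  obtain ⟨h1, h2⟩ := hz
  have h1' : |z.1.im| < G.s := h1
  have h2' : ‖z.2‖ < G.r₁ := by simpa using h2
  show |(z.1 + e * z.2).im| < 2 * G.s
  have h3 : |(e * z.2).im| ≤ ‖e * z.2‖ := Complex.abs_im_le_norm _
  have h4 : ‖e * z.2‖ ≤ 1 / 2 * ‖z.2‖ := by
    rw [norm_mul]
    gcongr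
  have h5 := G.r₁_lt
  rw [Complex.add_im]
  have := abs_add_le z.1.im (e * z.2).im
  have := norm_nonneg z.2
  linarith

theorem lj1_isOpen_dom : IsOpen (hstrip (2 * G.s) ×ˢ Metric.ball (0 : ℂ) G.r₁) :=
  (isOpen_lt (continuous_abs.comp Complex.continuous_im) continuous_const).prod Metric.isOpen_ball

theorem lj1_Θ_shift_diff {z : ℂ × ℂ} (hz : z ∈ hstrip G.s ×ˢ Metric.ball (0 : ℂ) G.r₁) (e : ℂ)
    (he : ‖e‖ ≤ 1 / 2) : DifferentiableAt ℂ (fun w : ℂ × ℂ => G.Θ (w.1 + e * w.2) w.2) z := by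
  have hm : ((z.1 + e * z.2, z.2) : ℂ × ℂ) ∈ hstrip (2 * G.s) ×ˢ Metric.ball (0 : ℂ) G.r₁ :=
    ⟨G.lj1_shift_mem hz e he, hz.2⟩
  have h1 : DifferentiableAt ℂ (fun w : ℂ × ℂ => G.Θ w.1 w.2) (z.1 + e * z.2, z.2) :=
    (G.Θ_diff _ hm).differentiableAt (G.lj1_isOpen_dom.mem_nhds hm)
  have h2 : DifferentiableAt ℂ (fun w : ℂ × ℂ => ((w.1 + e * w.2, w.2) : ℂ × ℂ)) z := by
    fun_prop
  exact DifferentiableAt.comp (g := fun w : ℂ × ℂ => G.Θ w.1 w.2)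
    (f := fun w : ℂ × ℂ => ((w.1 + e * w.2, w.2) : ℂ × ℂ)) z h1 h2

theorem lj1_ψ_diff {z : ℂ × ℂ} (hz : z ∈ hstrip G.s ×ˢ Metric.ball (0 : ℂ) G.r₁) :
    DifferentiableAt ℂ G.lj1ψ z := by
  have h1 := G.lj1_Θ_shift_diff hz (-(1 / 2)) (by norm_num)
  have h2 := G.lj1_Θ_shift_diff hz (1 / 2) (by norm_num)
  have e : G.lj1ψ = fun w : ℂ × ℂ =>
      (G.Θ (w.1 + -(1 / 2) * w.2) w.2 + G.Θ (w.1 + 1 / 2 * w.2) w.2) / 2 := by
    funext w
    unfold lj1ψ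
    congr 3 <;> ring
  rw [e]
  simpa only [div_eq_mul_inv] using (h1.fun_add h2).mul_const (2 : ℂ)⁻¹

theorem lj1_ψ_mem {z : ℂ × ℂ} (hz : z ∈ hstrip G.s ×ˢ Metric.ball (0 : ℂ) G.r₁) :
    G.lj1ψ z ∈ hstrip G.σ := by
  have m1 := G.lj1_shift_mem hz (-(1 / 2)) (by norm_num)
  have m2 := G.lj1_shift_mem hz (1 / 2) (by norm_num)
  have e1 : z.1 + -(1 / 2) * z.2 = z.1 - z.2 / 2 := by ring
  have e2 : z.1 + 1 / 2 * z.2 = z.1 + z.2 / 2 := by ring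
  rw [e1] at m1
  rw [e2] at m2
  have a1 : |(G.Θ (z.1 - z.2 / 2) z.2).im| < G.σ := G.Θ_mem _ m1 _ hz.2
  have a2 : |(G.Θ (z.1 + z.2 / 2) z.2).im| < G.σ := G.Θ_mem _ m2 _ hz.2
  show |(G.lj1ψ z).im| < G.σ
  have e3 : (G.lj1ψ z).im = ((G.Θ (z.1 - z.2 / 2) z.2).im + (G.Θ (z.1 + z.2 / 2) z.2).im) / 2 := by
    unfold lj1ψ
    have : ((2 : ℂ)) = ((2 : ℝ) : ℂ) := by norm_num
    rw [this, Complex.div_ofReal_im, Complex.add_im]
  rw [e3, abs_div, abs_two]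
  have := abs_add_le (G.Θ (z.1 - z.2 / 2) z.2).im (G.Θ (z.1 + z.2 / 2) z.2).im
  linarith

theorem lj1_suppPt_diff {ψ : ℂ} (hψ : ψ ∈ hstrip G.σ) : DifferentiableAt ℂ (suppPt G.hc) ψ := by
  have hO : IsOpen (hstrip G.σ) :=
    isOpen_lt (continuous_abs.comp Complex.continuous_im) continuous_const
  have ha : AnalyticAt ℂ G.hc ψ := (G.hc_diff.analyticOnNhd hO) ψ hψ
  have h0 : DifferentiableAt ℂ G.hc ψ := ha.differentiableAt
  have h1 : DifferentiableAt ℂ (deriv G.hc) ψ := ha.deriv.differentiableAt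
  unfold suppPt
  exact ((h0.mul Complex.differentiableAt_cos).sub (h1.mul Complex.differentiableAt_sin)).prodMk
    ((h0.mul Complex.differentiableAt_sin).add (h1.mul Complex.differentiableAt_cos))

/-- the two partial derivatives of `X0` are proportional -/
theorem lj1_X0_rank {z : ℂ × ℂ} (hz : z ∈ hstrip G.s ×ˢ Metric.ball (0 : ℂ) G.r₁) :
    bdet (deriv (fun y => G.X0 (y, z.2)) z.1) (deriv (fun t => G.X0 (z.1, t)) z.2) = 0 := by
  have hψ := G.lj1_ψ_diff hz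
  have hs := (G.lj1_suppPt_diff (G.lj1_ψ_mem hz)).hasDerivAt
  have d1 := (lj1_hasDerivAt_dy hψ)
  have d2 := (lj1_hasDerivAt_dt hψ)
  have e1 : HasDerivAt (fun y => G.X0 (y, z.2))
      (fderiv ℂ G.lj1ψ z (1, 0) • deriv (suppPt G.hc) (G.lj1ψ z)) z.1 :=
    HasDerivAt.scomp (h := fun y => G.lj1ψ (y, z.2)) (g₁ := suppPt G.hc) z.1 hs d1
  have e2 : HasDerivAt (fun t => G.X0 (z.1, t))
      (fderiv ℂ G.lj1ψ z (0, 1) • deriv (suppPt G.hc) (G.lj1ψ z)) z.2 :=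
    HasDerivAt.scomp (h := fun t => G.lj1ψ (z.1, t)) (g₁ := suppPt G.hc) z.2 hs d2
  rw [e1.deriv, e2.deriv]
  simp only [bdet, Prod.smul_fst, Prod.smul_snd, smul_eq_mul]
  ring

end Glance

namespace LiftCtx

variable {G : Glance} (K : LiftCtx G)

theorem lj1_isOpen_tube : IsOpen (G.tube K.r) :=
  G.isOpen_tube (K.S.lsc_X.mono (Metric.ball_subset_ball K.r_le))

theorem good_isOpen₂ :
    IsOpen {z : ℂ × ℂ | z.2 ∈ Metric.ball (0 : ℂ) K.r ∧ z.1 ∈ K.S.Good z.2} := by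
  rw [isOpen_iff_mem_nhds]
  rintro z₀ ⟨h1, h2⟩
  have hT : ∀ᶠ z in 𝓝 z₀, z ∈ G.tube K.r :=
    K.lj1_isOpen_tube.mem_nhds ((G.mem_tube_iff).2 ⟨h1, h2.1⟩)
  have hT' : ∀ᶠ z in 𝓝 z₀, z.1 ∈ G.slice z.2 := hT.mono fun z hz => ((G.mem_tube_iff).1 hz).2
  filter_upwards [hT, K.S.lj1_good_nhds h2 hT'] with z a1 a2
  exact ⟨((G.mem_tube_iff).1 a1).1, a2⟩

theorem lj1_ball_ρ {t : ℂ} (ht : t ∈ Metric.ball (0 : ℂ) K.r) : t ∈ Metric.ball (0 : ℂ) K.S.ρ :=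
  Metric.ball_subset_ball K.r_le ht

theorem lj1_ball_r₁ {t : ℂ} (ht : t ∈ Metric.ball (0 : ℂ) K.r) : t ∈ Metric.ball (0 : ℂ) G.r₁ :=
  Metric.ball_subset_ball (K.r_le.trans K.S.ρ_le) ht

/-- `X = X0` near the points of the basic strip -/
theorem lj1_X_eventuallyEq {t : ℂ} (ht : t ∈ Metric.ball (0 : ℂ) K.r) {y : ℂ}
    (hy : y ∈ hstrip (G.s / 2)) : K.S.X =ᶠ[𝓝 (y, t)] G.X0 := by
  have hO : IsOpen (hstrip (G.s / 2) ×ˢ Metric.ball (0 : ℂ) K.S.ρ) :=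
    (isOpen_lt (continuous_abs.comp Complex.continuous_im) continuous_const).prod Metric.isOpen_ball
  filter_upwards [hO.mem_nhds (show ((y, t) : ℂ × ℂ) ∈ _ from ⟨hy, K.lj1_ball_ρ ht⟩)] with z hz
  exact K.S.X_base z hz

theorem lj1_analyticAt_bdet {F₁ F₂ : ℂ × ℂ → ℂ × ℂ} {z : ℂ × ℂ} (h₁ : AnalyticAt ℂ F₁ z)
    (h₂ : AnalyticAt ℂ F₂ z) : AnalyticAt ℂ (fun w => bdet (F₁ w) (F₂ w)) z := by
  unfold bdet
  exact ((analyticAt_fst.comp h₁).mul (analyticAt_snd.comp h₂)).sub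
    ((analyticAt_snd.comp h₁).mul (analyticAt_fst.comp h₂))

theorem rank_one {t : ℂ} (ht : t ∈ Metric.ball (0 : ℂ) K.r) {y : ℂ} (hy : y ∈ G.slice t)
    (ha : AnalyticAt ℂ K.S.X (y, t)) :
    bdet (deriv (fun y' => K.S.X (y', t)) y) (deriv (fun t' => K.S.X (y, t')) t) = 0 := by
  set A : Set ℂ := G.slice t \ {y' | ¬ AnalyticAt ℂ K.S.X (y', t)} with hA
  have hpre : IsPreconnected A := by
    refine isPreconnected_diff_discrete (G.isOpen_slice t) (G.convex_slice t).isPreconnected ?_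
    intro y' hy'
    filter_upwards [K.analytic_codiscrete ht y' hy'] with y'' h
    exact fun h' => h' h
  set g : ℂ → ℂ := fun y' =>
    bdet (deriv (fun y'' => K.S.X (y'', t)) y') (deriv (fun t' => K.S.X (y', t')) t) with hg
  have hgan : AnalyticOnNhd ℂ g A := by
    rintro y' ⟨-, hy'⟩
    have hy'' : AnalyticAt ℂ K.S.X (y', t) := not_not.1 hy'
    have h1 := lj1_analyticAt_bdet (lj1_analyticAt_dy hy'') (lj1_analyticAt_dt hy'')
    exact AnalyticAt.comp (g := fun w : ℂ × ℂ => bdet (deriv (fun y => K.S.X (y, w.2)) w.1)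
      (deriv (fun t => K.S.X (w.1, t)) w.2)) (f := fun y'' : ℂ => ((y'', t) : ℂ × ℂ)) h1
      (analyticAt_id.prod analyticAt_const)
  have h0A : (0 : ℂ) ∈ A := ⟨(K.good0 t ht).1, not_not.2 (K.good0 t ht).2.1⟩
  have hs := G.lj1_s_pos
  have hstr : hstrip (G.s / 2) ∈ 𝓝 (0 : ℂ) := by
    refine (isOpen_lt (continuous_abs.comp Complex.continuous_im) continuous_const).mem_nhds ?_
    show |(0 : ℂ).im| < G.s / 2
    simp only [Complex.zero_im, abs_zero]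
    positivity
  have hg0 : g =ᶠ[𝓝 0] 0 := by
    filter_upwards [hstr] with y' hy'
    have hev := K.lj1_X_eventuallyEq ht hy'
    have c1 : Tendsto (fun y'' : ℂ => ((y'', t) : ℂ × ℂ)) (𝓝 y') (𝓝 (y', t)) :=
      (Continuous.prodMk_left t).tendsto y'
    have c2 : Tendsto (fun t' : ℂ => ((y', t') : ℂ × ℂ)) (𝓝 t) (𝓝 (y', t)) :=
      (Continuous.prodMk_right y').tendsto t
    have e1 : deriv (fun y'' => K.S.X (y'', t)) y' = deriv (fun y'' => G.X0 (y'', t)) y' :=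
      Filter.EventuallyEq.deriv_eq (c1.eventually hev)
    have e2 : deriv (fun t' => K.S.X (y', t')) t = deriv (fun t' => G.X0 (y', t')) t :=
      Filter.EventuallyEq.deriv_eq (c2.eventually hev)
    have hy'' : y' ∈ hstrip G.s := by
      have : |y'.im| < G.s / 2 := hy'
      show |y'.im| < G.s
      linarith
    simp only [hg, e1, e2, Pi.zero_apply]
    exact G.lj1_X0_rank (z := (y', t)) ⟨hy'', K.lj1_ball_r₁ ht⟩
  exact hgan.eqOn_zero_of_preconnected_of_eventuallyEq_zero hpre h0A hg0 ⟨hy, not_not.2 ha⟩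

/-- the curve is analytic at the points where `φ' ≠ 0` -/
theorem lj1_Γ_analytic {s : ℂ} (hs : s ∈ estrip G.Hs) (hf : deriv K.C.φ s ≠ 0) :
    AnalyticAt ℂ K.C.Γ s := by
  have h1 : ∀ᶠ s' in 𝓝 s, deriv K.C.φ s' ≠ 0 :=
    (K.C.s5ls_f_analytic s hs).continuousAt.eventually_ne hf
  have h2 : ∀ᶠ s' in 𝓝 s, s' ∈ estrip G.Hs := (isOpen_estrip G.Hs).mem_nhds hs
  have h3 : {s' | s' ∈ estrip G.Hs ∧ deriv K.C.φ s' ≠ 0} ∈ 𝓝 s := h2.and h1
  refine DifferentiableOn.analyticAt (s := {s' | s' ∈ estrip G.Hs ∧ deriv K.C.φ s' ≠ 0}) ?_ h3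
  rintro s' ⟨a1, a2⟩
  exact (K.C.Γ_deriv s' a1 a2).differentiableAt.differentiableWithinAt

theorem joint_local {t : ℂ} (ht : t ∈ Metric.ball (0 : ℂ) K.r) {y : ℂ} (hy : y ∈ K.S.Good t) :
    ∃ σ : ℂ × ℂ → ℂ, AnalyticAt ℂ σ (y, t) ∧ (∀ᶠ z in 𝓝 (y, t), K.C.Γ (σ z) = K.S.X z) ∧
      ∀ᶠ y' in 𝓝 y, σ (y', t) = K.lift (y', t) := by
  have hL : K.C.IsLiftAt t (fun y' => K.lift (y', t)) y := (K.lift_spec ht).2.2.1 y hy
  obtain ⟨hf, hl, -⟩ := K.lift_regular hy hL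
  have hev := K.s5lg_nhds hy hL
  have hΓ := K.lj1_Γ_analytic hL.2.1 hf
  have hΓd := K.C.Γ_deriv _ hL.2.1 hf
  have hA := K.C.s5ls_A_ne hf
  have hX : AnalyticAt ℂ K.S.X (y, t) := hy.2.1
  have hX₁ : AnalyticAt ℂ (fun z => (K.S.X z).1) (y, t) := analyticAt_fst.comp hX
  have hX₂ : AnalyticAt ℂ (fun z => (K.S.X z).2) (y, t) := analyticAt_snd.comp hX
  have hΓ₁ : AnalyticAt ℂ (fun s => (K.C.Γ s).1) (K.lift (y, t)) := analyticAt_fst.comp hΓ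
  have hΓ₂ : AnalyticAt ℂ (fun s => (K.C.Γ s).2) (K.lift (y, t)) := analyticAt_snd.comp hΓ
  have hT : ∀ᶠ z in 𝓝 (y, t), z ∈ G.tube K.r :=
    K.lj1_isOpen_tube.mem_nhds ((G.mem_tube_iff).2 ⟨ht, hy.1⟩)
  have hr : ∀ᶠ z in 𝓝 (y, t), fderiv ℂ (fun z => (K.S.X z).1) z (1, 0) *
      fderiv ℂ (fun z => (K.S.X z).2) z (0, 1) =
      fderiv ℂ (fun z => (K.S.X z).2) z (1, 0) * fderiv ℂ (fun z => (K.S.X z).1) z (0, 1) := by
    filter_upwards [hT, hX.eventually_analyticAt] with z a1 a2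
    obtain ⟨b1, b2⟩ := (G.mem_tube_iff).1 a1
    have h := K.rank_one b1 b2 a2
    rw [(lj1_hasDerivAt_dy a2.differentiableAt).deriv,
      (lj1_hasDerivAt_dt a2.differentiableAt).deriv] at h
    rw [fderiv.fst a2.differentiableAt, fderiv.snd a2.differentiableAt]
    simp only [ContinuousLinearMap.comp_apply, ContinuousLinearMap.coe_fst',
      ContinuousLinearMap.coe_snd']
    unfold bdet at h
    linear_combination h
  have d₁ : deriv (fun s => (K.C.Γ s).1) (K.lift (y, t)) =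
      (G.c / deriv K.C.φ (K.lift (y, t)) ^ 2 : ℂ) * (-Complex.sin (K.C.φ (K.lift (y, t)))) := by
    have := (hasFDerivAt_fst (𝕜 := ℂ) (E := ℂ) (F := ℂ) (p := K.C.Γ (K.lift (y, t)))).comp_hasDerivAt
      _ hΓd
    exact this.deriv
  have d₂ : deriv (fun s => (K.C.Γ s).2) (K.lift (y, t)) =
      (G.c / deriv K.C.φ (K.lift (y, t)) ^ 2 : ℂ) * (Complex.cos (K.C.φ (K.lift (y, t)))) := by
    have := (hasFDerivAt_snd (𝕜 := ℂ) (E := ℂ) (F := ℂ) (p := K.C.Γ (K.lift (y, t)))).comp_hasDerivAt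
      _ hΓd
    exact this.deriv
  have e₁ : ∀ᶠ y' in 𝓝 y, (K.C.Γ (K.lift (y', t))).1 = (K.S.X (y', t)).1 :=
    hev.mono fun y' h => congrArg Prod.fst h
  have e₂ : ∀ᶠ y' in 𝓝 y, (K.C.Γ (K.lift (y', t))).2 = (K.S.X (y', t)).2 :=
    hev.mono fun y' h => congrArg Prod.snd h
  by_cases hs : Complex.sin (K.C.φ (K.lift (y, t))) = 0
  · have hc : Complex.cos (K.C.φ (K.lift (y, t))) ≠ 0 := by
      intro hc
      have := Complex.sin_sq_add_cos_sq (K.C.φ (K.lift (y, t)))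
      rw [hs, hc] at this
      norm_num at this
    obtain ⟨σ, h1, h2, h3⟩ := lj1_rank_lemma (X₁ := fun z => (K.S.X z).2)
      (X₂ := fun z => (K.S.X z).1) (γ₁ := fun s => (K.C.Γ s).2) (γ₂ := fun s => (K.C.Γ s).1)
      (lam := fun y' => K.lift (y', t)) hX₂ hX₁ hL.1 hΓ₂ (by rw [d₂]; exact mul_ne_zero hA hc) hl
      e₂ e₁ (hr.mono fun z h => by linear_combination -h)
    exact ⟨σ, h1, h2.mono fun z h => Prod.ext h.2 h.1, h3⟩
  · obtain ⟨σ, h1, h2, h3⟩ := lj1_rank_lemma (X₁ := fun z => (K.S.X z).1)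
      (X₂ := fun z => (K.S.X z).2) (γ₁ := fun s => (K.C.Γ s).1) (γ₂ := fun s => (K.C.Γ s).2)
      (lam := fun y' => K.lift (y', t)) hX₁ hX₂ hL.1 hΓ₁
      (by rw [d₁]; exact mul_ne_zero hA (neg_ne_zero.2 hs)) hl e₁ e₂ hr
    exact ⟨σ, h1, h2.mono fun z h => Prod.ext h.1 h.2, h3⟩

end LiftCtx

end Claimed.Agent.R269
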