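/-
Row 269, Theorem 5.4: JOINT analyticity of the slice-wise lift, second half.  Statements: helper264.
PACKAGE LF-S5d-joint2 (this file; ONE OWNER).

PLAN.
* `joint_base`: `lift = ℓ` on `hstrip w ×ˢ ball 0 r` (`lift_spec`), `ℓ` is differentiable there (`B.diff`), `analyticOnNhd_of_differentiableOn₂`.
* `joint_propagate`: let `y ∈ Good t` be a limit of points `y₁` with `lift` analytic at `(y₁,t)`.  Take `σ` from `joint_local`, analytic on a bidisc `Δ_y × Δ_t ⊆ {Good}` (`good_isOpen₂`) about `(y,t)` with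
  `Γ∘σ = X` there and `σ(·,t) = lift(·,t)` on `Δ_y`; pick `y₁ ∈ Δ_y`.  Near `(y₁,t)`: for each `t'`, `σ(·,t')` and `lift(·,t')` are lift germs at `y'` (values of `σ` in `estrip`: open condition, true at `(y₁,t)`), so by `lift_unique`
  `lift - σ ∈ 2πℤ` pointwise near `(y₁,t)`; it is continuous there and `0` at `(y₁,t)`: `lift = σ` near `(y₁,t)`.  For `t'` near `t`: `lift(·,t')` and `σ(·,t')` are holomorphic on `Δ_y` and agree near `y₁`, so on `Δ_y`.
  Hence `lift = σ` near `(y,t)`.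
* `joint_good`: `J = {y ∈ Good t | lift analytic at (y,t)}` is open, closed in `Good t` (`joint_propagate`), contains `0`; `good_preconnected`.
* `joint_all`: `y₀ ∈ slice t` arbitrary.  Choose `ρ' > 0` with `closedBall y₀ ρ' ⊆ slice t` and `sphere y₀ ρ' ⊆ Good t` (`good_codiscrete`: a punctured ball consists of good points).  By compactness of the closed ball and openness of the tube
  there is an open `V ∋ t` with `closedBall y₀ ρ' ×ˢ V ⊆ tube`, and (`joint_good` + `good_isOpen₂` + compactness of the sphere) `lift` analytic at every point of `sphere ×ˢ V`.  For `t' ∈ V`, `lift(·,t')` is holomorphic on a neighbourhood of the closed ball: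
  Cauchy's formula `lift(y',t') = (2πi)⁻¹ ∮ (η-y')⁻¹ lift(η,t') dη`; `analyticOnNhd_cauchy_param`.
-/
import Claimed.Agent.R269.S5.LiftJoint

set_option autoImplicit false

namespace Claimed.Agent.R269

open Complex ComplexConjugate Filter Topology MeasureTheory
open scoped ENNReal Real

namespace LiftCtx

variable {G : Glance} (K : LiftCtx G)

theorem lj2_isOpen_hstrip (s : ℝ) : IsOpen (hstrip s) :=
  isOpen_lt (continuous_abs.comp Complex.continuous_im) continuous_const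

theorem joint_base {t : ℂ} (ht : t ∈ Metric.ball (0 : ℂ) K.r) {y : ℂ} (hy : y ∈ hstrip K.B.w) :
    AnalyticAt ℂ K.lift (y, t) := by
  have hU : IsOpen (hstrip K.B.w ×ˢ Metric.ball (0 : ℂ) K.r) :=
    (lj2_isOpen_hstrip _).prod Metric.isOpen_ball
  have hd : DifferentiableOn ℂ K.B.ℓ (hstrip K.B.w ×ˢ Metric.ball (0 : ℂ) K.r) :=
    K.B.diff.mono (Set.prod_mono subset_rfl (Metric.ball_subset_ball K.r_le'))
  have ha := analyticOnNhd_of_differentiableOn₂ hU hd (y, t) ⟨hy, ht⟩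
  refine ha.congr ?_
  filter_upwards [hU.mem_nhds (show (y, t) ∈ hstrip K.B.w ×ˢ Metric.ball (0 : ℂ) K.r from ⟨hy, ht⟩)]
    with z hz
  exact ((K.lift_spec hz.2).2.2.2 z.1 hz.1).symm

/-- a complex number in `2πℤ` of modulus `< 2π` vanishes -/
theorem lj2_eq_zero_of_small {d : ℂ} {k : ℤ} (h : d = 2 * π * k) (hd : ‖d‖ < 2 * π) : d = 0 := by
  have h1 : ‖d‖ = 2 * π * |(k : ℝ)| := by
    rw [h, norm_mul, norm_mul]
    simp [abs_of_pos Real.pi_pos]
  rw [h1] at hd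
  have h2 : |(k : ℝ)| < 1 := by
    have := Real.pi_pos
    nlinarith
  have h3 : k = 0 := by
    have : |k| < 1 := by exact_mod_cast h2
    exact Int.abs_lt_one_iff.1 this
  rw [h, h3]
  simp

theorem joint_propagate {t : ℂ} (ht : t ∈ Metric.ball (0 : ℂ) K.r) {y : ℂ} (hy : y ∈ K.S.Good t)
    (hfr : ∃ᶠ y' in 𝓝 y, AnalyticAt ℂ K.lift (y', t)) : AnalyticAt ℂ K.lift (y, t) := by
  obtain ⟨σ, hσa, hσΓ, hσl⟩ := K.joint_local ht hy
  have hσy : σ (y, t) = K.lift (y, t) := hσl.self_of_nhds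
  have hmem : σ (y, t) ∈ estrip G.Hs := by
    rw [hσy]
    exact (K.lift_spec ht).2.1 y hy.1
  -- the good bidisc
  have e1 : ∀ᶠ z in 𝓝 (y, t), AnalyticAt ℂ σ z := hσa.eventually_analyticAt
  have e3 : ∀ᶠ z in 𝓝 (y, t), z.2 ∈ Metric.ball (0 : ℂ) K.r ∧ z.1 ∈ K.S.Good z.2 :=
    K.good_isOpen₂.mem_nhds (show (y, t) ∈ {z : ℂ × ℂ | z.2 ∈ Metric.ball (0 : ℂ) K.r ∧
      z.1 ∈ K.S.Good z.2} from ⟨ht, hy⟩)
  have e4 : ∀ᶠ z in 𝓝 (y, t), σ z ∈ estrip G.Hs :=
    hσa.continuousAt.eventually_mem ((isOpen_estrip _).mem_nhds hmem)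
  have e5 : ∀ᶠ z in 𝓝 (y, t), σ (z.1, t) = K.lift (z.1, t) :=
    (continuous_fst.tendsto (y, t)).eventually hσl
  obtain ⟨ε, hε, hball⟩ := Metric.eventually_nhds_iff_ball.1
    (e1.and (hσΓ.and (e3.and (e4.and e5))))
  have hprod : ∀ y' ∈ Metric.ball y ε, ∀ t' ∈ Metric.ball t ε,
      ((y', t') : ℂ × ℂ) ∈ Metric.ball ((y, t) : ℂ × ℂ) ε := by
    intro y' hy' t' ht'
    rw [← ball_prod_same]
    exact ⟨hy', ht'⟩
  -- the difference takes values in `2πℤ` on the bidisc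
  have hZ : ∀ y' ∈ Metric.ball y ε, ∀ t' ∈ Metric.ball t ε,
      ∃ k : ℤ, K.lift (y', t') - σ (y', t') = 2 * π * k := by
    intro y' hy' t' ht'
    obtain ⟨a1, -, ⟨a3, a3'⟩, a4, -⟩ := hball _ (hprod y' hy' t' ht')
    have hl1 : K.C.IsLiftAt t' (fun y'' => σ (y'', t')) y' := by
      refine ⟨?_, a4, ?_⟩
      · exact AnalyticAt.comp (f := fun y'' : ℂ => ((y'', t') : ℂ × ℂ)) (g := σ) a1
          (analyticAt_id.prod analyticAt_const)
      · refine Filter.Eventually.filter_mono nhdsWithin_le_nhds ?_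
        filter_upwards [Metric.isOpen_ball.mem_nhds hy'] with y'' hy''
        exact (hball _ (hprod y'' hy'' t' ht')).2.1
    have hl2 := (K.lift_spec a3).2.2.1 y' a3'
    obtain ⟨k, hk⟩ := K.lift_unique a3' hl1 hl2
    refine ⟨k, ?_⟩
    have := hk.self_of_nhds
    simp only at this
    rw [this]
    ring
  -- pick the point `y₁`
  obtain ⟨y₁, hy₁a, hy₁⟩ := (hfr.and_eventually (Metric.isOpen_ball.mem_nhds
    (Metric.mem_ball_self hε))).exists
  have hσ1 : AnalyticAt ℂ σ (y₁, t) := (hball _ (hprod y₁ hy₁ t (Metric.mem_ball_self hε))).1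
  have h01 : K.lift (y₁, t) - σ (y₁, t) = 0 := by
    have := (hball _ (hprod y₁ hy₁ t (Metric.mem_ball_self hε))).2.2.2.2
    simp only at this
    rw [this, sub_self]
  have hcont : ContinuousAt (fun z => K.lift z - σ z) (y₁, t) :=
    hy₁a.continuousAt.sub hσ1.continuousAt
  have hsmall : ∀ᶠ z in 𝓝 (y₁, t), ‖K.lift z - σ z‖ < 2 * π := by
    have h2 : Tendsto (fun z => ‖K.lift z - σ z‖) (𝓝 (y₁, t)) (𝓝 0) := by
      have := hcont.norm
      unfold ContinuousAt at this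
      simp only [h01, norm_zero] at this
      exact this
    exact h2.eventually (gt_mem_nhds (by positivity))
  have hin : ∀ᶠ z in 𝓝 ((y₁, t) : ℂ × ℂ), z ∈ Metric.ball y ε ×ˢ Metric.ball t ε :=
    (Metric.isOpen_ball.prod Metric.isOpen_ball).mem_nhds ⟨hy₁, Metric.mem_ball_self hε⟩
  obtain ⟨δ, hδ, hδball⟩ := Metric.eventually_nhds_iff_ball.1 (hsmall.and hin)
  have hzero : ∀ y' ∈ Metric.ball y₁ δ, ∀ t' ∈ Metric.ball t δ, K.lift (y', t') = σ (y', t') := by
    intro y' hy' t' ht'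
    have hz : ((y', t') : ℂ × ℂ) ∈ Metric.ball ((y₁, t) : ℂ × ℂ) δ := by
      rw [← ball_prod_same]
      exact ⟨hy', ht'⟩
    obtain ⟨b1, b2⟩ := hδball _ hz
    obtain ⟨k, hk⟩ := hZ y' b2.1 t' b2.2
    exact sub_eq_zero.1 (lj2_eq_zero_of_small hk b1)
  -- identity theorem on the slices
  have hall : ∀ t' ∈ Metric.ball t (min δ ε), ∀ y' ∈ Metric.ball y ε,
      K.lift (y', t') = σ (y', t') := by
    intro t' ht'
    have ht'δ : t' ∈ Metric.ball t δ := Metric.ball_subset_ball (min_le_left _ _) ht'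
    have ht'ε : t' ∈ Metric.ball t ε := Metric.ball_subset_ball (min_le_right _ _) ht'
    have ht'r : t' ∈ Metric.ball (0 : ℂ) K.r :=
      (hball _ (hprod y (Metric.mem_ball_self hε) t' ht'ε)).2.2.1.1
    have hA1 : AnalyticOnNhd ℂ (fun y' => K.lift (y', t')) (Metric.ball y ε) := by
      refine DifferentiableOn.analyticOnNhd ?_ Metric.isOpen_ball
      refine (K.lift_spec ht'r).1.mono fun y' hy' => ?_
      exact (hball _ (hprod y' hy' t' ht'ε)).2.2.1.2.1
    have hA2 : AnalyticOnNhd ℂ (fun y' => σ (y', t')) (Metric.ball y ε) := by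
      intro y' hy'
      exact AnalyticAt.comp (f := fun y'' : ℂ => ((y'', t') : ℂ × ℂ)) (g := σ)
        (hball _ (hprod y' hy' t' ht'ε)).1 (analyticAt_id.prod analyticAt_const)
    have hev : (fun y' => K.lift (y', t')) =ᶠ[𝓝 y₁] fun y' => σ (y', t') := by
      filter_upwards [Metric.isOpen_ball.mem_nhds (Metric.mem_ball_self hδ)] with y' hy'
      exact hzero y' hy' t' ht'δ
    exact hA1.eqOn_of_preconnected_of_eventuallyEq hA2 (convex_ball y ε).isPreconnected hy₁ hev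
  refine hσa.congr ?_
  have hnb : Metric.ball y ε ×ˢ Metric.ball t (min δ ε) ∈ 𝓝 ((y, t) : ℂ × ℂ) :=
    (Metric.isOpen_ball.prod Metric.isOpen_ball).mem_nhds
      ⟨Metric.mem_ball_self hε, Metric.mem_ball_self (lt_min hδ hε)⟩
  filter_upwards [hnb] with z hz
  exact (hall z.2 hz.2 z.1 hz.1).symm

theorem joint_good {t : ℂ} (ht : t ∈ Metric.ball (0 : ℂ) K.r) {y : ℂ} (hy : y ∈ K.S.Good t) :
    AnalyticAt ℂ K.lift (y, t) := by
  have hu : IsOpen {y' : ℂ | AnalyticAt ℂ K.lift (y', t)} :=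
    (isOpen_analyticAt ℂ K.lift).preimage (by fun_prop : Continuous fun y' : ℂ => ((y', t) : ℂ × ℂ))
  have h0 : (0 : ℂ) ∈ hstrip K.B.w := by
    show |(0 : ℂ).im| < K.B.w
    simpa using K.B.w_pos
  have hsub := (K.good_preconnected ht).subset_of_closure_inter_subset hu
    ⟨0, K.good0 t ht, K.joint_base ht h0⟩ ?_
  · exact hsub hy
  · rintro y' ⟨h1, h2⟩
    exact K.joint_propagate ht h2 (mem_closure_iff_frequently.1 h1)

theorem lj2_isOpen_tube : IsOpen (G.tube K.r) :=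
  G.isOpen_tube (K.S.lsc_X.mono (Metric.ball_subset_ball K.r_le))

theorem joint_all {t : ℂ} (ht : t ∈ Metric.ball (0 : ℂ) K.r) {y : ℂ} (hy : y ∈ G.slice t) :
    AnalyticAt ℂ K.lift (y, t) := by
  -- the radius
  have h1 : ∀ᶠ y' in 𝓝 y, y' ≠ y → y' ∈ K.S.Good t :=
    eventually_nhdsWithin_iff.1 (K.good_codiscrete ht y hy)
  have h2 : ∀ᶠ y' in 𝓝 y, y' ∈ G.slice t := (G.isOpen_slice t).mem_nhds hy
  obtain ⟨ε, hε, hball⟩ := Metric.eventually_nhds_iff_ball.1 (h1.and h2)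
  set R : ℝ := ε / 2 with hR
  have hRpos : 0 < R := by positivity
  have hcb : Metric.closedBall y R ⊆ Metric.ball y ε := Metric.closedBall_subset_ball (by linarith)
  have hsph : ∀ η ∈ Metric.sphere y R, η ∈ K.S.Good t := by
    intro η hη
    refine (hball η (hcb (Metric.sphere_subset_closedBall hη))).1 ?_
    exact Metric.ne_of_mem_sphere hη hRpos.ne'
  -- tube lemma, twice
  have hT1 : Metric.closedBall y R ×ˢ ({t} : Set ℂ) ⊆ G.tube K.r := by
    rintro ⟨y', t'⟩ ⟨hy', ht'⟩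
    rw [Set.mem_singleton_iff] at ht'
    simp only at ht' hy'
    subst ht'
    exact (G.mem_tube_iff).2 ⟨ht, (hball y' (hcb hy')).2⟩
  have hT2 : Metric.sphere y R ×ˢ ({t} : Set ℂ) ⊆ {z | AnalyticAt ℂ K.lift z} := by
    rintro ⟨y', t'⟩ ⟨hy', ht'⟩
    rw [Set.mem_singleton_iff] at ht'
    simp only at ht' hy'
    subst ht'
    exact K.joint_good ht (hsph y' hy')
  obtain ⟨u₁, V₁, -, hV₁, hu₁, htV₁, hp₁⟩ := generalized_tube_lemma (isCompact_closedBall y R)
    isCompact_singleton K.lj2_isOpen_tube hT1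
  obtain ⟨u₂, V₂, -, hV₂, hu₂, htV₂, hp₂⟩ := generalized_tube_lemma (isCompact_sphere y R)
    isCompact_singleton (isOpen_analyticAt ℂ K.lift) hT2
  have hV : IsOpen (V₁ ∩ V₂) := hV₁.inter hV₂
  have htV : t ∈ V₁ ∩ V₂ := ⟨htV₁ rfl, htV₂ rfl⟩
  have hA := analyticOnNhd_cauchy_param (F := K.lift) (y₀ := y) hRpos hV
    (fun η hη t' ht' => hp₂ (show ((η, t') : ℂ × ℂ) ∈ u₂ ×ˢ V₂ from ⟨hu₂ hη, ht'.2⟩))
  have hA' := (hA (y, t) ⟨Metric.mem_ball_self hRpos, htV⟩).const_smul (c := (2 * π * I : ℂ)⁻¹)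
  refine hA'.congr ?_
  have hnb : Metric.ball y R ×ˢ (V₁ ∩ V₂) ∈ 𝓝 ((y, t) : ℂ × ℂ) :=
    (Metric.isOpen_ball.prod hV).mem_nhds ⟨Metric.mem_ball_self hRpos, htV⟩
  filter_upwards [hnb] with z hz
  have hzr : z.2 ∈ Metric.ball (0 : ℂ) K.r ∧ ∀ y' ∈ Metric.closedBall y R, y' ∈ G.slice z.2 := by
    have h3 : ∀ y' ∈ Metric.closedBall y R, ((y', z.2) : ℂ × ℂ) ∈ G.tube K.r :=
      fun y' hy' => hp₁ ⟨hu₁ hy', hz.2.1⟩
    exact ⟨((G.mem_tube_iff).1 (h3 y (Metric.mem_closedBall_self hRpos.le))).1,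
      fun y' hy' => ((G.mem_tube_iff).1 (h3 y' hy')).2⟩
  have hd : DifferentiableOn ℂ (fun y' => K.lift (y', z.2)) (Metric.closedBall y R) :=
    (K.lift_spec hzr.1).1.mono hzr.2
  have hC := hd.circleIntegral_sub_inv_smul hz.1
  simp only [Pi.smul_apply]
  rw [hC, smul_smul, inv_mul_cancel₀ (by simp [Real.pi_ne_zero]), one_smul]

/-- the lift is analytic on the tube. -/
theorem lift_analytic : AnalyticOnNhd ℂ K.lift (G.tube K.r) := by
  intro z hz
  have h := (G.mem_tube_iff).1 hz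
  exact K.joint_all h.1 h.2

end LiftCtx

end Claimed.Agent.R269
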