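/-
Row 269, Theorem 5.4 and (5.23)-(5.24): symmetries, normalisations, `h_X ≤ H`.  Statements: helper264.
PACKAGES: LF-S5d-symm = `lift_zero … lift_mean`;  LF-S5d-small (file LiftSmall.lean) = `lift_eq_X0`, `exists_small`, `hX_le`, `noncircular`.

PLAN (symm).  All by `slice_identity` (two holomorphic functions on a slice which agree near `0` agree on the slice) and the corresponding property of the base lift `K.B`:
* `lift_zero`: `G.slice 0 = estrip G.Hs`; `lift(·,0)` and `id` agree on `hstrip w` (`B.zero`).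
* `lift_per`: `y ↦ lift(y+2π,t) - 2π` (`slice_add_real`, `B.per`).
* `lift_even`: `G.slice (-t) = G.slice t` (`slice_neg`), `B.even`.
* `lift_real`: `y ↦ conj (lift (conj y, conj t))` is holomorphic on `G.slice t` (`slice_conj`; conjugate of a holomorphic function of the conjugate variable), `B.real`.
* `lift_mean`: `lift = ℓ` on the real axis, `B.mean`.
-/
import Claimed.Agent.R269.S5.LiftJoint2

set_option autoImplicit false

namespace Claimed.Agent.R269

open Complex ComplexConjugate Filter Topology MeasureTheory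
open scoped ENNReal Real

namespace LiftCtx

variable {G : Glance} (K : LiftCtx G)

theorem lsy_hstrip_nhds : hstrip K.B.w ∈ 𝓝 (0 : ℂ) := by
  refine (lj2_isOpen_hstrip _).mem_nhds ?_
  show |(0 : ℂ).im| < K.B.w
  simpa using K.B.w_pos

theorem lsy_ball_ρ₀ {t : ℂ} (ht : t ∈ Metric.ball (0 : ℂ) K.r) : t ∈ Metric.ball (0 : ℂ) K.B.ρ₀ :=
  Metric.ball_subset_ball K.r_le' ht

theorem lsy_ball_r₁ {t : ℂ} (ht : t ∈ Metric.ball (0 : ℂ) K.r) : t ∈ Metric.ball (0 : ℂ) G.r₁ :=
  Metric.ball_subset_ball (K.r_le.trans K.S.ρ_le) ht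

theorem lsy_neg_mem {t : ℂ} (ht : t ∈ Metric.ball (0 : ℂ) K.r) : -t ∈ Metric.ball (0 : ℂ) K.r := by
  simpa using ht

theorem lsy_conj_mem {t : ℂ} (ht : t ∈ Metric.ball (0 : ℂ) K.r) :
    conj t ∈ Metric.ball (0 : ℂ) K.r := by
  simpa using ht

theorem lsy_zero_mem : (0 : ℂ) ∈ Metric.ball (0 : ℂ) K.r := Metric.mem_ball_self K.r_pos

theorem lift_zero : ∀ y ∈ estrip G.Hs, K.lift (y, 0) = y := by
  intro y hy
  have h0 := K.lsy_zero_mem
  rw [← G.slice_zero] at hy
  refine slice_identity (g₁ := fun y => K.lift (y, 0)) (g₂ := fun y => y) (K.lift_spec h0).1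
    differentiableOn_id (K.good0 0 h0).1 ?_ hy
  filter_upwards [K.lsy_hstrip_nhds] with y' hy'
  rw [(K.lift_spec h0).2.2.2 y' hy', K.B.zero y' hy']

theorem lift_per : ∀ z ∈ G.tube K.r, K.lift (z.1 + 2 * π, z.2) = K.lift z + 2 * π := by
  rintro ⟨y, t⟩ hz
  obtain ⟨ht, hy⟩ := (G.mem_tube_iff).1 hz
  simp only at ht hy ⊢
  have hadd : ∀ y' ∈ G.slice t, y' + 2 * π ∈ G.slice t := by
    intro y' hy'
    have := G.slice_add_real hy' (2 * π)
    simpa using this
  have hd1 : DifferentiableOn ℂ (fun y' => K.lift (y' + 2 * π, t)) (G.slice t) :=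
    (K.lift_spec ht).1.comp (f := fun y' : ℂ => y' + 2 * π)
      (differentiableOn_id.add_const _) hadd
  refine slice_identity (g₁ := fun y' => K.lift (y' + 2 * π, t))
    (g₂ := fun y' => K.lift (y', t) + 2 * π) hd1 ((K.lift_spec ht).1.add_const _)
    (K.good0 t ht).1 ?_ hy
  filter_upwards [K.lsy_hstrip_nhds] with y' hy'
  have hy'' : y' + 2 * π ∈ hstrip K.B.w := by
    show |(y' + 2 * π).im| < K.B.w
    have : (y' + 2 * (π : ℂ)).im = y'.im := by simp
    rw [this]
    exact hy'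
  rw [(K.lift_spec ht).2.2.2 _ hy'', (K.lift_spec ht).2.2.2 _ hy']
  exact K.B.per (y', t) ⟨hy', K.lsy_ball_ρ₀ ht⟩

theorem lift_even : ∀ z ∈ G.tube K.r, K.lift (z.1, -z.2) = K.lift z := by
  rintro ⟨y, t⟩ hz
  obtain ⟨ht, hy⟩ := (G.mem_tube_iff).1 hz
  simp only at ht hy ⊢
  have hnt := K.lsy_neg_mem ht
  have hd1 : DifferentiableOn ℂ (fun y' => K.lift (y', -t)) (G.slice t) := by
    have := (K.lift_spec hnt).1
    rwa [G.slice_neg (K.lsy_ball_r₁ ht)] at this
  refine slice_identity (g₁ := fun y' => K.lift (y', -t)) (g₂ := fun y' => K.lift (y', t)) hd1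
    (K.lift_spec ht).1 (K.good0 t ht).1 ?_ hy
  filter_upwards [K.lsy_hstrip_nhds] with y' hy'
  rw [(K.lift_spec hnt).2.2.2 _ hy', (K.lift_spec ht).2.2.2 _ hy']
  exact K.B.even (y', t) ⟨hy', K.lsy_ball_ρ₀ ht⟩

theorem lift_real : ∀ z ∈ G.tube K.r, K.lift (conj z.1, conj z.2) = conj (K.lift z) := by
  rintro ⟨y, t⟩ hz
  obtain ⟨ht, hy⟩ := (G.mem_tube_iff).1 hz
  simp only at ht hy ⊢
  have hct := K.lsy_conj_mem ht
  have hd1 : DifferentiableOn ℂ (fun y' => conj (K.lift (conj y', conj t))) (G.slice t) := by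
    intro y' hy'
    have h1 : conj y' ∈ G.slice (conj t) := G.slice_conj hy'
    have h2 : DifferentiableAt ℂ (fun y'' => K.lift (y'', conj t)) (conj y') :=
      ((K.lift_spec hct).1 _ h1).differentiableAt ((G.isOpen_slice _).mem_nhds h1)
    have h3 := h2.conj_conj
    rw [Complex.conj_conj] at h3
    exact h3.differentiableWithinAt
  have key := slice_identity (g₁ := fun y' => conj (K.lift (conj y', conj t)))
    (g₂ := fun y' => K.lift (y', t)) hd1 (K.lift_spec ht).1 (K.good0 t ht).1 ?_ hy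
  · simp only at key
    rw [← key, Complex.conj_conj]
  · filter_upwards [K.lsy_hstrip_nhds] with y' hy'
    have hy'' : conj y' ∈ hstrip K.B.w := by
      show |(conj y').im| < K.B.w
      rw [Complex.conj_im, abs_neg]
      exact hy'
    rw [(K.lift_spec hct).2.2.2 _ hy'', (K.lift_spec ht).2.2.2 _ hy',
      K.B.real (y', t) ⟨hy', K.lsy_ball_ρ₀ ht⟩, Complex.conj_conj]

theorem lift_mean : ∀ t ∈ Metric.ball (0 : ℂ) K.r,
    ∫ x in (0 : ℝ)..(2 * π), (K.lift ((x : ℂ), t) - x) = 0 := by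
  intro t ht
  rw [← K.B.mean t (K.lsy_ball_ρ₀ ht)]
  refine intervalIntegral.integral_congr fun x _ => ?_
  have hx : (x : ℂ) ∈ hstrip K.B.w := by
    show |(x : ℂ).im| < K.B.w
    simpa using K.B.w_pos
  rw [(K.lift_spec ht).2.2.2 _ hx]

end LiftCtx

end Claimed.Agent.R269
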