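/-
Row 269, Theorem 5.4 and (5.24): last shrinking of the parameter disc, `h_X ≤ H`, noncircularity.  Statements: helper264.
PACKAGE LF-S5d-small (this file; ONE OWNER).  Proofs: helper127.  SORRY-FREE.

PLAN.
* `exists_small`: `lift` is continuous on the open tube, `lift(y,0) = y`.  The compact set `Q = {0 ≤ Re y ≤ 2π, |Im y| ≤ s/4} × {0}` lies in the tube (`hstrip_subset_slice`); on it `|Im lift| ≤ s/4 < s/2` and `Re ∂_y lift = 1 > 0`
  (`∂_y lift` is continuous since `lift` is analytic).  Tube lemma (`generalized_tube_lemma` / compactness) gives `ρ₂`; `lift_per` removes the restriction on `Re y`.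
  `X0 z = Γ0 (lift z)`: for `y ∈ Good t`: `Γ(lift z) = X z` (`lift_spec`, `lift_regular`), `X z = X0 z` (`S.X_base`), `Γ = Γ0` on `hstrip (s/2)` (`Γ_base`); both sides are continuous in `y` on `hstrip (s/4)` and `Good t` is dense (`good_codiscrete`).
* `hX_le`: fix `t`, `g(y) := lift(y,t) - y` is holomorphic and `2π`-periodic on the slice; `row_integral_const` (Lib/CA1Sing) + `lift_mean`: `∫₀^{2π} g(x + i c) dx = 0` for every row of the slice; imaginary part: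
  `∫₀^{2π} Im lift(x+ic,t) dx = 2π c`.  If `G.Hs < G.hX t` then `H := G.Hs.toReal < ∞` and `y = i H ∈ slice t`; but `Im lift < H` pointwise and continuity give `∫ < 2π H`.  Contradiction.
* `noncircular`: `deriv φ = deriv φ₀` on the real axis (`φ_base`), `K.nonconst`.
-/
import Claimed.Agent.R269.S5.LiftSymm
import Claimed.Agent.R269.Lib.CA1Sing

set_option autoImplicit false

namespace Claimed.Agent.R269

open Complex ComplexConjugate Filter Topology MeasureTheory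
open scoped ENNReal Real

namespace LiftCtx

variable {G : Glance} (K : LiftCtx G)

theorem lsm_slice_add_int {t y : ℂ} (hy : y ∈ G.slice t) (k : ℤ) : y + 2 * π * k ∈ G.slice t := by
  have := G.slice_add_real hy (2 * π * k)
  push_cast at this
  exact this

/-- integer iterate of `lift_per` -/
theorem lsm_lift_per_int {t : ℂ} (ht : t ∈ Metric.ball (0 : ℂ) K.r) {y : ℂ} (hy : y ∈ G.slice t)
    (k : ℤ) : K.lift (y + 2 * π * k, t) = K.lift (y, t) + 2 * π * k := by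
  have hper : ∀ y' ∈ G.slice t, K.lift (y' + 2 * π, t) = K.lift (y', t) + 2 * π := fun y' hy' =>
    K.lift_per (y', t) ((G.mem_tube_iff).2 ⟨ht, hy'⟩)
  induction k using Int.induction_on with
  | zero => simp
  | succ n ih =>
    have e : y + 2 * π * ((n : ℤ) + 1 : ℤ) = y + 2 * π * (n : ℤ) + 2 * π := by push_cast; ring
    rw [e, hper _ (lsm_slice_add_int hy n), ih]
    push_cast; ring
  | pred n ih =>
    have e : y + 2 * π * ((-(n : ℤ) - 1 : ℤ) : ℂ) + 2 * π = y + 2 * π * ((-(n : ℤ) : ℤ) : ℂ) := by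
      push_cast; ring
    have h1 := hper _ (lsm_slice_add_int hy (-(n : ℤ) - 1))
    rw [e, ih] at h1
    have : K.lift (y + 2 * π * ((-(n : ℤ) - 1 : ℤ) : ℂ), t) =
        K.lift (y, t) + 2 * π * ((-(n : ℤ) : ℤ) : ℂ) - 2 * π := by rw [h1]; ring
    rw [this]
    push_cast; ring

/-- the `y`-derivative of the lift is periodic -/
theorem lsm_deriv_per_int {t : ℂ} (ht : t ∈ Metric.ball (0 : ℂ) K.r) {y : ℂ} (hy : y ∈ G.slice t)
    (k : ℤ) : deriv (fun y' => K.lift (y', t)) (y + 2 * π * k) = deriv (fun y' => K.lift (y', t)) y := by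
  have hy' := lsm_slice_add_int hy k
  have hd : ∀ y₁ ∈ G.slice t, HasDerivAt (fun y' => K.lift (y', t))
      (deriv (fun y' => K.lift (y', t)) y₁) y₁ := fun y₁ h₁ =>
    (((K.lift_spec ht).1 y₁ h₁).differentiableAt ((G.isOpen_slice t).mem_nhds h₁)).hasDerivAt
  have d1 : HasDerivAt (fun y' => K.lift (y' + 2 * π * k, t))
      (deriv (fun y' => K.lift (y', t)) (y + 2 * π * k)) y :=
    (hd _ hy').comp_add_const y (2 * π * k)
  have d2 : HasDerivAt (fun y' => K.lift (y' + 2 * π * k, t))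
      (deriv (fun y' => K.lift (y', t)) y) y := by
    refine ((hd _ hy).add_const (2 * π * k : ℂ)).congr_of_eventuallyEq ?_
    filter_upwards [(G.isOpen_slice t).mem_nhds hy] with y₁ h₁
    exact K.lsm_lift_per_int ht h₁ k
  exact d1.unique d2

/-- reduction of a point modulo `2π` -/
theorem lsm_reduce (y : ℂ) : ∃ k : ℤ, (y - 2 * π * k).re ∈ Set.Icc (0 : ℝ) (2 * π) ∧
    (y - 2 * π * k).im = y.im := by
  refine ⟨⌊y.re / (2 * π)⌋, ?_, ?_⟩
  · have hpi : (0 : ℝ) < 2 * π := by positivity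
    have h1 := Int.floor_le (y.re / (2 * π))
    have h2 := Int.lt_floor_add_one (y.re / (2 * π))
    have e : (y - 2 * π * (⌊y.re / (2 * π)⌋ : ℂ)).re = y.re - 2 * π * (⌊y.re / (2 * π)⌋ : ℝ) := by
      simp
    rw [e]
    rw [le_div_iff₀ hpi] at h1
    rw [div_lt_iff₀ hpi] at h2
    constructor <;> nlinarith
  · simp

/-- the set where the lift is small and increasing -/
theorem lsm_isOpen : IsOpen {z : ℂ × ℂ | z ∈ G.tube K.r ∧ K.lift z ∈ hstrip (G.s / 2) ∧
    0 < (deriv (fun y => K.lift (y, z.2)) z.1).re} := by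
  rw [isOpen_iff_mem_nhds]
  rintro z₀ ⟨h1, h2, h3⟩
  have ha := K.lift_analytic z₀ h1
  have hD := lj1_analyticAt_dy ha
  have c1 : ∀ᶠ z in 𝓝 z₀, K.lift z ∈ hstrip (G.s / 2) :=
    ha.continuousAt.eventually ((lj2_isOpen_hstrip _).mem_nhds h2)
  have c2 : ∀ᶠ z in 𝓝 z₀, 0 < (deriv (fun y => K.lift (y, z.2)) z.1).re :=
    (Complex.continuous_re.continuousAt.comp hD.continuousAt).eventually
      (isOpen_Ioi.mem_nhds h3)
  filter_upwards [K.lj2_isOpen_tube.mem_nhds h1, c1, c2] with z a1 a2 a3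
  exact ⟨a1, a2, a3⟩

theorem lsm_zero_mem {y : ℂ} (hy : |y.im| ≤ G.s / 4) :
    ((y, 0) : ℂ × ℂ) ∈ {z : ℂ × ℂ | z ∈ G.tube K.r ∧ K.lift z ∈ hstrip (G.s / 2) ∧
    0 < (deriv (fun y => K.lift (y, z.2)) z.1).re} := by
  have hs := G.lj1_s_pos
  have h1 : y ∈ hstrip G.s := by
    show |y.im| < G.s
    linarith
  have h2 : y ∈ estrip G.Hs := G.s5ls_hstrip_sub h1
  refine ⟨(G.mem_tube_iff).2 ⟨K.lsy_zero_mem, ?_⟩, ?_, ?_⟩
  · show y ∈ G.slice 0
    rw [G.slice_zero]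
    exact h2
  · rw [K.lift_zero y h2]
    show |y.im| < G.s / 2
    linarith
  · have e : (fun y' => K.lift (y', 0)) =ᶠ[𝓝 y] fun y' => y' := by
      filter_upwards [(isOpen_estrip G.Hs).mem_nhds h2] with y' hy'
      exact K.lift_zero y' hy'
    show 0 < (deriv (fun y' => K.lift (y', 0)) y).re
    rw [e.deriv_eq]
    simp

theorem lsm_exists : ∃ ρ₂ : ℝ, 0 < ρ₂ ∧ ρ₂ ≤ K.r ∧
    ∀ z ∈ hstrip (G.s / 4) ×ˢ Metric.ball (0 : ℂ) ρ₂, K.lift z ∈ hstrip (G.s / 2) ∧
      0 < (deriv (fun y => K.lift (y, z.2)) z.1).re := by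
  have hQ : IsCompact (Set.Icc (0 : ℝ) (2 * π) ×ℂ Set.Icc (-(G.s / 4)) (G.s / 4)) :=
    isCompact_Icc.reProdIm isCompact_Icc
  obtain ⟨u, v, -, hv, hu', hv', huv⟩ := generalized_tube_lemma hQ (isCompact_singleton (x := (0 : ℂ)))
    K.lsm_isOpen (by
      rintro ⟨y, t⟩ ⟨hy, ht⟩
      have ht' : t = 0 := ht
      subst ht'
      exact K.lsm_zero_mem (abs_le.2 hy.2))
  obtain ⟨ε, hε, hb⟩ := Metric.isOpen_iff.1 hv 0 (hv' rfl)
  refine ⟨min ε K.r, lt_min hε K.r_pos, min_le_right _ _, ?_⟩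
  rintro ⟨y, t⟩ ⟨hy, ht⟩
  have hy' : |y.im| < G.s / 4 := hy
  have ht1 : t ∈ Metric.ball (0 : ℂ) ε := Metric.ball_subset_ball (min_le_left _ _) ht
  have ht2 : t ∈ Metric.ball (0 : ℂ) K.r := Metric.ball_subset_ball (min_le_right _ _) ht
  obtain ⟨k, hk1, hk2⟩ := lsm_reduce y
  have hm : ((y - 2 * π * k, t) : ℂ × ℂ) ∈ u ×ˢ v := by
    refine ⟨hu' ⟨hk1, ?_⟩, hb ht1⟩
    show (y - 2 * π * k).im ∈ Set.Icc (-(G.s / 4)) (G.s / 4)
    rw [hk2]
    exact abs_le.1 hy'.le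
  obtain ⟨a1, a2, a3⟩ := huv hm
  have hsl : y - 2 * π * k ∈ G.slice t := ((G.mem_tube_iff).1 a1).2
  have e : y - 2 * π * k + 2 * π * k = y := by ring
  have b1 := K.lsm_lift_per_int ht2 hsl k
  have b2 := K.lsm_deriv_per_int ht2 hsl k
  rw [e] at b1 b2
  refine ⟨?_, ?_⟩
  · show |(K.lift (y, t)).im| < G.s / 2
    have a2' : |(K.lift (y - 2 * π * k, t)).im| < G.s / 2 := a2
    rw [b1]
    have : (K.lift (y - 2 * π * k, t) + 2 * π * k).im = (K.lift (y - 2 * π * k, t)).im := by simp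
    rw [this]
    exact a2'
  · show 0 < (deriv (fun y' => K.lift (y', t)) y).re
    rw [b2]
    exact a3

theorem lsm_Γ0_continuousAt {s : ℂ} (hs : s ∈ hstrip (G.s / 2)) : ContinuousAt G.Γ0 s := by
  have h0 := G.lj1_s_pos
  have hs' : |s.im| < G.s / 2 := hs
  have hm : ((s, 0) : ℂ × ℂ) ∈ hstrip G.s ×ˢ Metric.ball (0 : ℂ) G.r₁ :=
    ⟨show |s.im| < G.s by linarith, Metric.mem_ball_self G.r₁_pos⟩
  have h1 : ContinuousAt G.X0 (s, 0) := (G.X0_analytic _ hm).continuousAt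
  exact ContinuousAt.comp (g := G.X0) (f := fun y : ℂ => ((y, 0) : ℂ × ℂ)) h1
    (Continuous.prodMk_left (0 : ℂ)).continuousAt

/-- the lift equation in terms of the initial data -/
theorem lsm_eq_X0 {t : ℂ} (ht : t ∈ Metric.ball (0 : ℂ) K.r) {a : ℝ} (ha : a ≤ G.s / 2)
    (hl : ∀ y ∈ hstrip a, K.lift (y, t) ∈ hstrip (G.s / 2)) {y : ℂ} (hy : y ∈ hstrip a) :
    G.X0 (y, t) = G.Γ0 (K.lift (y, t)) := by
  have h0 := G.lj1_s_pos
  have hy' : |y.im| < a := hy
  have hys : y ∈ hstrip G.s := show |y.im| < G.s by linarith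
  have hsl : y ∈ G.slice t := G.hstrip_subset_slice (K.lsy_ball_r₁ ht) hys
  have hgood : ∀ᶠ y' in 𝓝[≠] y, G.X0 (y', t) = G.Γ0 (K.lift (y', t)) := by
    filter_upwards [K.good_codiscrete ht y hsl,
      nhdsWithin_le_nhds ((lj2_isOpen_hstrip a).mem_nhds hy)] with y' a1 a2
    have a2' : |y'.im| < a := a2
    have hL := (K.lift_spec ht).2.2.1 y' a1
    have h3 := (K.lift_regular a1 hL).2.2
    rw [K.C.Γ_base _ (hl y' a2), K.S.X_base (y', t)
      ⟨show |y'.im| < G.s / 2 by linarith, K.lj1_ball_ρ ht⟩] at h3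
    exact h3.symm
  have c1 : ContinuousAt (fun y' => G.X0 (y', t)) y :=
    ContinuousAt.comp (g := G.X0) (f := fun y' : ℂ => ((y', t) : ℂ × ℂ))
      (G.X0_analytic _ ⟨hys, K.lsy_ball_r₁ ht⟩).continuousAt
      (Continuous.prodMk_left t).continuousAt
  have c2 : ContinuousAt (fun y' => K.lift (y', t)) y :=
    (((K.lift_spec ht).1 y hsl).differentiableAt ((G.isOpen_slice t).mem_nhds hsl)).continuousAt
  have c3 : ContinuousAt (fun y' => G.Γ0 (K.lift (y', t))) y :=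
    ContinuousAt.comp (g := G.Γ0) (f := fun y' => K.lift (y', t))
      (lsm_Γ0_continuousAt (hl y hy)) c2
  exact tendsto_nhds_unique_of_eventuallyEq (c1.tendsto.mono_left nhdsWithin_le_nhds)
    (c3.tendsto.mono_left nhdsWithin_le_nhds) hgood

theorem exists_small : ∃ ρ₂ : ℝ, 0 < ρ₂ ∧ ρ₂ ≤ K.r ∧
    (∀ z ∈ hstrip (G.s / 4) ×ˢ Metric.ball (0 : ℂ) ρ₂,
      K.lift z ∈ hstrip (G.s / 2) ∧ G.X0 z = G.Γ0 (K.lift z)) ∧
    (∀ t : ℝ, |t| < ρ₂ → ∀ x : ℝ, 0 < (deriv (fun y => K.lift (y, (t : ℂ))) x).re) := by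
  obtain ⟨ρ₂, h1, h2, h3⟩ := K.lsm_exists
  have h0 := G.lj1_s_pos
  refine ⟨ρ₂, h1, h2, ?_, ?_⟩
  · rintro ⟨y, t⟩ ⟨hy, ht⟩
    refine ⟨(h3 (y, t) ⟨hy, ht⟩).1, ?_⟩
    exact K.lsm_eq_X0 (Metric.ball_subset_ball h2 ht) (a := G.s / 4) (by linarith)
      (fun y' hy' => (h3 (y', t) ⟨hy', ht⟩).1) hy
  · intro t ht x
    refine (h3 ((x : ℂ), (t : ℂ)) ⟨?_, ?_⟩).2
    · show |(x : ℂ).im| < G.s / 4
      simp only [Complex.ofReal_im, abs_zero]
      positivity
    · simpa using ht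

theorem hX_le : ∀ t ∈ Metric.ball (0 : ℂ) K.r, G.hX t ≤ G.Hs := by
  intro t ht
  by_contra hlt
  rw [not_le] at hlt
  have hfin : G.Hs ≠ ⊤ := ne_top_of_lt hlt
  set H := G.Hs.toReal with hHdef
  have hH : ENNReal.ofReal H = G.Hs := ENNReal.ofReal_toReal hfin
  have hs := G.lj1_s_pos
  have hsH : ENNReal.ofReal G.s ≤ ENNReal.ofReal H := by
    rw [hH]
    exact G.le_hX (Metric.mem_ball_self G.r₁_pos)
  have hHpos : 0 < H := by
    by_contra hn
    rw [ENNReal.ofReal_eq_zero.2 (not_lt.1 hn)] at hsH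
    exact absurd (ENNReal.ofReal_pos.2 hs) (not_lt.2 hsH)
  have hct : conj t ∈ Metric.ball (0 : ℂ) G.r₁ := K.lsy_ball_r₁ (K.lsy_conj_mem ht)
  have hpos' : 0 < G.hX (conj t) := lt_of_lt_of_le (ENNReal.ofReal_pos.2 hs) (G.le_hX hct)
  have hHI : ((H : ℂ) * I) ∈ G.slice t := by
    refine ⟨?_, ?_⟩
    · have : ((H : ℂ) * I).im = H := by simp
      rw [this, hH]
      exact hlt
    · have : -((H : ℂ) * I).im = -H := by simp
      rw [this, ENNReal.ofReal_eq_zero.2 (by linarith)]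
      exact hpos'
  have h0 : (((0 : ℝ) : ℂ) * I) ∈ G.slice t := by
    have := (K.good0 t ht).1
    simpa using this
  set g : ℂ → ℂ := fun y => K.lift (y, t) - y with hgdef
  have hg : DifferentiableOn ℂ g (G.slice t) := (K.lift_spec ht).1.sub differentiableOn_id
  have hp : ∀ y ∈ G.slice t, g (y + 2 * π) = g y := by
    intro y hy
    have := K.lift_per (y, t) ((G.mem_tube_iff).2 ⟨ht, hy⟩)
    simp only at this
    simp only [hgdef, this]
    ring
  have key := row_integral_const (G.isOpen_slice t) (G.convex_slice t)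
    (fun y hy x => G.slice_add_real hy x) hg hp (c₁ := H) (c₂ := 0) hHI h0
  have hz : ∫ x in (0 : ℝ)..(2 * π), g (x + ((0 : ℝ) : ℂ) * I) = 0 := by
    rw [← K.lift_mean t ht]
    refine intervalIntegral.integral_congr fun x _ => ?_
    simp [hgdef]
  rw [hz] at key
  have hrow : ∀ x : ℝ, ((x : ℂ) + (H : ℂ) * I) ∈ G.slice t := by
    intro x
    have := G.slice_add_real hHI x
    rwa [add_comm] at this
  have hcont : Continuous fun x : ℝ => g ((x : ℂ) + (H : ℂ) * I) := by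
    refine hg.continuousOn.comp_continuous (by fun_prop) hrow
  have him := Complex.imCLM.intervalIntegral_comp_comm (μ := volume)
    (hcont.intervalIntegrable 0 (2 * π))
  rw [key] at him
  have hneg : ∀ x : ℝ, 0 < -(g ((x : ℂ) + (H : ℂ) * I)).im := by
    intro x
    have hm : ENNReal.ofReal |(K.lift ((x : ℂ) + (H : ℂ) * I, t)).im| < G.Hs :=
      (K.lift_spec ht).2.1 _ (hrow x)
    rw [← hH, ENNReal.ofReal_lt_ofReal_iff hHpos] at hm
    have := (abs_lt.1 hm).2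
    simp only [hgdef, Complex.sub_im, Complex.add_im, Complex.ofReal_im, Complex.mul_im,
      Complex.ofReal_re, Complex.I_im, Complex.I_re]
    linarith
  have hpos := intervalIntegral.intervalIntegral_pos_of_pos_on
    (f := fun x : ℝ => -(g ((x : ℂ) + (H : ℂ) * I)).im)
    ((Complex.continuous_im.comp hcont).neg.intervalIntegrable 0 (2 * π))
    (fun x _ => hneg x) (by positivity)
  rw [intervalIntegral.integral_neg] at hpos
  simp only [Complex.imCLM_apply, Complex.zero_im] at him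
  rw [him] at hpos
  simp at hpos

theorem noncircular : ¬ ∃ c₁ : ℂ, ∀ s ∈ estrip G.Hs, deriv K.C.φ s = c₁ := by
  rintro ⟨c₁, h⟩
  refine K.nonconst ⟨c₁, fun x => ?_⟩
  rw [← h x (G.s5ls_real_mem x)]
  refine Filter.EventuallyEq.deriv_eq ?_
  filter_upwards [(lj2_isOpen_hstrip (G.s / 2)).mem_nhds (G.s5ls_real_mem_half x)] with y hy
  exact (K.C.φ_base y hy).symm

end LiftCtx

/-- the origin is a regular point of the zero slice -/
theorem lsm_good_zero {G : Glance} (S : Sec4 G) (C : Curve S) : (0 : ℂ) ∈ S.Good 0 := by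
  have hs := G.lj1_s_pos
  have h0half : (0 : ℂ) ∈ hstrip (G.s / 2) := by simpa using G.s5ls_real_mem_half 0
  have h0e : (0 : ℂ) ∈ estrip G.Hs := by simpa using G.s5ls_real_mem 0
  have hf0 : deriv C.φ 0 ≠ 0 := by simpa using C.s5ls_f_real_ne 0
  have hO : IsOpen (hstrip (G.s / 2) ×ˢ Metric.ball (0 : ℂ) S.ρ) :=
    (s5ls_isOpen_hstrip _).prod Metric.isOpen_ball
  have hXa : AnalyticAt ℂ S.X (0, 0) := by
    have h1 : AnalyticAt ℂ G.X0 (0, 0) :=
      G.X0_analytic _ ⟨show |(0 : ℂ).im| < G.s by simpa using hs, Metric.mem_ball_self G.r₁_pos⟩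
    refine h1.congr ?_
    filter_upwards [hO.mem_nhds (show ((0, 0) : ℂ × ℂ) ∈ _ from
      ⟨h0half, Metric.mem_ball_self S.ρ_pos⟩)] with z hz
    exact (S.X_base z hz).symm
  have hx : ∀ y ∈ hstrip (G.s / 2), S.xs 0 y = C.Γ y := by
    intro y hy
    rw [C.Γ_base y hy]
    exact S.X_base (y, 0) ⟨hy, Metric.mem_ball_self S.ρ_pos⟩
  set m : ℂ → ℂ := fun y' => G.c / deriv C.φ y' ^ 2 with hm
  have hfa := C.s5ls_f_analytic 0 h0e
  have e1 : deriv (S.xs 0) =ᶠ[𝓝 0]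
      fun y' => (-(m y' * Complex.sin (C.φ y')), m y' * Complex.cos (C.φ y')) := by
    filter_upwards [(s5ls_isOpen_hstrip (G.s / 2)).mem_nhds h0half,
      (isOpen_estrip G.Hs).mem_nhds h0e, hfa.continuousAt.eventually_ne hf0] with y' a1 a2 a3
    have e : S.xs 0 =ᶠ[𝓝 y'] C.Γ := by
      filter_upwards [(s5ls_isOpen_hstrip (G.s / 2)).mem_nhds a1] with y'' h''
      exact hx y'' h''
    rw [e.deriv_eq, (C.Γ_deriv y' a2 a3).deriv]
    simp only [hm, Prod.smul_mk, smul_eq_mul]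
    ext <;> simp
  have hma : AnalyticAt ℂ m 0 := analyticAt_const.div (hfa.pow 2) (pow_ne_zero 2 hf0)
  have dm : HasDerivAt m (deriv m 0) 0 := hma.differentiableAt.hasDerivAt
  have dψ : HasDerivAt C.φ (deriv C.φ 0) 0 := C.s5ls_φ_hasDerivAt h0e
  have d1 : HasDerivAt (fun y' => -(m y' * Complex.sin (C.φ y')))
      (-(deriv m 0 * Complex.sin (C.φ 0) + m 0 * (Complex.cos (C.φ 0) * deriv C.φ 0))) 0 :=
    (dm.mul dψ.csin).neg
  have d2 : HasDerivAt (fun y' => m y' * Complex.cos (C.φ y'))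
      (deriv m 0 * Complex.cos (C.φ 0) + m 0 * (-Complex.sin (C.φ 0) * deriv C.φ 0)) 0 :=
    dm.mul dψ.ccos
  have e2 : deriv (deriv (S.xs 0)) 0 =
      (-(deriv m 0 * Complex.sin (C.φ 0) + m 0 * (Complex.cos (C.φ 0) * deriv C.φ 0)),
        deriv m 0 * Complex.cos (C.φ 0) + m 0 * (-Complex.sin (C.φ 0) * deriv C.φ 0)) := by
    rw [e1.deriv_eq]
    exact (d1.prodMk d2).deriv
  have e1' := e1.self_of_nhds
  have hsc := Complex.sin_sq_add_cos_sq (C.φ 0)
  have hdot : bdot (deriv (S.xs 0) 0) (deriv (S.xs 0) 0) = m 0 ^ 2 := by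
    rw [e1']
    simp only [bdot]
    linear_combination m 0 ^ 2 * hsc
  have hdet : bdet (deriv (S.xs 0) 0) (deriv (deriv (S.xs 0)) 0) = m 0 ^ 2 * deriv C.φ 0 := by
    rw [e1', e2]
    simp only [bdet]
    linear_combination m 0 ^ 2 * deriv C.φ 0 * hsc
  have hm0 : m 0 ≠ 0 := C.s5ls_A_ne hf0
  refine ⟨?_, hXa, ?_, ?_⟩
  · rw [G.slice_zero]
    exact h0e
  · rw [hdot]
    exact pow_ne_zero 2 hm0
  · rw [hdet]
    exact mul_ne_zero (pow_ne_zero 2 hm0) hf0

/-- the context exists: `0` is a regular point of the slices with small `t`.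
PLAN: at `(0,0)`: `X = X0` is analytic near `(0,0)` (`X_base`, `X0_analytic`); `x'·x' = c²/f⁴ ≠ 0`, `det(x',x'') = c²/f³ ≠ 0` at `t = 0`
(`Γ0' = (c/φ₀'²) e_{φ₀}` near the real axis, from `G.normalised` + identity theorem); continuity in `t`; `0 ∈ G.slice t` by `hstrip_subset_slice`. -/
theorem exists_liftCtx {G : Glance} (S : Sec4 G) (B : BaseLift G) (C : Curve S)
    (hf : ¬ ∃ c₁ : ℂ, ∀ x : ℝ, deriv G.φ₀ x = c₁) : Nonempty (LiftCtx G) := by
  have hs := G.lj1_s_pos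
  have hO : IsOpen (hstrip G.s ×ˢ Metric.ball (0 : ℂ) G.r₁) :=
    (s5ls_isOpen_hstrip _).prod Metric.isOpen_ball
  have hT : ∀ᶠ z in 𝓝 ((0, 0) : ℂ × ℂ), z.1 ∈ G.slice z.2 := by
    filter_upwards [hO.mem_nhds (show ((0, 0) : ℂ × ℂ) ∈ _ from
      ⟨show |(0 : ℂ).im| < G.s by simpa using hs, Metric.mem_ball_self G.r₁_pos⟩)] with z hz
    exact G.hstrip_subset_slice hz.2 hz.1
  have h1 := S.lj1_good_nhds (z₀ := (0, 0)) (lsm_good_zero S C) hT
  have h2 : ∀ᶠ t in 𝓝 (0 : ℂ), (0 : ℂ) ∈ S.Good t :=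
    ((Continuous.prodMk_right (0 : ℂ)).tendsto (0 : ℂ)).eventually h1
  obtain ⟨ε, hε, hb⟩ := Metric.eventually_nhds_iff_ball.1 h2
  exact ⟨{ S := S, B := B, C := C, nonconst := hf, r := min ε (min S.ρ B.ρ₀),
           r_pos := lt_min hε (lt_min S.ρ_pos B.ρ₀_pos),
           r_le := (min_le_right _ _).trans (min_le_left _ _),
           r_le' := (min_le_right _ _).trans (min_le_right _ _),
           good0 := fun t ht => hb t (Metric.ball_subset_ball (min_le_left _ _) ht) }⟩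

end Claimed.Agent.R269
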