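/-
Row 269, Section 5.1 (block S5a), leaf LF-S5a-curve: the curve data in the nonisotropic case.   Statement: helper264 (consumed VERBATIM by the lift block); blueprint: helper134.
Black boxes: `NormalA/B/C.lean`, `Lib/CA1*.lean` (`exists_log_convex`, `ca_exists_primitive`, `mero_identity`), `LiftBasic.lean`.
Fill the `sorry` IN PLACE (auxiliary lemmas above the statement, prefix `nd_`).

PLAN.  `hnc`: `meromorphicOrderAt S.am p = 0` at every `p ∈ D_H`.
 1. `a := toMeromorphicNFOn S.am D_H` is analytic and zero-free on `D_H` (order `0` + normal form: `MeromorphicNFAt.meromorphicOrderAt_eq_zero_iff`…), `a = S.am` off a discrete set and on `hstrip (s/2) ∩ D_H`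
    (there `S.am = exp(iφ₀)` is already analytic, so in normal form).
 2. `D_H` convex: `exists_log_convex` gives a holomorphic `ℓ` with `exp ℓ = a`; `φ := -i ℓ + 2πk` normalised by `φ 0 = φ₀ 0`.  `φ = φ₀` on `hstrip (s/2)`  [NOTE `hstrip (s/2) ⊆ D_H` by `Glance.le_hX`, `LiftWidth.lean`]: `exp(iφ) = exp(iφ₀)`, so `φ - φ₀` is continuous
    with values in `2πℤ` on a connected set, `0` at `0`.   `deriv φ = a'/(i a) = S.fm` off a discrete set (`am_deriv`).
 3. `φ_per`, `φ_conj`: `φ(s + 2π) - φ(s) - 2π` and `φ(conj s) - conj (φ s)` are holomorphic resp. (after conjugation) holomorphic on `D_H` and vanish near `0` (`Θ_per`, `Θ_conj`): identity theorem.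
 4. `Γ := (toMeromorphicNFOn (Γ.1), toMeromorphicNFOn (Γ.2))`.  `Γ_eq`, `Γ_mero`, `Γ_base` (analytic there).  With `Zc' = i c a/f²`, `Wc' = -i c/(a f²)` (`dZc_eq`, `dWc_eq`), `f = deriv φ`:
    at a point with `f ≠ 0` the derivatives of both coordinates are bounded near the point, so the coordinates have no pole (a pole of `g` is a pole of `g'`), the normal form is analytic, and
    `Γ' = (c/f²)(-sin φ, cos φ)` by continuity.   At a zero of `f`: `Zc'` has a pole, so `Zc` has a pole, `‖Γ‖ → ∞` (`Γ_pole`).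
 5. `Γ_per`, `Γ_conj`: from `Sec4.Γ_per`, `Sec4.Γ_conj` (punctured neighbourhoods) and continuity at points where `Γ` is analytic.
-/
import Claimed.Agent.R269.S5.LiftDefs
import Claimed.Agent.R269.S5.LiftWidth
import Claimed.Agent.R269.S5.NormalC

set_option autoImplicit false

namespace Claimed.Agent.R269

open Complex ComplexConjugate Filter Topology MeasureTheory
open scoped ENNReal Real

/-- continuity + equality on a punctured neighbourhood ⇒ equality at the point. -/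
theorem nd_eq_of_nhdsNE {E : Type*} [TopologicalSpace E] [T2Space E] {F H : ℂ → E} {y : ℂ}
    (hF : ContinuousAt F y) (hH : ContinuousAt H y) (h : F =ᶠ[𝓝[≠] y] H) : F y = H y :=
  tendsto_nhds_unique (hF.tendsto.mono_left nhdsWithin_le_nhds)
    ((hH.tendsto.mono_left nhdsWithin_le_nhds).congr' h.symm)

/-- two continuous logarithms of the same function differ locally by a constant in `2πℤ`. -/
theorem nd_exp_eq {a b : ℂ → ℂ} {y : ℂ} (ha : ContinuousAt a y) (hb : ContinuousAt b y)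
    (h : ∀ᶠ y' in 𝓝 y, Complex.exp (I * a y') = Complex.exp (I * b y')) :
    ∃ k : ℤ, ∀ᶠ y' in 𝓝 y, a y' = b y' + 2 * π * k := by
  have hpt : ∀ y', Complex.exp (I * a y') = Complex.exp (I * b y') →
      ∃ n : ℤ, a y' = b y' + 2 * π * n := by
    intro y' hy'
    obtain ⟨n, hn⟩ := Complex.exp_eq_exp_iff_exists_int.1 hy'
    refine ⟨n, ?_⟩
    have hI : (I : ℂ) ≠ 0 := Complex.I_ne_zero
    have : I * a y' = I * (b y' + 2 * π * n) := by rw [hn]; ring
    exact mul_left_cancel₀ hI this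
  obtain ⟨k, hk⟩ := hpt y h.self_of_nhds
  refine ⟨k, ?_⟩
  have hd : ContinuousAt (fun y' => a y' - b y' - 2 * π * k) y := (ha.sub hb).sub continuousAt_const
  have hd0 : a y - b y - 2 * π * k = 0 := by rw [hk]; ring
  have hsmall : ∀ᶠ y' in 𝓝 y, ‖a y' - b y' - 2 * π * k‖ < 1 := by
    have := hd.norm
    apply this.eventually_lt continuousAt_const
    simp only [hd0, norm_zero]
    exact one_pos
  filter_upwards [h, hsmall] with y' h1 h2
  obtain ⟨n, hn⟩ := hpt y' h1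
  have e : a y' - b y' - 2 * π * k = ((2 * π * ((n - k : ℤ) : ℝ) : ℝ) : ℂ) := by
    rw [hn]; push_cast; ring
  rw [e, Complex.norm_real, Real.norm_eq_abs, abs_mul, abs_of_pos (by positivity : (0 : ℝ) < 2 * π)] at h2
  have hnk : n - k = 0 := by
    by_contra hne
    have h3 : (1 : ℝ) ≤ |((n - k : ℤ) : ℝ)| := by
      have := Int.one_le_abs hne
      exact_mod_cast this
    have h4 : (1 : ℝ) < 2 * π := by linarith [Real.pi_gt_three]
    nlinarith
  have : n = k := by omega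
  rw [hn, this]

/-- a pole of `g` is a pole of `g'`. -/
theorem nd_order_nonneg_of_deriv {g : ℂ → ℂ} {x : ℂ}
    (h : 0 ≤ meromorphicOrderAt (deriv g) x) : 0 ≤ meromorphicOrderAt g x := by
  by_contra hcon
  push Not at hcon
  obtain ⟨n, hn⟩ := WithTop.ne_top_iff_exists.mp hcon.ne_top
  have hn0 : n < 0 := by simpa [← hn] using hcon
  have hnc : (n : ℂ) ≠ 0 := by exact_mod_cast hn0.ne
  have h1 := meromorphicOrderAt_deriv_eq_sub_one hnc hn.symm
  rw [h1] at h
  have : (0 : ℤ) ≤ n - 1 := by exact_mod_cast h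
  omega

/-- the normal form is analytic where the order is nonnegative. -/
theorem nd_nf_analyticAt {g : ℂ → ℂ} {U : Set ℂ} (hg : MeromorphicOn g U) {x : ℂ} (hx : x ∈ U)
    (h : 0 ≤ meromorphicOrderAt g x) : AnalyticAt ℂ (toMeromorphicNFOn g U) x := by
  apply (meromorphicNFOn_toMeromorphicNFOn g U hx).meromorphicOrderAt_nonneg_iff_analyticAt.1
  rwa [meromorphicOrderAt_toMeromorphicNFOn hg hx]

theorem nd_hstrip_isOpen (w : ℝ) : IsOpen (hstrip w) :=
  isOpen_lt (continuous_abs.comp Complex.continuous_im) continuous_const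

theorem nd_hstrip_preconnected (w : ℝ) : IsPreconnected (hstrip w) := by
  apply Convex.isPreconnected
  have h1 : Convex ℝ {z : ℂ | -w < z.im} := convex_halfSpace_im_gt _
  have h2 : Convex ℝ {z : ℂ | z.im < w} := convex_halfSpace_im_lt _
  have : hstrip w = {z : ℂ | -w < z.im} ∩ {z : ℂ | z.im < w} := by
    ext z
    show |z.im| < w ↔ -w < z.im ∧ z.im < w
    exact abs_lt
  rw [this]
  exact h1.inter h2

theorem nd_tendsto_add (s c : ℂ) : Tendsto (fun s' => s' + c) (𝓝[≠] s) (𝓝[≠] (s + c)) := by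
  apply tendsto_nhdsWithin_of_tendsto_nhds_of_eventually_within
  · have : ContinuousAt (fun s' : ℂ => s' + c) s := by fun_prop
    exact this.tendsto.mono_left nhdsWithin_le_nhds
  · filter_upwards [self_mem_nhdsWithin] with s' hs' h
    exact hs' (add_right_cancel h)

theorem nd_tendsto_conj (s : ℂ) : Tendsto (fun s' => conj s') (𝓝[≠] s) (𝓝[≠] (conj s)) := by
  apply tendsto_nhdsWithin_of_tendsto_nhds_of_eventually_within
  · exact (Complex.continuous_conj.continuousAt (x := s)).tendsto.mono_left nhdsWithin_le_nhds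
  · filter_upwards [self_mem_nhdsWithin] with s' hs' h
    exact hs' ((starRingEnd ℂ).injective h)

namespace Sec4

variable {G : Glance} (S : Sec4 G)

theorem nd_s_pos : 0 < G.s := G.r₁_pos.trans G.r₁_lt

theorem nd_hstrip_sub : hstrip (G.s / 2) ⊆ estrip G.Hs := by
  intro y hy
  have h1 : |y.im| < G.s / 2 := hy
  have hs := nd_s_pos (G := G)
  have h2 : ENNReal.ofReal G.s ≤ G.hX 0 := G.le_hX (by simpa using G.r₁_pos)
  show ENNReal.ofReal |y.im| < G.Hs
  refine lt_of_lt_of_le ?_ h2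
  rw [ENNReal.ofReal_lt_ofReal_iff hs]
  linarith

theorem nd_hstrip_sub2 : hstrip (G.s / 2) ⊆ hstrip (2 * G.s) := by
  intro y hy
  have h1 : |y.im| < G.s / 2 := hy
  have hs := nd_s_pos (G := G)
  show |y.im| < 2 * G.s
  linarith

theorem nd_zero_mem : (0 : ℂ) ∈ hstrip (G.s / 2) := by
  show |(0 : ℂ).im| < G.s / 2
  have hs := nd_s_pos (G := G)
  simp
  exact hs

theorem nd_φ₀_analyticAt (y : ℂ) (hy : y ∈ hstrip (G.s / 2)) : AnalyticAt ℂ G.φ₀ y :=
  G.φ₀_diff.analyticAt ((nd_hstrip_isOpen _).mem_nhds (nd_hstrip_sub2 hy))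

/-- the analytic zero-free normal. -/
theorem nd_exists_a (hnc : ∀ p, ¬ S.IsCenter p) :
    ∃ a : ℂ → ℂ, (∀ s ∈ estrip G.Hs, AnalyticAt ℂ a s) ∧ (∀ s ∈ estrip G.Hs, a s ≠ 0) ∧
      ∀ s ∈ estrip G.Hs, a =ᶠ[𝓝[≠] s] S.am := by
  have hm := S.am_mero
  have hord : ∀ s ∈ estrip G.Hs, meromorphicOrderAt S.am s = 0 := by
    intro s hs
    by_contra h
    exact hnc s ⟨hs, h⟩
  refine ⟨toMeromorphicNFOn S.am (estrip G.Hs), ?_, ?_, ?_⟩
  · intro s hs
    exact nd_nf_analyticAt hm hs (hord s hs).ge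
  · intro s hs
    apply (meromorphicNFOn_toMeromorphicNFOn S.am (estrip G.Hs) hs).meromorphicOrderAt_eq_zero_iff.1
    rw [meromorphicOrderAt_toMeromorphicNFOn hm hs]
    exact hord s hs
  · intro s hs
    exact hm.toMeromorphicNFOn_eq_self_on_nhdsNE hs

/-- the holomorphic normal angle. -/
theorem nd_exists_phi (hnc : ∀ p, ¬ S.IsCenter p) :
    ∃ φ : ℂ → ℂ, DifferentiableOn ℂ φ (estrip G.Hs) ∧ (∀ y ∈ hstrip (G.s / 2), φ y = G.φ₀ y) ∧
      ∀ s ∈ estrip G.Hs, (fun s' => Complex.exp (I * φ s')) =ᶠ[𝓝[≠] s] S.am := by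
  obtain ⟨a, haA, ha0, haE⟩ := S.nd_exists_a hnc
  have hDo : IsOpen (estrip G.Hs) := isOpen_estrip _
  have hbase : ∀ y ∈ hstrip (G.s / 2), a y = Complex.exp (I * G.φ₀ y) := by
    intro y hy
    apply nd_eq_of_nhdsNE (haA y (nd_hstrip_sub hy)).continuousAt
    · have := (nd_φ₀_analyticAt y hy).continuousAt
      fun_prop
    · have h1 : ∀ᶠ y' in 𝓝[≠] y, y' ∈ hstrip (G.s / 2) :=
        nhdsWithin_le_nhds ((nd_hstrip_isOpen _).mem_nhds hy)
      filter_upwards [haE y (nd_hstrip_sub hy), h1] with y' h2 h3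
      rw [h2, S.am_base y' h3]
  have haD : DifferentiableOn ℂ a (estrip G.Hs) := fun s hs =>
    (haA s hs).differentiableAt.differentiableWithinAt
  obtain ⟨φ, hφd, hφ0, hφe⟩ := exists_log_convex hDo (convex_estrip _) haD ha0
    (nd_hstrip_sub nd_zero_mem) (hbase 0 nd_zero_mem).symm
  refine ⟨φ, hφd, ?_, ?_⟩
  · have hev0 : ∀ᶠ y' in 𝓝 (0 : ℂ), Complex.exp (I * φ y') = Complex.exp (I * G.φ₀ y') := by
      filter_upwards [(nd_hstrip_isOpen _).mem_nhds (nd_zero_mem (G := G))] with y' hy'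
      rw [hφe y' (nd_hstrip_sub hy'), hbase y' hy']
    obtain ⟨k, hk⟩ := nd_exp_eq
      (hφd.analyticAt (hDo.mem_nhds (nd_hstrip_sub nd_zero_mem))).continuousAt
      (nd_φ₀_analyticAt 0 nd_zero_mem).continuousAt hev0
    have hk0 : (2 * π * k : ℂ) = 0 := by
      have := hk.self_of_nhds
      rw [hφ0] at this
      have h2 : G.φ₀ 0 + 0 = G.φ₀ 0 + 2 * π * k := by rw [add_zero]; exact this
      exact (add_left_cancel h2).symm
    have hev : φ =ᶠ[𝓝 0] G.φ₀ := by
      filter_upwards [hk] with y' hy'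
      rw [hy', hk0, add_zero]
    have := ((hφd.mono nd_hstrip_sub).analyticOnNhd (nd_hstrip_isOpen _)).eqOn_of_preconnected_of_eventuallyEq
      ((G.φ₀_diff.mono nd_hstrip_sub2).analyticOnNhd (nd_hstrip_isOpen _))
      (nd_hstrip_preconnected _) nd_zero_mem hev
    exact fun y hy => this hy
  · intro s hs
    have h1 : ∀ᶠ s' in 𝓝[≠] s, s' ∈ estrip G.Hs := nhdsWithin_le_nhds (hDo.mem_nhds hs)
    filter_upwards [haE s hs, h1] with s' h2 h3
    rw [hφe s' h3, h2]

theorem nd_phi_per {φ : ℂ → ℂ} (hφd : DifferentiableOn ℂ φ (estrip G.Hs))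
    (hφb : ∀ y ∈ hstrip (G.s / 2), φ y = G.φ₀ y) :
    ∀ s ∈ estrip G.Hs, φ (s + 2 * π) = φ s + 2 * π := by
  have hDo : IsOpen (estrip G.Hs) := isOpen_estrip _
  have hadd : ∀ s ∈ estrip G.Hs, s + 2 * π ∈ estrip G.Hs := by
    intro s hs
    have := estrip_add_real hs (2 * π)
    simpa using this
  have h1 : DifferentiableOn ℂ (fun s => φ (s + 2 * π)) (estrip G.Hs) :=
    hφd.comp (by fun_prop) hadd
  have h2 : DifferentiableOn ℂ (fun s => φ s + 2 * π) (estrip G.Hs) := hφd.add_const _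
  have hev : (fun s => φ (s + 2 * π)) =ᶠ[𝓝 0] fun s => φ s + 2 * π := by
    filter_upwards [(nd_hstrip_isOpen _).mem_nhds (nd_zero_mem (G := G))] with y hy
    have hy' : y + 2 * π ∈ hstrip (G.s / 2) := by
      have h3 : |y.im| < G.s / 2 := hy
      show |(y + 2 * π).im| < G.s / 2
      simpa using h3
    show φ (y + 2 * π) = φ y + 2 * π
    rw [hφb _ hy', hφb _ hy]
    exact G.Θ_per y (nd_hstrip_sub2 hy) 0 (by simpa using G.r₁_pos)
  have := (h1.analyticOnNhd hDo).eqOn_of_preconnected_of_eventuallyEq (h2.analyticOnNhd hDo)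
    (convex_estrip _).isPreconnected (nd_hstrip_sub nd_zero_mem) hev
  exact fun s hs => this hs

theorem nd_phi_conj {φ : ℂ → ℂ} (hφd : DifferentiableOn ℂ φ (estrip G.Hs))
    (hφb : ∀ y ∈ hstrip (G.s / 2), φ y = G.φ₀ y) :
    ∀ s ∈ estrip G.Hs, φ (conj s) = conj (φ s) := by
  have hDo : IsOpen (estrip G.Hs) := isOpen_estrip _
  have h1 : DifferentiableOn ℂ (conj ∘ φ ∘ conj) (estrip G.Hs) := by
    intro s hs
    have h2 : DifferentiableAt ℂ φ (conj s) :=
      (hφd _ (estrip_conj hs)).differentiableAt (hDo.mem_nhds (estrip_conj hs))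
    have := h2.conj_conj
    rw [Complex.conj_conj] at this
    exact this.differentiableWithinAt
  have hev : (conj ∘ φ ∘ conj) =ᶠ[𝓝 0] φ := by
    filter_upwards [(nd_hstrip_isOpen _).mem_nhds (nd_zero_mem (G := G))] with y hy
    have hy' : conj y ∈ hstrip (G.s / 2) := by
      have h3 : |y.im| < G.s / 2 := hy
      show |(conj y).im| < G.s / 2
      simpa using h3
    show conj (φ (conj y)) = φ y
    rw [hφb _ hy', hφb _ hy]
    have := G.Θ_conj y (nd_hstrip_sub2 hy) 0 (by simpa using G.r₁_pos)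
    rw [map_zero] at this
    show conj (G.Θ (conj y) 0) = G.Θ y 0
    rw [this, Complex.conj_conj]
  have := (h1.analyticOnNhd hDo).eqOn_of_preconnected_of_eventuallyEq (hφd.analyticOnNhd hDo)
    (convex_estrip _).isPreconnected (nd_hstrip_sub nd_zero_mem) hev
  intro s hs
  have h3 : conj (φ (conj s)) = φ s := this hs
  rw [← h3, Complex.conj_conj]

theorem nd_mem_nhdsNE {s : ℂ} (hs : s ∈ estrip G.Hs) : ∀ᶠ s' in 𝓝[≠] s, s' ∈ estrip G.Hs :=
  nhdsWithin_le_nhds ((isOpen_estrip _).mem_nhds hs)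

theorem nd_phi_analyticAt {φ : ℂ → ℂ} (hφd : DifferentiableOn ℂ φ (estrip G.Hs)) {s : ℂ}
    (hs : s ∈ estrip G.Hs) : AnalyticAt ℂ φ s :=
  hφd.analyticAt ((isOpen_estrip _).mem_nhds hs)

/-- `φ' = f` off a discrete set. -/
theorem nd_fm {φ : ℂ → ℂ} (hφd : DifferentiableOn ℂ φ (estrip G.Hs))
    (hφa : ∀ s ∈ estrip G.Hs, (fun s' => Complex.exp (I * φ s')) =ᶠ[𝓝[≠] s] S.am) :
    ∀ s ∈ estrip G.Hs, ∀ᶠ s' in 𝓝[≠] s, S.fm s' = deriv φ s' := by
  intro s hs
  filter_upwards [(hφa s hs).nhdsNE_deriv, hφa s hs, S.am_deriv s hs, nd_mem_nhdsNE hs]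
    with s' h1 h2 h3 h4
  have hd : HasDerivAt (fun s' => Complex.exp (I * φ s'))
      (Complex.exp (I * φ s') * (I * deriv φ s')) s' :=
    (((nd_phi_analyticAt hφd h4).differentiableAt.hasDerivAt).const_mul I).cexp
  rw [hd.deriv, h3, ← h2] at h1
  have hE : Complex.exp (I * φ s') ≠ 0 := Complex.exp_ne_zero _
  have h5 : (I * Complex.exp (I * φ s')) * deriv φ s' = (I * Complex.exp (I * φ s')) * S.fm s' := by
    linear_combination h1
  exact (mul_left_cancel₀ (mul_ne_zero Complex.I_ne_zero hE) h5).symm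

theorem nd_dZ {φ : ℂ → ℂ} (hφd : DifferentiableOn ℂ φ (estrip G.Hs))
    (hφa : ∀ s ∈ estrip G.Hs, (fun s' => Complex.exp (I * φ s')) =ᶠ[𝓝[≠] s] S.am) :
    ∀ s ∈ estrip G.Hs, ∀ᶠ s' in 𝓝[≠] s,
      deriv S.Zc s' = I * G.c * Complex.exp (I * φ s') / deriv φ s' ^ 2 := by
  intro s hs
  filter_upwards [S.nd_fm hφd hφa s hs, hφa s hs, S.dZc_eq s hs] with s' h1 h2 h3
  rw [h3, h1, ← h2]

theorem nd_dW {φ : ℂ → ℂ} (hφd : DifferentiableOn ℂ φ (estrip G.Hs))
    (hφa : ∀ s ∈ estrip G.Hs, (fun s' => Complex.exp (I * φ s')) =ᶠ[𝓝[≠] s] S.am) :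
    ∀ s ∈ estrip G.Hs, ∀ᶠ s' in 𝓝[≠] s,
      deriv S.Wc s' = -I * G.c / (Complex.exp (I * φ s') * deriv φ s' ^ 2) := by
  intro s hs
  filter_upwards [S.nd_fm hφd hφa s hs, hφa s hs, S.dWc_eq s hs] with s' h1 h2 h3
  rw [h3, h1, ← h2]

/-- the curve in normal form. -/
noncomputable def ndΓ (s : ℂ) : ℂ × ℂ :=
  (toMeromorphicNFOn (fun s => (S.Γ s).1) (estrip G.Hs) s,
    toMeromorphicNFOn (fun s => (S.Γ s).2) (estrip G.Hs) s)

theorem ndΓ_eq (s : ℂ) (hs : s ∈ estrip G.Hs) : S.ndΓ =ᶠ[𝓝[≠] s] S.Γ := by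
  filter_upwards [S.Γ_mero.1.toMeromorphicNFOn_eq_self_on_nhdsNE hs,
    S.Γ_mero.2.toMeromorphicNFOn_eq_self_on_nhdsNE hs] with s' h1 h2
  exact Prod.ext h1 h2

theorem ndΓ_mero : MeromorphicOn (fun s => (S.ndΓ s).1) (estrip G.Hs) ∧
    MeromorphicOn (fun s => (S.ndΓ s).2) (estrip G.Hs) :=
  ⟨(meromorphicNFOn_toMeromorphicNFOn _ _).meromorphicOn,
    (meromorphicNFOn_toMeromorphicNFOn _ _).meromorphicOn⟩

/-- at a regular point both coordinates of the curve are analytic. -/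
theorem ndΓ_analyticAt {φ : ℂ → ℂ} (hφd : DifferentiableOn ℂ φ (estrip G.Hs))
    (hφa : ∀ s ∈ estrip G.Hs, (fun s' => Complex.exp (I * φ s')) =ᶠ[𝓝[≠] s] S.am)
    (s : ℂ) (hs : s ∈ estrip G.Hs) (hf : deriv φ s ≠ 0) :
    AnalyticAt ℂ (fun s => (S.ndΓ s).1) s ∧ AnalyticAt ℂ (fun s => (S.ndΓ s).2) s := by
  have hφA := nd_phi_analyticAt hφd hs
  have hE : AnalyticAt ℂ (fun s' => Complex.exp (I * φ s')) s := (analyticAt_const.mul hφA).cexp
  have hZ : AnalyticAt ℂ (fun s' => I * G.c * Complex.exp (I * φ s') / deriv φ s' ^ 2) s :=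
    (analyticAt_const.mul hE).div (hφA.deriv.pow 2) (pow_ne_zero 2 hf)
  have hW : AnalyticAt ℂ (fun s' => -I * G.c / (Complex.exp (I * φ s') * deriv φ s' ^ 2)) s :=
    analyticAt_const.div (hE.mul (hφA.deriv.pow 2))
      (mul_ne_zero (Complex.exp_ne_zero _) (pow_ne_zero 2 hf))
  have oZ : 0 ≤ meromorphicOrderAt S.Zc s := by
    apply nd_order_nonneg_of_deriv
    rw [meromorphicOrderAt_congr (S.nd_dZ hφd hφa s hs)]
    exact hZ.meromorphicOrderAt_nonneg
  have oW : 0 ≤ meromorphicOrderAt S.Wc s := by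
    apply nd_order_nonneg_of_deriv
    rw [meromorphicOrderAt_congr (S.nd_dW hφd hφa s hs)]
    exact hW.meromorphicOrderAt_nonneg
  obtain ⟨cZ, hcZ⟩ := tendsto_nhds_of_meromorphicOrderAt_nonneg (S.Zc_mero s hs) oZ
  obtain ⟨cW, hcW⟩ := tendsto_nhds_of_meromorphicOrderAt_nonneg (S.Wc_mero s hs) oW
  constructor
  · apply nd_nf_analyticAt S.Γ_mero.1 hs
    apply (tendsto_nhds_iff_meromorphicOrderAt_nonneg (S.Γ_mero.1 s hs)).1
    refine ⟨(cZ + cW) / 2, ?_⟩
    have : (fun s => (S.Γ s).1) = fun s => (S.Zc s + S.Wc s) / 2 := by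
      funext s'
      simp only [Zc, Wc]
      ring
    rw [this]
    exact (hcZ.add hcW).div_const 2
  · apply nd_nf_analyticAt S.Γ_mero.2 hs
    apply (tendsto_nhds_iff_meromorphicOrderAt_nonneg (S.Γ_mero.2 s hs)).1
    refine ⟨(cZ - cW) / (2 * I), ?_⟩
    have : (fun s => (S.Γ s).2) = fun s => (S.Zc s - S.Wc s) / (2 * I) := by
      funext s'
      simp only [Zc, Wc]
      have hI : (I : ℂ) ≠ 0 := Complex.I_ne_zero
      field_simp
      ring
    rw [this]
    exact (hcZ.sub hcW).div_const _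

/-- the derivative of the curve at a regular point. -/
theorem ndΓ_deriv {φ : ℂ → ℂ} (hφd : DifferentiableOn ℂ φ (estrip G.Hs))
    (hφa : ∀ s ∈ estrip G.Hs, (fun s' => Complex.exp (I * φ s')) =ᶠ[𝓝[≠] s] S.am)
    (s : ℂ) (hs : s ∈ estrip G.Hs) (hf : deriv φ s ≠ 0) :
    HasDerivAt S.ndΓ ((G.c / deriv φ s ^ 2 : ℂ) • (-Complex.sin (φ s), Complex.cos (φ s))) s := by
  obtain ⟨h1, h2⟩ := S.ndΓ_analyticAt hφd hφa s hs hf
  have hφA := nd_phi_analyticAt hφd hs
  have hE : AnalyticAt ℂ (fun s' => Complex.exp (I * φ s')) s := (analyticAt_const.mul hφA).cexp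
  have hZ : AnalyticAt ℂ (fun s' => I * G.c * Complex.exp (I * φ s') / deriv φ s' ^ 2) s :=
    (analyticAt_const.mul hE).div (hφA.deriv.pow 2) (pow_ne_zero 2 hf)
  have hW : AnalyticAt ℂ (fun s' => -I * G.c / (Complex.exp (I * φ s') * deriv φ s' ^ 2)) s :=
    analyticAt_const.div (hE.mul (hφA.deriv.pow 2))
      (mul_ne_zero (Complex.exp_ne_zero _) (pow_ne_zero 2 hf))
  -- the isotropic coordinates of the normal form
  have hZt : AnalyticAt ℂ (fun s' => (S.ndΓ s').1 + I * (S.ndΓ s').2) s :=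
    h1.add (analyticAt_const.mul h2)
  have hWt : AnalyticAt ℂ (fun s' => (S.ndΓ s').1 - I * (S.ndΓ s').2) s :=
    h1.sub (analyticAt_const.mul h2)
  have eZ : (fun s' => (S.ndΓ s').1 + I * (S.ndΓ s').2) =ᶠ[𝓝[≠] s] S.Zc := by
    filter_upwards [S.ndΓ_eq s hs] with s' h
    show (S.ndΓ s').1 + I * (S.ndΓ s').2 = (S.Γ s').1 + I * (S.Γ s').2
    rw [h]
  have eW : (fun s' => (S.ndΓ s').1 - I * (S.ndΓ s').2) =ᶠ[𝓝[≠] s] S.Wc := by
    filter_upwards [S.ndΓ_eq s hs] with s' h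
    show (S.ndΓ s').1 - I * (S.ndΓ s').2 = (S.Γ s').1 - I * (S.Γ s').2
    rw [h]
  have dZ : deriv (fun s' => (S.ndΓ s').1 + I * (S.ndΓ s').2) s
      = I * G.c * Complex.exp (I * φ s) / deriv φ s ^ 2 :=
    nd_eq_of_nhdsNE (H := fun s' => I * G.c * Complex.exp (I * φ s') / deriv φ s' ^ 2)
      hZt.deriv.continuousAt hZ.continuousAt (eZ.nhdsNE_deriv.trans (S.nd_dZ hφd hφa s hs))
  have dW : deriv (fun s' => (S.ndΓ s').1 - I * (S.ndΓ s').2) s
      = -I * G.c / (Complex.exp (I * φ s) * deriv φ s ^ 2) :=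
    nd_eq_of_nhdsNE (H := fun s' => -I * G.c / (Complex.exp (I * φ s') * deriv φ s' ^ 2))
      hWt.deriv.continuousAt hW.continuousAt (eW.nhdsNE_deriv.trans (S.nd_dW hφd hφa s hs))
  have d1 := h1.differentiableAt.hasDerivAt
  have d2 := h2.differentiableAt.hasDerivAt
  have dZ0 : HasDerivAt (fun s' => (S.ndΓ s').1 + I * (S.ndΓ s').2)
      (deriv (fun s => (S.ndΓ s).1) s + I * deriv (fun s => (S.ndΓ s).2) s) s :=
    d1.add (d2.const_mul I)
  have dW0 : HasDerivAt (fun s' => (S.ndΓ s').1 - I * (S.ndΓ s').2)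
      (deriv (fun s => (S.ndΓ s).1) s - I * deriv (fun s => (S.ndΓ s).2) s) s :=
    d1.sub (d2.const_mul I)
  rw [dZ0.deriv] at dZ
  rw [dW0.deriv] at dW
  have hexp : Complex.exp (I * φ s) = Complex.cos (φ s) + Complex.sin (φ s) * I := by
    rw [mul_comm, Complex.exp_mul_I]
  have hcs : Complex.sin (φ s) ^ 2 + Complex.cos (φ s) ^ 2 = 1 := Complex.sin_sq_add_cos_sq (φ s)
  have hne : Complex.cos (φ s) + Complex.sin (φ s) * I ≠ 0 := by
    rw [← hexp]; exact Complex.exp_ne_zero _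
  have hinv : (Complex.cos (φ s) + Complex.sin (φ s) * I)⁻¹
      = Complex.cos (φ s) - Complex.sin (φ s) * I := by
    apply inv_eq_of_mul_eq_one_right
    have hI2 : (I : ℂ) ^ 2 = -1 := Complex.I_sq
    linear_combination hcs - Complex.sin (φ s) ^ 2 * hI2
  rw [hexp] at dZ dW
  have hI2 : (I : ℂ) ^ 2 = -1 := Complex.I_sq
  have hI : (I : ℂ) ≠ 0 := Complex.I_ne_zero
  have dW' : deriv (fun s => (S.ndΓ s).1) s - I * deriv (fun s => (S.ndΓ s).2) s
      = -I * G.c * (Complex.cos (φ s) - Complex.sin (φ s) * I) / deriv φ s ^ 2 := by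
    rw [dW, ← hinv]
    field_simp
  have e1 : deriv (fun s => (S.ndΓ s).1) s = G.c / deriv φ s ^ 2 * -Complex.sin (φ s) := by
    have : 2 * deriv (fun s => (S.ndΓ s).1) s = 2 * (G.c / deriv φ s ^ 2 * -Complex.sin (φ s)) := by
      have h3 := congrArg₂ (fun a b : ℂ => a + b) dZ dW'
      have h4 : I * G.c * (Complex.cos (φ s) + Complex.sin (φ s) * I) / deriv φ s ^ 2
          + -I * G.c * (Complex.cos (φ s) - Complex.sin (φ s) * I) / deriv φ s ^ 2
          = 2 * (G.c / deriv φ s ^ 2 * -Complex.sin (φ s)) := by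
        field_simp
        linear_combination (2 * G.c * Complex.sin (φ s)) * hI2
      linear_combination h3 + h4
    exact mul_left_cancel₀ two_ne_zero this
  have e2 : deriv (fun s => (S.ndΓ s).2) s = G.c / deriv φ s ^ 2 * Complex.cos (φ s) := by
    have : (2 * I) * deriv (fun s => (S.ndΓ s).2) s
        = (2 * I) * (G.c / deriv φ s ^ 2 * Complex.cos (φ s)) := by
      have h3 := congrArg₂ (fun a b : ℂ => a - b) dZ dW'
      have h4 : I * G.c * (Complex.cos (φ s) + Complex.sin (φ s) * I) / deriv φ s ^ 2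
          - -I * G.c * (Complex.cos (φ s) - Complex.sin (φ s) * I) / deriv φ s ^ 2
          = (2 * I) * (G.c / deriv φ s ^ 2 * Complex.cos (φ s)) := by
        field_simp
        ring
      linear_combination h3 + h4
    exact mul_left_cancel₀ (mul_ne_zero two_ne_zero hI) this
  have := d1.prodMk d2
  rw [e1, e2] at this
  exact this

/-- poles of the curve at the zeros of `f`. -/
theorem ndΓ_pole {φ : ℂ → ℂ} (hφd : DifferentiableOn ℂ φ (estrip G.Hs))
    (hφa : ∀ s ∈ estrip G.Hs, (fun s' => Complex.exp (I * φ s')) =ᶠ[𝓝[≠] s] S.am)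
    (s : ℂ) (hs : s ∈ estrip G.Hs) (hf : deriv φ s = 0) :
    Tendsto (fun s' => ‖S.ndΓ s'‖) (𝓝[≠] s) atTop := by
  have hφA := nd_phi_analyticAt hφd hs
  have hneg : meromorphicOrderAt S.Zc s < 0 := by
    by_contra hcon
    push Not at hcon
    obtain ⟨g, hg, hgE⟩ := (S.Zc_mero s hs).meromorphicOrderAt_nonneg_iff.1 hcon
    have hfm : ∀ᶠ s' in 𝓝[≠] s, S.fm s' ≠ 0 :=
      (meromorphicOrderAt_ne_top_iff_eventually_ne_zero (S.fm_mero s hs)).1 (S.fm_order_ne_top s hs)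
    have hev : (fun s' => deriv g s' * deriv φ s' ^ 2)
        =ᶠ[𝓝[≠] s] fun s' => I * G.c * Complex.exp (I * φ s') := by
      filter_upwards [hgE.nhdsNE_deriv, S.nd_dZ hφd hφa s hs, S.nd_fm hφd hφa s hs, hfm]
        with s' h1 h2 h3 h4
      have h5 : deriv φ s' ≠ 0 := by rw [← h3]; exact h4
      show deriv g s' * deriv φ s' ^ 2 = _
      rw [← h1, h2]
      field_simp
    have hc1 : ContinuousAt (fun s' => deriv g s' * deriv φ s' ^ 2) s :=
      hg.deriv.continuousAt.mul (hφA.deriv.continuousAt.pow 2)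
    have hc2 : ContinuousAt (fun s' => I * G.c * Complex.exp (I * φ s')) s := by
      have := hφA.continuousAt
      fun_prop
    have := nd_eq_of_nhdsNE hc1 hc2 hev
    simp only [hf] at this
    have hc : (G.c : ℂ) ≠ 0 := by exact_mod_cast G.c_pos.ne'
    have h0 : I * G.c * Complex.exp (I * φ s) ≠ 0 :=
      mul_ne_zero (mul_ne_zero Complex.I_ne_zero hc) (Complex.exp_ne_zero _)
    apply h0
    rw [← this]
    simp
  have h1 : Tendsto (fun s' => ‖S.Zc s'‖) (𝓝[≠] s) atTop :=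
    tendsto_norm_atTop_iff_cobounded.2 (tendsto_cobounded_of_meromorphicOrderAt_neg hneg)
  have h2 : Tendsto (fun s' => ‖S.Zc s'‖ / 2) (𝓝[≠] s) atTop := h1.atTop_div_const (by norm_num)
  apply tendsto_atTop_mono' _ _ h2
  filter_upwards [S.ndΓ_eq s hs] with s' h
  rw [h]
  have h3 : ‖S.Zc s'‖ ≤ ‖(S.Γ s').1‖ + ‖(S.Γ s').2‖ := by
    show ‖(S.Γ s').1 + I * (S.Γ s').2‖ ≤ _
    refine (norm_add_le _ _).trans ?_
    rw [norm_mul, Complex.norm_I, one_mul]
  have h4 := norm_fst_le (S.Γ s')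
  have h5 := norm_snd_le (S.Γ s')
  linarith

theorem nd_f_per {φ : ℂ → ℂ} (hper : ∀ s ∈ estrip G.Hs, φ (s + 2 * π) = φ s + 2 * π)
    (s : ℂ) (hs : s ∈ estrip G.Hs) : deriv φ (s + 2 * π) = deriv φ s := by
  have hev : (fun s' => φ (s' + 2 * π)) =ᶠ[𝓝 s] fun s' => φ s' + 2 * π := by
    filter_upwards [(isOpen_estrip _).mem_nhds hs] with s' hs'
    exact hper s' hs'
  have := hev.deriv_eq
  rwa [deriv_comp_add_const, deriv_add_const] at this

theorem nd_f_conj {φ : ℂ → ℂ} (hconj : ∀ s ∈ estrip G.Hs, φ (conj s) = conj (φ s))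
    (s : ℂ) (hs : s ∈ estrip G.Hs) : deriv φ (conj s) = conj (deriv φ s) := by
  have hev : (conj ∘ φ ∘ conj) =ᶠ[𝓝 s] φ := by
    filter_upwards [(isOpen_estrip _).mem_nhds hs] with s' hs'
    show conj (φ (conj s')) = φ s'
    rw [hconj s' hs', Complex.conj_conj]
  have := hev.deriv_eq
  rw [deriv_conj_conj] at this
  have h2 : conj (deriv φ (conj s)) = deriv φ s := this
  rw [← h2, Complex.conj_conj]

/-- EXPORT S5a: the curve data in the nonisotropic case. -/
theorem exists_curve (hnc : ∀ p, ¬ S.IsCenter p) : Nonempty (Curve S) := by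
  obtain ⟨φ, hφd, hφb, hφa⟩ := S.nd_exists_phi hnc
  have hper := nd_phi_per hφd hφb
  have hconj := nd_phi_conj hφd hφb
  have hadd : ∀ s ∈ estrip G.Hs, s + 2 * π ∈ estrip G.Hs := by
    intro s hs
    have := estrip_add_real hs (2 * π)
    simpa using this
  have hcont : ∀ s ∈ estrip G.Hs, deriv φ s ≠ 0 → ContinuousAt S.ndΓ s := fun s hs hf =>
    (S.ndΓ_deriv hφd hφa s hs hf).continuousAt
  refine ⟨{
    φ := φ
    Γ := S.ndΓ
    φ_diff := hφd
    φ_base := hφb
    φ_per := hper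
    φ_conj := hconj
    Γ_mero := S.ndΓ_mero
    Γ_base := ?_
    Γ_deriv := S.ndΓ_deriv hφd hφa
    Γ_pole := S.ndΓ_pole hφd hφa
    Γ_eq := S.ndΓ_eq
    Γ_per := ?_
    Γ_conj := ?_ }⟩
  · intro y hy
    have hyD := nd_hstrip_sub hy
    have hfy : deriv φ y ≠ 0 := by
      have hev : φ =ᶠ[𝓝 y] G.φ₀ := by
        filter_upwards [(nd_hstrip_isOpen _).mem_nhds hy] with y' hy'
        exact hφb y' hy'
      rw [hev.deriv_eq]
      exact G.dφ₀_ne_zero y (nd_hstrip_sub2 hy)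
    have hΓ0 : ContinuousAt G.Γ0 y := by
      have hmem : (y, (0 : ℂ)) ∈ hstrip G.s ×ˢ Metric.ball (0 : ℂ) G.r₁ := by
        refine ⟨?_, by simpa using G.r₁_pos⟩
        have h1 : |y.im| < G.s / 2 := hy
        have hs := nd_s_pos (G := G)
        show |y.im| < G.s
        linarith
      have h1 : ContinuousAt G.X0 (y, 0) := (G.X0_analytic _ hmem).continuousAt
      have h2 : ContinuousAt (fun y : ℂ => (y, (0 : ℂ))) y := by fun_prop
      exact ContinuousAt.comp (f := fun y : ℂ => (y, (0 : ℂ))) h1 h2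
    apply nd_eq_of_nhdsNE (hcont y hyD hfy) hΓ0
    have h1 : ∀ᶠ y' in 𝓝[≠] y, y' ∈ hstrip (G.s / 2) :=
      nhdsWithin_le_nhds ((nd_hstrip_isOpen _).mem_nhds hy)
    filter_upwards [S.ndΓ_eq y hyD, h1] with y' h2 h3
    rw [h2, S.Γ_base y' h3]
  · intro s hs hf
    have hf2 : deriv φ (s + 2 * π) ≠ 0 := by rw [nd_f_per hper s hs]; exact hf
    have hc1 : ContinuousAt (fun s' => S.ndΓ (s' + 2 * π)) s := by
      have h2 : ContinuousAt (fun s' : ℂ => s' + 2 * π) s := by fun_prop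
      exact ContinuousAt.comp (f := fun s' : ℂ => s' + 2 * π) (hcont _ (hadd s hs) hf2) h2
    apply nd_eq_of_nhdsNE (F := fun s' => S.ndΓ (s' + 2 * π)) hc1 (hcont s hs hf)
    filter_upwards [(nd_tendsto_add s (2 * π)).eventually (S.ndΓ_eq _ (hadd s hs)), S.ndΓ_eq s hs,
      S.Γ_per s hs] with s' h1 h2 h3
    rw [h1, h2, h3]
  · intro s hs hf
    have hsc := estrip_conj hs
    have hf2 : deriv φ (conj s) ≠ 0 := by
      rw [nd_f_conj hconj s hs]
      exact (map_ne_zero _).2 hf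
    have hc1 : ContinuousAt (fun s' => S.ndΓ (conj s')) s :=
      ContinuousAt.comp (f := fun s' : ℂ => conj s') (hcont _ hsc hf2)
        Complex.continuous_conj.continuousAt
    have hc2 : ContinuousAt (fun s' => ((conj (S.ndΓ s').1, conj (S.ndΓ s').2) : ℂ × ℂ)) s := by
      have h0 := hcont s hs hf
      exact (Complex.continuous_conj.continuousAt.comp h0.fst).prodMk
        (Complex.continuous_conj.continuousAt.comp h0.snd)
    apply nd_eq_of_nhdsNE (F := fun s' => S.ndΓ (conj s'))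
      (H := fun s' => ((conj (S.ndΓ s').1, conj (S.ndΓ s').2) : ℂ × ℂ)) hc1 hc2
    filter_upwards [(nd_tendsto_conj s).eventually (S.ndΓ_eq _ hsc), S.ndΓ_eq s hs,
      S.Γ_conj s hs] with s' h1 h2 h3
    show S.ndΓ (conj s') = (conj (S.ndΓ s').1, conj (S.ndΓ s').2)
    rw [h1, h2, h3]

end Sec4


end Claimed.Agent.R269
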