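/-
Row 269, Theorem 5.4: assembly of `Lifted G` from the packages LF-S5d-*.  Owner: helper264.  (No `sorry` in this file.)
-/
import Claimed.Agent.R269.S5.LiftSmall
import Claimed.Agent.R269.S5.Normal

set_option autoImplicit false

namespace Claimed.Agent.R269

open Complex ComplexConjugate Filter Topology MeasureTheory
open scoped ENNReal Real

theorem Glance.tube_mono (G : Glance) {ρ ρ' : ℝ} (h : ρ ≤ ρ') : G.tube ρ ⊆ G.tube ρ' := by
  intro z hz
  exact ⟨Metric.ball_subset_ball h hz.1, hz.2⟩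

theorem Glance.tubeL_mono (G : Glance) {ρ ρ' : ℝ} (h : ρ ≤ ρ') : G.tubeL ρ ⊆ G.tubeL ρ' := by
  intro z hz
  exact ⟨Metric.ball_subset_ball h hz.1, hz.2⟩

theorem SuperMeanOn.mono {w : ℂ → ℝ≥0∞} {ρ ρ' : ℝ} (hw : SuperMeanOn w ρ') (h : ρ ≤ ρ') :
    SuperMeanOn w ρ := by
  intro t₀ r hr hb
  exact hw t₀ r hr (hb.trans (Metric.ball_subset_ball h))

theorem SliceMero.mono {F : ℂ × ℂ → ℂ} {W W' : Set (ℂ × ℂ)} (hF : SliceMero F W') (h : W ⊆ W') :
    SliceMero F W := fun z hz => hF z (h hz)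

namespace LiftCtx

/-- the output of Theorem 5.4. -/
theorem lifted {G : Glance} (K : LiftCtx G) : Nonempty (Lifted G) := by
  obtain ⟨ρ₂, h0, hle, hbase, hmono⟩ := K.exists_small
  have hS : ρ₂ ≤ K.S.ρ := hle.trans K.r_le
  have hb : Metric.ball (0 : ℂ) ρ₂ ⊆ Metric.ball (0 : ℂ) K.S.ρ := Metric.ball_subset_ball hS
  have hb' : Metric.ball (0 : ℂ) ρ₂ ⊆ Metric.ball (0 : ℂ) K.r := Metric.ball_subset_ball hle
  have ht : G.tube ρ₂ ⊆ G.tube K.r := G.tube_mono hle
  exact ⟨{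
    ρ := ρ₂
    ρ_pos := h0
    ρ_le := hS.trans K.S.ρ_le
    φ := K.C.φ
    Γ := K.C.Γ
    lift := K.lift
    width_rel := fun t h => K.S.width_rel t (hb h)
    lsc_X := K.S.lsc_X.mono hb
    lsc_L := K.S.lsc_L.mono hb
    supermean_X := K.S.supermean_X.mono hS
    supermean_L := K.S.supermean_L.mono hS
    no_patch_X := fun t₀ h => K.S.no_patch_X t₀ (h.trans_le hS)
    no_patch_L := fun t₀ h => K.S.no_patch_L t₀ (h.trans_le hS)
    φ_diff := K.C.φ_diff
    φ_base := K.C.φ_base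
    φ_per := K.C.φ_per
    φ_conj := K.C.φ_conj
    noncircular := K.noncircular
    Γ_mero := K.C.Γ_mero
    Γ_base := K.C.Γ_base
    Γ_deriv := K.C.Γ_deriv
    nat_bdry := K.C.nat_bdry
    lift_diff := (K.lift_analytic.mono ht).differentiableOn
    lift_mem := fun z hz => by
      have h := (G.mem_tube_iff).1 (ht hz)
      exact (K.lift_spec h.1).2.1 z.1 h.2
    lift_zero := K.lift_zero
    lift_per := fun z hz => K.lift_per z (ht hz)
    lift_even := fun z hz => K.lift_even z (ht hz)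
    lift_conj := fun z hz => K.lift_real z (ht hz)
    lift_base := hbase
    lift_mean := fun t h => K.lift_mean t (hb' h)
    lift_mono := hmono
    hX_le := fun t h => K.hX_le t (hb' h)
    L := K.S.L
    L_mero₁ := K.S.L_mero₁.mono (G.tubeL_mono hS)
    L_mero₂ := K.S.L_mero₂.mono (G.tubeL_mono hS)
    L_base := fun z hz => K.S.L_base z ⟨hz.1, hb hz.2⟩ }⟩

end LiftCtx

/-- Theorem 5.4 + (5.23) + (5.24), from the packages. -/
theorem Sec4.exists_lifted' {G : Glance} (S : Sec4 G) (B : BaseLift G)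
    (hnc : ∀ p, ¬ S.IsCenter p) (hf : ¬ ∃ c₁ : ℂ, ∀ x : ℝ, deriv G.φ₀ x = c₁) :
    Nonempty (Lifted G) := by
  obtain ⟨C⟩ := S.exists_curve hnc
  obtain ⟨K⟩ := exists_liftCtx S B C hf
  exact K.lifted

end Claimed.Agent.R269
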