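/-
Row 269, P1 Section 5, block S5f (package BP-S5-norm), part 2: MEAN NORMALISATION (5.23), done FIRST, and "constant speed gives a circle".
Owner: helper266.  Prefix `s5n_`.  Exports (consumed by `S5/Main.lean`):
    `Glance.s5n_exists_normalised (G) : ∃ G' : Glance, G'.hc = G.hc ∧ Nonempty (BaseLift G')`,
    `Glance.s5n_const_ellipse (G) (h : ∃ c₁, ∀ x : ℝ, deriv G.φ₀ x = c₁) : IsEllipseSupport G.hR`.

 §2 `X0 = suppPt hc ∘ ψ`, `ψ(y,t) = (Θ(y-t/2,t)+Θ(y+t/2,t))/2`, `Γ0 = suppPt hc ∘ φ₀`, `ψ(y,0) = φ₀(y)`.  So `ℓ₀ := χ ∘ ψ` (`χ` the inverse of `φ₀`, `s5n_inverse`) is an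
    impact lift on `hstrip w × ball 0 ρ` (`ψ` maps this set into `hstrip w₁` by `s5n_tube`); its symmetries follow from those of `ψ` and the injectivity of `φ₀`.
 §4 change of phase: for `b` holomorphic, even, real, `b 0 = 0`, `|b| ≤ s/2` on `ball 0 r'`, `(y,t) ↦ (Θ,p)(y - b t, t)` is again a `Glance` (with `s/2`, `r'`).
    The only field with content is `area`: `∂_y p' = p_y`, `∂_t p' = p_t - b' p_y`, the same for `Θ`, and the terms with `b'` cancel.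
 §5 assembly: `b(t) = (2π)⁻¹ ∫ (ℓ₀(x,t) - x) dx`, `G' = G.s5nShift b r'`, `ℓ'(y,t) = ℓ₀(y - b t, t)`: mean of `ℓ'(x,t) - x` is `b(t) - b(t) = 0`.
 §6 constant speed: `φ₀' = c₁` on `ℝ`, `φ₀(x+2π) = φ₀(x)+2π` give `c₁ = 1`, `φ₀(x) = x + φ₀(0)`, `φ₀(0)` real; `normalised`: `hc + hc'' = c` on `ℝ`;
    `u = (hc-c) cos - hc' sin`, `v = (hc-c) sin + hc' cos` are constant; so `hR = c + u cos + v sin = √(c² cos² + c² sin²) + ..`.
-/
import Claimed.Agent.R269.S5.Norm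

set_option autoImplicit false

namespace Claimed.Agent.R269

open Complex ComplexConjugate Filter Topology MeasureTheory Metric
open scoped ENNReal Real

namespace Glance

variable (G : Glance)

/-! ## §2 the impact lift near the real axis -/

/-- the normal angle at the impact. -/
noncomputable def s5nPsi (z : ℂ × ℂ) : ℂ := (G.Θ (z.1 - z.2 / 2) z.2 + G.Θ (z.1 + z.2 / 2) z.2) / 2

theorem s5n_X0 (z : ℂ × ℂ) : G.X0 z = suppPt G.hc (G.s5nPsi z) := rfl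

theorem s5n_psi_zero (y : ℂ) : G.s5nPsi (y, 0) = G.φ₀ y := by
  simp [s5nPsi, φ₀]

theorem s5n_Γ0 (y : ℂ) : G.Γ0 y = suppPt G.hc (G.φ₀ y) := by
  rw [Γ0, s5n_X0, s5n_psi_zero]

theorem s5n_s_pos : 0 < G.s := G.r₁_pos.trans G.r₁_lt

theorem s5n_arg_mem {z : ℂ × ℂ} (hz : z ∈ hstrip G.s ×ˢ ball (0 : ℂ) G.r₁) :
    z.1 - z.2 / 2 ∈ hstrip (2 * G.s) ∧ z.1 + z.2 / 2 ∈ hstrip (2 * G.s) := by
  have h1 : ‖z.2 / 2‖ ≤ G.s := by
    have := mem_ball_zero_iff.1 hz.2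
    rw [norm_div]
    have h2 : ‖(2 : ℂ)‖ = 2 := by simp
    rw [h2]
    have := G.r₁_lt
    have := norm_nonneg z.2
    linarith
  have e : 2 * G.s = G.s + G.s := by ring
  rw [e]
  refine ⟨s5n_sub_mem hz.1 h1, ?_⟩
  have := s5n_sub_mem (β := -(z.2 / 2)) (b := G.s) hz.1 (by rwa [norm_neg])
  rwa [sub_neg_eq_add] at this

theorem s5n_psi_diff : DifferentiableOn ℂ G.s5nPsi (hstrip G.s ×ˢ ball (0 : ℂ) G.r₁) := by
  have h1 : DifferentiableOn ℂ (fun z : ℂ × ℂ => G.Θ (z.1 - z.2 / 2) z.2) (hstrip G.s ×ˢ ball (0 : ℂ) G.r₁) :=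
    G.Θ_diff.comp (f := fun z : ℂ × ℂ => (z.1 - z.2 / 2, z.2)) (by fun_prop)
      (fun z hz => ⟨(G.s5n_arg_mem hz).1, hz.2⟩)
  have h2 : DifferentiableOn ℂ (fun z : ℂ × ℂ => G.Θ (z.1 + z.2 / 2) z.2) (hstrip G.s ×ˢ ball (0 : ℂ) G.r₁) :=
    G.Θ_diff.comp (f := fun z : ℂ × ℂ => (z.1 + z.2 / 2, z.2)) (by fun_prop)
      (fun z hz => ⟨(G.s5n_arg_mem hz).2, hz.2⟩)
  have h3 : DifferentiableOn ℂ (fun z : ℂ × ℂ => G.Θ (z.1 - z.2 / 2) z.2 + G.Θ (z.1 + z.2 / 2) z.2)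
      (hstrip G.s ×ˢ ball (0 : ℂ) G.r₁) := h1.add h2
  exact (h3.mul_const ((2 : ℂ)⁻¹)).congr (fun z _ => by simp only [s5nPsi, div_eq_mul_inv])

theorem s5n_psi_per (z : ℂ × ℂ) (hz : z ∈ hstrip G.s ×ˢ ball (0 : ℂ) G.r₁) :
    G.s5nPsi (z.1 + 2 * π, z.2) = G.s5nPsi z + 2 * π := by
  have h1 := G.Θ_per _ (G.s5n_arg_mem hz).1 _ hz.2
  have h2 := G.Θ_per _ (G.s5n_arg_mem hz).2 _ hz.2
  simp only [s5nPsi]
  have e1 : z.1 + 2 * π - z.2 / 2 = z.1 - z.2 / 2 + 2 * π := by ring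
  have e2 : z.1 + 2 * π + z.2 / 2 = z.1 + z.2 / 2 + 2 * π := by ring
  rw [e1, e2, h1, h2]; ring

theorem s5n_psi_even (z : ℂ × ℂ) (hz : z ∈ hstrip G.s ×ˢ ball (0 : ℂ) G.r₁) :
    G.s5nPsi (z.1, -z.2) = G.s5nPsi z := by
  have h1 := G.Θ_even _ (G.s5n_arg_mem hz).1 _ hz.2
  have h2 := G.Θ_even _ (G.s5n_arg_mem hz).2 _ hz.2
  simp only [s5nPsi]
  have e1 : z.1 - -z.2 / 2 = z.1 + z.2 / 2 := by ring
  have e2 : z.1 + -z.2 / 2 = z.1 - z.2 / 2 := by ring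
  rw [e1, e2, h1, h2]; ring

theorem s5n_psi_conj (z : ℂ × ℂ) (hz : z ∈ hstrip G.s ×ˢ ball (0 : ℂ) G.r₁) :
    G.s5nPsi (conj z.1, conj z.2) = conj (G.s5nPsi z) := by
  have h1 := G.Θ_conj _ (G.s5n_arg_mem hz).1 _ hz.2
  have h2 := G.Θ_conj _ (G.s5n_arg_mem hz).2 _ hz.2
  simp only [s5nPsi]
  have c2 : conj (2 : ℂ) = 2 := map_ofNat (starRingEnd ℂ) 2
  have e1 : conj z.1 - conj z.2 / 2 = conj (z.1 - z.2 / 2) := by simp [c2]
  have e2 : conj z.1 + conj z.2 / 2 = conj (z.1 + z.2 / 2) := by simp [c2]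
  rw [e1, e2, h1, h2]; simp [c2]

theorem s5n_zero_mem : (0 : ℂ) ∈ ball (0 : ℂ) G.r₁ := mem_ball_self G.r₁_pos

theorem s5n_phi0_map : S5nMap G.φ₀ (2 * G.s) where
  pos := by have := G.s5n_s_pos; positivity
  diff := G.Θ_diff.comp (f := fun y : ℂ => (y, (0 : ℂ))) (by fun_prop) (fun y hy => ⟨hy, G.s5n_zero_mem⟩)
  per := fun y hy => G.Θ_per y hy 0 G.s5n_zero_mem
  real := fun y hy => by
    have := G.Θ_conj y hy 0 G.s5n_zero_mem
    rwa [map_zero] at this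
  mono := G.φ'_pos

/-- an impact lift (not yet normalised) on `hstrip w × ball 0 ρ` with values in `hstrip ε`. -/
structure S5nPre (ε w ρ : ℝ) (ℓ : ℂ × ℂ → ℂ) : Prop where
  diff : DifferentiableOn ℂ ℓ (hstrip w ×ˢ ball (0 : ℂ) ρ)
  mem : ∀ z ∈ hstrip w ×ˢ ball (0 : ℂ) ρ, ℓ z ∈ hstrip ε
  eq : ∀ z ∈ hstrip w ×ˢ ball (0 : ℂ) ρ, G.φ₀ (ℓ z) = G.s5nPsi z
  zero : ∀ y ∈ hstrip w, ℓ (y, 0) = y
  per : ∀ z ∈ hstrip w ×ˢ ball (0 : ℂ) ρ, ℓ (z.1 + 2 * π, z.2) = ℓ z + 2 * π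
  even : ∀ z ∈ hstrip w ×ˢ ball (0 : ℂ) ρ, ℓ (z.1, -z.2) = ℓ z
  real : ∀ z ∈ hstrip w ×ˢ ball (0 : ℂ) ρ, ℓ (conj z.1, conj z.2) = conj (ℓ z)

/-- (2) existence of the impact lift. -/
theorem s5n_exists_pre (ε : ℝ) (hε : 0 < ε) :
    ∃ (w ρ : ℝ) (ℓ : ℂ × ℂ → ℂ), 0 < w ∧ 0 < ρ ∧ G.S5nPre ε w ρ ℓ := by
  obtain ⟨w₀, w₁, χ, hw₀, hw₀S, hw₀ε, hw₁, hinj, hχd, hχ⟩ := s5n_inverse G.s5n_phi0_map ε hε
  have hD : IsOpen (hstrip (min w₀ G.s) ×ˢ ball (0 : ℂ) G.r₁) := (s5n_isOpen _).prod isOpen_ball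
  have hDsub : hstrip (min w₀ G.s) ×ˢ ball (0 : ℂ) G.r₁ ⊆ hstrip G.s ×ˢ ball (0 : ℂ) G.r₁ :=
    Set.prod_mono (s5n_mono (min_le_right _ _)) subset_rfl
  have hU : IsOpen ((hstrip (min w₀ G.s) ×ˢ ball (0 : ℂ) G.r₁) ∩ G.s5nPsi ⁻¹' hstrip w₁) :=
    (G.s5n_psi_diff.continuousOn.mono hDsub).isOpen_inter_preimage hD (s5n_isOpen w₁)
  have hmin : 0 < min w₀ G.s := lt_min hw₀ G.s5n_s_pos
  have hS : hstrip w₀ ⊆ hstrip (2 * G.s) := s5n_mono hw₀S
  obtain ⟨δ, hδ, hsub⟩ := s5n_tube hU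
    (fun x => ⟨⟨s5n_real_mem hmin x, G.s5n_zero_mem⟩, by
      show G.s5nPsi ((x : ℂ), 0) ∈ hstrip w₁
      rw [s5n_psi_zero]
      have h1 := G.s5n_phi0_map.real x (s5n_real_mem G.s5n_phi0_map.pos x)
      rw [Complex.conj_ofReal] at h1
      have h2 : (G.φ₀ x).im = 0 := Complex.conj_eq_iff_im.1 h1.symm
      show |(G.φ₀ x).im| < w₁
      rw [h2]; simpa using hw₁⟩)
    (fun z hz => ⟨⟨s5n_add2pi_mem hz.1.1, hz.1.2⟩, by
      show G.s5nPsi (z.1 + 2 * π, z.2) ∈ hstrip w₁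
      rw [G.s5n_psi_per z (hDsub hz.1)]
      exact s5n_add2pi_mem hz.2⟩)
    (fun z hz => ⟨⟨s5n_sub2pi_mem hz.1.1, hz.1.2⟩, by
      show G.s5nPsi (z.1 - 2 * π, z.2) ∈ hstrip w₁
      have h1 := G.s5n_psi_per (z.1 - 2 * π, z.2) (hDsub ⟨s5n_sub2pi_mem hz.1.1, hz.1.2⟩)
      simp only [sub_add_cancel] at h1
      have h2 : G.s5nPsi (z.1 - 2 * π, z.2) = G.s5nPsi z - 2 * π := by
        rw [show G.s5nPsi z = G.s5nPsi (z.1, z.2) from rfl, h1]; ring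
      rw [h2]
      exact s5n_sub2pi_mem hz.2⟩)
  have hdom : ∀ z ∈ hstrip δ ×ˢ ball (0 : ℂ) δ, z ∈ hstrip G.s ×ˢ ball (0 : ℂ) G.r₁ := fun z hz => hDsub (hsub hz).1
  have hval : ∀ z ∈ hstrip δ ×ˢ ball (0 : ℂ) δ, G.s5nPsi z ∈ hstrip w₁ := fun z hz => (hsub hz).2
  refine ⟨δ, δ, fun z => χ (G.s5nPsi z), hδ, hδ, ?_, ?_, ?_, ?_, ?_, ?_, ?_⟩
  · exact hχd.comp (G.s5n_psi_diff.mono hdom) hval
  · exact fun z hz => s5n_mono hw₀ε (hχ _ (hval z hz)).1
  · exact fun z hz => (hχ _ (hval z hz)).2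
  · intro y hy
    have hz : (y, (0 : ℂ)) ∈ hstrip δ ×ˢ ball (0 : ℂ) δ := ⟨hy, mem_ball_self hδ⟩
    have hy0 : y ∈ hstrip w₀ := s5n_mono (min_le_left _ _) (hsub hz).1.1
    refine hinj (hχ _ (hval _ hz)).1 hy0 ?_
    rw [(hχ _ (hval _ hz)).2, s5n_psi_zero]
  · intro z hz
    have hz' : (z.1 + 2 * π, z.2) ∈ hstrip δ ×ˢ ball (0 : ℂ) δ := ⟨s5n_add2pi_mem hz.1, hz.2⟩
    refine hinj (hχ _ (hval _ hz')).1 (s5n_add2pi_mem (hχ _ (hval _ hz)).1) ?_
    rw [(hχ _ (hval _ hz')).2, G.s5n_phi0_map.per _ (hS (hχ _ (hval _ hz)).1), (hχ _ (hval _ hz)).2,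
      G.s5n_psi_per z (hdom z hz)]
  · intro z hz
    show χ (G.s5nPsi (z.1, -z.2)) = χ (G.s5nPsi z)
    rw [G.s5n_psi_even z (hdom z hz)]
  · intro z hz
    have hz' : (conj z.1, conj z.2) ∈ hstrip δ ×ˢ ball (0 : ℂ) δ :=
      ⟨s5n_conj_mem hz.1, by simpa using hz.2⟩
    refine hinj (hχ _ (hval _ hz')).1 (s5n_conj_mem (hχ _ (hval _ hz)).1) ?_
    rw [(hχ _ (hval _ hz')).2, G.s5n_phi0_map.real _ (hS (hχ _ (hval _ hz)).1), (hχ _ (hval _ hz)).2,
      G.s5n_psi_conj z (hdom z hz)]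

/-! ## §4 change of phase -/

/-- admissible phases. -/
structure S5nPhase (b : ℂ → ℂ) (r' : ℝ) : Prop where
  pos : 0 < r'
  le : r' ≤ G.r₁
  lt : r' < G.s / 2
  diff : DifferentiableOn ℂ b (ball (0 : ℂ) r')
  zero : b 0 = 0
  even : ∀ t ∈ ball (0 : ℂ) r', b (-t) = b t
  real : ∀ t ∈ ball (0 : ℂ) r', b (conj t) = conj (b t)
  small : ∀ t ∈ ball (0 : ℂ) r', ‖b t‖ ≤ G.s / 2

variable {G}

namespace S5nPhase

variable {b : ℂ → ℂ} {r' : ℝ} (h : G.S5nPhase b r')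
include h

theorem ball_sub : ball (0 : ℂ) r' ⊆ ball (0 : ℂ) G.r₁ := ball_subset_ball h.le

theorem arg_mem {y t : ℂ} (hy : y ∈ hstrip (2 * (G.s / 2))) (ht : t ∈ ball (0 : ℂ) r') :
    y - b t ∈ hstrip (2 * G.s) := by
  have h1 := s5n_sub_mem hy (h.small t ht)
  refine s5n_mono ?_ h1
  have := G.s5n_s_pos
  linarith

theorem arg_mem' {y t : ℂ} (hy : y ∈ hstrip (G.s / 2)) (ht : t ∈ ball (0 : ℂ) r') :
    y - b t ∈ hstrip G.s := by
  have h1 := s5n_sub_mem hy (h.small t ht)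
  rwa [add_halves] at h1

omit h in
theorem neg_mem {t : ℂ} (ht : t ∈ ball (0 : ℂ) r') : -t ∈ ball (0 : ℂ) r' := by simpa using ht

omit h in
theorem conj_mem {t : ℂ} (ht : t ∈ ball (0 : ℂ) r') : conj t ∈ ball (0 : ℂ) r' := by simpa using ht

theorem comp_diff {F : ℂ → ℂ → ℂ}
    (hF : DifferentiableOn ℂ (fun z : ℂ × ℂ => F z.1 z.2) (hstrip (2 * G.s) ×ˢ ball (0 : ℂ) G.r₁)) :
    DifferentiableOn ℂ (fun z : ℂ × ℂ => F (z.1 - b z.2) z.2) (hstrip (2 * (G.s / 2)) ×ˢ ball (0 : ℂ) r') := by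
  have h1 : DifferentiableOn ℂ (fun z : ℂ × ℂ => (z.1 - b z.2, z.2)) (hstrip (2 * (G.s / 2)) ×ˢ ball (0 : ℂ) r') := by
    have h2 : DifferentiableOn ℂ (fun z : ℂ × ℂ => b z.2) (hstrip (2 * (G.s / 2)) ×ˢ ball (0 : ℂ) r') :=
      h.diff.comp differentiableOn_snd (fun z hz => hz.2)
    exact (differentiableOn_fst.sub h2).prodMk differentiableOn_snd
  exact hF.comp h1 (fun z hz => ⟨h.arg_mem hz.1 hz.2, h.ball_sub hz.2⟩)

omit h in
/-- `∂_y` of the shifted function. -/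
theorem deriv_y (F : ℂ → ℂ → ℂ) (y t : ℂ) :
    deriv (fun y' => F (y' - b t) t) y = deriv (fun y' => F y' t) (y - b t) :=
  deriv_comp_sub_const (fun y' => F y' t) (b t) y

/-- `∂_t` of the shifted function. -/
theorem deriv_t {F : ℂ → ℂ → ℂ}
    (hF : DifferentiableOn ℂ (fun z : ℂ × ℂ => F z.1 z.2) (hstrip (2 * G.s) ×ˢ ball (0 : ℂ) G.r₁))
    {y t : ℂ} (hy : y ∈ hstrip (2 * (G.s / 2))) (ht : t ∈ ball (0 : ℂ) r') :
    deriv (fun t' => F (y - b t') t') t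
      = deriv (fun t' => F (y - b t) t') t - deriv b t * deriv (fun y' => F y' t) (y - b t) := by
  have hopen : IsOpen (hstrip (2 * G.s) ×ˢ ball (0 : ℂ) G.r₁) := (s5n_isOpen _).prod isOpen_ball
  have hmem : (y - b t, t) ∈ hstrip (2 * G.s) ×ˢ ball (0 : ℂ) G.r₁ := ⟨h.arg_mem hy ht, h.ball_sub ht⟩
  have hd : HasFDerivAt (fun z : ℂ × ℂ => F z.1 z.2) (fderiv ℂ (fun z : ℂ × ℂ => F z.1 z.2) (y - b t, t)) (y - b t, t) :=
    (hF.differentiableAt (hopen.mem_nhds hmem)).hasFDerivAt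
  have hb : HasDerivAt b (deriv b t) t := (h.diff.differentiableAt (isOpen_ball.mem_nhds ht)).hasDerivAt
  have c1 : HasDerivAt (fun t' : ℂ => (y - b t', t')) (-deriv b t, 1) t :=
    (hb.const_sub y).prodMk (hasDerivAt_id t)
  have c2 : HasDerivAt (fun t' : ℂ => (y - b t, t')) ((0 : ℂ), (1 : ℂ)) t :=
    (hasDerivAt_const t (y - b t)).prodMk (hasDerivAt_id t)
  have c3 : HasDerivAt (fun y' : ℂ => (y', t)) ((1 : ℂ), (0 : ℂ)) (y - b t) :=
    (hasDerivAt_id (y - b t)).prodMk (hasDerivAt_const (y - b t) t)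
  have d1 := (HasFDerivAt.comp_hasDerivAt (f := fun t' : ℂ => (y - b t', t')) t hd c1).deriv
  have d2 := (HasFDerivAt.comp_hasDerivAt (f := fun t' : ℂ => (y - b t, t')) t hd c2).deriv
  have d3 := (HasFDerivAt.comp_hasDerivAt (f := fun y' : ℂ => (y', t)) (y - b t) hd c3).deriv
  have e1 : deriv (fun t' => F (y - b t') t') t = fderiv ℂ (fun z : ℂ × ℂ => F z.1 z.2) (y - b t, t) (-deriv b t, 1) := d1
  have e2 : deriv (fun t' => F (y - b t) t') t = fderiv ℂ (fun z : ℂ × ℂ => F z.1 z.2) (y - b t, t) (0, 1) := d2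
  have e3 : deriv (fun y' => F y' t) (y - b t) = fderiv ℂ (fun z : ℂ × ℂ => F z.1 z.2) (y - b t, t) (1, 0) := d3
  rw [e1, e2, e3]
  have e4 : ((-deriv b t, 1) : ℂ × ℂ) = (0, 1) - deriv b t • ((1, 0) : ℂ × ℂ) := by
    ext <;> simp
  rw [e4, map_sub, map_smul, smul_eq_mul]

end S5nPhase

/-- the change of phase `y ↦ y - b(t)`. -/
noncomputable def s5nShift (G : Glance) (b : ℂ → ℂ) (r' : ℝ) (h : G.S5nPhase b r') : Glance where
  hc := G.hc
  σ := G.σ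
  σ_pos := G.σ_pos
  hc_diff := G.hc_diff
  hc_per := G.hc_per
  hc_conj := G.hc_conj
  rad_pos := G.rad_pos
  c := G.c
  c_pos := G.c_pos
  s := G.s / 2
  r₁ := r'
  r₁_pos := h.pos
  r₁_lt := h.lt
  Θ := fun y t => G.Θ (y - b t) t
  p := fun y t => G.p (y - b t) t
  Θ_diff := h.comp_diff G.Θ_diff
  p_diff := h.comp_diff G.p_diff
  Θ_mem := fun y hy t ht => G.Θ_mem _ (h.arg_mem hy ht) _ (h.ball_sub ht)
  Θ_per := fun y hy t ht => by
    have := G.Θ_per _ (h.arg_mem hy ht) _ (h.ball_sub ht)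
    rw [← this]; congr 1; ring
  p_per := fun y hy t ht => by
    have := G.p_per _ (h.arg_mem hy ht) _ (h.ball_sub ht)
    rw [← this]; congr 1; ring
  Θ_even := fun y hy t ht => by
    rw [h.even t ht]
    exact G.Θ_even _ (h.arg_mem hy ht) _ (h.ball_sub ht)
  p_even := fun y hy t ht => by
    rw [h.even t ht]
    exact G.p_even _ (h.arg_mem hy ht) _ (h.ball_sub ht)
  Θ_conj := fun y hy t ht => by
    rw [h.real t ht, ← map_sub]
    exact G.Θ_conj _ (h.arg_mem hy ht) _ (h.ball_sub ht)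
  p_conj := fun y hy t ht => by
    rw [h.real t ht, ← map_sub]
    exact G.p_conj _ (h.arg_mem hy ht) _ (h.ball_sub ht)
  refl_in := fun y hy t ht => by
    have := G.refl_in _ (h.arg_mem' hy ht) _ (h.ball_sub ht)
    rw [this]; congr 2; ring
  refl_out := fun y hy t ht => by
    have := G.refl_out _ (h.arg_mem' hy ht) _ (h.ball_sub ht)
    have e : y + t - b t = y - b t + t := by ring
    rw [e, this]
  φ'_pos := fun x => by
    simp only [h.zero, sub_zero]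
    exact G.φ'_pos x
  normalised := fun x => by
    simp only [h.zero, sub_zero]
    exact G.normalised x
  A := G.A
  A_diff := G.A_diff.mono h.ball_sub
  A_deriv := G.A_deriv
  area := fun y hy t ht => by
    rw [S5nPhase.deriv_y G.p, S5nPhase.deriv_y G.Θ, h.deriv_t G.Θ_diff hy ht, h.deriv_t G.p_diff hy ht,
      ← G.area _ (h.arg_mem hy ht) _ (h.ball_sub ht)]
    ring

/-! ## §5 assembly -/

theorem s5n_shift_X0 {b : ℂ → ℂ} {r' : ℝ} (h : G.S5nPhase b r') (z : ℂ × ℂ) :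
    (G.s5nShift b r' h).X0 z = G.X0 (z.1 - b z.2, z.2) := by
  show suppPt G.hc ((G.Θ (z.1 - z.2 / 2 - b z.2) z.2 + G.Θ (z.1 + z.2 / 2 - b z.2) z.2) / 2)
    = suppPt G.hc ((G.Θ (z.1 - b z.2 - z.2 / 2) z.2 + G.Θ (z.1 - b z.2 + z.2 / 2) z.2) / 2)
  have e1 : z.1 - z.2 / 2 - b z.2 = z.1 - b z.2 - z.2 / 2 := by ring
  have e2 : z.1 + z.2 / 2 - b z.2 = z.1 - b z.2 + z.2 / 2 := by ring
  rw [e1, e2]

theorem s5n_shift_Γ0 {b : ℂ → ℂ} {r' : ℝ} (h : G.S5nPhase b r') (u : ℂ) :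
    (G.s5nShift b r' h).Γ0 u = G.Γ0 u := by
  rw [Γ0, s5n_shift_X0, Γ0]
  simp only [h.zero, sub_zero]

/-- EXPORT S5f: after a change of phase `y ↦ y - b(t)` the base lift has zero mean. -/
theorem s5n_exists_normalised (G : Glance) : ∃ G' : Glance, G'.hc = G.hc ∧ Nonempty (BaseLift G') := by
  have hs := G.s5n_s_pos
  obtain ⟨w, ρ, ℓ₀, hw, hρ, P⟩ := G.s5n_exists_pre (G.s / 2 / 2) (by positivity)
  have h2π : (2 * π : ℂ) ≠ 0 := by
    have : (π : ℂ) ≠ 0 := by exact_mod_cast Real.pi_ne_zero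
    simp [this]
  -- the mean
  obtain ⟨b, hb⟩ : ∃ b : ℂ → ℂ, ∀ t, b t = (2 * π : ℂ)⁻¹ * ∫ x in (0 : ℝ)..(2 * π), (ℓ₀ ((x : ℂ), t) - x) := ⟨_, fun _ => rfl⟩
  have hbd : DifferentiableOn ℂ b (ball (0 : ℂ) ρ) := by
    have h1 : DifferentiableOn ℂ (fun z : ℂ × ℂ => ℓ₀ z - z.1) (hstrip w ×ˢ ball (0 : ℂ) ρ) :=
      P.diff.sub differentiableOn_fst
    exact ((s5n_mean_diff hw h1).const_mul ((2 * π : ℂ)⁻¹)).congr (fun t _ => hb t)
  have hb0 : b 0 = 0 := by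
    rw [hb]
    have : ∀ x : ℝ, ℓ₀ ((x : ℂ), 0) - x = 0 := fun x => by rw [P.zero _ (s5n_real_mem hw x), sub_self]
    simp [this]
  have hbe : ∀ t ∈ ball (0 : ℂ) ρ, b (-t) = b t := by
    intro t ht
    rw [hb, hb]
    congr 1
    refine intervalIntegral.integral_congr fun x _ => ?_
    show ℓ₀ ((x : ℂ), -t) - x = ℓ₀ ((x : ℂ), t) - x
    rw [P.even ((x : ℂ), t) ⟨s5n_real_mem hw x, ht⟩]
  have hbr : ∀ t ∈ ball (0 : ℂ) ρ, b (conj t) = conj (b t) := by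
    intro t ht
    rw [hb, hb, map_mul, ← intervalIntegral.intervalIntegral_conj]
    congr 1
    · simp [map_ofNat]
    · refine intervalIntegral.integral_congr fun x _ => ?_
      show ℓ₀ ((x : ℂ), conj t) - x = conj (ℓ₀ ((x : ℂ), t) - x)
      have := P.real ((x : ℂ), t) ⟨s5n_real_mem hw x, ht⟩
      simp only [Complex.conj_ofReal] at this
      rw [this, map_sub, Complex.conj_ofReal]
  -- smallness
  have hη : 0 < min (w / 2) (G.s / 2) := lt_min (by positivity) (by positivity)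
  have hcont : ContinuousAt b 0 := (hbd.differentiableAt (isOpen_ball.mem_nhds (mem_ball_self hρ))).continuousAt
  obtain ⟨r'', hr'', hsmall⟩ : ∃ r'' > 0, ∀ t ∈ ball (0 : ℂ) r'', ‖b t‖ < min (w / 2) (G.s / 2) := by
    obtain ⟨δ, hδ, h⟩ := Metric.continuousAt_iff.1 hcont _ hη
    refine ⟨δ, hδ, fun t ht => ?_⟩
    have := h (mem_ball.1 ht)
    rwa [hb0, dist_zero_right] at this
  obtain ⟨r', hr'⟩ : ∃ r' : ℝ, r' = min (min r'' ρ) (min (G.s / 4) G.r₁) := ⟨_, rfl⟩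
  have hr'pos : 0 < r' := by
    rw [hr']; exact lt_min (lt_min hr'' hρ) (lt_min (by positivity) G.r₁_pos)
  have hle1 : r' ≤ r'' := by rw [hr']; exact (min_le_left _ _).trans (min_le_left _ _)
  have hle2 : r' ≤ ρ := by rw [hr']; exact (min_le_left _ _).trans (min_le_right _ _)
  have hle3 : r' ≤ G.s / 4 := by rw [hr']; exact (min_le_right _ _).trans (min_le_left _ _)
  have hle4 : r' ≤ G.r₁ := by rw [hr']; exact (min_le_right _ _).trans (min_le_right _ _)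
  have hsub1 : ball (0 : ℂ) r' ⊆ ball (0 : ℂ) r'' := ball_subset_ball hle1
  have hsub2 : ball (0 : ℂ) r' ⊆ ball (0 : ℂ) ρ := ball_subset_ball hle2
  have hph : G.S5nPhase b r' :=
    { pos := hr'pos
      le := hle4
      lt := by linarith
      diff := hbd.mono hsub2
      zero := hb0
      even := fun t ht => hbe t (hsub2 ht)
      real := fun t ht => hbr t (hsub2 ht)
      small := fun t ht => ((hsmall t (hsub1 ht)).trans_le (min_le_right _ _)).le }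
  -- the argument of the shifted lift
  have harg : ∀ z ∈ hstrip (min (w / 2) (G.s / 8)) ×ˢ ball (0 : ℂ) r', (z.1 - b z.2, z.2) ∈ hstrip w ×ˢ ball (0 : ℂ) ρ := by
    intro z hz
    refine ⟨?_, hsub2 hz.2⟩
    have h1 := s5n_sub_mem (s5n_mono (min_le_left _ _) hz.1) ((hsmall _ (hsub1 hz.2)).trans_le (min_le_left _ _)).le
    rwa [add_halves] at h1
  refine ⟨G.s5nShift b r' hph, rfl, ⟨
    { w := min (w / 2) (G.s / 8)
      w_pos := lt_min (by positivity) (by positivity)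
      w_le := ?_
      ρ₀ := r'
      ρ₀_pos := hr'pos
      ρ₀_le := le_refl _
      ℓ := fun z => ℓ₀ (z.1 - b z.2, z.2)
      diff := ?_
      mem := fun z hz => P.mem _ (harg z hz)
      eq := ?_
      zero := ?_
      per := ?_
      even := ?_
      real := ?_
      mean := ?_ }⟩⟩
  · show min (w / 2) (G.s / 8) ≤ G.s / 2 / 4
    exact (min_le_right _ _).trans (by linarith)
  · have h2 : DifferentiableOn ℂ (fun z : ℂ × ℂ => b z.2) (hstrip (min (w / 2) (G.s / 8)) ×ˢ ball (0 : ℂ) r') :=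
      hph.diff.comp differentiableOn_snd (fun z hz => hz.2)
    exact P.diff.comp ((differentiableOn_fst.sub h2).prodMk differentiableOn_snd) harg
  · intro z hz
    rw [s5n_shift_X0, s5n_shift_Γ0, s5n_X0, s5n_Γ0, P.eq _ (harg z hz)]
  · intro y hy
    show ℓ₀ (y - b 0, 0) = y
    rw [hb0, sub_zero]
    have := harg (y, 0) ⟨hy, mem_ball_self hr'pos⟩
    simp only [hb0, sub_zero] at this
    exact P.zero y this.1
  · intro z hz
    show ℓ₀ (z.1 + 2 * π - b z.2, z.2) = ℓ₀ (z.1 - b z.2, z.2) + 2 * π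
    rw [← P.per _ (harg z hz)]
    congr 2; ring
  · intro z hz
    show ℓ₀ (z.1 - b (-z.2), -z.2) = ℓ₀ (z.1 - b z.2, z.2)
    rw [hph.even _ hz.2]
    exact P.even _ (harg z hz)
  · intro z hz
    show ℓ₀ (conj z.1 - b (conj z.2), conj z.2) = conj (ℓ₀ (z.1 - b z.2, z.2))
    rw [hph.real _ hz.2, ← map_sub]
    exact P.real _ (harg z hz)
  · intro t ht
    show ∫ x in (0 : ℝ)..(2 * π), (ℓ₀ ((x : ℂ) - b t, t) - x) = 0
    have htρ := hsub2 ht
    have hgd : DifferentiableOn ℂ (fun y : ℂ => ℓ₀ (y, t) - y) (hstrip w) := by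
      have h1 : DifferentiableOn ℂ (fun y : ℂ => ℓ₀ (y, t)) (hstrip w) :=
        P.diff.comp (f := fun y : ℂ => (y, t)) (by fun_prop) (fun y hy => ⟨hy, htρ⟩)
      exact h1.sub differentiableOn_id
    have hgp : ∀ y ∈ hstrip w, (fun y : ℂ => ℓ₀ (y, t) - y) (y + 2 * π) = (fun y : ℂ => ℓ₀ (y, t) - y) y := by
      intro y hy
      show ℓ₀ (y + 2 * π, t) - (y + 2 * π) = ℓ₀ (y, t) - y
      rw [P.per (y, t) ⟨hy, htρ⟩]; ring
    have hβ : |(-b t).im| < w := by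
      have h1 := Complex.abs_im_le_norm (-b t)
      rw [norm_neg] at h1
      have h2 := (hsmall t (hsub1 ht)).trans_le (min_le_left _ _)
      linarith
    have hshift := s5n_mean_shift hgd hgp (-b t) hβ
    have hcg : Continuous fun x : ℝ => (fun y : ℂ => ℓ₀ (y, t) - y) ((x : ℂ) + -b t) := by
      refine hgd.continuousOn.comp_continuous (by fun_prop) fun x => ?_
      show |((x : ℂ) + -b t).im| < w
      simpa using hβ
    have e1 : ∀ x : ℝ, ℓ₀ ((x : ℂ) - b t, t) - x = (fun y : ℂ => ℓ₀ (y, t) - y) ((x : ℂ) + -b t) - b t := by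
      intro x
      show ℓ₀ ((x : ℂ) - b t, t) - x = ℓ₀ ((x : ℂ) + -b t, t) - ((x : ℂ) + -b t) - b t
      rw [← sub_eq_add_neg]; ring
    simp_rw [e1]
    rw [intervalIntegral.integral_sub (hcg.intervalIntegrable _ _) intervalIntegrable_const, hshift,
      intervalIntegral.integral_const]
    have e2 : ∫ x in (0 : ℝ)..(2 * π), (ℓ₀ ((x : ℂ), t) - x) = 2 * π * b t := by
      rw [hb t]; field_simp
    rw [e2, Complex.real_smul]
    push_cast; ring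

/-! ## §6 constant speed gives a circle -/

/-- a function on the real axis which is the restriction of a function with vanishing complex derivative there is constant. -/
theorem s5n_const_of_deriv {u : ℂ → ℂ} (hu : ∀ x : ℝ, HasDerivAt u 0 (x : ℂ)) (x : ℝ) : u x = u 0 := by
  have h1 : ∀ x : ℝ, HasDerivAt (fun x : ℝ => u x) 0 x := fun x => (hu x).comp_ofReal
  have := is_const_of_deriv_eq_zero (f := fun x : ℝ => u x) (fun x => (h1 x).differentiableAt)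
    (fun x => (h1 x).deriv) x 0
  simpa using this

/-- EXPORT S5f: constant speed gives a circle. -/
theorem s5n_const_ellipse (G : Glance) (h : ∃ c₁ : ℂ, ∀ x : ℝ, deriv G.φ₀ x = c₁) :
    IsEllipseSupport G.hR := by
  obtain ⟨c₁, hc₁⟩ := h
  have M := G.s5n_phi0_map
  have hπ : (π : ℂ) ≠ 0 := by exact_mod_cast Real.pi_ne_zero
  -- `φ₀ x = φ₀ 0 + c₁ x`
  have hlin : ∀ x : ℝ, G.φ₀ x = G.φ₀ 0 + c₁ * x := by
    intro x
    have h1 : ∀ x : ℝ, HasDerivAt (fun y : ℂ => G.φ₀ y - c₁ * y) 0 (x : ℂ) := by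
      intro x
      have h2 : HasDerivAt G.φ₀ c₁ (x : ℂ) := by
        rw [← hc₁ x]
        exact (M.diff.differentiableAt ((s5n_isOpen _).mem_nhds (s5n_real_mem M.pos x))).hasDerivAt
      have h3 : HasDerivAt (fun y : ℂ => G.φ₀ y - c₁ * y) (c₁ - c₁ * 1) (x : ℂ) :=
        h2.fun_sub ((hasDerivAt_id (x : ℂ)).const_mul c₁)
      have e : c₁ - c₁ * 1 = 0 := by ring
      rwa [e] at h3
    have h4 := s5n_const_of_deriv h1 x
    simp only [mul_zero, sub_zero] at h4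
    linear_combination h4
  have hc1 : c₁ = 1 := by
    have h1 := M.per 0 (by simpa using s5n_real_mem M.pos 0)
    have h2 := hlin (2 * π)
    rw [zero_add] at h1
    push_cast at h2
    rw [h1] at h2
    have h3 : (c₁ - 1) * (2 * π) = 0 := by linear_combination -h2
    rcases mul_eq_zero.1 h3 with h4 | h4
    · linear_combination h4
    · exfalso; simp [hπ] at h4
  have ha : G.φ₀ 0 = ((G.φ₀ 0).re : ℂ) := by
    have h1 := M.real 0 (by simpa using s5n_real_mem M.pos 0)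
    rw [map_zero] at h1
    exact (Complex.conj_eq_iff_re.1 h1.symm).symm
  -- `hc + hc'' = c` on the real axis
  have hode : ∀ θ : ℝ, G.hc θ + deriv (deriv G.hc) θ = G.c := by
    intro θ
    have h1 := G.normalised (θ - (G.φ₀ 0).re)
    have h2 : G.Θ ((θ - (G.φ₀ 0).re : ℝ) : ℂ) 0 = θ := by
      have := hlin (θ - (G.φ₀ 0).re)
      rw [hc1] at this
      show G.φ₀ ((θ - (G.φ₀ 0).re : ℝ) : ℂ) = θ
      rw [this]
      push_cast
      linear_combination ha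
    have h3 : deriv (fun y => G.Θ y 0) ((θ - (G.φ₀ 0).re : ℝ) : ℂ) = 1 := by
      rw [← hc1]; exact hc₁ _
    rw [h2, h3] at h1
    simpa using h1
  have hd0 : ∀ x : ℝ, HasDerivAt G.hc (deriv G.hc x) (x : ℂ) := fun x =>
    (G.hc_diff.differentiableAt ((s5n_isOpen _).mem_nhds (s5n_real_mem G.σ_pos x))).hasDerivAt
  have hd1 : ∀ x : ℝ, HasDerivAt (deriv G.hc) (deriv (deriv G.hc) x) (x : ℂ) := fun x =>
    ((G.hc_diff.deriv (s5n_isOpen _)).differentiableAt ((s5n_isOpen _).mem_nhds (s5n_real_mem G.σ_pos x))).hasDerivAt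
  have hu : ∀ x : ℝ, HasDerivAt (fun z : ℂ => (G.hc z - G.c) * Complex.cos z - deriv G.hc z * Complex.sin z) 0 (x : ℂ) := by
    intro x
    have h1 : HasDerivAt (fun z : ℂ => (G.hc z - G.c) * Complex.cos z - deriv G.hc z * Complex.sin z)
        (deriv G.hc x * Complex.cos x + (G.hc x - G.c) * (-Complex.sin x)
          - (deriv (deriv G.hc) x * Complex.sin x + deriv G.hc x * Complex.cos x)) (x : ℂ) :=
      (((hd0 x).sub_const (G.c : ℂ)).fun_mul (Complex.hasDerivAt_cos x)).fun_sub ((hd1 x).fun_mul (Complex.hasDerivAt_sin x))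
    have e : deriv G.hc x * Complex.cos x + (G.hc x - G.c) * (-Complex.sin x)
          - (deriv (deriv G.hc) x * Complex.sin x + deriv G.hc x * Complex.cos x) = 0 := by
      linear_combination (-Complex.sin x) * hode x
    rwa [e] at h1
  have hv : ∀ x : ℝ, HasDerivAt (fun z : ℂ => (G.hc z - G.c) * Complex.sin z + deriv G.hc z * Complex.cos z) 0 (x : ℂ) := by
    intro x
    have h1 : HasDerivAt (fun z : ℂ => (G.hc z - G.c) * Complex.sin z + deriv G.hc z * Complex.cos z)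
        (deriv G.hc x * Complex.sin x + (G.hc x - G.c) * Complex.cos x
          + (deriv (deriv G.hc) x * Complex.cos x + deriv G.hc x * (-Complex.sin x))) (x : ℂ) :=
      (((hd0 x).sub_const (G.c : ℂ)).fun_mul (Complex.hasDerivAt_sin x)).fun_add ((hd1 x).fun_mul (Complex.hasDerivAt_cos x))
    have e : deriv G.hc x * Complex.sin x + (G.hc x - G.c) * Complex.cos x
          + (deriv (deriv G.hc) x * Complex.cos x + deriv G.hc x * (-Complex.sin x)) = 0 := by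
      linear_combination (Complex.cos x) * hode x
    rwa [e] at h1
  have hU := s5n_const_of_deriv hu
  have hV := s5n_const_of_deriv hv
  obtain ⟨U, hUdef⟩ : ∃ U : ℂ, U = (G.hc 0 - G.c) * Complex.cos 0 - deriv G.hc 0 * Complex.sin 0 := ⟨_, rfl⟩
  obtain ⟨V, hVdef⟩ : ∃ V : ℂ, V = (G.hc 0 - G.c) * Complex.sin 0 + deriv G.hc 0 * Complex.cos 0 := ⟨_, rfl⟩
  have hform : ∀ x : ℝ, G.hc x = G.c + U * Complex.cos x + V * Complex.sin x := by
    intro x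
    have h1 := hU x
    have h2 := hV x
    rw [← hUdef] at h1
    rw [← hVdef] at h2
    have h3 := Complex.sin_sq_add_cos_sq (x : ℂ)
    linear_combination (-(G.hc x - G.c)) * h3 + Complex.cos x * h1 + Complex.sin x * h2
  have hcpos := G.c_pos
  refine ⟨G.c ^ 2, 0, G.c ^ 2, U.re, V.re, by positivity, ?_, fun θ => ?_⟩
  · have : 0 < G.c ^ 2 * G.c ^ 2 := by positivity
    simpa using this
  have h1 : G.c ^ 2 * Real.cos θ ^ 2 + 2 * 0 * Real.cos θ * Real.sin θ + G.c ^ 2 * Real.sin θ ^ 2 = G.c ^ 2 := by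
    have := Real.sin_sq_add_cos_sq θ
    linear_combination G.c ^ 2 * this
  rw [h1, Real.sqrt_sq hcpos.le]
  show (G.hc θ).re = _
  rw [hform θ, ← Complex.ofReal_cos, ← Complex.ofReal_sin]
  simp only [Complex.add_re, Complex.ofReal_re, Complex.re_mul_ofReal]

end Glance

end Claimed.Agent.R269
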