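/-
Row 269, P1 Sections 4-5: block exports (statements) and the assembly of `sec45_alternative`.
Owner of the STATEMENTS: captain helper264.  Each `sorry` is the export of one block; it will be
replaced by a call of the block's main theorem.

  sec4_main           Section 4                                   (sub-captain helper36,  R269/S4/*)
  exists_normalised   (5.23): mean normalisation, done FIRST      (block S5f, R269/S5/Norm*.lean)
  const_ellipse       constant `f` gives a circle                 (block S5f)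
  center_symm         Lemmas 5.1 + 5.2                            (block S5b, R269/S5/Center*.lean)
  center_ellipse      Theorem 5.3                                 (block S5c, R269/S5/Class*.lean)
  exists_lifted       Theorem 5.4 + (5.24)                        (block S5d, R269/S5/Lift*.lean)
  exists_q            Lemma 5.5                                   (block S5e, R269/S5/Zeros*.lean)
-/
import Claimed.Agent.R269.S5.LiftMain
import Claimed.Agent.R269.S5.CenterMain
import Claimed.Agent.R269.S5.ClassB
import Claimed.Agent.R269.S5.ClassC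
import Claimed.Agent.R269.S4.Main
import Claimed.Agent.R269.S5.Zeros
import Claimed.Agent.R269.S5.NormMain

set_option autoImplicit false

namespace Claimed.Agent.R269

open Complex ComplexConjugate Filter Topology MeasureTheory
open scoped ENNReal Real

/-- EXPORT of Section 4. -/
theorem sec4_main (G : Glance) : Nonempty (Sec4 G) :=
  s4_main G

/-- EXPORT S5f: after a change of phase `y ↦ y - b(t)` the base lift has zero mean. -/
theorem Glance.exists_normalised (G : Glance) :
    ∃ G' : Glance, G'.hc = G.hc ∧ Nonempty (BaseLift G') :=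
  G.s5n_exists_normalised

/-- EXPORT S5f: constant speed gives a circle. -/
theorem Glance.const_ellipse (G : Glance) (h : ∃ c₁ : ℂ, ∀ x : ℝ, deriv G.φ₀ x = c₁) :
    IsEllipseSupport G.hR :=
  G.s5n_const_ellipse h

/-- EXPORT S5b (Lemmas 5.1, 5.2): every isotropic centre is simple and is a centre of symmetry. -/
theorem Sec4.center_symm {G : Glance} (S : Sec4 G) (p : ℂ) (hp : S.IsCenter p) :
    (meromorphicOrderAt S.am p = 1 ∨ meromorphicOrderAt S.am p = -1) ∧
      (∀ᶠ z in 𝓝[≠] (0 : ℂ), S.Γ (p - z) = S.Γ (p + z)) ∧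
      (∀ᶠ z in 𝓝[≠] (0 : ℂ), S.am (p - z) = - S.am (p + z)) :=
  S.center_symm' p hp

/-- EXPORT S5c (Theorem 5.3). -/
theorem Sec4.center_ellipse {G : Glance} (S : Sec4 G) (p : ℂ) (hp : S.IsCenter p) :
    IsEllipseSupport G.hR := by
  obtain ⟨c₀, c₂, c₄, h⟩ := S.speed_quartic p hp
  exact G.ellipse_of_quartic c₀ c₂ c₄ h

/-- EXPORT S5d (Theorem 5.4, (5.23), (5.24)). -/
theorem Sec4.exists_lifted {G : Glance} (S : Sec4 G) (B : BaseLift G)
    (hnc : ∀ p, ¬ S.IsCenter p) (hf : ¬ ∃ c₁ : ℂ, ∀ x : ℝ, deriv G.φ₀ x = c₁) :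
    Nonempty (Lifted G) :=
  S.exists_lifted' B hnc hf

/-- EXPORT S5e (Lemma 5.5). -/
theorem Lifted.exists_q {G : Glance} (T : Lifted G) :
    ∃ q : ℂ → ℂ, DifferentiableOn ℂ q (estrip G.Hs) ∧
      ∀ s ∈ estrip G.Hs, deriv (deriv (deriv T.φ)) s = q s * deriv T.φ s :=
  T.exists_q'

/-- Sections 4-5: either the table is an ellipse, or there is a `Shape`. -/
theorem sec45_alternative' (G : Glance) : IsEllipseSupport G.hR ∨ Nonempty Shape := by
  obtain ⟨G', hG', ⟨B⟩⟩ := G.exists_normalised
  have hR : G'.hR = G.hR := by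
    funext θ
    simp [Glance.hR, hG']
  obtain ⟨S⟩ := sec4_main G'
  by_cases hc : ∃ p, S.IsCenter p
  · obtain ⟨p, hp⟩ := hc
    exact Or.inl (hR ▸ S.center_ellipse p hp)
  · by_cases hf : ∃ c₁ : ℂ, ∀ x : ℝ, deriv G'.φ₀ x = c₁
    · exact Or.inl (hR ▸ G'.const_ellipse hf)
    · obtain ⟨T⟩ := S.exists_lifted B (fun p hp => hc ⟨p, hp⟩) hf
      obtain ⟨q, hq1, hq2⟩ := T.exists_q
      exact Or.inr ⟨T.toShape q hq1 hq2⟩

end Claimed.Agent.R269
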