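/-
Row 269, P1 Section 5, block S5f (package BP-S5-norm), part 1: HOST-FREE tools for the mean normalisation (5.23).
Owner: helper266.  Prefix `s5n_`.  The block's exports are in `S5/NormMain.lean`.

 §0 tube lemma modulo `2π`: an open `2π`-periodic set containing `ℝ × {0}` contains `hstrip δ × ball 0 δ`.
 §1 `φ` holomorphic on a strip, `φ(y+2π) = φ(y)+2π`, real on the real axis, `Re φ' > 0` on the real axis.  Then `Re φ' > 0` on a thin strip `hstrip w₀`
    (§0), so `φ` is injective there (`s ↦ Re (conj (b-a) φ(a+s(b-a)))` has positive derivative), its image is open, contains the real axis (IVT) and is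
    `2π`-periodic, so it contains a strip `hstrip w₁` (§0); the inverse `χ` is holomorphic.
 §3 the mean `t ↦ ∫_0^{2π} F(x,t) dx` is holomorphic; the mean of a periodic holomorphic function over a row does not change under a complex shift.
-/
import Claimed.Agent.R269.S5.Pre
import Claimed.Agent.R269.Lib.CA1
import Claimed.Agent.R269.S2.PH

set_option autoImplicit false

namespace Claimed.Agent.R269

open Complex ComplexConjugate Filter Topology MeasureTheory Metric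
open scoped ENNReal Real

/-! ## strips -/

theorem s5n_isOpen (c : ℝ) : IsOpen (hstrip c) := by
  have : Continuous fun z : ℂ => |z.im| := by fun_prop
  exact isOpen_lt this continuous_const

theorem s5n_convex (c : ℝ) : Convex ℝ (hstrip c) := by
  intro x hx y hy a b ha hb hab
  have hx' : |x.im| < c := hx
  have hy' : |y.im| < c := hy
  show |(a • x + b • y).im| < c
  have h1 : (a • x + b • y).im = a * x.im + b * y.im := by simp
  rw [h1]
  rw [abs_lt] at hx' hy' ⊢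
  rcases eq_or_lt_of_le ha with rfl | ha'
  · have hb1 : b = 1 := by linarith
    subst hb1
    constructor <;> nlinarith [hy'.1, hy'.2]
  · constructor
    · nlinarith [hx'.1, hy'.1]
    · nlinarith [hx'.2, hy'.2]

theorem s5n_mono {a b : ℝ} (h : a ≤ b) : hstrip a ⊆ hstrip b := fun _ hz => lt_of_lt_of_le hz h

theorem s5n_add_mem {c : ℝ} {y : ℂ} (hy : y ∈ hstrip c) (x : ℝ) : y + x ∈ hstrip c := by
  simpa [hstrip] using hy

theorem s5n_add2pi_mem {c : ℝ} {y : ℂ} (hy : y ∈ hstrip c) : y + 2 * π ∈ hstrip c := by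
  have := s5n_add_mem hy (2 * π)
  simpa using this

theorem s5n_sub2pi_mem {c : ℝ} {y : ℂ} (hy : y ∈ hstrip c) : y - 2 * π ∈ hstrip c := by
  have := s5n_add_mem hy (-(2 * π))
  simpa [sub_eq_add_neg] using this

theorem s5n_conj_mem {c : ℝ} {y : ℂ} (hy : y ∈ hstrip c) : conj y ∈ hstrip c := by
  simpa [hstrip] using hy

theorem s5n_real_mem {c : ℝ} (hc : 0 < c) (x : ℝ) : (x : ℂ) ∈ hstrip c := by
  simpa [hstrip] using hc

/-- `|Im (y - β)| < a + b`. -/
theorem s5n_sub_mem {a b : ℝ} {y β : ℂ} (hy : y ∈ hstrip a) (hβ : ‖β‖ ≤ b) : y - β ∈ hstrip (a + b) := by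
  have hy' : |y.im| < a := hy
  show |(y - β).im| < a + b
  have h1 : |(y - β).im| ≤ |y.im| + |β.im| := by
    rw [Complex.sub_im]; exact abs_sub _ _
  have h2 := Complex.abs_im_le_norm β
  linarith

/-! ## §0 the tube lemma modulo `2π` -/

theorem s5n_shift_int {U : Set (ℂ × ℂ)} (hp : ∀ z ∈ U, (z.1 + 2 * π, z.2) ∈ U)
    (hm : ∀ z ∈ U, (z.1 - 2 * π, z.2) ∈ U) (n : ℤ) : ∀ z ∈ U, (z.1 + n * (2 * π), z.2) ∈ U := by
  induction n using Int.induction_on with
  | zero => intro z hz; simpa using hz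
  | succ n ih =>
    intro z hz
    have := hp _ (ih z hz)
    convert this using 2
    push_cast; ring
  | pred n ih =>
    intro z hz
    have := hm _ (ih z hz)
    convert this using 2
    push_cast; ring

/-- (0a) an open set of `ℂ × ℂ`, invariant under `y ↦ y ± 2π`, which contains `ℝ × {0}` contains `hstrip δ × ball 0 δ`. -/
theorem s5n_tube {U : Set (ℂ × ℂ)} (hU : IsOpen U) (hr : ∀ x : ℝ, ((x : ℂ), (0 : ℂ)) ∈ U)
    (hp : ∀ z ∈ U, (z.1 + 2 * π, z.2) ∈ U) (hm : ∀ z ∈ U, (z.1 - 2 * π, z.2) ∈ U) :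
    ∃ δ : ℝ, 0 < δ ∧ hstrip δ ×ˢ ball (0 : ℂ) δ ⊆ U := by
  have hK : IsCompact ((fun x : ℝ => ((x : ℂ), (0 : ℂ))) '' Set.Icc 0 (2 * π)) :=
    isCompact_Icc.image (by fun_prop)
  have hKU : ((fun x : ℝ => ((x : ℂ), (0 : ℂ))) '' Set.Icc 0 (2 * π)) ⊆ U := by
    rintro _ ⟨x, -, rfl⟩; exact hr x
  obtain ⟨δ, hδ, hsub⟩ := hK.exists_thickening_subset_open hU hKU
  refine ⟨δ, hδ, ?_⟩
  rintro ⟨y, t⟩ ⟨hy, ht⟩
  have h2π : 0 < 2 * π := by positivity
  obtain ⟨n, hn⟩ : ∃ n : ℤ, n = ⌊y.re / (2 * π)⌋ := ⟨_, rfl⟩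
  obtain ⟨x, hxdef⟩ : ∃ x : ℝ, x = y.re - n * (2 * π) := ⟨_, rfl⟩
  have hx : x ∈ Set.Icc 0 (2 * π) := by
    have h1 : (n : ℝ) ≤ y.re / (2 * π) := by rw [hn]; exact Int.floor_le _
    have h2 : y.re / (2 * π) < n + 1 := by rw [hn]; exact Int.lt_floor_add_one _
    rw [le_div_iff₀ h2π] at h1
    rw [div_lt_iff₀ h2π] at h2
    constructor <;> rw [hxdef] <;> linarith
  have h1 : (y - n * (2 * π), t) ∈ U := by
    apply hsub
    rw [mem_thickening_iff]
    refine ⟨((x : ℂ), 0), ⟨x, hx, rfl⟩, ?_⟩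
    rw [Prod.dist_eq, max_lt_iff]
    constructor
    · have h3 : y - n * (2 * π) - (x : ℂ) = (y.im : ℂ) * I := by
        rw [hxdef]
        apply Complex.ext <;> simp
      show dist (y - n * (2 * π)) (x : ℂ) < δ
      rw [dist_eq_norm, h3, norm_mul, Complex.norm_I, Complex.norm_real, Real.norm_eq_abs, mul_one]
      exact hy
    · exact ht
  have := s5n_shift_int hp hm n _ h1
  simpa using this

/-- (0b) the one-variable version. -/
theorem s5n_tube1 {U : Set ℂ} (hU : IsOpen U) (hr : ∀ x : ℝ, (x : ℂ) ∈ U)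
    (hp : ∀ z ∈ U, z + 2 * π ∈ U) (hm : ∀ z ∈ U, z - 2 * π ∈ U) :
    ∃ δ : ℝ, 0 < δ ∧ hstrip δ ⊆ U := by
  obtain ⟨δ, hδ, h⟩ := s5n_tube (U := U ×ˢ Set.univ) (hU.prod isOpen_univ) (fun x => ⟨hr x, trivial⟩)
    (fun z hz => ⟨hp _ hz.1, trivial⟩) (fun z hz => ⟨hm _ hz.1, trivial⟩)
  exact ⟨δ, hδ, fun y hy => (h (⟨hy, mem_ball_self hδ⟩ : (y, (0 : ℂ)) ∈ hstrip δ ×ˢ ball (0 : ℂ) δ)).1⟩

/-! ## §1 the inverse of a periodic real map on a thin strip -/

/-- a holomorphic map of a strip which commutes with `+2π` and with the conjugation and increases on the real axis. -/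
structure S5nMap (φ : ℂ → ℂ) (S : ℝ) : Prop where
  pos : 0 < S
  diff : DifferentiableOn ℂ φ (hstrip S)
  per : ∀ y ∈ hstrip S, φ (y + 2 * π) = φ y + 2 * π
  real : ∀ y ∈ hstrip S, φ (conj y) = conj (φ y)
  mono : ∀ x : ℝ, 0 < (deriv φ x).re

theorem s5n_deriv_per {φ : ℂ → ℂ} {S : ℝ} {c : ℂ} (per : ∀ y ∈ hstrip S, φ (y + 2 * π) = φ y + c)
    {y : ℂ} (hy : y ∈ hstrip S) : deriv φ (y + 2 * π) = deriv φ y := by
  have h1 : (fun x => φ (x + 2 * π)) =ᶠ[𝓝 y] fun x => φ x + c := by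
    filter_upwards [(s5n_isOpen S).mem_nhds hy] with x hx using per x hx
  have h2 := h1.deriv_eq
  rw [deriv_comp_add_const, deriv_add_const] at h2
  exact h2

theorem s5n_per_int {φ : ℂ → ℂ} {S : ℝ} (per : ∀ y ∈ hstrip S, φ (y + 2 * π) = φ y + 2 * π) (n : ℤ) :
    ∀ y ∈ hstrip S, φ (y + n * (2 * π)) = φ y + n * (2 * π) := by
  have hmem : ∀ (m : ℤ) (y : ℂ), y ∈ hstrip S → y + m * (2 * π) ∈ hstrip S := by
    intro m y hy
    have := s5n_add_mem hy (m * (2 * π))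
    simpa using this
  induction n using Int.induction_on with
  | zero => intro y _; simp
  | succ n ih =>
    intro y hy
    have := per _ (hmem n y hy)
    rw [ih y hy] at this
    have e : y + ((n : ℤ) + 1 : ℤ) * (2 * π) = y + (n : ℤ) * (2 * π) + 2 * π := by push_cast; ring
    rw [e, this]; push_cast; ring
  | pred n ih =>
    intro y hy
    have := per _ (hmem (-(n : ℤ) - 1) y hy)
    have e : y + ((-(n : ℤ) - 1 : ℤ) : ℂ) * (2 * π) + 2 * π = y + ((-(n : ℤ) : ℤ) : ℂ) * (2 * π) := by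
      push_cast; ring
    rw [e, ih y hy] at this
    have h3 : φ (y + ((-(n : ℤ) - 1 : ℤ) : ℂ) * (2 * π)) = φ y + ((-(n : ℤ) : ℤ) : ℂ) * (2 * π) - 2 * π := by
      rw [this]; ring
    rw [h3]; push_cast; ring

/-- (1a) `Re φ' > 0` on a thin strip. -/
theorem s5n_re_pos {φ : ℂ → ℂ} {S : ℝ} (h : S5nMap φ S) :
    ∃ w₀ : ℝ, 0 < w₀ ∧ w₀ ≤ S ∧ ∀ y ∈ hstrip w₀, 0 < (deriv φ y).re := by
  have hc : ContinuousOn (fun y => (deriv φ y).re) (hstrip S) :=
    Complex.continuous_re.comp_continuousOn (h.diff.deriv (s5n_isOpen S)).continuousOn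
  have hU : IsOpen (hstrip S ∩ (fun y => (deriv φ y).re) ⁻¹' Set.Ioi 0) :=
    hc.isOpen_inter_preimage (s5n_isOpen S) isOpen_Ioi
  obtain ⟨δ, hδ, hsub⟩ := s5n_tube1 hU (fun x => ⟨s5n_real_mem h.pos x, h.mono x⟩)
    (fun z hz => ⟨s5n_add2pi_mem hz.1, by
      show 0 < (deriv φ (z + 2 * π)).re
      rw [s5n_deriv_per h.per hz.1]; exact hz.2⟩)
    (fun z hz => ⟨s5n_sub2pi_mem hz.1, by
      show 0 < (deriv φ (z - 2 * π)).re
      have := s5n_deriv_per h.per (s5n_sub2pi_mem hz.1)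
      rw [sub_add_cancel] at this
      rw [← this]; exact hz.2⟩)
  exact ⟨min δ S, lt_min hδ h.pos, min_le_right _ _, fun y hy => (hsub (s5n_mono (min_le_left _ _) hy)).2⟩

/-- (1b) Noshiro-Warschawski on a strip. -/
theorem s5n_injOn {φ : ℂ → ℂ} {w₀ : ℝ} (hd : DifferentiableOn ℂ φ (hstrip w₀))
    (hp : ∀ y ∈ hstrip w₀, 0 < (deriv φ y).re) : Set.InjOn φ (hstrip w₀) := by
  intro a ha b hb hab
  by_contra hne
  have hseg : ∀ s ∈ Set.Icc (0 : ℝ) 1, a + s * (b - a) ∈ hstrip w₀ := by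
    intro s hs
    have := (s5n_convex w₀) ha hb (sub_nonneg.2 hs.2) hs.1 (by ring : (1 - s) + s = 1)
    convert this using 1
    simp only [Complex.real_smul]
    push_cast; ring
  have hder : ∀ s ∈ Set.Icc (0 : ℝ) 1, HasDerivAt (fun s : ℝ => (conj (b - a) * φ (a + s * (b - a))).re)
      ((conj (b - a) * (deriv φ (a + s * (b - a)) * (b - a))).re) s := by
    intro s hs
    have h1 : HasDerivAt φ (deriv φ (a + s * (b - a))) (a + s * (b - a)) :=
      (hd.differentiableAt ((s5n_isOpen w₀).mem_nhds (hseg s hs))).hasDerivAt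
    have h2 : HasDerivAt (fun s : ℂ => a + s * (b - a)) (b - a) (s : ℂ) := by
      simpa using ((hasDerivAt_id (s : ℂ)).mul_const (b - a)).const_add a
    have h3 : HasDerivAt (fun s : ℂ => conj (b - a) * φ (a + s * (b - a)))
        (conj (b - a) * (deriv φ (a + s * (b - a)) * (b - a))) (s : ℂ) :=
      (h1.comp (s : ℂ) h2).const_mul _
    have h4 := h3.comp_ofReal
    exact (Complex.reCLM.hasFDerivAt.comp_hasDerivAt s h4)
  obtain ⟨c, hc, hc'⟩ := exists_hasDerivAt_eq_slope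
    (fun s : ℝ => (conj (b - a) * φ (a + s * (b - a))).re)
    (fun s : ℝ => (conj (b - a) * (deriv φ (a + s * (b - a)) * (b - a))).re) zero_lt_one
    (fun s hs => (hder s hs).continuousAt.continuousWithinAt)
    (fun s hs => hder s (Set.Ioo_subset_Icc_self hs))
  have h5 : (conj (b - a) * (deriv φ (a + c * (b - a)) * (b - a))).re
      = Complex.normSq (b - a) * (deriv φ (a + c * (b - a))).re := by
    have : conj (b - a) * (deriv φ (a + c * (b - a)) * (b - a))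
        = (Complex.normSq (b - a) : ℂ) * deriv φ (a + c * (b - a)) := by
      rw [Complex.normSq_eq_conj_mul_self]; ring
    rw [this, Complex.re_ofReal_mul]
  have h6 : 0 < Complex.normSq (b - a) := Complex.normSq_pos.2 (sub_ne_zero.2 (Ne.symm hne))
  have h7 := mul_pos h6 (hp _ (hseg c (Set.Ioo_subset_Icc_self hc)))
  rw [← h5] at h7
  rw [hc'] at h7
  simp [hab] at h7

theorem s5n_map_nhds {φ : ℂ → ℂ} {w₀ : ℝ} (hd : DifferentiableOn ℂ φ (hstrip w₀))
    (hp : ∀ y ∈ hstrip w₀, 0 < (deriv φ y).re) {y : ℂ} (hy : y ∈ hstrip w₀) :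
    Filter.map φ (𝓝 y) = 𝓝 (φ y) := by
  have h1 : AnalyticAt ℂ φ y := hd.analyticAt ((s5n_isOpen w₀).mem_nhds hy)
  refine h1.hasStrictDerivAt.map_nhds_eq ?_
  intro h0
  have := hp y hy
  rw [h0] at this
  simp at this

/-- (1c) the image of a thin strip contains a strip. -/
theorem s5n_image {φ : ℂ → ℂ} {S w₀ : ℝ} (h : S5nMap φ S) (hw₀ : 0 < w₀) (hw₀' : w₀ ≤ S)
    (hp : ∀ y ∈ hstrip w₀, 0 < (deriv φ y).re) :
    ∃ w₁ : ℝ, 0 < w₁ ∧ hstrip w₁ ⊆ φ '' hstrip w₀ := by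
  have hd : DifferentiableOn ℂ φ (hstrip w₀) := h.diff.mono (s5n_mono hw₀')
  have hopen : IsOpen (φ '' hstrip w₀) := by
    rw [isOpen_iff_mem_nhds]
    rintro _ ⟨y, hy, rfl⟩
    rw [← s5n_map_nhds hd hp hy]
    exact Filter.image_mem_map ((s5n_isOpen w₀).mem_nhds hy)
  have hreal : ∀ x : ℝ, φ x = ((φ x).re : ℂ) := by
    intro x
    have := h.real x (s5n_real_mem h.pos x)
    rw [Complex.conj_ofReal] at this
    exact (Complex.conj_eq_iff_re.1 this.symm).symm
  have hcont : Continuous fun x : ℝ => (φ x).re := by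
    rw [continuous_iff_continuousAt]
    intro x
    have h1 : ContinuousAt φ (x : ℂ) :=
      (h.diff.differentiableAt ((s5n_isOpen S).mem_nhds (s5n_real_mem h.pos x))).continuousAt
    exact Complex.continuous_re.continuousAt.comp
      (ContinuousAt.comp (f := fun x : ℝ => (x : ℂ)) h1 Complex.continuous_ofReal.continuousAt)
  have hsurj : ∀ u : ℝ, ∃ x : ℝ, (φ x).re = u := by
    intro u
    have h2π : 0 < 2 * π := by positivity
    have hval : ∀ n : ℤ, (φ ((n * (2 * π) : ℝ) : ℂ)).re = (φ 0).re + n * (2 * π) := by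
      intro n
      have := s5n_per_int h.per n 0 (s5n_real_mem h.pos 0)
      simp only [zero_add] at this
      have h2 : ((n * (2 * π) : ℝ) : ℂ) = n * (2 * π) := by push_cast; ring
      rw [h2, this]
      simp
    obtain ⟨n₁, hn₁⟩ := exists_int_lt ((u - (φ 0).re) / (2 * π))
    obtain ⟨n₂, hn₂⟩ := exists_int_gt ((u - (φ 0).re) / (2 * π))
    rw [lt_div_iff₀ h2π] at hn₁
    rw [div_lt_iff₀ h2π] at hn₂
    exact mem_range_of_exists_le_of_exists_ge hcont ⟨_, by rw [hval n₁]; linarith⟩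
      ⟨_, by rw [hval n₂]; linarith⟩
  refine s5n_tube1 hopen ?_ ?_ ?_
  · intro u
    obtain ⟨x, hx⟩ := hsurj u
    exact ⟨x, s5n_real_mem hw₀ x, by rw [hreal x, hx]⟩
  · rintro _ ⟨y, hy, rfl⟩
    exact ⟨y + 2 * π, s5n_add2pi_mem hy, h.per y (s5n_mono hw₀' hy)⟩
  · rintro _ ⟨y, hy, rfl⟩
    refine ⟨y - 2 * π, s5n_sub2pi_mem hy, ?_⟩
    have := h.per _ (s5n_mono hw₀' (s5n_sub2pi_mem hy))
    rw [sub_add_cancel] at this
    rw [this]; ring

/-- (1d) **the inverse on a thin strip**, with values in an arbitrarily thin strip. -/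
theorem s5n_inverse {φ : ℂ → ℂ} {S : ℝ} (h : S5nMap φ S) (ε : ℝ) (hε : 0 < ε) :
    ∃ (w₀ w₁ : ℝ) (χ : ℂ → ℂ), 0 < w₀ ∧ w₀ ≤ S ∧ w₀ ≤ ε ∧ 0 < w₁ ∧ Set.InjOn φ (hstrip w₀) ∧
      DifferentiableOn ℂ χ (hstrip w₁) ∧ ∀ u ∈ hstrip w₁, χ u ∈ hstrip w₀ ∧ φ (χ u) = u := by
  obtain ⟨w, hw, hwS, hpos⟩ := s5n_re_pos h
  have hw₀ : 0 < min w ε := lt_min hw hε
  have hw₀S : min w ε ≤ S := (min_le_left _ _).trans hwS
  have hpos' : ∀ y ∈ hstrip (min w ε), 0 < (deriv φ y).re := fun y hy => hpos y (s5n_mono (min_le_left _ _) hy)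
  have hd : DifferentiableOn ℂ φ (hstrip (min w ε)) := h.diff.mono (s5n_mono hw₀S)
  have hinj := s5n_injOn hd hpos'
  obtain ⟨w₁, hw₁, himg⟩ := s5n_image h hw₀ hw₀S hpos'
  have hχ : ∀ u ∈ hstrip w₁, Function.invFunOn φ (hstrip (min w ε)) u ∈ hstrip (min w ε) ∧
      φ (Function.invFunOn φ (hstrip (min w ε)) u) = u := fun u hu =>
    ⟨Function.invFunOn_mem (himg hu), Function.invFunOn_eq (himg hu)⟩
  refine ⟨min w ε, w₁, Function.invFunOn φ (hstrip (min w ε)), hw₀, hw₀S, min_le_right _ _, hw₁, hinj, ?_, hχ⟩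
  intro u hu
  obtain ⟨hy, hφy⟩ := hχ u hu
  have hcont : ContinuousAt (Function.invFunOn φ (hstrip (min w ε))) u := by
    intro V hV
    have h1 : V ∩ hstrip (min w ε) ∈ 𝓝 (Function.invFunOn φ (hstrip (min w ε)) u) :=
      Filter.inter_mem hV ((s5n_isOpen _).mem_nhds hy)
    have h2 : φ '' (V ∩ hstrip (min w ε)) ∈ 𝓝 u := by
      have := Filter.image_mem_map (m := φ) h1
      rwa [s5n_map_nhds hd hpos' hy, hφy] at this
    rw [Filter.mem_map]
    refine Filter.mem_of_superset h2 ?_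
    rintro _ ⟨v, ⟨hvV, hv⟩, rfl⟩
    show Function.invFunOn φ (hstrip (min w ε)) (φ v) ∈ V
    rw [hinj.leftInvOn_invFunOn hv]
    exact hvV
  have hder : HasDerivAt φ (deriv φ (Function.invFunOn φ (hstrip (min w ε)) u))
      (Function.invFunOn φ (hstrip (min w ε)) u) :=
    (hd.differentiableAt ((s5n_isOpen _).mem_nhds hy)).hasDerivAt
  have hne : deriv φ (Function.invFunOn φ (hstrip (min w ε)) u) ≠ 0 := by
    intro h0
    have := hpos' _ hy
    rw [h0] at this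
    simp at this
  have hev : ∀ᶠ u' in 𝓝 u, φ (Function.invFunOn φ (hstrip (min w ε)) u') = u' := by
    filter_upwards [(s5n_isOpen w₁).mem_nhds hu] with u' hu' using (hχ u' hu').2
  exact (HasDerivAt.of_local_left_inverse hcont hder hne hev).differentiableAt.differentiableWithinAt

/-! ## §3 means over a period -/

/-- (3a) the mean over a period of a jointly holomorphic function is holomorphic in the parameter. -/
theorem s5n_mean_diff {F : ℂ × ℂ → ℂ} {w ρ₀ : ℝ} (hw : 0 < w)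
    (hd : DifferentiableOn ℂ F (hstrip w ×ˢ ball (0 : ℂ) ρ₀)) :
    DifferentiableOn ℂ (fun t => ∫ x in (0 : ℝ)..(2 * π), F ((x : ℂ), t)) (ball (0 : ℂ) ρ₀) := by
  have hopen : IsOpen (hstrip w ×ˢ ball (0 : ℂ) ρ₀) := (s5n_isOpen w).prod isOpen_ball
  have h1 : DifferentiableOn ℂ (fun t => ∫ u in (0 : ℝ)..1, F ((((2 * π) * u : ℝ) : ℂ), t)) (ball (0 : ℂ) ρ₀) := by
    refine s2P_param (G := fun t u => F ((((2 * π) * u : ℝ) : ℂ), t)) isOpen_ball ?_ ?_
    · intro u _ t ht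
      have h2 : DifferentiableAt ℂ F ((((2 * π) * u : ℝ) : ℂ), t) :=
        hd.differentiableAt (hopen.mem_nhds ⟨s5n_real_mem hw _, ht⟩)
      have h3 : DifferentiableAt ℂ (fun t : ℂ => ((((2 * π) * u : ℝ) : ℂ), t)) t := by fun_prop
      exact (DifferentiableAt.comp t h2 h3).differentiableWithinAt
    · refine hd.continuousOn.comp (by fun_prop) ?_
      rintro ⟨t, u⟩ ⟨ht, _⟩
      exact ⟨s5n_real_mem hw _, ht⟩
  have h4 : (fun t => ∫ x in (0 : ℝ)..(2 * π), F ((x : ℂ), t))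
      = fun t => ((2 * π : ℝ) : ℂ) * ∫ u in (0 : ℝ)..1, F ((((2 * π) * u : ℝ) : ℂ), t) := by
    funext t
    have := intervalIntegral.smul_integral_comp_mul_left (a := 0) (b := 1) (fun x : ℝ => F ((x : ℂ), t)) (2 * π)
    rw [mul_zero, mul_one] at this
    rw [← this, Complex.real_smul]
  rw [h4]
  exact h1.const_mul _

/-- (3b) the mean of a periodic holomorphic function over a row is invariant under complex shifts. -/
theorem s5n_mean_shift {g : ℂ → ℂ} {w : ℝ} (hd : DifferentiableOn ℂ g (hstrip w))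
    (hp : ∀ y ∈ hstrip w, g (y + 2 * π) = g y) (β : ℂ) (hβ : |β.im| < w) :
    ∫ x in (0 : ℝ)..(2 * π), g ((x : ℂ) + β) = ∫ x in (0 : ℝ)..(2 * π), g (x : ℂ) := by
  have hw : 0 < w := lt_of_le_of_lt (abs_nonneg _) hβ
  have hmem : ∀ x : ℝ, (x : ℂ) + (β.im : ℂ) * I ∈ hstrip w := by
    intro x
    show |((x : ℂ) + (β.im : ℂ) * I).im| < w
    simpa using hβ
  have hper : Function.Periodic (fun x : ℝ => g ((x : ℂ) + (β.im : ℂ) * I)) (2 * π) := by
    intro x
    have := hp _ (hmem x)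
    show g (((x + 2 * π : ℝ) : ℂ) + (β.im : ℂ) * I) = g ((x : ℂ) + (β.im : ℂ) * I)
    rw [← this]
    congr 1
    push_cast; ring
  have h1 : ∫ x in (0 : ℝ)..(2 * π), g ((x : ℂ) + β)
      = ∫ x in (0 : ℝ)..(2 * π), (fun x : ℝ => g ((x : ℂ) + (β.im : ℂ) * I)) (x + β.re) := by
    refine intervalIntegral.integral_congr fun x _ => ?_
    show g ((x : ℂ) + β) = g (((x + β.re : ℝ) : ℂ) + (β.im : ℂ) * I)
    congr 1
    conv_lhs => rw [← Complex.re_add_im β]
    push_cast; ring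
  rw [h1, intervalIntegral.integral_comp_add_right (fun x : ℝ => g ((x : ℂ) + (β.im : ℂ) * I)) β.re]
  have h2 := hper.intervalIntegral_add_eq (0 + β.re) 0
  have e1 : 0 + β.re + 2 * π = 2 * π + β.re := by ring
  rw [e1, zero_add (2 * π)] at h2
  rw [h2]
  have h3 := row_integral_const (g := g) (s5n_isOpen w) (s5n_convex w) (fun y hy x => s5n_add_mem hy x) hd hp
    (c₁ := β.im) (c₂ := 0) (by simpa using hmem 0) (by simpa using s5n_real_mem hw 0)
  rw [h3]
  simp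

end Claimed.Agent.R269
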