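/-
Row 269, P1 Section 5.1 (block S5a), leaf LF-S5a-mero.   Statements: helper134 (sub-captain sec 5).
The curve `S.Γ = X(·,0)` and the functions `Zc, Wc, a2, fm, am` of (5.2) are meromorphic on `D_H = estrip G.Hs`.
Black boxes: `SliceMero.meromorphicOn` (`Lib/Mero2b.lean`), `mem_tube_iff`, `slice_zero` (`LiftBasic.lean`).   Fill the `sorry`s IN PLACE (prefix `na_`).
PLAN.  `{y | (y,0) ∈ G.tube S.ρ} = estrip G.Hs` (`0 ∈ ball 0 ρ`).  Then `MeromorphicOn.add/mul/div/deriv…` (`MeromorphicAt.deriv`), constants.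
-/
import Claimed.Agent.R269.S5.LiftBasic
import Claimed.Agent.R269.Lib.Mero2b

set_option autoImplicit false

namespace Claimed.Agent.R269

open Complex ComplexConjugate Filter Topology
open scoped ENNReal Real

namespace Sec4

variable {G : Glance} (S : Sec4 G)

theorem na_slice_eq : {y : ℂ | (y, (0 : ℂ)) ∈ G.tube S.ρ} = estrip G.Hs := by
  ext y
  rw [Set.mem_ofPred_eq, Glance.mem_tube_iff]
  simp only [Metric.mem_ball, dist_self, S.ρ_pos, true_and, Glance.slice_zero]

theorem Γ_mero : MeromorphicOn (fun s => (S.Γ s).1) (estrip G.Hs) ∧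
    MeromorphicOn (fun s => (S.Γ s).2) (estrip G.Hs) := by
  have h1 := S.X_mero₁.meromorphicOn 0
  have h2 := S.X_mero₂.meromorphicOn 0
  rw [S.na_slice_eq] at h1 h2
  exact ⟨h1, h2⟩

theorem Zc_mero : MeromorphicOn S.Zc (estrip G.Hs) := fun z hz =>
  (S.Γ_mero.1 z hz).add ((MeromorphicAt.const I z).mul (S.Γ_mero.2 z hz))

theorem Wc_mero : MeromorphicOn S.Wc (estrip G.Hs) := fun z hz =>
  (S.Γ_mero.1 z hz).sub ((MeromorphicAt.const I z).mul (S.Γ_mero.2 z hz))

theorem dZc_mero : MeromorphicOn (deriv S.Zc) (estrip G.Hs) := fun z hz => (S.Zc_mero z hz).deriv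

theorem dWc_mero : MeromorphicOn (deriv S.Wc) (estrip G.Hs) := fun z hz => (S.Wc_mero z hz).deriv

theorem a2_mero : MeromorphicOn S.a2 (estrip G.Hs) := fun z hz =>
  (S.dZc_mero z hz).neg.div (S.dWc_mero z hz)

theorem fm_mero : MeromorphicOn S.fm (estrip G.Hs) := fun z hz =>
  (S.a2_mero z hz).deriv.div ((MeromorphicAt.const (2 * I) z).mul (S.a2_mero z hz))

theorem am_mero : MeromorphicOn S.am (estrip G.Hs) := fun z hz =>
  (((S.fm_mero z hz).pow 2).mul (S.dZc_mero z hz)).div (MeromorphicAt.const (I * G.c) z)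

end Sec4

end Claimed.Agent.R269
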