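/-
Row 269, P1 Lemma 5.2, rational functional equation, leaf LF-S5b-rq4 (HOST-FREE).   Statements: helper134.
The case `n = 1` (`d = 2, α = 2, β = 1`) and the non-square lemma.
PROVED by helper283 (statements verbatim; auxiliary lemmas have prefix `rq4_`).

PLAN.  `n1_rho`: `ρ ≠ 1`, `rsh 1 ρ ≠ 1` (else `R` periodic, constant, degree `0`), `ρ ≠ 0`.  Divide `h` by `(ρ₊ - 1)(ρ⁻¹ - 1)`: `(ρ₊ + 1)(ρ⁻¹ + 1) = 4`.
 With `g := 2/(ρ - 1)`: `rsh 1 g = g + 1`.  So `g - X` is one-periodic, `g = X + C b` (`periodic_const`), `ρ = (X + b + 2)/(X + b)`.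
 `T := (X + b)(X + b + 1)` has `rsh 1 T = ρ T`; `R/T` is one-periodic, hence a constant `κ ≠ 0`.
 `not_sq`: `j = 2 i + 1`; `(r / T^i)² = c' T` with `T = (X+b)(X+b+1)`; write `r/T^i = P/Q` reduced: `P² = c' T Q²`; `X + b` divides `P`, so `(X+b)²` divides
 `T Q²`, so `X + b ∣ Q` (as `X+b ∤ X+b+1`): contradiction with coprimality.   (Or: `rootMultiplicity (-b)` of both sides of `P² = c' T Q²` mod 2.)
-/
import Claimed.Agent.R269.S5.RatEqBasic

set_option autoImplicit false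

namespace Claimed.Agent.R269.Ctr

open Polynomial

theorem rq4_X_add_C_ne_zero (b : ℂ) : RatFunc.X + RatFunc.C b ≠ 0 := by
  rw [← RatFunc.algebraMap_X, ← RatFunc.algebraMap_C, ← map_add]
  exact rq1_algebraMap_ne_zero (X_add_C_ne_zero b)

theorem rq4_one : (1 : RatFunc ℂ) = RatFunc.C 1 := (map_one _).symm

theorem n1_rho (R : RatFunc ℂ) (hR : R ≠ 0) (hd : R.intDegree = 2) (ρ : RatFunc ℂ) (hρ : rsh 1 R = ρ * R)
    (h : (rsh 1 ρ ^ (2 : ℤ) - 1) * (ρ ^ (-(2 : ℤ)) - 1) * ((1 : ℤ) : RatFunc ℂ) ^ 2 =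
      (rsh 1 ρ ^ (1 : ℤ) - 1) * (ρ ^ (-(1 : ℤ)) - 1) * ((2 : ℤ) : RatFunc ℂ) ^ 2) :
    ∃ κ b : ℂ, κ ≠ 0 ∧
      R = RatFunc.C κ * (RatFunc.X + RatFunc.C b) * (RatFunc.X + RatFunc.C b + 1) := by
  have hρ0 : ρ ≠ 0 := by
    rintro rfl
    rw [zero_mul] at hρ
    exact hR (rsh_injective 1 (by rw [hρ, map_zero]))
  have hρ1 : ρ ≠ 1 := by
    rintro rfl
    rw [one_mul] at hρ
    obtain ⟨c, hc⟩ := periodic_const R hρ
    rw [hc, RatFunc.intDegree_C] at hd
    norm_num at hd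
  set σ := rsh 1 ρ with hσ
  have hσ1 : σ ≠ 1 := by
    intro h1
    exact hρ1 (rsh_injective 1 (by rw [← hσ, h1, map_one]))
  have hσ1' : σ - 1 ≠ 0 := sub_ne_zero.2 hσ1
  have hρ1' : ρ - 1 ≠ 0 := sub_ne_zero.2 hρ1
  -- (σ + 1)(1 + ρ) = 4 ρ
  have h4 : (σ + 1) * (1 + ρ) = 4 * ρ := by
    have e1 : ρ ^ (-(2 : ℤ)) = (ρ ^ 2)⁻¹ := by
      rw [zpow_neg]; norm_cast
    have e2 : ρ ^ (-(1 : ℤ)) = ρ⁻¹ := by
      rw [zpow_neg, zpow_one]
    have e3 : σ ^ (2 : ℤ) = σ ^ 2 := by norm_cast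
    rw [e1, e2, e3, zpow_one] at h
    push_cast at h
    field_simp at h
    have h' : (σ - 1) * (1 - ρ) * ((σ + 1) * (1 + ρ) - 4 * ρ) = 0 := by linear_combination h
    have hne : (σ - 1) * (1 - ρ) ≠ 0 := mul_ne_zero hσ1' (by
      intro h0; exact hρ1 (by linear_combination -h0))
    exact sub_eq_zero.1 ((mul_eq_zero.1 h').resolve_left hne)
  -- g = 2/(ρ-1)
  have hg : rsh 1 (2 / (ρ - 1)) = 2 / (ρ - 1) + 1 := by
    rw [map_div₀, map_sub, map_one, ← hσ, map_ofNat]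
    field_simp
    linear_combination -h4
  have hper : rsh 1 (2 / (ρ - 1) - RatFunc.X) = 2 / (ρ - 1) - RatFunc.X := by
    rw [map_sub, hg, rsh_X]
    simp only [Int.cast_one, map_one]
    ring
  obtain ⟨b, hb⟩ := periodic_const _ hper
  have hXb := rq4_X_add_C_ne_zero b
  have hXb1 : RatFunc.X + RatFunc.C b + 1 ≠ 0 := by
    have := rq4_X_add_C_ne_zero (b + 1)
    rwa [map_add, map_one, ← add_assoc] at this
  have hρeq : ρ * (RatFunc.X + RatFunc.C b) = RatFunc.X + RatFunc.C b + 2 := by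
    have : 2 / (ρ - 1) = RatFunc.X + RatFunc.C b := by linear_combination hb
    rw [div_eq_iff hρ1'] at this
    linear_combination -this
  set T := (RatFunc.X + RatFunc.C b) * (RatFunc.X + RatFunc.C b + 1) with hT
  have hT0 : T ≠ 0 := mul_ne_zero hXb hXb1
  have hTsh : rsh 1 T = ρ * T := by
    rw [hT]
    simp only [map_mul, map_add, rsh_X, rsh_C, map_one, Int.cast_one]
    linear_combination (-(RatFunc.X + RatFunc.C b + 1)) * hρeq
  have hper2 : rsh 1 (R / T) = R / T := by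
    rw [map_div₀, hρ, hTsh]
    field_simp
  obtain ⟨κ, hκ⟩ := periodic_const _ hper2
  refine ⟨κ, b, ?_, ?_⟩
  · rintro rfl
    rw [map_zero, div_eq_zero_iff] at hκ
    rcases hκ with h | h
    · exact hR h
    · exact hT0 h
  · rw [div_eq_iff hT0] at hκ
    rw [hκ, hT, mul_assoc]

theorem rq4_mult_pow (P : Polynomial ℂ) (hP : P ≠ 0) (k : ℕ) (w : ℂ) :
    (P ^ k).rootMultiplicity w = k * P.rootMultiplicity w := by
  induction k with
  | zero => rw [pow_zero, ← C_1, rootMultiplicity_C, zero_mul]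
  | succ k ih =>
    rw [pow_succ, rootMultiplicity_mul (mul_ne_zero (pow_ne_zero k hP) hP), ih]
    ring

/-- `c' (w+b)(w+b+1)` is not a square in `ℂ(w)`. -/
theorem rq4_not_sq_one (c' b : ℂ) (hc : c' ≠ 0) (u : RatFunc ℂ)
    (h : u ^ 2 = RatFunc.C c' * (RatFunc.X + RatFunc.C b) * (RatFunc.X + RatFunc.C b + 1)) : False := by
  have hu : u ≠ 0 := by
    rintro rfl
    have hXb := rq4_X_add_C_ne_zero b
    have hXb1 : RatFunc.X + RatFunc.C b + 1 ≠ 0 := by
      have := rq4_X_add_C_ne_zero (b + 1)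
      rwa [map_add, map_one, ← add_assoc] at this
    have hC : RatFunc.C c' ≠ 0 := by
      rw [Ne, map_eq_zero]; exact hc
    have := mul_ne_zero (mul_ne_zero hC hXb) hXb1
    rw [← h] at this
    simp at this
  have hP : u.num ≠ 0 := RatFunc.num_ne_zero hu
  have hQ : u.denom ≠ 0 := u.denom_ne_zero
  have hpoly : u.num ^ 2 = C c' * (X + C b) * (X + C b + 1) * u.denom ^ 2 := by
    apply rq1_algebraMap_injective
    have e := h
    rw [← RatFunc.num_div_denom u, div_pow, div_eq_iff (pow_ne_zero 2 (rq1_algebraMap_ne_zero hQ))] at e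
    simp only [map_mul, map_pow, map_add, map_one, RatFunc.algebraMap_C, RatFunc.algebraMap_X]
    exact e
  have k1 : C c' ≠ 0 := by rw [Ne, C_eq_zero]; exact hc
  have k2 : (X + C b : Polynomial ℂ) ≠ 0 := X_add_C_ne_zero b
  have k3 : (X + C b + 1 : Polynomial ℂ) ≠ 0 := by
    have := X_add_C_ne_zero (b + 1)
    rwa [C_add, C_1, ← add_assoc] at this
  have r1 := mul_ne_zero k1 k2
  have r2 := mul_ne_zero r1 k3
  have r3 := mul_ne_zero r2 (pow_ne_zero 2 hQ)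
  have e := congrArg (rootMultiplicity (-b)) hpoly
  have m2 : (X + C b : Polynomial ℂ).rootMultiplicity (-b) = 1 := by
    have : (X + C b : Polynomial ℂ) = X - C (-b) := by rw [C_neg, sub_neg_eq_add]
    rw [this, rootMultiplicity_X_sub_C_self]
  have m3 : (X + C b + 1 : Polynomial ℂ).rootMultiplicity (-b) = 0 := by
    apply rootMultiplicity_eq_zero
    simp [IsRoot.def]
  rw [rq4_mult_pow _ hP, rootMultiplicity_mul r3, rootMultiplicity_mul r2, rootMultiplicity_mul r1,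
    rootMultiplicity_C, m2, m3, rq4_mult_pow _ hQ] at e
  omega

/-- `(w+b)(w+b+1)` to an odd power is not a constant times a square. -/
theorem not_sq (κ b c : ℂ) (hκ : κ ≠ 0) (hc : c ≠ 0) (j : ℤ) (hj : Odd j) (r : RatFunc ℂ)
    (h : r ^ 2 = RatFunc.C c *
      (RatFunc.C κ * (RatFunc.X + RatFunc.C b) * (RatFunc.X + RatFunc.C b + 1)) ^ j) : False := by
  obtain ⟨i, rfl⟩ := hj
  set S := RatFunc.C κ * (RatFunc.X + RatFunc.C b) * (RatFunc.X + RatFunc.C b + 1) with hS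
  have hS0 : S ≠ 0 := by
    have hXb := rq4_X_add_C_ne_zero b
    have hXb1 : RatFunc.X + RatFunc.C b + 1 ≠ 0 := by
      have := rq4_X_add_C_ne_zero (b + 1)
      rwa [map_add, map_one, ← add_assoc] at this
    have hC : RatFunc.C κ ≠ 0 := by
      rw [Ne, map_eq_zero]; exact hκ
    exact mul_ne_zero (mul_ne_zero hC hXb) hXb1
  apply rq4_not_sq_one (c * κ) b (mul_ne_zero hc hκ) (r / S ^ i)
  rw [div_pow, h, zpow_add₀ hS0, zpow_one, two_mul, zpow_add₀ hS0, map_mul]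
  have := zpow_ne_zero i hS0
  field_simp
  rw [hS]
  ring

end Claimed.Agent.R269.Ctr
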